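import Crest.Agent.R169.Defs

/-!
# A-lattices: auxiliary definitions on top of `Defs.lean` (helper525)

Everything is phrased with `IsLat u v E`, `spanK`, `rk`, `HasHP`, `interU`, `quotU`, `dimA`
of `Defs.lean`.
-/

set_option autoImplicit false

namespace Crest.Agent.R169

open Module

section Defs

/-- `polyLE k u v m` : polynomials in `u, v` of total degree `≤ m` (zero when `m < 0`). -/
def polyLE (k : Type) {K : Type} [Field k] [Field K] [Algebra k K] (u v : K) (m : ℤ) :
    Submodule k K :=
  Submodule.span k {x | ∃ i j : ℕ, (i : ℤ) + j ≤ m ∧ x = u ^ i * v ^ j}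

variable {k K V : Type} [Field k] [Field K] [Algebra k K] [AddCommGroup V] [Module k V]
  [Module K V]

open Classical in
/-- linear coefficient of the Hilbert polynomial (junk if there is none) -/
noncomputable def hb (E : ℤ → Submodule k V) : ℚ :=
  (Classical.epsilon (fun t : ℕ × ℚ × ℚ => HasHP E t.1 t.2.1 t.2.2)).2.1

open Classical in
/-- constant coefficient of the Hilbert polynomial (junk if there is none) -/
noncomputable def hc (E : ℤ → Submodule k V) : ℚ :=
  (Classical.epsilon (fun t : ℕ × ℚ × ℚ => HasHP E t.1 t.2.1 t.2.2)).2.2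

/-- slope `ζ(E) = b / n` -/
noncomputable def zeta (K : Type) {k V : Type} [Field k] [Field K] [AddCommGroup V] [Module k V]
    [Module K V] (E : ℤ → Submodule k V) : ℚ :=
  hb E / rk K E

/-- `J(E) = c - b²/(2n) + n/8` -/
noncomputable def JJ (K : Type) {k V : Type} [Field k] [Field K] [AddCommGroup V] [Module k V]
    [Module K V] (E : ℤ → Submodule k V) : ℚ :=
  Jinv (rk K E) (hb E) (hc E)

/-- `E(a)_m = E_(m+a)` -/
def shiftL (E : ℤ → Submodule k V) (a : ℤ) : ℤ → Submodule k V := fun m => E (m + a)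

/-- the family is closed under `1, u, v` (graded `A`-submodule of everything). -/
structure IsFam (u v : K) (E : ℤ → Submodule k V) : Prop where
  mono : ∀ m, E m ≤ E (m + 1)
  umul : ∀ m, ∀ e ∈ E m, u • e ∈ E (m + 1)
  vmul : ∀ m, ∀ e ∈ E m, v • e ∈ E (m + 1)

/-- the condition (SAT): `gr E` has no socle. -/
def SAT (u v : K) (E : ℤ → Submodule k V) : Prop :=
  ∀ m, ∀ x, x ∈ E m → u • x ∈ E m → v • x ∈ E m → x ∈ E (m - 1)

/-- `E'` is the saturation of `E`:
`E'_m = {e | ∃ j, ∀ monomials a of degree ≤ j, a e ∈ E_(m+j)}`. -/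
def IsSatOf (u v : K) (E E' : ℤ → Submodule k V) : Prop :=
  ∀ m x, x ∈ E' m ↔ ∃ j : ℕ, ∀ i l : ℕ, i + l ≤ j → (u ^ i * v ^ l) • x ∈ E (m + j)

/-- graded free lattice with generators in degrees `d i`, inside `I → K`. -/
def freeL {I : Type} (k : Type) {K : Type} [Field k] [Field K] [Algebra k K] (u v : K)
    (d : I → ℤ) : ℤ → Submodule k (I → K) :=
  fun m => Submodule.pi Set.univ (fun i => polyLE k u v (m - d i))

/-- Slope-stability among `K`-subspaces. -/
def Stable (K : Type) {k V : Type} [Field k] [Field K] [Algebra k K] [AddCommGroup V]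
    [Module k V] [Module K V] [IsScalarTower k K V] (E : ℤ → Submodule k V) : Prop :=
  0 < rk K E ∧ ∀ U : Submodule K V, 0 < rk K (interU E U) → rk K (interU E U) < rk K E →
    zeta K (interU E U) < zeta K E

/-- output of P3: a length one graded free resolution of a saturated lattice. -/
structure IsResol (u v : K) (E : ℤ → Submodule k V) {r s : ℕ} (d : Fin r → ℤ) (e : Fin r → V)
    (δ : Fin s → ℤ) (f : Fin s → Fin r → K) : Prop where
  e_mem : ∀ i, e i ∈ E (d i)
  f_mem : ∀ j i, f j i ∈ polyLE k u v (δ j - d i)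
  mem_iff : ∀ m x, x ∈ E m ↔
    ∃ g : Fin r → K, (∀ i, g i ∈ polyLE k u v (m - d i)) ∧ x = ∑ i, g i • e i
  lin : LinearIndependent K f
  ker : ∀ g : Fin r → K, ∑ i, g i • e i = 0 ↔ g ∈ Submodule.span K (Set.range f)
  dim : ∀ m, finrank k (E m) + ∑ j, dimA (m - δ j) = ∑ i, dimA (m - d i)

end Defs

end Crest.Agent.R169
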