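import Crest.Agent.R169.ABase
import Crest.Agent.R169.Lat

/-!
# Row 169, Part A, step A1 (owner helper592): existence of a good filtration
-/

set_option autoImplicit false

namespace Crest.Agent.R169

open Module

section

variable {k Q : Type} [Field k] [Field Q] [Algebra k Q] (D : TData k Q)
variable {M : Type} [AddCommGroup M] [Module D.Ttot M] [Module k M] [IsScalarTower k D.Ttot M]

theorem mono_mul_mono (i j : ℕ) (f g : Q) (hf : f ∈ D.F i) (hg : g ∈ D.F j)
    (h : f * g ∈ D.F ((i + j : ℕ) : ℤ)) :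
    D.mono i f hf * D.mono j g hg = D.mono (i + j) (f * g) h := by
  apply Subtype.ext
  change Polynomial.monomial i f * Polynomial.monomial j g = Polynomial.monomial (i + j) (f * g)
  rw [Polynomial.monomial_mul_monomial]

theorem mul_mem_F (i j : ℕ) (f g : Q) (hf : f ∈ D.F i) (hg : g ∈ D.F j) :
    f * g ∈ D.F ((i + j : ℕ) : ℤ) := by
  have := D.mul_mem i j f hf g hg
  exact_mod_cast this

theorem mono_congr {i j : ℕ} {f g : Q} (hij : i = j) (hfg : f = g) (hf : f ∈ D.F i)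
    (hg : g ∈ D.F j) : D.mono i f hf = D.mono j g hg := by
  subst hij; subst hfg; rfl

omit [Module k M] [IsScalarTower k D.Ttot M] in
theorem mono_smul_mono (i j : ℕ) (f g : Q) (hf : f ∈ D.F i) (hg : g ∈ D.F j) (w : M) :
    D.mono i f hf • D.mono j g hg • w = D.mono (i + j) (f * g) (mul_mem_F D i j f g hf hg) • w := by
  rw [smul_smul, mono_mul_mono]

theorem mono_add (i : ℕ) (f g : Q) (hf : f ∈ D.F i) (hg : g ∈ D.F i) :
    D.mono i (f + g) ((D.F i).add_mem hf hg) = D.mono i f hf + D.mono i g hg := by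
  apply Subtype.ext
  change Polynomial.monomial i (f + g) = Polynomial.monomial i f + Polynomial.monomial i g
  rw [map_add]

theorem mono_smul (i : ℕ) (c : k) (f : Q) (hf : f ∈ D.F i) :
    D.mono i (c • f) ((D.F i).smul_mem c hf) = c • D.mono i f hf := by
  apply Subtype.ext
  change Polynomial.monomial i (c • f) = c • Polynomial.monomial i f
  rw [Polynomial.smul_monomial]

/-- `f ↦ f X^i` as a linear map -/
noncomputable def TData.monoL (i : ℕ) : D.F i →ₗ[k] D.Ttot where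
  toFun := fun f => D.mono i f.1 f.2
  map_add' := fun f g => mono_add D i f.1 g.1 f.2 g.2
  map_smul' := fun c f => mono_smul D i c f.1 f.2

theorem mono_zero_one (h : (1 : Q) ∈ D.F ((0 : ℕ) : ℤ)) : D.mono 0 1 h = 1 := by
  apply Subtype.ext
  change Polynomial.monomial 0 (1 : Q) = 1
  exact Polynomial.monomial_zero_one

theorem one_mem_zero : (1 : Q) ∈ D.F ((0 : ℕ) : ℤ) := by
  rw [Nat.cast_zero, D.F_zero]
  exact Submodule.mem_span_singleton_self 1

/-! ### the `m`-adic filtration -/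

theorem mem_mp_iff (j : ℤ) (w : M) :
    w ∈ D.mp M j ↔ w ∈ (D.mI ^ j.toNat) • (⊤ : Submodule D.Ttot M) := Iff.rfl

theorem mp_nonpos {j : ℤ} (h : j ≤ 0) : D.mp M j = ⊤ := by
  rw [eq_top_iff]
  intro w _
  rw [mem_mp_iff, Int.toNat_of_nonpos h, pow_zero, Ideal.one_eq_top, Submodule.top_smul]
  trivial

theorem smul_mem_mp (a : ℕ) (t : D.Ttot) (ht : t ∈ D.mI ^ a) (j : ℤ) (w : M)
    (hw : w ∈ D.mp M j) : t • w ∈ D.mp M (a + j) := by
  rw [mem_mp_iff] at hw ⊢
  have h1 : t • w ∈ (D.mI ^ a) • ((D.mI ^ j.toNat) • (⊤ : Submodule D.Ttot M)) :=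
    Submodule.smul_mem_smul ht hw
  rw [← Submodule.mul_smul, ← pow_add] at h1
  exact Submodule.smul_mono_left (Ideal.pow_le_pow_right (by omega)) h1

theorem x0_mem : D.x0 ∈ D.mI := Ideal.subset_span (by simp)
theorem x1_mem : D.x1 ∈ D.mI := Ideal.subset_span (by simp)
theorem x2_mem : D.x2 ∈ D.mI := Ideal.subset_span (by simp)

/-- `mp (j+1) = x0 mp j + x1 mp j + x2 mp j` for `j ≥ 0` -/
theorem mp_succ (j : ℕ) (w : M) (hw : w ∈ D.mp M ((j : ℤ) + 1)) :
    ∃ a ∈ D.mp M (j : ℤ), ∃ b ∈ D.mp M (j : ℤ), ∃ c ∈ D.mp M (j : ℤ),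
      w = D.x0 • a + D.x1 • b + D.x2 • c := by
  rw [mem_mp_iff] at hw
  have e : ((j : ℤ) + 1).toNat = j + 1 := by omega
  rw [e, pow_succ', Submodule.mul_smul] at hw
  induction hw using Submodule.smul_induction_on' with
  | smul r hr n hn =>
    have hn' : n ∈ D.mp M (j : ℤ) := by
      rw [mem_mp_iff]
      simpa using hn
    unfold TData.mI at hr
    rw [Ideal.mem_span_insert] at hr
    obtain ⟨a, z, hz, rfl⟩ := hr
    rw [Ideal.mem_span_pair] at hz
    obtain ⟨b, c, rfl⟩ := hz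
    refine ⟨a • n, ?_, b • n, ?_, c • n, ?_, ?_⟩
    · rw [mem_mp_iff] at hn' ⊢; exact Submodule.smul_mem _ _ hn'
    · rw [mem_mp_iff] at hn' ⊢; exact Submodule.smul_mem _ _ hn'
    · rw [mem_mp_iff] at hn' ⊢; exact Submodule.smul_mem _ _ hn'
    · rw [add_smul, add_smul, mul_comm a, mul_comm b, mul_comm c, mul_smul, mul_smul, mul_smul,
        add_assoc]
  | add x hx y hy ihx ihy =>
    obtain ⟨a, ha, b, hb, c, hc, rfl⟩ := ihx
    obtain ⟨a', ha', b', hb', c', hc', rfl⟩ := ihy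
    refine ⟨a + a', Submodule.add_mem _ ha ha', b + b', Submodule.add_mem _ hb hb', c + c',
      Submodule.add_mem _ hc hc', ?_⟩
    simp only [smul_add]
    abel

/-! ### `T_i ⊆ m^(i - c)` -/

theorem x0_mul_mono (i : ℕ) (f : Q) (hf : f ∈ D.F i) (h : f ∈ D.F ((i + 1 : ℕ) : ℤ)) :
    D.x0 * D.mono i f hf = D.mono (i + 1) f h := by
  apply Subtype.ext
  change Polynomial.monomial 1 (1 : Q) * Polynomial.monomial i f = Polynomial.monomial (i + 1) f
  rw [Polynomial.monomial_mul_monomial, one_mul, add_comm]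

theorem x1_mul_mono (i : ℕ) (f : Q) (hf : f ∈ D.F i) (h : D.u * f ∈ D.F ((i + 1 : ℕ) : ℤ)) :
    D.x1 * D.mono i f hf = D.mono (i + 1) (D.u * f) h := by
  apply Subtype.ext
  change Polynomial.monomial 1 D.u * Polynomial.monomial i f = Polynomial.monomial (i + 1) _
  rw [Polynomial.monomial_mul_monomial, add_comm]

theorem x2_mul_mono (i : ℕ) (f : Q) (hf : f ∈ D.F i) (h : D.v * f ∈ D.F ((i + 1 : ℕ) : ℤ)) :
    D.x2 * D.mono i f hf = D.mono (i + 1) (D.v * f) h := by
  apply Subtype.ext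
  change Polynomial.monomial 1 D.v * Polynomial.monomial i f = Polynomial.monomial (i + 1) _
  rw [Polynomial.monomial_mul_monomial, add_comm]

theorem F_succ (i : ℕ) (f : Q) (hf : f ∈ D.F i) : f ∈ D.F ((i + 1 : ℕ) : ℤ) := by
  have := D.lat.mono i hf
  exact_mod_cast this

theorem uF_succ (i : ℕ) (f : Q) (hf : f ∈ D.F i) : D.u * f ∈ D.F ((i + 1 : ℕ) : ℤ) := by
  have := D.lat.umul i f hf
  exact_mod_cast this

theorem vF_succ (i : ℕ) (f : Q) (hf : f ∈ D.F i) : D.v * f ∈ D.F ((i + 1 : ℕ) : ℤ) := by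
  have := D.lat.vmul i f hf
  exact_mod_cast this

theorem mono_mem_pow : ∃ c : ℕ, ∀ (i : ℕ) (f : Q) (hf : f ∈ D.F i), D.mono i f hf ∈ D.mI ^ (i - c) := by
  obtain ⟨m₁, hm₁⟩ := D.lat.gen
  refine ⟨m₁.toNat, ?_⟩
  intro i
  induction i with
  | zero => intro f hf; simp
  | succ i ih =>
    intro f hf
    by_cases h : m₁.toNat ≤ i
    · have h' : m₁ ≤ i := by omega
      obtain ⟨a, ha, b, hb, c, hc, he⟩ := hm₁ i h' f (by exact_mod_cast hf)
      rw [smul_eq_mul, smul_eq_mul] at he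
      subst he
      have e1 := F_succ D i a ha
      have e2 := uF_succ D i b hb
      have e3 := vF_succ D i c hc
      have e4 : D.mono (i + 1) (a + D.u * b + D.v * c) hf =
          D.x0 * D.mono i a ha + D.x1 * D.mono i b hb + D.x2 * D.mono i c hc := by
        rw [x0_mul_mono D i a ha e1, x1_mul_mono D i b hb e2, x2_mul_mono D i c hc e3,
          ← mono_add, ← mono_add]
      rw [e4]
      have e5 : i + 1 - m₁.toNat = (i - m₁.toNat) + 1 := by omega
      rw [e5, pow_succ']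
      exact Ideal.add_mem _ (Ideal.add_mem _ (Ideal.mul_mem_mul (x0_mem D) (ih a ha))
        (Ideal.mul_mem_mul (x1_mem D) (ih b hb))) (Ideal.mul_mem_mul (x2_mem D) (ih c hc))
    · have : i + 1 - m₁.toNat = 0 := by omega
      rw [this]; simp

/-! ### polynomials in `u, v` -/

theorem poly_le_F (m : ℕ) : polyLE k D.u D.v m ≤ D.F m := by
  unfold polyLE
  rw [Submodule.span_le]
  rintro x ⟨i, j, hij, rfl⟩
  have h1 : ∀ i : ℕ, D.u ^ i ∈ D.F i := by
    intro i
    induction i with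
    | zero => simpa using one_mem_zero D
    | succ i ih => rw [pow_succ']; exact uF_succ D i _ ih
  have h2 : ∀ i : ℕ, D.v ^ i ∈ D.F i := by
    intro i
    induction i with
    | zero => simpa using one_mem_zero D
    | succ i ih => rw [pow_succ']; exact vF_succ D i _ ih
  have h3 := D.mul_mem i j _ (h1 i) _ (h2 j)
  have h4 : ∀ (a b : ℤ), a ≤ b → D.F a ≤ D.F b := by
    intro a b hab
    obtain ⟨t, rfl⟩ : ∃ t : ℕ, b = a + t := ⟨(b - a).toNat, by omega⟩
    clear hab
    induction t with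
    | zero => simp
    | succ t ih =>
      refine ih.trans ?_
      have := D.lat.mono (a + t)
      rw [add_assoc] at this
      exact_mod_cast this
  exact h4 _ _ hij h3

theorem poly_mono {m m' : ℤ} (h : m ≤ m') : polyLE k D.u D.v m ≤ polyLE k D.u D.v m' := by
  unfold polyLE
  apply Submodule.span_mono
  rintro x ⟨i, j, hij, rfl⟩
  exact ⟨i, j, hij.trans h, rfl⟩

theorem poly_mul {m m' : ℤ} {f g : Q} (hf : f ∈ polyLE k D.u D.v m)
    (hg : g ∈ polyLE k D.u D.v m') : f * g ∈ polyLE k D.u D.v (m + m') := by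
  unfold polyLE at hf hg
  induction hf using Submodule.span_induction with
  | mem x hx =>
    obtain ⟨i, j, hij, rfl⟩ := hx
    induction hg using Submodule.span_induction with
    | mem y hy =>
      obtain ⟨i', j', hij', rfl⟩ := hy
      refine Submodule.subset_span ⟨i + i', j + j', by push_cast; omega, by ring⟩
    | zero => rw [mul_zero]; exact Submodule.zero_mem _
    | add y z _ _ hy hz => rw [mul_add]; exact Submodule.add_mem _ hy hz
    | smul c y _ hy => rw [mul_smul_comm]; exact Submodule.smul_mem _ _ hy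
  | zero => rw [zero_mul]; exact Submodule.zero_mem _
  | add y z _ _ hy hz => rw [add_mul]; exact Submodule.add_mem _ hy hz
  | smul c y _ hy => rw [smul_mul_assoc]; exact Submodule.smul_mem _ _ hy

theorem u_mem_poly {m : ℤ} {f : Q} (hf : f ∈ polyLE k D.u D.v m) :
    D.u * f ∈ polyLE k D.u D.v (m + 1) := by
  have : D.u ∈ polyLE k D.u D.v 1 := Submodule.subset_span ⟨1, 0, by simp, by simp⟩
  rw [add_comm]
  exact poly_mul D this hf

theorem v_mem_poly {m : ℤ} {f : Q} (hf : f ∈ polyLE k D.u D.v m) :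
    D.v * f ∈ polyLE k D.u D.v (m + 1) := by
  have : D.v ∈ polyLE k D.u D.v 1 := Submodule.subset_span ⟨0, 1, by simp, by simp⟩
  rw [add_comm]
  exact poly_mul D this hf

/-- `f X^m ∈ m^m` for `f ∈ k[u,v]_{≤ m}` -/
theorem mono_poly_mem (m : ℕ) (f : Q) (hf : f ∈ polyLE k D.u D.v m) :
    D.mono m f (poly_le_F D m hf) ∈ D.mI ^ m := by
  have key : ∀ (i j l : ℕ) (h : D.u ^ i * D.v ^ j ∈ D.F ((i + j + l : ℕ) : ℤ)),
      D.mono (i + j + l) (D.u ^ i * D.v ^ j) h ∈ D.mI ^ (i + j + l) := by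
    intro i j l h
    have e : D.mono (i + j + l) (D.u ^ i * D.v ^ j) h = D.x1 ^ i * D.x2 ^ j * D.x0 ^ l := by
      apply Subtype.ext
      change Polynomial.monomial (i + j + l) _ = (Polynomial.monomial 1 D.u) ^ i *
        (Polynomial.monomial 1 D.v) ^ j * (Polynomial.monomial 1 (1 : Q)) ^ l
      rw [Polynomial.monomial_pow, Polynomial.monomial_pow, Polynomial.monomial_pow,
        Polynomial.monomial_mul_monomial, Polynomial.monomial_mul_monomial]
      simp
    rw [e, pow_add, pow_add]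
    exact Ideal.mul_mem_mul (Ideal.mul_mem_mul (Ideal.pow_mem_pow (x1_mem D) i)
      (Ideal.pow_mem_pow (x2_mem D) j)) (Ideal.pow_mem_pow (x0_mem D) l)
  -- the set of good elements is a submodule
  let S : Submodule k Q := (((D.mI ^ m).restrictScalars k).comap (D.monoL m)).map (D.F m).subtype
  have hS : polyLE k D.u D.v m ≤ S := by
    unfold polyLE
    rw [Submodule.span_le]
    rintro x ⟨i, j, hij, rfl⟩
    have hmem : D.u ^ i * D.v ^ j ∈ D.F m :=
      poly_le_F D m (Submodule.subset_span ⟨i, j, hij, rfl⟩)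
    refine ⟨⟨_, hmem⟩, ?_, rfl⟩
    change D.mono m (D.u ^ i * D.v ^ j) hmem ∈ D.mI ^ m
    obtain ⟨l, rfl⟩ : ∃ l, m = i + j + l := ⟨m - (i + j), by omega⟩
    exact key i j l hmem
  obtain ⟨⟨y, hy⟩, hy2, hy3⟩ := hS hf
  simp only [Submodule.subtype_apply] at hy3
  subst hy3
  exact hy2

/-! ### frames -/

theorem card_aux (n : ℕ) : 2 * ∑ i ∈ Finset.range n, (n - i) = n * (n + 1) := by
  induction n with
  | zero => simp
  | succ n ih =>
    rw [Finset.sum_range_succ']
    have : ∑ i ∈ Finset.range n, (n + 1 - (i + 1)) = ∑ i ∈ Finset.range n, (n - i) := by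
      apply Finset.sum_congr rfl
      intro i _
      omega
    rw [this, mul_add, ih]
    simp only [Nat.sub_zero]
    ring

theorem dimA_nat (j : ℕ) : dimA (j : ℤ) = (j + 1) * (j + 2) / 2 := by
  unfold dimA
  have h1 : ((j : ℤ) + 1).toNat = j + 1 := by omega
  have h2 : ((j : ℤ) + 2).toNat = j + 2 := by omega
  rw [h1, h2]

theorem two_dimA (j : ℕ) : 2 * dimA (j : ℤ) = (j + 1) * (j + 2) := by
  rw [dimA_nat]
  exact Nat.two_mul_div_two_of_even (by
    have := Nat.even_mul_succ_self (j + 1)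
    exact this)

theorem poly_finite (j : ℕ) : Module.Finite k (polyLE k D.u D.v (j : ℤ)) := by
  have := D.lat.fin (j : ℤ)
  exact Submodule.finiteDimensional_of_le (poly_le_F D j)

theorem finrank_poly_le (j : ℕ) : finrank k (polyLE k D.u D.v (j : ℤ)) ≤ dimA (j : ℤ) := by
  classical
  let S : Finset (Σ _ : ℕ, ℕ) := (Finset.range (j + 1)).sigma (fun i => Finset.range (j + 1 - i))
  let S' : Finset Q := S.image (fun p => D.u ^ p.1 * D.v ^ p.2)
  have h1 : polyLE k D.u D.v (j : ℤ) = Submodule.span k (S' : Set Q) := by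
    unfold polyLE
    congr 1
    ext x
    simp only [Set.mem_ofPred_eq, S', S, Finset.coe_image, Set.mem_image, Finset.mem_coe,
      Finset.mem_sigma, Finset.mem_range]
    constructor
    · rintro ⟨a, b, hab, rfl⟩
      exact ⟨⟨a, b⟩, ⟨by simp only; omega, by simp only; omega⟩, rfl⟩
    · rintro ⟨⟨a, b⟩, ⟨ha, hb⟩, rfl⟩
      simp only at ha hb
      exact ⟨a, b, by omega, rfl⟩
  rw [h1]
  refine (finrank_span_finset_le_card (R := k) S').trans ?_
  refine Finset.card_image_le.trans ?_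
  rw [Finset.card_sigma]
  simp only [Finset.card_range]
  have := card_aux (j + 1)
  have h2 := two_dimA j
  have h3 : (j + 1) * (j + 1 + 1) = (j + 1) * (j + 2) := by ring
  omega

/-- action of `F_j X^j` on a vector -/
noncomputable def actL (x : M) (j : ℕ) : D.F (j : ℤ) →ₗ[k] M where
  toFun := fun f => D.mono j f.1 f.2 • x
  map_add' := fun f g => by
    have := mono_add D j f.1 g.1 f.2 g.2
    change D.mono j (f.1 + g.1) _ • x = _
    rw [this, add_smul]
  map_smul' := fun c f => by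
    have := mono_smul D j c f.1 f.2
    change D.mono j (c • f.1) _ • x = _
    rw [this, smul_assoc]
    rfl

/-- `(f_i) ↦ ∑ f_i X^j w_i` -/
noncomputable def frm {n : ℕ} (w : Fin n → M) (j : ℕ) :
    (Fin n → polyLE k D.u D.v (j : ℤ)) →ₗ[k] M :=
  ∑ i, (actL D (w i) j ∘ₗ Submodule.inclusion (poly_le_F D j)) ∘ₗ LinearMap.proj i

theorem frm_apply {n : ℕ} (w : Fin n → M) (j : ℕ) (f : Fin n → polyLE k D.u D.v (j : ℤ)) :
    frm D w j f = ∑ i, D.mono j (f i : Q) (poly_le_F D j (f i).2) • w i := by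
  unfold frm
  rw [LinearMap.sum_apply]
  rfl

theorem frm_mem {n : ℕ} (w : Fin n → M) (j : ℕ) (f : Fin n → polyLE k D.u D.v (j : ℤ)) :
    frm D w j f ∈ D.mp M (j : ℤ) := by
  rw [frm_apply]
  refine Submodule.sum_mem _ fun i _ => ?_
  have h := smul_mem_mp D j _ (mono_poly_mem D j (f i : Q) (f i).2) 0 (w i)
    (by rw [mp_nonpos D le_rfl]; trivial)
  simpa using h

theorem frm_x0 {n : ℕ} (w : Fin n → M) (j : ℕ) (f : Fin n → polyLE k D.u D.v (j : ℤ)) :
    D.x0 • frm D w j f = frm D w (j + 1) (fun i => ⟨f i, by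
      have := poly_mono D (show (j : ℤ) ≤ ((j + 1 : ℕ) : ℤ) by push_cast; omega) (f i).2
      exact this⟩) := by
  rw [frm_apply, frm_apply, Finset.smul_sum]
  refine Finset.sum_congr rfl fun i _ => ?_
  rw [smul_smul, x0_mul_mono]

theorem frm_x1 {n : ℕ} (w : Fin n → M) (j : ℕ) (f : Fin n → polyLE k D.u D.v (j : ℤ)) :
    D.x1 • frm D w j f = frm D w (j + 1) (fun i => ⟨D.u * f i, by
      have := u_mem_poly D (f i).2
      exact_mod_cast this⟩) := by
  rw [frm_apply, frm_apply, Finset.smul_sum]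
  refine Finset.sum_congr rfl fun i _ => ?_
  rw [smul_smul, x1_mul_mono]

theorem frm_x2 {n : ℕ} (w : Fin n → M) (j : ℕ) (f : Fin n → polyLE k D.u D.v (j : ℤ)) :
    D.x2 • frm D w j f = frm D w (j + 1) (fun i => ⟨D.v * f i, by
      have := v_mem_poly D (f i).2
      exact_mod_cast this⟩) := by
  rw [frm_apply, frm_apply, Finset.smul_sum]
  refine Finset.sum_congr rfl fun i _ => ?_
  rw [smul_smul, x2_mul_mono]

/-- a frame: lifts of a basis of `M/mM`, with `gr_m M = A^n` -/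
structure IsFrame {n : ℕ} (w : Fin n → M) : Prop where
  surj : ∀ (j : ℕ), ∀ x ∈ D.mp M (j : ℤ), ∃ f : Fin n → polyLE k D.u D.v (j : ℤ),
    x - frm D w j f ∈ D.mp M ((j : ℤ) + 1)
  inj : ∀ (j : ℕ) (f : Fin n → polyLE k D.u D.v (j : ℤ)),
    frm D w j f ∈ D.mp M ((j : ℤ) + 1) → f = 0

theorem frame_surj {n : ℕ} (w : Fin n → M)
    (h0 : ∀ x : M, ∃ f : Fin n → k, x - ∑ i, f i • w i ∈ D.mp M 1) (j : ℕ) :
    ∀ x ∈ D.mp M (j : ℤ), ∃ f : Fin n → polyLE k D.u D.v (j : ℤ),
    x - frm D w j f ∈ D.mp M ((j : ℤ) + 1) := by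
  induction j with
  | zero =>
    intro x _
    obtain ⟨f, hf⟩ := h0 x
    refine ⟨fun i => ⟨f i • (1 : Q), Submodule.smul_mem _ _ (Submodule.subset_span
      ⟨0, 0, by simp, by simp⟩)⟩, ?_⟩
    rw [frm_apply]
    have : ∀ i, D.mono 0 (f i • (1 : Q)) (poly_le_F D 0 (Submodule.smul_mem _ _
      (Submodule.subset_span ⟨0, 0, by simp, by simp⟩))) • w i = f i • w i := by
      intro i
      rw [mono_smul D 0 (f i) 1 (one_mem_zero D), mono_zero_one, smul_assoc, one_smul]
    simp only [this]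
    simpa using hf
  | succ j ih =>
    intro x hx
    obtain ⟨a, ha, b, hb, c, hc, rfl⟩ := mp_succ D j x (by exact_mod_cast hx)
    obtain ⟨fa, hfa⟩ := ih a ha
    obtain ⟨fb, hfb⟩ := ih b hb
    obtain ⟨fc, hfc⟩ := ih c hc
    obtain ⟨ga, e0⟩ : ∃ g, D.x0 • frm D w j fa = frm D w (j + 1) g := ⟨_, frm_x0 D w j fa⟩
    obtain ⟨gb, e1⟩ : ∃ g, D.x1 • frm D w j fb = frm D w (j + 1) g := ⟨_, frm_x1 D w j fb⟩
    obtain ⟨gc, e2⟩ : ∃ g, D.x2 • frm D w j fc = frm D w (j + 1) g := ⟨_, frm_x2 D w j fc⟩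
    refine ⟨ga + gb + gc, ?_⟩
    rw [map_add, map_add, ← e0, ← e1, ← e2]
    have e : D.x0 • a + D.x1 • b + D.x2 • c - (D.x0 • frm D w j fa + D.x1 • frm D w j fb +
        D.x2 • frm D w j fc) = D.x0 • (a - frm D w j fa) + D.x1 • (b - frm D w j fb) +
        D.x2 • (c - frm D w j fc) := by
      simp only [smul_sub]
      abel
    rw [e]
    have h1 : ∀ t ∈ D.mI, ∀ y ∈ D.mp M ((j : ℤ) + 1), t • y ∈ D.mp M (((j + 1 : ℕ) : ℤ) + 1) := by
      intro t ht y hy
      have := smul_mem_mp D 1 t (by simpa using ht) _ y hy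
      have e : ((1 : ℕ) : ℤ) + ((j : ℤ) + 1) = ((j + 1 : ℕ) : ℤ) + 1 := by push_cast; ring
      rwa [e] at this
    exact Submodule.add_mem _ (Submodule.add_mem _ (h1 _ (x0_mem D) _ hfa)
      (h1 _ (x1_mem D) _ hfb)) (h1 _ (x2_mem D) _ hfc)

theorem frame_of_surj {n : ℕ} (hG : GrFree D M n) (w : Fin n → M)
    (h0 : ∀ x : M, ∃ f : Fin n → k, x - ∑ i, f i • w i ∈ D.mp M 1) (j : ℕ) :
    (∀ f : Fin n → polyLE k D.u D.v (j : ℤ), frm D w j f ∈ D.mp M ((j : ℤ) + 1) → f = 0) ∧
      finrank k (polyLE k D.u D.v (j : ℤ)) = dimA (j : ℤ) := by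
  have hfinA := poly_finite D j
  -- the map to the quotient
  set V := (↥(D.mp M (j : ℤ)) ⧸ (D.mp M ((j : ℤ) + 1)).submoduleOf (D.mp M (j : ℤ))) with hV
  let φ : (Fin n → polyLE k D.u D.v (j : ℤ)) →ₗ[k] V :=
    ((D.mp M ((j : ℤ) + 1)).submoduleOf (D.mp M (j : ℤ))).mkQ ∘ₗ
      (frm D w j).codRestrict (D.mp M (j : ℤ)) (frm_mem D w j)
  have hφ : ∀ f, φ f = 0 ↔ frm D w j f ∈ D.mp M ((j : ℤ) + 1) := by
    intro f
    change Submodule.Quotient.mk _ = _ ↔ _
    rw [Submodule.Quotient.mk_eq_zero, mem_subOf]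
    rfl
  have hsurj : Function.Surjective φ := by
    intro x
    obtain ⟨⟨y, hy⟩, rfl⟩ := Submodule.mkQ_surjective _ x
    obtain ⟨f, hf⟩ := frame_surj D w h0 j y hy
    refine ⟨f, ?_⟩
    change Submodule.Quotient.mk _ = Submodule.Quotient.mk _
    rw [Submodule.Quotient.eq, mem_subOf]
    have := Submodule.neg_mem _ hf
    rw [neg_sub] at this
    exact this
  have hd : finrank k V = n * dimA (j : ℤ) := hG.2 j
  have h1 : finrank k (Fin n → polyLE k D.u D.v (j : ℤ)) =
      n * finrank k (polyLE k D.u D.v (j : ℤ)) := by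
    rw [Module.finrank_pi_fintype]
    simp
  have h2 : finrank k V ≤ finrank k (Fin n → polyLE k D.u D.v (j : ℤ)) :=
    LinearMap.finrank_le_finrank_of_surjective hsurj
  have h3 := finrank_poly_le D j
  have h4 : finrank k (polyLE k D.u D.v (j : ℤ)) = dimA (j : ℤ) := by
    rw [hd, h1] at h2
    exact le_antisymm h3 (Nat.le_of_mul_le_mul_left h2 hG.1)
  have h5 : finrank k (Fin n → polyLE k D.u D.v (j : ℤ)) = finrank k V := by
    rw [h1, hd, h4]
  have hVfin : Module.Finite k V := Module.Finite.of_surjective φ hsurj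
  have hinj : Function.Injective φ :=
    (LinearMap.injective_iff_surjective_of_finrank_eq_finrank h5).mpr hsurj
  refine ⟨fun f hf => ?_, h4⟩
  exact hinj (by rw [(hφ f).mpr hf, map_zero])

theorem exists_frame {n : ℕ} (hG : GrFree D M n) : (∃ w : Fin n → M, IsFrame D w) ∧
    ∀ j : ℕ, finrank k (polyLE k D.u D.v (j : ℤ)) = dimA (j : ℤ) := by
  -- lift of a basis of `M/mM`
  set V := (↥(D.mp M ((0 : ℕ) : ℤ)) ⧸
    (D.mp M (((0 : ℕ) : ℤ) + 1)).submoduleOf (D.mp M ((0 : ℕ) : ℤ))) with hV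
  have hd : finrank k V = n := by
    have := hG.2 0
    have e : dimA ((0 : ℕ) : ℤ) = 1 := by rw [dimA_nat]
    rw [e, mul_one] at this
    exact this
  have hVfin : Module.Finite k V := Module.finite_of_finrank_pos (by rw [hd]; exact hG.1)
  let B : Basis (Fin n) k V := Module.finBasisOfFinrankEq k V hd
  choose w hw using fun i => Submodule.mkQ_surjective _ (B i)
  have h0 : ∀ x : M, ∃ f : Fin n → k, x - ∑ i, f i • (w i : M) ∈ D.mp M 1 := by
    intro x
    have hx : x ∈ D.mp M ((0 : ℕ) : ℤ) := by rw [mp_nonpos D (by simp)]; trivial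
    let X : V := Submodule.Quotient.mk ⟨x, hx⟩
    refine ⟨fun i => B.repr X i, ?_⟩
    have h1 : X = ∑ i, B.repr X i • B i := (B.sum_repr X).symm
    have h2 : (Submodule.Quotient.mk (⟨x, hx⟩ - ∑ i, B.repr X i • w i) : V) = 0 := by
      have : (Submodule.Quotient.mk (⟨x, hx⟩ - ∑ i, B.repr X i • w i) : V) =
          X - ∑ i, B.repr X i • B i := by
        rw [← Submodule.mkQ_apply, map_sub, map_sum]
        simp only [map_smul, hw]
        rfl
      rw [this, ← h1, sub_self]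
    rw [Submodule.Quotient.mk_eq_zero, mem_subOf] at h2
    simpa using h2
  have key := fun j => frame_of_surj D hG (fun i => (w i : M)) h0 j
  exact ⟨⟨fun i => (w i : M), ⟨frame_surj D _ h0, fun j => (key j).1⟩⟩, fun j => (key j).2⟩

/-- torsion-freeness of `gr_m M` over `k[u,v]` -/
theorem frame_tf {n : ℕ} {w : Fin n → M} (hw : IsFrame D w) (d : ℕ) (a : Q)
    (ha : a ∈ polyLE k D.u D.v (d : ℤ)) (ha0 : a ≠ 0) (j : ℤ) (x : M) (hx : x ∈ D.mp M j)
    (h : D.mono d a (poly_le_F D d ha) • x ∈ D.mp M (d + j + 1)) : x ∈ D.mp M (j + 1) := by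
  rcases lt_or_ge j 0 with hj | hj
  · rw [mp_nonpos D (by omega)]; trivial
  obtain ⟨j, rfl⟩ := Int.eq_ofNat_of_zero_le hj
  obtain ⟨f, hf⟩ := hw.surj j x hx
  have h1 := smul_mem_mp D d _ (mono_poly_mem D d a ha) _ _ hf
  have e1 : (d : ℤ) + ((j : ℤ) + 1) = d + j + 1 := by ring
  rw [e1, smul_sub] at h1
  have h2 := Submodule.sub_mem _ h h1
  rw [sub_sub_cancel] at h2
  have e2 : D.mono d a (poly_le_F D d ha) • frm D w j f = frm D w (d + j)
      (fun i => ⟨a * f i, by
        have := poly_mul D ha (f i).2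
        exact_mod_cast this⟩) := by
    rw [frm_apply, frm_apply, Finset.smul_sum]
    refine Finset.sum_congr rfl fun i _ => ?_
    rw [mono_smul_mono]
  rw [e2] at h2
  have h3 := hw.inj (d + j) _ (by exact_mod_cast h2)
  have h4 : f = 0 := by
    funext i
    have := congrFun h3 i
    apply Subtype.ext
    have h5 : a * (f i : Q) = 0 := congrArg Subtype.val this
    exact (mul_eq_zero.mp h5).resolve_left ha0
  rw [h4, map_zero, sub_zero] at hf
  exact hf

theorem F_le {a b : ℤ} (hab : a ≤ b) : D.F a ≤ D.F b := by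
  obtain ⟨t, rfl⟩ : ∃ t : ℕ, b = a + t := ⟨(b - a).toNat, by omega⟩
  clear hab
  induction t with
  | zero => simp
  | succ t ih =>
    refine ih.trans ?_
    have := D.lat.mono (a + t)
    rw [add_assoc] at this
    exact_mod_cast this

/-- every nonzero homogeneous element of `T` divides a nonzero element of `k[u,v]` -/
theorem exists_mul_poly (hA : ∀ j : ℕ, finrank k (polyLE k D.u D.v (j : ℤ)) = dimA (j : ℤ))
    (hF : ∃ (N : ℕ) (b c : ℚ), HasHP D.F N b c) (i : ℕ) (t : Q) (ht : t ∈ D.F i) (ht0 : t ≠ 0) :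
    ∃ l : ℕ, ∃ t' ∈ D.F (l : ℤ), t' * t ≠ 0 ∧ t' * t ∈ polyLE k D.u D.v ((l + i : ℕ) : ℤ) := by
  obtain ⟨N, b, c, m₀, hm₀⟩ := hF
  by_contra hcon
  push Not at hcon
  -- for each l the subspaces `t F_l` and `A_{l+i}` are independent in `F_{l+i}`
  have key : ∀ l : ℕ, finrank k (D.F (l : ℤ)) + dimA ((l + i : ℕ) : ℤ) ≤
      finrank k (D.F ((l + i : ℕ) : ℤ)) := by
    intro l
    have hfin := D.lat.fin (l : ℤ)
    have hfin2 := D.lat.fin ((l + i : ℕ) : ℤ)
    let μ : Q →ₗ[k] Q := LinearMap.mulRight k t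
    have hμ : Function.Injective μ := by
      intro x y hxy
      exact mul_right_cancel₀ ht0 hxy
    let B := (D.F (l : ℤ)).map μ
    have hB : finrank k B = finrank k (D.F (l : ℤ)) :=
      (LinearEquiv.finrank_eq (Submodule.equivMapOfInjective μ hμ (D.F (l : ℤ)))).symm
    have hBle : B ≤ D.F ((l + i : ℕ) : ℤ) := by
      rintro x ⟨y, hy, rfl⟩
      exact mul_mem_F D l i y t hy ht
    have hAle := poly_le_F D (l + i)
    have hdis : B ⊓ polyLE k D.u D.v ((l + i : ℕ) : ℤ) = ⊥ := by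
      rw [eq_bot_iff]
      rintro x ⟨⟨y, hy, rfl⟩, hx2⟩
      by_contra hne
      exact hcon l y hy (fun h => hne ((Submodule.mem_bot k).mpr h)) hx2
    have hBfin : Module.Finite k B := Submodule.finiteDimensional_of_le hBle
    have hAfin := poly_finite D (l + i)
    have h1 := Submodule.finrank_sup_add_finrank_inf_eq B (polyLE k D.u D.v ((l + i : ℕ) : ℤ))
    rw [hdis, finrank_bot, hB, hA (l + i), add_zero] at h1
    rw [← h1]
    exact Submodule.finrank_mono (sup_le hBle hAle)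
  -- numerical contradiction
  have num : ∀ l : ℕ, m₀ ≤ l → ((l : ℚ) + i + 1) * (l + i + 2) / 2 ≤ N / 2 * (2 * l * i + i ^ 2) + b * i := by
    intro l hl
    have h1 := key l
    have h2 := hm₀ l hl
    have h3 := hm₀ ((l + i : ℕ) : ℤ) (by push_cast; omega)
    have h4 := two_dimA (l + i)
    have h5 : (2 : ℚ) * dimA ((l + i : ℕ) : ℤ) = ((l + i : ℕ) + 1) * ((l + i : ℕ) + 2) := by
      exact_mod_cast h4
    have h6 : (finrank k (D.F (l : ℤ)) : ℚ) + dimA ((l + i : ℕ) : ℤ) ≤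
      finrank k (D.F ((l + i : ℕ) : ℤ)) := by exact_mod_cast h1
    rw [h2, h3] at h6
    push_cast at h5 h6
    nlinarith [h5, h6]
  -- choose l large
  obtain ⟨L, hL⟩ := exists_nat_gt (|(N : ℚ) * i| * 2 + |(N : ℚ) / 2 * i ^ 2 + b * i| * 2 + 1)
  set l := max L m₀.toNat with hl
  have h1 := num l (by omega)
  have h2 : (L : ℚ) ≤ l := by exact_mod_cast le_max_left _ _
  have h3 : (N : ℚ) * i ≤ |(N : ℚ) * i| := le_abs_self _
  have h4 : (N : ℚ) / 2 * i ^ 2 + b * i ≤ |(N : ℚ) / 2 * i ^ 2 + b * i| := le_abs_self _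
  have h5 : (0 : ℚ) ≤ |(N : ℚ) * i| := abs_nonneg _
  have h6 : (0 : ℚ) ≤ |(N : ℚ) / 2 * i ^ 2 + b * i| := abs_nonneg _
  have h7 : (0 : ℚ) ≤ i := by positivity
  have h8 : (0 : ℚ) ≤ l := by positivity
  set X := |(N : ℚ) * i| with hX
  set Y := |(N : ℚ) / 2 * i ^ 2 + b * i| with hY
  have h9 : X * 2 + Y * 2 + 1 < l := lt_of_lt_of_le hL h2
  have h10 : (l : ℚ) * l / 2 ≤ ((l : ℚ) + i + 1) * (l + i + 2) / 2 := by
    have : (l : ℚ) * l ≤ ((l : ℚ) + i + 1) * (l + i + 2) :=
      mul_le_mul (by linarith) (by linarith) h8 (by linarith)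
    linarith
  have h11 : (N : ℚ) / 2 * (2 * l * i + i ^ 2) + b * i ≤ X * l + Y := by
    have e : (N : ℚ) / 2 * (2 * l * i + i ^ 2) + b * i = (N * i) * l + (N / 2 * i ^ 2 + b * i) := by
      ring
    rw [e]
    have := mul_le_mul_of_nonneg_right h3 h8
    linarith
  have h12 : (l : ℚ) * l / 2 ≤ X * l + Y := by linarith
  nlinarith [mul_nonneg h5 h8, mul_nonneg h6 h8, mul_le_mul_of_nonneg_right h9.le h8]

/-- (A1) existence of a good filtration -/
theorem A1 (n : ℕ) (hG : GrFree D M n) (hF : ∃ (N : ℕ) (b c : ℚ), HasHP D.F N b c) :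
    ∃ FM : ℤ → Submodule k M, IsGoodFilt D FM := by
  obtain ⟨⟨w, hw⟩, hA⟩ := exists_frame D hG
  obtain ⟨c₁, hc₁⟩ := mono_mem_pow D
  let FM : ℤ → Submodule k M := fun j =>
    { carrier := {x | ∀ (i : ℕ) (f : Q) (hf : f ∈ D.F i), D.mono i f hf • x ∈ D.mp M (i + j)}
      add_mem' := by
        intro x y hx hy i f hf
        rw [smul_add]
        exact Submodule.add_mem _ (hx i f hf) (hy i f hf)
      zero_mem' := by
        intro i f hf
        rw [smul_zero]
        exact Submodule.zero_mem _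
      smul_mem' := by
        intro c x hx i f hf
        rw [smul_algebra_smul_comm]
        exact Submodule.smul_mem _ _ (hx i f hf) }
  have hmem : ∀ (j : ℤ) (x : M), x ∈ FM j ↔
      ∀ (i : ℕ) (f : Q) (hf : f ∈ D.F i), D.mono i f hf • x ∈ D.mp M (i + j) := fun _ _ => Iff.rfl
  have hact : ∀ (i : ℕ) (f : Q) (hf : f ∈ D.F i) (j : ℤ), ∀ w ∈ FM j,
      D.mono i f hf • w ∈ FM (i + j) := by
    intro i f hf j x hx
    rw [hmem] at hx ⊢
    intro i' f' hf'
    rw [mono_smul_mono]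
    have := hx (i' + i) (f' * f) (mul_mem_F D i' i f' f hf' hf)
    have e : ((i' + i : ℕ) : ℤ) + j = i' + (i + j) := by push_cast; ring
    rwa [e] at this
  refine ⟨FM, ?_, hact, ?_, ?_⟩
  · intro j x hx
    rw [hmem] at hx ⊢
    intro i f hf
    exact mp_anti D (by omega) (hx i f hf)
  · refine ⟨c₁, fun j => ⟨?_, ?_⟩⟩
    · intro x hx
      rw [hmem]
      intro i f hf
      have := smul_mem_mp D (i - c₁) _ (hc₁ i f hf) _ x hx
      exact mp_anti D (by omega) this
    · intro x hx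
      rw [hmem] at hx
      have := hx 0 1 (one_mem_zero D)
      rw [mono_zero_one, one_smul] at this
      exact mp_anti D (by push_cast; omega) this
  · intro i f hf hf0 j x hx hfx
    obtain ⟨l, t', ht', hne, hpoly⟩ := exists_mul_poly D hA hF i f hf hf0
    rw [hmem]
    intro i' g hg
    -- `y = g X^{i'} x ∈ mp (i' + j)`
    have hy := (hmem _ _).mp hx i' g hg
    have h1 : D.mono (l + i) (t' * f) (poly_le_F D (l + i) hpoly) • (D.mono i' g hg • x) ∈
        D.mp M (((l + i : ℕ) : ℤ) + (i' + j) + 1) := by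
      have h2 := hact l t' ht' _ _ hfx
      rw [mono_smul_mono] at h2
      have h3 := (hmem _ _).mp h2 i' g hg
      rw [smul_smul, mul_comm, ← smul_smul] at h3
      have e : (i' : ℤ) + (l + (i + j + 1)) = ((l + i : ℕ) : ℤ) + (i' + j) + 1 := by
        push_cast; ring
      rwa [e] at h3
    have h4 := frame_tf D hw (l + i) (t' * f) hpoly hne _ _ hy h1
    have e : (i' : ℤ) + (j + 1) = i' + j + 1 := by ring
    rw [e]
    exact h4

end

end Crest.Agent.R169
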