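import Crest.Agent.R169.A1

/-!
# Row 169, Part A, step A2 (owner helper592), first half: the dimension count
-/

set_option autoImplicit false

namespace Crest.Agent.R169

open Module

namespace A2

variable {k Q : Type} [Field k] [Field Q] [Algebra k Q] (D : TData k Q)
variable {M : Type} [AddCommGroup M] [Module D.Ttot M] [Module k M] [IsScalarTower k D.Ttot M]
variable {n : ℕ} {w : Fin n → M}

/-- the isomorphism `(A_j)^n ≃ mp j / mp (j+1)` -/
noncomputable def frmQ (w : Fin n → M) (j : ℕ) : (Fin n → polyLE k D.u D.v (j : ℤ)) →ₗ[k]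
    (↥(D.mp M (j : ℤ)) ⧸ (D.mp M ((j : ℤ) + 1)).submoduleOf (D.mp M (j : ℤ))) :=
  ((D.mp M ((j : ℤ) + 1)).submoduleOf (D.mp M (j : ℤ))).mkQ ∘ₗ
      (frm D w j).codRestrict (D.mp M (j : ℤ)) (frm_mem D w j)

theorem frmQ_bij (hw : IsFrame D w) (j : ℕ) : Function.Bijective (frmQ D w j) := by
  constructor
  · rw [injective_iff_map_eq_zero]
    intro f hf
    apply hw.inj j f
    change Submodule.Quotient.mk _ = _ at hf
    rw [Submodule.Quotient.mk_eq_zero, mem_subOf] at hf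
    exact hf
  · intro x
    obtain ⟨⟨y, hy⟩, rfl⟩ := Submodule.mkQ_surjective _ x
    obtain ⟨f, hf⟩ := hw.surj j y hy
    refine ⟨f, ?_⟩
    change Submodule.Quotient.mk _ = Submodule.Quotient.mk _
    rw [Submodule.Quotient.eq, mem_subOf]
    have := Submodule.neg_mem _ hf
    rw [neg_sub] at this
    exact this

/-- the symbol of an element of `mp j` -/
noncomputable def symL (hw : IsFrame D w) (j : ℕ) :
    ↥(D.mp M (j : ℤ)) →ₗ[k] (Fin n → polyLE k D.u D.v (j : ℤ)) :=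
  (LinearEquiv.ofBijective (frmQ D w j) (frmQ_bij D hw j)).symm.toLinearMap ∘ₗ
    ((D.mp M ((j : ℤ) + 1)).submoduleOf (D.mp M (j : ℤ))).mkQ

theorem symL_spec (hw : IsFrame D w) (j : ℕ) (y : ↥(D.mp M (j : ℤ))) :
    (y : M) - frm D w j (symL D hw j y) ∈ D.mp M ((j : ℤ) + 1) := by
  have h1 : frmQ D w j (symL D hw j y) =
      ((D.mp M ((j : ℤ) + 1)).submoduleOf (D.mp M (j : ℤ))).mkQ y := by
    unfold symL
    rw [LinearMap.comp_apply]
    exact LinearEquiv.apply_symm_apply (LinearEquiv.ofBijective (frmQ D w j) (frmQ_bij D hw j)) _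
  change Submodule.Quotient.mk _ = Submodule.Quotient.mk _ at h1
  rw [Submodule.Quotient.eq, mem_subOf] at h1
  have := Submodule.neg_mem _ h1
  rw [← neg_sub]
  exact this

theorem symL_eq_zero (hw : IsFrame D w) (j : ℕ) (y : ↥(D.mp M (j : ℤ))) :
    symL D hw j y = 0 ↔ (y : M) ∈ D.mp M ((j : ℤ) + 1) := by
  constructor
  · intro h
    have := symL_spec D hw j y
    rwa [h, map_zero, sub_zero] at this
  · intro h
    have h1 := symL_spec D hw j y
    have h2 := Submodule.sub_mem _ h h1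
    rw [sub_sub_cancel] at h2
    exact hw.inj j _ h2

theorem symL_frm (hw : IsFrame D w) (j : ℕ) (f : Fin n → polyLE k D.u D.v (j : ℤ))
    (h : frm D w j f ∈ D.mp M (j : ℤ)) : symL D hw j ⟨frm D w j f, h⟩ = f := by
  have h1 := symL_spec D hw j ⟨frm D w j f, h⟩
  simp only at h1
  rw [← map_sub] at h1
  have h2 := hw.inj j _ h1
  exact (sub_eq_zero.mp h2).symm

/-- the space of leading forms of `Y` in degree `j` -/
noncomputable def lead (w : Fin n → M) (Y : Submodule k M) (j : ℕ) :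
    Submodule k (Fin n → polyLE k D.u D.v (j : ℤ)) :=
  (Y ⊔ D.mp M ((j : ℤ) + 1)).comap (frm D w j)

theorem inf_mono (Y : Submodule k M) (j : ℤ) : Y ⊓ D.mp M (j + 1) ≤ Y ⊓ D.mp M j :=
  inf_le_inf_left _ (mp_anti D (by omega))

theorem qdim_lead_aux (hw : IsFrame D w) (Y : Submodule k M) (j : ℕ) :
    ∃ φ : ↥(Y ⊓ D.mp M (j : ℤ)) →ₗ[k] (Fin n → polyLE k D.u D.v (j : ℤ)),
      (∀ a, φ a = 0 ↔ (a : M) ∈ Y ⊓ D.mp M ((j : ℤ) + 1)) ∧ LinearMap.range φ = lead D w Y j := by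
  refine ⟨symL D hw j ∘ₗ Submodule.inclusion inf_le_right, ?_, ?_⟩
  · intro a
    rw [LinearMap.comp_apply, symL_eq_zero]
    constructor
    · intro h; exact ⟨a.2.1, h⟩
    · intro h; exact h.2
  · ext f
    constructor
    · rintro ⟨a, rfl⟩
      have h1 := symL_spec D hw j (Submodule.inclusion inf_le_right a)
      have h2 := Submodule.sub_mem (Y ⊔ D.mp M ((j : ℤ) + 1))
        (Submodule.mem_sup_left a.2.1) (Submodule.mem_sup_right h1)
      change _ ∈ Y ⊔ D.mp M ((j : ℤ) + 1)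
      simp only [Submodule.coe_inclusion, sub_sub_cancel] at h2
      exact h2
    · intro hf
      change frm D w j f ∈ Y ⊔ D.mp M ((j : ℤ) + 1) at hf
      obtain ⟨y, hy, z, hz, hyz⟩ := Submodule.mem_sup.mp hf
      have hy' : y ∈ D.mp M (j : ℤ) := by
        have : y = frm D w j f - z := by rw [← hyz]; abel
        rw [this]
        exact Submodule.sub_mem _ (frm_mem D w j f) (mp_anti D (by omega) hz)
      refine ⟨⟨y, hy, hy'⟩, ?_⟩
      rw [LinearMap.comp_apply]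
      have e1 : (Submodule.inclusion (inf_le_right : Y ⊓ D.mp M (j : ℤ) ≤ D.mp M (j : ℤ))
          ⟨y, hy, hy'⟩) = (⟨frm D w j f, frm_mem D w j f⟩ : ↥(D.mp M (j : ℤ))) -
            ⟨z, mp_anti D (by omega) hz⟩ := by
        apply Subtype.ext
        change y = frm D w j f - z
        rw [← hyz]; abel
      rw [e1, map_sub, symL_frm, (symL_eq_zero D hw j _).mpr hz, sub_zero]

theorem qdim_lead (hw : IsFrame D w) (Y : Submodule k M) (j : ℕ) :
    qdim (Y ⊓ D.mp M (j : ℤ)) (Y ⊓ D.mp M ((j : ℤ) + 1)) = finrank k (lead D w Y j) := by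
  obtain ⟨φ, h1, h2⟩ := qdim_lead_aux D hw Y j
  rw [qdim_eq_finrank_range φ h1, h2]

theorem qfin_lead (hw : IsFrame D w) (Y : Submodule k M) (j : ℕ) :
    Module.Finite k (↥(Y ⊓ D.mp M (j : ℤ)) ⧸ (Y ⊓ D.mp M ((j : ℤ) + 1)).submoduleOf _) := by
  obtain ⟨φ, h1, h2⟩ := qdim_lead_aux D hw Y j
  have := poly_finite D j
  have : Module.Finite k (LinearMap.range φ) := inferInstance
  exact qfin_of_range φ h1

theorem inf_anti (Y : Submodule k M) {i j : ℤ} (h : i ≤ j) : Y ⊓ D.mp M j ≤ Y ⊓ D.mp M i :=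
  inf_le_inf_left _ (mp_anti D h)

theorem qdim_chain (hw : IsFrame D w) (Y : Submodule k M) (L : ℕ) :
    Module.Finite k (↥(Y ⊓ D.mp M (0 : ℤ)) ⧸ (Y ⊓ D.mp M (L : ℤ)).submoduleOf _) ∧
    qdim (Y ⊓ D.mp M (0 : ℤ)) (Y ⊓ D.mp M (L : ℤ)) =
      ∑ j ∈ Finset.range L, finrank k (lead D w Y j) := by
  induction L with
  | zero =>
    constructor
    · exact qfin_of_range (0 : _ →ₗ[k] k) (by intro a; simp)
    · simpa using qdim_self _
  | succ L ih =>
    obtain ⟨ih1, ih2⟩ := ih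
    have f1 := qfin_lead D hw Y L
    have e : (((L + 1 : ℕ) : ℤ)) = (L : ℤ) + 1 := by push_cast; ring
    rw [e]
    have l1 : Y ⊓ D.mp M (L : ℤ) ≤ Y ⊓ D.mp M (0 : ℤ) := inf_anti D Y (by omega)
    have l2 : Y ⊓ D.mp M ((L : ℤ) + 1) ≤ Y ⊓ D.mp M (L : ℤ) := inf_anti D Y (by omega)
    have f2 := qfin_ext l1 l2 ih1 f1
    refine ⟨f2, ?_⟩
    rw [qdim_add l1 l2, ih2, qdim_lead D hw, Finset.sum_range_succ]

theorem qdim_mp (hw : IsFrame D w) (Y : Submodule k M) (L : ℕ) (hY : D.mp M (L : ℤ) ≤ Y) :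
    Module.Finite k (↥Y ⧸ (D.mp M (L : ℤ)).submoduleOf Y) ∧
    qdim Y (D.mp M (L : ℤ)) = ∑ j ∈ Finset.range L, finrank k (lead D w Y j) := by
  have h := qdim_chain D hw Y L
  have e1 : Y ⊓ D.mp M (0 : ℤ) = Y := by rw [mp_nonpos D le_rfl, inf_top_eq]
  have e2 : Y ⊓ D.mp M (L : ℤ) = D.mp M (L : ℤ) := inf_eq_right.mpr hY
  rw [e1, e2] at h
  exact h

/-- the filtration of `A^n` in degree `m`: leading forms of `FM (m + d)` -/
noncomputable def NL (w : Fin n → M) (FM : ℤ → Submodule k M) (d : ℤ) (j : ℕ) :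
    Submodule k (Fin n → polyLE k D.u D.v (j : ℤ)) :=
  lead D w (FM (j + d)) j

/-- the dimension formula for `gr` of a good filtration, first form -/
theorem grdim_formula (hw : IsFrame D w) {FM : ℤ → Submodule k M} (h : IsGoodFilt D FM)
    (l : ℤ) (L : ℕ) (hL : D.mp M (L : ℤ) ≤ FM (l + 1)) :
    (grdim FM l : ℤ) = ∑ j ∈ Finset.range L,
      ((finrank k (NL D w FM (l - j) j) : ℤ) - finrank k (NL D w FM (l + 1 - j) j)) := by
  have hL' : D.mp M (L : ℤ) ≤ FM l := hL.trans (h.anti l)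
  obtain ⟨f1, h1⟩ := qdim_mp D hw (FM l) L hL'
  obtain ⟨f2, h2⟩ := qdim_mp D hw (FM (l + 1)) L hL
  have h3 := qdim_add (h.anti l) hL
  have h4 : grdim FM l = _ := grdim_eq FM l
  rw [Finset.sum_sub_distrib]
  have e1 : ∑ j ∈ Finset.range L, (finrank k (NL D w FM (l - j) j) : ℤ) =
      qdim (FM l) (D.mp M (L : ℤ)) := by
    rw [h1]
    push_cast
    refine Finset.sum_congr rfl fun j _ => ?_
    unfold NL
    have : (j : ℤ) + (l - j) = l := by ring
    rw [this]
  have e2 : ∑ j ∈ Finset.range L, (finrank k (NL D w FM (l + 1 - j) j) : ℤ) =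
      qdim (FM (l + 1)) (D.mp M (L : ℤ)) := by
    rw [h2]
    push_cast
    refine Finset.sum_congr rfl fun j _ => ?_
    unfold NL
    have : (j : ℤ) + (l + 1 - j) = l + 1 := by ring
    rw [this]
  rw [e1, e2]
  push_cast [h4]
  omega

theorem NL_top {FM : ℤ → Submodule k M} {c : ℕ}
    (hc : ∀ j : ℤ, D.mp M (j + c) ≤ FM j ∧ FM j ≤ D.mp M (j - c)) (d : ℤ) (hd : d ≤ -c) (j : ℕ) :
    NL D w FM d j = ⊤ := by
  rw [eq_top_iff]
  intro f _
  change frm D w j f ∈ FM ((j : ℤ) + d) ⊔ D.mp M ((j : ℤ) + 1)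
  apply Submodule.mem_sup_left
  apply (hc _).1
  exact mp_anti D (by omega) (frm_mem D w j f)

theorem NL_bot (hw : IsFrame D w) {FM : ℤ → Submodule k M} {c : ℕ}
    (hc : ∀ j : ℤ, D.mp M (j + c) ≤ FM j ∧ FM j ≤ D.mp M (j - c)) (d : ℤ) (hd : (c : ℤ) < d)
    (j : ℕ) : NL D w FM d j = ⊥ := by
  rw [eq_bot_iff]
  intro f hf
  change frm D w j f ∈ FM ((j : ℤ) + d) ⊔ D.mp M ((j : ℤ) + 1) at hf
  have h1 : FM ((j : ℤ) + d) ≤ D.mp M ((j : ℤ) + 1) :=
    (hc _).2.trans (mp_anti D (by omega))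
  rw [sup_eq_right.mpr h1] at hf
  rw [Submodule.mem_bot]
  exact hw.inj j f hf

/-- the dimension formula for `gr` of a good filtration, final form -/
theorem grdim_formula' (hw : IsFrame D w) {FM : ℤ → Submodule k M} (h : IsGoodFilt D FM) {c : ℕ}
    (hc : ∀ j : ℤ, D.mp M (j + c) ≤ FM j ∧ FM j ≤ D.mp M (j - c)) (l : ℕ) (hl : c ≤ l) :
    (grdim FM (l : ℤ) : ℤ) = ∑ e ∈ Finset.range (2 * c + 1),
      ((finrank k (NL D w FM ((e : ℤ) - c) (l + c - e)) : ℤ) -
        finrank k (NL D w FM ((e : ℤ) + 1 - c) (l + c - e))) := by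
  have h1 := grdim_formula D hw h (l : ℤ) (l + 1 + c) (by
    have := (hc ((l : ℤ) + 1)).1
    exact_mod_cast this)
  rw [h1]
  -- only `j ∈ [l - c, l + c]` contribute
  have hsub : (Finset.Icc (l - c) (l + c)) ⊆ Finset.range (l + 1 + c) := by
    intro j hj
    rw [Finset.mem_Icc] at hj
    rw [Finset.mem_range]
    omega
  rw [← Finset.sum_subset hsub]
  · refine (Finset.sum_bij' (fun (e : ℕ) _ => l + c - e) (fun (j : ℕ) _ => l + c - j) ?_ ?_ ?_ ?_ ?_).symm
    · intro e he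
      rw [Finset.mem_range] at he
      rw [Finset.mem_Icc]
      omega
    · intro j hj
      rw [Finset.mem_Icc] at hj
      rw [Finset.mem_range]
      omega
    · intro e he
      rw [Finset.mem_range] at he
      omega
    · intro j hj
      rw [Finset.mem_Icc] at hj
      omega
    · intro e he
      rw [Finset.mem_range] at he
      have e1 : (l : ℤ) - ((l + c - e : ℕ) : ℤ) = (e : ℤ) - c := by omega
      have e2 : (l : ℤ) + 1 - ((l + c - e : ℕ) : ℤ) = (e : ℤ) + 1 - c := by omega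
      rw [e1, e2]
  · intro j hj hj'
    rw [Finset.mem_range] at hj
    rw [Finset.mem_Icc] at hj'
    have h3 : j < l - c := by omega
    rw [NL_bot D hw hc _ (by omega), NL_bot D hw hc _ (by omega)]
    simp

end A2

end Crest.Agent.R169
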