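import Crest.Agent.R169.Defs

/-!
# Row 169, Part A2: Abel summation (pure arithmetic) (helper914)
-/

set_option autoImplicit false

namespace Crest.Agent.R169.AAbel

open Finset

/-- `(Σ r_e)² ≤ 2n Σ r_e (e + 1/2)` if `0 ≤ r_e ≤ n`. -/
theorem sq_sum_le (n : ℚ) (r : ℕ → ℚ) (h0 : ∀ e, 0 ≤ r e) (hn : ∀ e, r e ≤ n) (M : ℕ) :
    (∑ e ∈ range M, r e) ^ 2 ≤ 2 * n * ∑ e ∈ range M, r e * ((e : ℚ) + 1 / 2) := by
  induction M with
  | zero => simp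
  | succ M ih =>
    rw [sum_range_succ, sum_range_succ]
    set S := ∑ e ∈ range M, r e with hS
    have h1 : S ≤ n * M := by
      rw [hS]
      calc ∑ e ∈ range M, r e ≤ ∑ _e ∈ range M, n := sum_le_sum (fun e _ => hn e)
        _ = n * M := by rw [sum_const, card_range, nsmul_eq_mul, mul_comm]
    have h2 := mul_le_mul_of_nonneg_right h1 (h0 M)
    have h3 := mul_le_mul_of_nonneg_right (hn M) (h0 M)
    nlinarith

/-- the telescoping/Abel summation step at a fixed `l` -/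
theorem abel_sum (P : ℕ → ℚ → ℚ) (M : ℕ) (l : ℚ) :
    ∑ e ∈ range (M + 1), (P e (l - e) - P (e + 1) (l - e))
      = P 0 l - P (M + 1) (l - M) + ∑ e ∈ range M, (P (e + 1) (l - (e + 1)) - P (e + 1) (l - e)) := by
  induction M with
  | zero => simp
  | succ M ih =>
    rw [sum_range_succ, ih, sum_range_succ]
    push_cast
    ring

/-- the coefficient computation and the inequality `J ≥ 0`.
`H e m` (`e = d + c`) is the Hilbert function of `N^(d)`. -/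
theorem jinv_nonneg_of_abel {n : ℕ} (hn : 0 < n) (M : ℕ) (r : ℕ → ℕ) (β γ : ℕ → ℚ)
    (hrn : ∀ e, r e ≤ n) (hβ : ∀ e, β e ≤ 3 / 2 * r e)
    (h0 : r 0 = n ∧ β 0 = 3 / 2 * n ∧ γ 0 = n)
    (hM : r (M + 1) = 0 ∧ β (M + 1) = 0 ∧ γ (M + 1) = 0) (a : ℤ) (h : ℤ → ℚ)
    (hh : ∃ l₀ : ℤ, ∀ l ≥ l₀, h l = ∑ e ∈ range (M + 1),
      (((r e : ℚ) / 2 * ((l : ℚ) + a - e) ^ 2 + β e * ((l : ℚ) + a - e) + γ e)
        - ((r (e + 1) : ℚ) / 2 * ((l : ℚ) + a - e) ^ 2 + β (e + 1) * ((l : ℚ) + a - e)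
          + γ (e + 1)))) :
    ∃ b c : ℚ, (∃ l₀ : ℤ, ∀ l ≥ l₀, h l = (n : ℚ) / 2 * (l : ℚ) ^ 2 + b * l + c) ∧
      0 ≤ Jinv n b c := by
  obtain ⟨l₀, hl₀⟩ := hh
  have hn' : (0 : ℚ) < n := by exact_mod_cast hn
  set S1 : ℚ := ∑ e ∈ range M, (r (e + 1) : ℚ) with hS1
  set S2 : ℚ := ∑ e ∈ range M, (r (e + 1) : ℚ) * ((e : ℚ) + 1) with hS2
  set B : ℚ := ∑ e ∈ range M, β (e + 1) with hB
  -- the explicit polynomial
  have key : ∀ l ≥ l₀, h l = (n : ℚ) / 2 * (l : ℚ) ^ 2 + (n * a + 3 / 2 * n - S1) * l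
      + (n / 2 * a ^ 2 + 3 / 2 * n * a + n - a * S1 + S2 - S1 / 2 - B) := by
    intro l hl
    rw [hl₀ l hl]
    have e1 := abel_sum (fun e x => (r e : ℚ) / 2 * x ^ 2 + β e * x + γ e) M ((l : ℚ) + a)
    beta_reduce at e1
    rw [e1, h0.1, h0.2.1, h0.2.2, hM.1, hM.2.1, hM.2.2]
    have e2 : ∀ e ∈ range M,
        (((r (e + 1) : ℚ) / 2 * ((l : ℚ) + a - (e + 1)) ^ 2 + β (e + 1) * ((l : ℚ) + a - (e + 1))
          + γ (e + 1)) - ((r (e + 1) : ℚ) / 2 * ((l : ℚ) + a - e) ^ 2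
          + β (e + 1) * ((l : ℚ) + a - e) + γ (e + 1)))
        = -((l : ℚ) + a) * r (e + 1) + (r (e + 1) : ℚ) * ((e : ℚ) + 1) - r (e + 1) / 2
          - β (e + 1) := by
      intro e _
      ring
    rw [sum_congr rfl e2, sum_sub_distrib, sum_sub_distrib, sum_add_distrib, ← mul_sum,
      ← sum_div, ← hS1, ← hS2, ← hB]
    push_cast
    ring
  refine ⟨_, _, ⟨l₀, key⟩, ?_⟩
  have h1 : S1 ^ 2 ≤ 2 * n * ∑ e ∈ range M, (r (e + 1) : ℚ) * ((e : ℚ) + 1 / 2) :=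
    sq_sum_le n (fun e => (r (e + 1) : ℚ)) (fun e => by positivity)
      (fun e => by exact_mod_cast hrn (e + 1)) M
  have h2 : ∑ e ∈ range M, (r (e + 1) : ℚ) * ((e : ℚ) + 1 / 2) = S2 - S1 / 2 := by
    rw [hS2, hS1, sum_div, ← sum_sub_distrib]
    refine sum_congr rfl (fun e _ => ?_)
    ring
  have h3 : B ≤ 3 / 2 * S1 := by
    rw [hB, hS1, mul_sum]
    exact sum_le_sum (fun e _ => hβ (e + 1))
  rw [h2] at h1
  unfold Jinv
  have h4 : (n * (a : ℚ) + 3 / 2 * n - S1) ^ 2 / (2 * (n : ℚ))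
      = n / 2 * (a + 3 / 2) ^ 2 - (a + 3 / 2) * S1 + S1 ^ 2 / (2 * n) := by
    field_simp
    ring
  rw [h4]
  have h5 : S1 ^ 2 / (2 * (n : ℚ)) ≤ S2 - S1 / 2 := by
    rw [div_le_iff₀ (by positivity)]
    linarith
  linarith

end Crest.Agent.R169.AAbel
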