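import Crest.Agent.R169.Lat

/-!
# Bridges between lattices over `Q` and over `K0 = k(u,v)` (owner helper649)
-/

set_option autoImplicit false

namespace Crest.Agent.R169

open Module

variable {k V : Type} [Field k] [AddCommGroup V] [Module k V] {E : ℤ → Submodule k V}

/-- `K0 = k(u,v)` of a `TData` is rational (bridge). -/
theorem TData.isRat {Q : Type} [Field Q] [Algebra k Q] (D : TData k Q) :
    IsRat k (⟨D.u, IntermediateField.subset_adjoin _ _ (by simp)⟩ : D.K0)
      (⟨D.v, IntermediateField.subset_adjoin _ _ (by simp)⟩ : D.K0) := by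
  constructor
  · have h := D.indep
    have : (![D.u, D.v] : Fin 2 → Q) = (algebraMap D.K0 Q) ∘
        (![(⟨D.u, IntermediateField.subset_adjoin _ _ (by simp)⟩ : D.K0),
          (⟨D.v, IntermediateField.subset_adjoin _ _ (by simp)⟩ : D.K0)]) := by
      funext i
      fin_cases i <;> rfl
    rw [this] at h
    exact (AlgebraicIndependent.of_comp (IsScalarTower.toAlgHom k D.K0 Q) h)
  · have key : ∀ (L : IntermediateField k Q) (S : Set L),
        (IntermediateField.adjoin k ((fun x : L => (x : Q)) '' S)) = L →
        IntermediateField.adjoin k S = ⊤ := by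
      intro L S h
      have h2 : (IntermediateField.adjoin k S).map L.val = L := by
        rw [IntermediateField.adjoin_map]
        exact h
      apply IntermediateField.map_injective L.val
      rw [h2]
      ext x
      constructor
      · intro hx
        exact ⟨⟨x, hx⟩, trivial, rfl⟩
      · rintro ⟨y, _, rfl⟩
        exact y.2
    apply key
    rw [Set.image_pair]
    rfl

/-- a lattice over `Q ∋ u, v` is a lattice over a subfield `L` containing `u, v` (bridge). -/
theorem IsLat.restrict {L Q : Type} [Field L] [Field Q] [Algebra k L] [Algebra k Q] [Algebra L Q]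
    [Module L V] [Module Q V] [IsScalarTower L Q V] {u v : L}
    (hE : IsLat (algebraMap L Q u) (algebraMap L Q v) E) : IsLat u v E := by
  refine ⟨hE.mono, ?_, ?_, hE.fin, hE.bot, ?_⟩
  · intro m e he
    rw [← IsScalarTower.algebraMap_smul Q u e]
    exact hE.umul m e he
  · intro m e he
    rw [← IsScalarTower.algebraMap_smul Q v e]
    exact hE.vmul m e he
  · obtain ⟨m₁, h⟩ := hE.gen
    refine ⟨m₁, fun m hm e he => ?_⟩
    obtain ⟨a, ha, b, hb, c, hc, rfl⟩ := h m hm e he
    exact ⟨a, ha, b, hb, c, hc, by
      rw [IsScalarTower.algebraMap_smul Q u b, IsScalarTower.algebraMap_smul Q v c]⟩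

/-- example of use: `T`-lattices in `Q^R` are `A`-lattices over `K0`. -/
theorem IsTLat.lat' {Q : Type} [Field Q] [Algebra k Q] (D : TData k Q) {R : ℕ}
    {G : ℤ → Submodule k (Fin R → Q)} (hG : IsTLat D G) :
    IsLat (⟨D.u, IntermediateField.subset_adjoin _ _ (by simp)⟩ : D.K0)
      (⟨D.v, IntermediateField.subset_adjoin _ _ (by simp)⟩ : D.K0) G :=
  IsLat.restrict (L := D.K0) (Q := Q) (V := Fin R → Q) hG.lat

end Crest.Agent.R169
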