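import Crest.Agent.R169.Lat

/-!
# Row 169, Part E4: numerical lemmas (helper822)
-/

set_option autoImplicit false

namespace Crest.Agent.R169.E4

open Module

/-- comparison of quadratic polynomials at large integers -/
theorem quad_le {a₁ a₂ b₁ b₂ c₁ c₂ : ℚ} {m₀ : ℤ}
    (h : ∀ m : ℤ, m₀ ≤ m → a₁ * (m : ℚ) ^ 2 + b₁ * m + c₁ ≤ a₂ * (m : ℚ) ^ 2 + b₂ * m + c₂) :
    a₁ ≤ a₂ ∧ (a₁ = a₂ → b₁ ≤ b₂) := by
  constructor
  · by_contra hlt
    push Not at hlt
    have hd : 0 < a₁ - a₂ := sub_pos.2 hlt
    obtain ⟨M, hM⟩ := exists_nat_gt ((|b₁ - b₂| + |c₁ - c₂| + 1) / (a₁ - a₂))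
    have h1 := h (max m₀ ((M : ℤ) + 1)) (le_max_left _ _)
    set m : ℤ := max m₀ ((M : ℤ) + 1) with hm
    have hmM : (M : ℚ) + 1 ≤ (m : ℚ) := by
      have : ((M : ℤ) + 1) ≤ m := le_max_right _ _
      exact_mod_cast this
    have hM0 : (0 : ℚ) ≤ M := Nat.cast_nonneg M
    have hm1 : (1 : ℚ) ≤ m := by linarith
    have h2 : |b₁ - b₂| + |c₁ - c₂| + 1 < (a₁ - a₂) * m := by
      have h3 : (|b₁ - b₂| + |c₁ - c₂| + 1) / (a₁ - a₂) < m := by linarith
      rwa [div_lt_iff₀' hd] at h3
    have hb := neg_abs_le (b₁ - b₂)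
    have hc := neg_abs_le (c₁ - c₂)
    have hb0 := abs_nonneg (b₁ - b₂)
    have hc0 := abs_nonneg (c₁ - c₂)
    nlinarith
  · intro he
    by_contra hlt
    push Not at hlt
    have hd : 0 < b₁ - b₂ := sub_pos.2 hlt
    obtain ⟨M, hM⟩ := exists_nat_gt ((|c₁ - c₂| + 1) / (b₁ - b₂))
    have h1 := h (max m₀ ((M : ℤ) + 1)) (le_max_left _ _)
    set m : ℤ := max m₀ ((M : ℤ) + 1) with hm
    have hmM : (M : ℚ) + 1 ≤ (m : ℚ) := by
      have : ((M : ℤ) + 1) ≤ m := le_max_right _ _
      exact_mod_cast this
    have hM0 : (0 : ℚ) ≤ M := Nat.cast_nonneg M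
    have h2 : |c₁ - c₂| + 1 < (b₁ - b₂) * m := by
      have h3 : (|c₁ - c₂| + 1) / (b₁ - b₂) < m := by linarith
      rwa [div_lt_iff₀' hd] at h3
    have hc := neg_abs_le (c₁ - c₂)
    rw [he] at h1
    nlinarith

section

variable {k K V : Type} [Field k] [Field K] [Algebra k K] [AddCommGroup V] [Module k V]
  [Module K V]

/-- `2b` is an integer -/
theorem two_mul_b {E : ℤ → Submodule k V} {n : ℕ} {b c : ℚ} (h : HasHP E n b c) :
    ∃ t : ℤ, 2 * b = t := by
  obtain ⟨m₀, hm⟩ := h
  have h1 := hm m₀ le_rfl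
  have h2 := hm (m₀ + 1) (by omega)
  refine ⟨2 * ((finrank k (E (m₀ + 1)) : ℤ) - (finrank k (E m₀) : ℤ)) - 2 * n * m₀ - n, ?_⟩
  push_cast at h2 ⊢
  rw [h1, h2]
  ring

/-- monomials in algebraically independent elements are linearly independent -/
theorem linearIndependent_monomials {u v : K} (h : AlgebraicIndependent k ![u, v]) :
    LinearIndependent k (fun x : ℕ × ℕ => u ^ x.1 * v ^ x.2) := by
  have h1 : LinearIndependent k (fun m : Fin 2 →₀ ℕ =>
      MvPolynomial.aeval ![u, v] (MvPolynomial.monomial m (1 : k))) := by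
    have hb := (MvPolynomial.basisMonomials (Fin 2) k).linearIndependent
    have := hb.map' (MvPolynomial.aeval ![u, v]).toLinearMap
      (LinearMap.ker_eq_bot.2 h)
    simpa [Function.comp_def] using this
  let e : ℕ × ℕ → (Fin 2 →₀ ℕ) := fun x => Finsupp.equivFunOnFinite.symm ![x.1, x.2]
  have he : Function.Injective e := by
    intro x y hxy
    have h2 := Finsupp.equivFunOnFinite.symm.injective hxy
    have h3 := congrFun h2 0
    have h4 := congrFun h2 1
    simp at h3 h4
    exact Prod.ext h3 h4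
  have h5 := h1.comp e he
  convert h5 using 1
  funext x
  simp only [Function.comp, MvPolynomial.aeval_monomial, map_one, one_mul]
  rw [Finsupp.prod_fintype _ _ (by simp)]
  simp [Fin.prod_univ_two, e]

/-- number of monomials of degree `≤ j` -/
theorem card_tri (j : ℕ) :
    (Finset.filter (fun x : ℕ × ℕ => x.1 + x.2 ≤ j)
      (Finset.range (j + 1) ×ˢ Finset.range (j + 1))).card = dimA j := by
  have h1 : (Finset.filter (fun x : ℕ × ℕ => x.1 + x.2 ≤ j)
      (Finset.range (j + 1) ×ˢ Finset.range (j + 1))) =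
      (Finset.range (j + 1)).biUnion (fun i => Finset.HasAntidiagonal.antidiagonal i) := by
    ext ⟨a, b⟩
    simp only [Finset.mem_filter, Finset.mem_product, Finset.mem_range, Finset.mem_biUnion,
      Finset.HasAntidiagonal.mem_antidiagonal]
    constructor
    · rintro ⟨_, h⟩
      exact ⟨a + b, by omega, rfl⟩
    · rintro ⟨i, hi, h⟩
      omega
  rw [h1, Finset.card_biUnion]
  · simp only [Finset.Nat.card_antidiagonal]
    have h2 : ∀ j : ℕ, 2 * ∑ i ∈ Finset.range (j + 1), (i + 1) = (j + 1) * (j + 2) := by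
      intro j
      induction j with
      | zero => simp
      | succ j ih => rw [Finset.sum_range_succ, mul_add, ih]; ring
    have h3 := h2 j
    unfold dimA
    have h4 : ((j : ℤ) + 1).toNat = j + 1 := by omega
    have h5 : ((j : ℤ) + 2).toNat = j + 2 := by omega
    rw [h4, h5]
    omega
  · intro i _ i' _ hii
    rw [Function.onFun, Finset.disjoint_left]
    rintro ⟨a, b⟩ h3 h4
    rw [Finset.HasAntidiagonal.mem_antidiagonal] at h3 h4
    exact hii (h3.symm.trans h4)

theorem exists_tri (j : ℕ) : ∃ T : Finset (ℕ × ℕ), (∀ x ∈ T, x.1 + x.2 ≤ j) ∧ T.card = dimA j :=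
  ⟨_, fun _ hx => (Finset.mem_filter.1 hx).2, card_tri j⟩

theorem dimA_neg {j : ℤ} (hj : j < 0) : dimA j = 0 := by
  unfold dimA
  have h4 : (j + 1).toNat = 0 := by omega
  rw [h4]
  simp

/-- real valued formula for `dimA` -/
theorem dimA_cast {j : ℤ} (hj : 0 ≤ j) :
    (dimA j : ℚ) = ((j : ℚ) + 1) * (j + 2) / 2 := by
  obtain ⟨i, rfl⟩ := Int.eq_ofNat_of_zero_le hj
  have h : 2 * dimA i = (i + 1) * (i + 2) := by
    unfold dimA
    have h4 : ((i : ℤ) + 1).toNat = i + 1 := by omega
    have h5 : ((i : ℤ) + 2).toNat = i + 2 := by omega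
    rw [h4, h5]
    have h6 : Even ((i + 1) * (i + 2)) := by
      have := Nat.even_mul_succ_self (i + 1)
      simpa using this
    exact Nat.mul_div_cancel' h6.two_dvd
  have h' : (2 : ℚ) * dimA i = (i + 1) * (i + 2) := by exact_mod_cast h
  push_cast
  linarith

/-- lower bound for the dimension of a lattice generated in degrees `≤ g`: it contains
`rank` many independent elements of degree `g`. -/
theorem le_finrank_of_gen [IsScalarTower k K V] {u v : K} (hu : AlgebraicIndependent k ![u, v])
    {E : ℤ → Submodule k V} (hE : IsLat u v E) {g : ℤ}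
    (hgen : ∀ m ≥ g, ∀ e ∈ E (m + 1), ∃ x ∈ E m, ∃ y ∈ E m, ∃ z ∈ E m, e = x + u • y + v • z)
    (m : ℤ) : rk K E * dimA (m - g) ≤ finrank k (E m) := by
  by_cases hmg : m - g < 0
  · simp [dimA_neg hmg]
  push Not at hmg
  -- span of everything = span of E g
  have hmono : ∀ i : ℤ, ∀ j : ℕ, E i ≤ E (i + j) := by
    intro i j
    induction j with
    | zero => simp
    | succ j ih =>
      refine ih.trans ?_
      have := hE.mono (i + j)
      rw [add_assoc] at this
      exact_mod_cast this
  have hspan1 : ∀ j : ℕ, ∀ e ∈ E (g + j), e ∈ Submodule.span K (E g : Set V) := by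
    intro j
    induction j with
    | zero => intro e he; exact Submodule.subset_span (by simpa using he)
    | succ j ih =>
      intro e he
      have he' : e ∈ E ((g + j) + 1) := by rw [add_assoc]; exact_mod_cast he
      obtain ⟨x, hx, y, hy, z, hz, rfl⟩ := hgen (g + j) (by omega) e he'
      exact add_mem (add_mem (ih x hx) (Submodule.smul_mem _ _ (ih y hy)))
        (Submodule.smul_mem _ _ (ih z hz))
  have hspan : spanK K E = Submodule.span K (E g : Set V) := by
    apply le_antisymm
    · refine Submodule.span_le.2 ?_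
      intro e he
      obtain ⟨i, hi⟩ := Set.mem_iUnion.1 he
      by_cases hig : i ≤ g
      · obtain ⟨j, hj⟩ := Int.le.dest hig
        apply Submodule.subset_span
        have := hmono i j hi
        rwa [hj] at this
      · obtain ⟨j, hj⟩ := Int.le.dest (le_of_not_ge hig)
        rw [← hj] at hi
        exact hspan1 j e hi
    · exact Submodule.span_mono (Set.subset_iUnion (fun i => (E i : Set V)) g)
  have : Module.Finite k (E g) := hE.fin g
  have : FiniteDimensional K (Submodule.span K (E g : Set V)) := by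
    obtain ⟨S, hS⟩ := (Module.Finite.iff_fg.1 (hE.fin g))
    have : Submodule.span K (E g : Set V) = Submodule.span K (S : Set V) := by
      apply le_antisymm
      · refine Submodule.span_le.2 ?_
        rw [← hS]
        intro x hx
        exact (Submodule.span_le_restrictScalars k K (S : Set V)) hx
      · refine Submodule.span_mono ?_
        rw [← hS]
        exact Submodule.subset_span
    rw [this]
    exact FiniteDimensional.span_finset K S
  have hex := Submodule.exists_fun_fin_finrank_span_eq K (E g : Set V)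
  have hrk : rk K E = finrank K (Submodule.span K (E g : Set V)) := by rw [rk, hspan]
  rw [hrk]
  generalize finrank K (Submodule.span K (E g : Set V)) = s at hex ⊢
  obtain ⟨f, hf, hfs, hfi⟩ := hex
  obtain ⟨j, hj⟩ := Int.eq_ofNat_of_zero_le hmg
  have hj' : m = g + j := by omega
  subst hj'
  obtain ⟨T, hT, hTc⟩ := exists_tri j
  -- the family u^a v^b e_i
  have hli : LinearIndependent k (fun x : T × Fin s => (u ^ x.1.1.1 * v ^ x.1.1.2) • f x.2) := by
    have h1 : LinearIndependent k (fun x : T => u ^ x.1.1 * v ^ x.1.2) :=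
      (linearIndependent_monomials hu).comp (fun x : T => x.1) Subtype.val_injective
    exact linearIndependent_smul (b := fun x : T => u ^ x.1.1 * v ^ x.1.2) (c := f) h1 hfi
  have hmem : ∀ x : T × Fin s, (u ^ x.1.1.1 * v ^ x.1.1.2) • f x.2 ∈ E (g + j) := by
    rintro ⟨⟨⟨a, b⟩, hab⟩, i⟩
    have hab' : a + b ≤ j := hT _ hab
    have h1 : ∀ a : ℕ, ∀ i : ℤ, ∀ e ∈ E i, u ^ a • e ∈ E (i + a) := by
      intro a
      induction a with
      | zero => intro i e he; simpa using he
      | succ a ih =>
        intro i e he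
        have := hE.umul _ _ (ih i e he)
        rw [smul_smul, ← pow_succ'] at this
        rw [add_assoc] at this
        exact_mod_cast this
    have h2 : ∀ b : ℕ, ∀ i : ℤ, ∀ e ∈ E i, v ^ b • e ∈ E (i + b) := by
      intro b
      induction b with
      | zero => intro i e he; simpa using he
      | succ b ih =>
        intro i e he
        have := hE.vmul _ _ (ih i e he)
        rw [smul_smul, ← pow_succ'] at this
        rw [add_assoc] at this
        exact_mod_cast this
    have h3 := h1 a _ _ (h2 b g (f i) (hf i))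
    rw [smul_smul] at h3
    obtain ⟨c, hc⟩ := Nat.exists_eq_add_of_le hab'
    have h4 := hmono (g + b + a) c h3
    have h5 : (g + (b : ℤ) + a) + c = g + (j : ℤ) := by rw [hc]; push_cast; ring
    rw [h5] at h4
    exact h4
  have : Module.Finite k (E (g + j)) := hE.fin _
  have hli' : LinearIndependent k (fun x : T × Fin s =>
      (⟨(u ^ x.1.1.1 * v ^ x.1.1.2) • f x.2, hmem x⟩ : E (g + j))) :=
    LinearIndependent.of_comp (E (g + j)).subtype hli
  have hcard := hli'.fintype_card_le_finrank
  rw [Fintype.card_prod, Fintype.card_fin, Fintype.card_coe] at hcard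
  have h6 : g + (j : ℤ) - g = j := by ring
  rw [h6, ← hTc, mul_comm]
  exact hcard

end

end Crest.Agent.R169.E4
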