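import Crest.Agent.R169.HilbRk

/-!
# Row 169, Part P1 (owner helper132): the frozen statements of `LatStmts.lean`, proved.
-/

set_option autoImplicit false
set_option linter.unusedSectionVars false

namespace Crest.Agent.R169

open Module

variable {k K V : Type} [Field k] [Field K] [Algebra k K] [AddCommGroup V] [Module k V]
  [Module K V] {u v : K} {E E' : ℤ → Submodule k V}

theorem IsFam.toFam (h : IsFam u v E) : P1.Fam u v E := ⟨h.mono, h.umul, h.vmul⟩

theorem IsLat.toFam (h : IsLat u v E) : P1.Fam u v E := ⟨h.mono, h.umul, h.vmul⟩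

theorem IsLat.of_le [IsScalarTower k K V] (hE : IsLat u v E) (hF : IsFam u v E')
    (hle : ∀ m, E' m ≤ E m) : IsLat u v E' := P1.isLat_of_le hE hF.toFam hle

theorem IsLat.interU [IsScalarTower k K V] (hE : IsLat u v E) (U : Submodule K V) :
    IsLat u v (interU E U) := by
  refine P1.isLat_of_le hE ⟨?_, ?_, ?_⟩ fun m => inf_le_left
  · intro m
    exact inf_le_inf_right _ (hE.mono m)
  · rintro m x ⟨hx, hxU⟩
    exact ⟨hE.umul m x hx, U.smul_mem u hxU⟩
  · rintro m x ⟨hx, hxU⟩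
    exact ⟨hE.vmul m x hx, U.smul_mem v hxU⟩

theorem IsLat.quotU [IsScalarTower k K V] (hE : IsLat u v E) (U : Submodule K V) :
    IsLat u v (quotU E U) := by
  obtain ⟨m₀, hm₀⟩ := hE.bot
  obtain ⟨m₁, hm₁⟩ := hE.gen
  refine ⟨fun m => Submodule.map_mono (hE.mono m), ?_, ?_, ?_, ⟨m₀, fun m hm => ?_⟩,
    ⟨m₁, fun m hm => ?_⟩⟩
  · rintro m _ ⟨x, hx, rfl⟩
    exact ⟨u • x, hE.umul m x hx, by simp⟩
  · rintro m _ ⟨x, hx, rfl⟩
    exact ⟨v • x, hE.vmul m x hx, by simp⟩
  · intro m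
    have := hE.fin m
    unfold Crest.Agent.R169.quotU
    infer_instance
  · unfold Crest.Agent.R169.quotU
    rw [hm₀ m hm, Submodule.map_bot]
  · rintro _ ⟨x, hx, rfl⟩
    obtain ⟨a, ha, b, hb, c, hc, rfl⟩ := hm₁ m hm x hx
    exact ⟨_, ⟨a, ha, rfl⟩, _, ⟨b, hb, rfl⟩, _, ⟨c, hc, rfl⟩, by simp⟩

theorem IsLat.shift (hE : IsLat u v E) (a : ℤ) : IsLat u v (shiftL E a) := by
  obtain ⟨m₀, hm₀⟩ := hE.bot
  obtain ⟨m₁, hm₁⟩ := hE.gen
  have e : ∀ m : ℤ, m + 1 + a = m + a + 1 := fun m => by ring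
  refine ⟨fun m => ?_, fun m x hx => ?_, fun m x hx => ?_, fun m => hE.fin _,
    ⟨m₀ - a, fun m hm => hm₀ _ (by omega)⟩, ⟨m₁ - a, fun m hm x hx => ?_⟩⟩
  · simp only [shiftL, e]; exact hE.mono _
  · simp only [shiftL, e] at hx ⊢; exact hE.umul _ _ hx
  · simp only [shiftL, e] at hx ⊢; exact hE.vmul _ _ hx
  · simp only [shiftL, e] at hx ⊢
    exact hm₁ _ (by omega) x hx

theorem hasHP_unique {n n' : ℕ} {b b' c c' : ℚ} (h : HasHP E n b c) (h' : HasHP E n' b' c') :
    n = n' ∧ b = b' ∧ c = c' := P1.unique_hp h h'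

theorem HasHP.integral {n : ℕ} {b c : ℚ} (h : HasHP E n b c) :
    (∃ t : ℤ, 2 * b = t) ∧ (∃ t : ℤ, c = t) := by
  obtain ⟨M, hM⟩ := h
  have hb : ∃ t : ℤ, 2 * b = t := by
    have h1 := hM M le_rfl
    have h2 := hM (M + 1) (by omega)
    refine ⟨2 * ((finrank k (E (M + 1)) : ℤ) - finrank k (E M)) - n * (2 * M + 1), ?_⟩
    push_cast at h2 ⊢
    rw [h1, h2]; ring
  refine ⟨hb, ?_⟩
  obtain ⟨t, ht⟩ := hb
  have h3 := hM (2 * |M|) (by
    have := neg_abs_le M; have := le_abs_self M; have := abs_nonneg M; omega)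
  refine ⟨(finrank k (E (2 * |M|)) : ℤ) - 2 * n * |M| ^ 2 - t * |M|, ?_⟩
  push_cast at h3 ⊢
  rw [h3, ← ht]; ring

/-- existence of the Hilbert polynomial, integrality -/
theorem IsLat.exists_hasHP [IsScalarTower k K V] [Infinite k] (hK : IsRat k u v)
    (hE : IsLat u v E) :
    ∃ b c : ℚ, HasHP E (rk K E) b c ∧ (∃ t : ℤ, 2 * b = t) ∧ (∃ t : ℤ, c = t) := by
  obtain ⟨s, b, c, h⟩ := P1.exists_poly hK.indep hE
  have hs := P1.lead_eq_rk hK hE h
  subst hs
  exact ⟨b, c, h, h.integral⟩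

theorem IsLat.hasHP [IsScalarTower k K V] [Infinite k] (hK : IsRat k u v)
    (hE : IsLat u v E) : HasHP E (rk K E) (hb E) (hc E) := by
  obtain ⟨b, c, h, -⟩ := hE.exists_hasHP hK
  have h1 : HasHP E (Classical.epsilon (fun t : ℕ × ℚ × ℚ => HasHP E t.1 t.2.1 t.2.2)).1
      (hb E) (hc E) :=
    Classical.epsilon_spec (p := fun t : ℕ × ℚ × ℚ => HasHP E t.1 t.2.1 t.2.2) ⟨(_, b, c), h⟩
  have h2 := (hasHP_unique h h1).1
  rw [← h2] at h1
  exact h1

theorem finrank_add [IsScalarTower k K V] (hE : IsLat u v E) (U : Submodule K V) (m : ℤ) :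
    finrank k (E m) = finrank k (interU E U m) + finrank k (quotU E U m) := by
  have := hE.fin m
  have h1 := LinearMap.finrank_range_add_finrank_ker
    ((U.mkQ.restrictScalars k).domRestrict (E m))
  have h2 : LinearMap.range ((U.mkQ.restrictScalars k).domRestrict (E m)) = quotU E U m := by
    rw [LinearMap.range_domRestrict]; rfl
  have h3 : finrank k (LinearMap.ker ((U.mkQ.restrictScalars k).domRestrict (E m))) =
      finrank k (interU E U m) := by
    have h4 : (LinearMap.ker ((U.mkQ.restrictScalars k).domRestrict (E m))).map (E m).subtype =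
        interU E U m := by
      ext x
      constructor
      · rintro ⟨⟨y, hy⟩, hy', rfl⟩
        refine ⟨hy, ?_⟩
        simpa using hy'
      · rintro ⟨hx, hxU⟩
        refine ⟨⟨x, hx⟩, ?_, rfl⟩
        simpa using hxU
    rw [← h4]
    exact (LinearEquiv.finrank_eq
      (Submodule.equivMapOfInjective _ (Submodule.injective_subtype _) _))
  rw [h2, h3] at h1
  omega

theorem HasHP.add_of [IsScalarTower k K V] (hE : IsLat u v E) (U : Submodule K V)
    {n₁ n₂ : ℕ} {b₁ b₂ c₁ c₂ : ℚ} (h₁ : HasHP (Crest.Agent.R169.interU E U) n₁ b₁ c₁)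
    (h₂ : HasHP (Crest.Agent.R169.quotU E U) n₂ b₂ c₂) :
    HasHP E (n₁ + n₂) (b₁ + b₂) (c₁ + c₂) := by
  obtain ⟨M, hM⟩ := h₁
  obtain ⟨M', hM'⟩ := h₂
  refine ⟨max M M', fun m hm => ?_⟩
  rw [finrank_add hE U m]
  push_cast
  rw [hM m ((le_max_left _ _).trans hm), hM' m ((le_max_right _ _).trans hm)]
  ring

theorem HasHP.quotU [IsScalarTower k K V] (hE : IsLat u v E) (U : Submodule K V)
    {n n₁ : ℕ} {b b₁ c c₁ : ℚ} (h : HasHP E n b c)
    (h1 : HasHP (Crest.Agent.R169.interU E U) n₁ b₁ c₁) (hn : n₁ ≤ n) :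
    HasHP (Crest.Agent.R169.quotU E U) (n - n₁) (b - b₁) (c - c₁) := by
  obtain ⟨M, hM⟩ := h
  obtain ⟨M', hM'⟩ := h1
  refine ⟨max M M', fun m hm => ?_⟩
  have e1 := hM m ((le_max_left _ _).trans hm)
  have e2 := hM' m ((le_max_right _ _).trans hm)
  rw [finrank_add hE U m] at e1
  push_cast [Nat.cast_sub hn] at e1 ⊢
  rw [e2] at e1
  linarith

/-- elements of the span are fractions -/
theorem IsLat.exists_mul_mem [IsScalarTower k K V] (hK : IsRat k u v) (hE : IsLat u v E) {x : V}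
    (hx : x ∈ spanK K E) : ∃ q : K, q ≠ 0 ∧ ∃ m, q • x ∈ E m := by
  unfold spanK at hx
  induction hx using Submodule.span_induction with
  | mem x hx =>
    obtain ⟨_, ⟨m, rfl⟩, hx⟩ := hx
    exact ⟨1, one_ne_zero, m, by rwa [one_smul]⟩
  | zero => exact ⟨1, one_ne_zero, 0, by simp⟩
  | add y z _ _ hy hz =>
    obtain ⟨q, hq, m, h1⟩ := hy
    obtain ⟨q', hq', m', h2⟩ := hz
    obtain ⟨n, p, hp, hp1, hp2⟩ := P1.IsRat_frac hK q
    obtain ⟨n', p', hp', hp1', hp2'⟩ := P1.IsRat_frac hK q'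
    refine ⟨(p * q) * (p' * q'), mul_ne_zero (mul_ne_zero hp hq) (mul_ne_zero hp' hq'),
      max (m + n + n') (m' + n + n'), ?_⟩
    rw [smul_add]
    refine add_mem ?_ ?_
    · have e : ((p * q) * (p' * q')) • y = (p * (p' * q')) • q • y := by
        rw [smul_smul]; congr 1; ring
      rw [e]
      have := P1.polyLE_smul hE.toFam (P1.polyLE_mul hp1 hp2') h1
      exact P1.mono_le hE.mono (by omega) this
    · have e : ((p * q) * (p' * q')) • z = ((p * q) * p') • q' • z := by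
        rw [smul_smul]; congr 1; ring
      rw [e]
      have := P1.polyLE_smul hE.toFam (P1.polyLE_mul hp2 hp1') h2
      exact P1.mono_le hE.mono (by omega) this
  | smul c y _ hy =>
    obtain ⟨q, hq, m, h1⟩ := hy
    obtain ⟨n, p, hp, hp1, hp2⟩ := P1.IsRat_frac hK c
    refine ⟨p * q, mul_ne_zero hp hq, m + n, ?_⟩
    have e : (p * q) • c • y = (p * c) • q • y := by
      rw [smul_smul, smul_smul]; congr 1; ring
    rw [e]
    exact P1.polyLE_smul hE.toFam hp2 h1

theorem spanK_interU [IsScalarTower k K V] (hK : IsRat k u v) (hE : IsLat u v E)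
    (U : Submodule K V) : spanK K (interU E U) = spanK K E ⊓ U := by
  apply le_antisymm
  · refine le_inf (Submodule.span_mono (Set.iUnion_mono fun m => ?_)) ?_
    · intro x hx; exact hx.1
    · unfold spanK
      rw [Submodule.span_le]
      rintro x ⟨_, ⟨m, rfl⟩, hx⟩
      exact hx.2
  · rintro x ⟨hx, hxU⟩
    obtain ⟨q, hq, m, h⟩ := hE.exists_mul_mem hK hx
    have h1 : q • x ∈ spanK K (interU E U) :=
      Submodule.subset_span (Set.mem_iUnion.2 ⟨m, h, U.smul_mem q hxU⟩)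
    have := Submodule.smul_mem _ q⁻¹ h1
    rwa [smul_smul, inv_mul_cancel₀ hq, one_smul] at this

theorem spanK_quotU [IsScalarTower k K V] (E : ℤ → Submodule k V)
    (U : Submodule K V) : spanK K (quotU E U) = (spanK K E).map U.mkQ := by
  unfold spanK
  rw [Submodule.map_span, Set.image_iUnion]
  congr 1

theorem IsLat.spanK_finite [IsScalarTower k K V] (hE : IsLat u v E) :
    Module.Finite K (spanK K E) := P1.spanK_finite hE

/-- additivity of the rank (needs `K = k(u,v)`!) -/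
theorem rk_add [IsScalarTower k K V] (hK : IsRat k u v) (hE : IsLat u v E) (U : Submodule K V) :
    rk K E = rk K (interU E U) + rk K (quotU E U) := by
  unfold rk
  have := hE.spanK_finite
  rw [spanK_interU hK hE, spanK_quotU]
  have h1 := LinearMap.finrank_range_add_finrank_ker (U.mkQ.domRestrict (spanK K E))
  rw [LinearMap.range_domRestrict] at h1
  have h3 : finrank K (LinearMap.ker (U.mkQ.domRestrict (spanK K E))) =
      finrank K (spanK K E ⊓ U : Submodule K V) := by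
    have h4 : (LinearMap.ker (U.mkQ.domRestrict (spanK K E))).map (spanK K E).subtype =
        spanK K E ⊓ U := by
      ext x
      constructor
      · rintro ⟨⟨y, hy⟩, hy', rfl⟩
        refine ⟨hy, ?_⟩
        simpa using hy'
      · rintro ⟨hx, hxU⟩
        refine ⟨⟨x, hx⟩, ?_, rfl⟩
        simpa using hxU
    rw [← h4]
    exact (LinearEquiv.finrank_eq
      (Submodule.equivMapOfInjective _ (Submodule.injective_subtype _) _))
  rw [h3] at h1
  omega

theorem hb_add [IsScalarTower k K V] [Infinite k] (hK : IsRat k u v) (hE : IsLat u v E)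
    (U : Submodule K V) : hb E = hb (interU E U) + hb (quotU E U) :=
  (hasHP_unique (hE.hasHP hK)
    (HasHP.add_of hE U ((hE.interU U).hasHP hK) ((hE.quotU U).hasHP hK))).2.1

theorem hc_add [IsScalarTower k K V] [Infinite k] (hK : IsRat k u v) (hE : IsLat u v E)
    (U : Submodule K V) : hc E = hc (interU E U) + hc (quotU E U) :=
  (hasHP_unique (hE.hasHP hK)
    (HasHP.add_of hE U ((hE.interU U).hasHP hK) ((hE.quotU U).hasHP hK))).2.2

/-- sublattice of the same rank -/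
theorem HasHP.mono {n : ℕ} {b b' c c' : ℚ} (hE : ∀ m, Module.Finite k (E m))
    (h' : HasHP E' n b' c') (h : HasHP E n b c)
    (hle : ∃ m₀ : ℤ, ∀ m ≥ m₀, E' m ≤ E m) : b' ≤ b ∧ (b' = b → c' ≤ c) := by
  obtain ⟨M, hM⟩ := h
  obtain ⟨M', hM'⟩ := h'
  obtain ⟨m₀, hm₀⟩ := hle
  have key : ∀ m ≥ max (max M M') m₀, 0 ≤ (0 : ℚ) * (m : ℚ) ^ 2 + (b - b') * m + (c - c') := by
    intro m hm
    have h1 := hM m ((le_max_left _ _).trans ((le_max_left _ _).trans hm))
    have h2 := hM' m ((le_max_right _ _).trans ((le_max_left _ _).trans hm))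
    have := hE m
    have h3 : (finrank k (E' m) : ℚ) ≤ finrank k (E m) := by
      exact_mod_cast Submodule.finrank_mono (hm₀ m ((le_max_right _ _).trans hm))
    rw [h1, h2] at h3
    linarith
  have := P1.quad_nonneg key
  refine ⟨by linarith [this.2.1 rfl], fun hbb => ?_⟩
  linarith [this.2.2 rfl (by linarith)]

/-- comparison for families eventually contained in each other, arbitrary ranks -/
theorem HasHP.mono' {n n' : ℕ} {b b' c c' : ℚ} (hE : ∀ m, Module.Finite k (E m))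
    (h' : HasHP E' n' b' c') (h : HasHP E n b c)
    (hle : ∃ m₀ : ℤ, ∀ m ≥ m₀, E' m ≤ E m) : n' ≤ n := by
  obtain ⟨M, hM⟩ := h
  obtain ⟨M', hM'⟩ := h'
  obtain ⟨m₀, hm₀⟩ := hle
  have key : ∀ m ≥ max (max M M') m₀,
      0 ≤ ((n : ℚ) / 2 - n' / 2) * (m : ℚ) ^ 2 + (b - b') * m + (c - c') := by
    intro m hm
    have h1 := hM m ((le_max_left _ _).trans ((le_max_left _ _).trans hm))
    have h2 := hM' m ((le_max_right _ _).trans ((le_max_left _ _).trans hm))
    have := hE m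
    have h3 : (finrank k (E' m) : ℚ) ≤ finrank k (E m) := by
      exact_mod_cast Submodule.finrank_mono (hm₀ m ((le_max_right _ _).trans hm))
    rw [h1, h2] at h3
    linarith
  have := (P1.quad_nonneg key).1
  have h3 : (n' : ℚ) ≤ n := by linarith
  exact_mod_cast h3

/-- sublattice: smaller rank -/
theorem rk_le_of_le [IsScalarTower k K V] (hE : IsLat u v E) (hE' : IsLat u v E')
    (hle : ∃ m₀ : ℤ, ∀ m ≥ m₀, E' m ≤ E m) : rk K E' ≤ rk K E := by
  obtain ⟨m₀, hm₀⟩ := hle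
  have := hE.spanK_finite
  apply Submodule.finrank_mono
  unfold spanK
  rw [Submodule.span_le]
  rintro x ⟨_, ⟨m, rfl⟩, hx⟩
  apply Submodule.subset_span
  exact Set.mem_iUnion.2 ⟨max m m₀, hm₀ _ (le_max_right _ _)
    (P1.mono_le hE'.mono (le_max_left _ _) hx)⟩

/-- additivity (*) -/
theorem jinv_add (n₁ n₂ : ℕ) (b₁ b₂ c₁ c₂ : ℚ) (h₁ : 0 < n₁) (h₂ : 0 < n₂) :
    Jinv (n₁ + n₂) (b₁ + b₂) (c₁ + c₂) = Jinv n₁ b₁ c₁ + Jinv n₂ b₂ c₂
      + n₁ / 2 * (b₁ / n₁ - (b₁ + b₂) / (n₁ + n₂)) ^ 2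
      + n₂ / 2 * (b₂ / n₂ - (b₁ + b₂) / (n₁ + n₂)) ^ 2 := by
  have hn₁ : (n₁ : ℚ) ≠ 0 := by positivity
  have hn₂ : (n₂ : ℚ) ≠ 0 := by positivity
  have hn : (n₁ : ℚ) + n₂ ≠ 0 := by positivity
  unfold Jinv
  push_cast
  field_simp
  ring

end Crest.Agent.R169
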