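import Crest.Agent.R169.A2a
import Crest.Agent.R169.AAbel
import Crest.Agent.R169.E4Num
import Crest.Agent.R169.Bridge
import Crest.Agent.R169.Hilb

/-!
# Row 169, Part A, step A2 (owner helper592), second half: the lattices `N^(d)`
-/

set_option autoImplicit false
set_option linter.dupNamespace false

namespace Crest.Agent.R169

open Module

namespace A2

variable {k Q : Type} [Field k] [Field Q] [Algebra k Q] (D : TData k Q)

/-! ### the standard lattice -/

theorem poly_neg {m : ℤ} (hm : m < 0) : polyLE k D.u D.v m = ⊥ := by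
  rw [eq_bot_iff]
  unfold polyLE
  rw [Submodule.span_le]
  rintro x ⟨i, j, hij, rfl⟩
  omega

theorem poly_gen {m : ℤ} (hm : 0 ≤ m) (f : Q) (hf : f ∈ polyLE k D.u D.v (m + 1)) :
    ∃ a ∈ polyLE k D.u D.v m, ∃ b ∈ polyLE k D.u D.v m, ∃ c ∈ polyLE k D.u D.v m,
      f = a + D.u * b + D.v * c := by
  unfold polyLE at hf
  induction hf using Submodule.span_induction with
  | mem x hx =>
    obtain ⟨i, j, hij, rfl⟩ := hx
    by_cases h : (i : ℤ) + j ≤ m
    · exact ⟨_, Submodule.subset_span ⟨i, j, h, rfl⟩, 0, Submodule.zero_mem _, 0,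
        Submodule.zero_mem _, by simp⟩
    · rcases Nat.eq_zero_or_pos i with hi | hi
      · subst hi
        obtain ⟨j', rfl⟩ : ∃ j', j = j' + 1 := ⟨j - 1, by omega⟩
        refine ⟨0, Submodule.zero_mem _, 0, Submodule.zero_mem _, D.u ^ 0 * D.v ^ j',
          Submodule.subset_span ⟨0, j', by omega, rfl⟩, by simp [pow_succ']⟩
      · obtain ⟨i', rfl⟩ : ∃ i', i = i' + 1 := ⟨i - 1, by omega⟩
        refine ⟨0, Submodule.zero_mem _, D.u ^ i' * D.v ^ j,
          Submodule.subset_span ⟨i', j, by omega, rfl⟩, 0, Submodule.zero_mem _, ?_⟩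
        rw [pow_succ']; ring
  | zero => exact ⟨0, Submodule.zero_mem _, 0, Submodule.zero_mem _, 0, Submodule.zero_mem _, by simp⟩
  | add x y _ _ hx hy =>
    obtain ⟨a, ha, b, hb, c, hc, rfl⟩ := hx
    obtain ⟨a', ha', b', hb', c', hc', rfl⟩ := hy
    exact ⟨a + a', Submodule.add_mem _ ha ha', b + b', Submodule.add_mem _ hb hb', c + c',
      Submodule.add_mem _ hc hc', by ring⟩
  | smul t x _ hx =>
    obtain ⟨a, ha, b, hb, c, hc, rfl⟩ := hx
    exact ⟨t • a, Submodule.smul_mem _ _ ha, t • b, Submodule.smul_mem _ _ hb, t • c,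
      Submodule.smul_mem _ _ hc, by simp only [smul_add, mul_smul_comm]⟩

/-- the standard lattice `A^n` -/
noncomputable def StdL (n : ℕ) : ℤ → Submodule k (Fin n → Q) :=
  fun m => Submodule.pi Set.univ (fun _ => polyLE k D.u D.v m)

theorem mem_StdL {n : ℕ} {m : ℤ} {f : Fin n → Q} :
    f ∈ StdL D n m ↔ ∀ i, f i ∈ polyLE k D.u D.v m := by
  simp [StdL, Submodule.mem_pi]

/-- inclusion `(A_j)^n → Q^n` -/
noncomputable def polyIncl (n j : ℕ) : (Fin n → polyLE k D.u D.v (j : ℤ)) →ₗ[k] (Fin n → Q) where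
  toFun := fun f i => (f i : Q)
  map_add' := fun _ _ => rfl
  map_smul' := fun _ _ => rfl

theorem polyIncl_inj (n j : ℕ) : Function.Injective (polyIncl D n j) := by
  intro f g h
  funext i
  exact Subtype.ext (congrFun h i)

theorem range_polyIncl (n j : ℕ) : LinearMap.range (polyIncl D n j) = StdL D n (j : ℤ) := by
  ext f
  rw [mem_StdL]
  constructor
  · rintro ⟨g, rfl⟩ i
    exact (g i).2
  · intro h
    exact ⟨fun i => ⟨f i, h i⟩, rfl⟩

theorem StdL_fin (n : ℕ) (m : ℤ) : Module.Finite k (StdL D n m) := by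
  rcases lt_or_ge m 0 with hm | hm
  · have : StdL D n m = ⊥ := by
      rw [eq_bot_iff]
      intro f hf
      rw [mem_StdL, poly_neg D hm] at hf
      rw [Submodule.mem_bot]
      funext i
      exact (Submodule.mem_bot k).mp (hf i)
    rw [this]
    infer_instance
  · obtain ⟨j, rfl⟩ := Int.eq_ofNat_of_zero_le hm
    rw [← range_polyIncl]
    have := poly_finite D j
    infer_instance

theorem StdL_lat (n : ℕ) : IsLat (K := Q) D.u D.v (StdL D n) where
  mono := by
    intro m f hf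
    rw [mem_StdL] at hf ⊢
    exact fun i => poly_mono D (by omega) (hf i)
  umul := by
    intro m f hf
    rw [mem_StdL] at hf ⊢
    exact fun i => u_mem_poly D (hf i)
  vmul := by
    intro m f hf
    rw [mem_StdL] at hf ⊢
    exact fun i => v_mem_poly D (hf i)
  fin := StdL_fin D n
  bot := by
    refine ⟨-1, fun m hm => ?_⟩
    rw [eq_bot_iff]
    intro f hf
    rw [mem_StdL, poly_neg D (by omega)] at hf
    rw [Submodule.mem_bot]
    funext i
    exact (Submodule.mem_bot k).mp (hf i)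
  gen := by
    refine ⟨0, fun m hm f hf => ?_⟩
    rw [mem_StdL] at hf
    choose a ha b hb c hc h using fun i => poly_gen D hm (f i) (hf i)
    refine ⟨a, (mem_StdL D).mpr ha, b, (mem_StdL D).mpr hb, c, (mem_StdL D).mpr hc, ?_⟩
    funext i
    simpa using h i

theorem finrank_StdL (hA : ∀ j : ℕ, finrank k (polyLE k D.u D.v (j : ℤ)) = dimA (j : ℤ))
    (n j : ℕ) : finrank k (StdL D n (j : ℤ)) = n * dimA (j : ℤ) := by
  rw [← range_polyIncl, LinearMap.finrank_range_of_inj (polyIncl_inj D n j)]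
  have := poly_finite D j
  rw [Module.finrank_pi_fintype]
  simp [hA j]

/-! ### the lattices `N^(d)` -/

variable {M : Type} [AddCommGroup M] [Module D.Ttot M] [Module k M] [IsScalarTower k D.Ttot M]
variable {n : ℕ}

/-- the lattice `N^(d)` -/
noncomputable def NLat (w : Fin n → M) (FM : ℤ → Submodule k M) (d : ℤ) :
    ℤ → Submodule k (Fin n → Q)
  | Int.ofNat j => (NL D w FM d j).map (polyIncl D n j)
  | Int.negSucc _ => ⊥

theorem NLat_nat (w : Fin n → M) (FM : ℤ → Submodule k M) (d : ℤ) (j : ℕ) :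
    NLat D w FM d (j : ℤ) = (NL D w FM d j).map (polyIncl D n j) := rfl

theorem NLat_neg (w : Fin n → M) (FM : ℤ → Submodule k M) (d : ℤ) {m : ℤ} (hm : m < 0) :
    NLat D w FM d m = ⊥ := by
  cases m with
  | ofNat j => exact absurd hm (by simp)
  | negSucc j => rfl

theorem finrank_NLat (w : Fin n → M) (FM : ℤ → Submodule k M) (d : ℤ) (j : ℕ) :
    finrank k (NLat D w FM d (j : ℤ)) = finrank k (NL D w FM d j) := by
  rw [NLat_nat]
  exact (LinearEquiv.finrank_eq
    (Submodule.equivMapOfInjective _ (polyIncl_inj D n j) (NL D w FM d j))).symm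

theorem NLat_le (w : Fin n → M) (FM : ℤ → Submodule k M) (d m : ℤ) :
    NLat D w FM d m ≤ StdL D n m := by
  rcases lt_or_ge m 0 with hm | hm
  · rw [NLat_neg D w FM d hm]; exact bot_le
  · obtain ⟨j, rfl⟩ := Int.eq_ofNat_of_zero_le hm
    rw [NLat_nat, ← range_polyIncl]
    exact LinearMap.map_le_range

/-- multiplication step -/
theorem NL_step {FM : ℤ → Submodule k M} (h : IsGoodFilt D FM) (d : ℤ) (j : ℕ)
    (g : Q) (hg : g ∈ D.F ((1 : ℕ) : ℤ)) (hgI : D.mono 1 g hg ∈ D.mI)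
    (y : M) (hy : y ∈ FM ((j : ℤ) + d) ⊔ D.mp M ((j : ℤ) + 1)) :
    D.mono 1 g hg • y ∈ FM (((j + 1 : ℕ) : ℤ) + d) ⊔ D.mp M (((j + 1 : ℕ) : ℤ) + 1) := by
  obtain ⟨a, ha, b, hb, rfl⟩ := Submodule.mem_sup.mp hy
  rw [smul_add]
  refine Submodule.add_mem_sup ?_ ?_
  · have := h.act 1 g hg _ a ha
    have e : ((1 : ℕ) : ℤ) + ((j : ℤ) + d) = ((j + 1 : ℕ) : ℤ) + d := by push_cast; ring
    rwa [e] at this
  · have := smul_mem_mp D 1 _ (by simpa using hgI) _ b hb
    have e : ((1 : ℕ) : ℤ) + ((j : ℤ) + 1) = ((j + 1 : ℕ) : ℤ) + 1 := by push_cast; ring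
    rwa [e] at this

theorem NLat_fam {w : Fin n → M} {FM : ℤ → Submodule k M} (h : IsGoodFilt D FM) (d : ℤ) :
    IsFam (K := Q) D.u D.v (NLat D w FM d) where
  mono := by
    intro m f hf
    rcases lt_or_ge m 0 with hm | hm
    · rw [NLat_neg D w FM d hm, Submodule.mem_bot] at hf
      rw [hf]; exact Submodule.zero_mem _
    · obtain ⟨j, rfl⟩ := Int.eq_ofNat_of_zero_le hm
      obtain ⟨f, hf, rfl⟩ := hf
      have h1 := NL_step D h d j 1 (by simpa using D.one_mem) (x0_mem D) _ hf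
      change D.x0 • frm D w j f ∈ _ at h1
      rw [frm_x0] at h1
      exact ⟨_, h1, rfl⟩
  umul := by
    intro m f hf
    rcases lt_or_ge m 0 with hm | hm
    · rw [NLat_neg D w FM d hm, Submodule.mem_bot] at hf
      rw [hf, smul_zero]; exact Submodule.zero_mem _
    · obtain ⟨j, rfl⟩ := Int.eq_ofNat_of_zero_le hm
      obtain ⟨f, hf, rfl⟩ := hf
      have h1 := NL_step D h d j D.u (by simpa using D.u_mem) (x1_mem D) _ hf
      change D.x1 • frm D w j f ∈ _ at h1
      rw [frm_x1] at h1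
      exact ⟨_, h1, rfl⟩
  vmul := by
    intro m f hf
    rcases lt_or_ge m 0 with hm | hm
    · rw [NLat_neg D w FM d hm, Submodule.mem_bot] at hf
      rw [hf, smul_zero]; exact Submodule.zero_mem _
    · obtain ⟨j, rfl⟩ := Int.eq_ofNat_of_zero_le hm
      obtain ⟨f, hf, rfl⟩ := hf
      have h1 := NL_step D h d j D.v (by simpa using D.v_mem) (x2_mem D) _ hf
      change D.x2 • frm D w j f ∈ _ at h1
      rw [frm_x2] at h1
      exact ⟨_, h1, rfl⟩

theorem NLat_lat {w : Fin n → M} {FM : ℤ → Submodule k M} (h : IsGoodFilt D FM) (d : ℤ) :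
    IsLat (K := Q) D.u D.v (NLat D w FM d) :=
  (StdL_lat D n).of_le (NLat_fam D h d) (NLat_le D w FM d)

/-! ### ranks -/

/-- `u, v` as elements of `K0` -/
noncomputable abbrev u0 : D.K0 := ⟨D.u, IntermediateField.subset_adjoin _ _ (by simp)⟩
noncomputable abbrev v0 : D.K0 := ⟨D.v, IntermediateField.subset_adjoin _ _ (by simp)⟩

theorem StdL_lat0 (n : ℕ) : IsLat (u0 D) (v0 D) (StdL D n) :=
  IsLat.restrict (L := D.K0) (Q := Q) (V := Fin n → Q) (StdL_lat D n)

theorem NLat_lat0 {w : Fin n → M} {FM : ℤ → Submodule k M} (h : IsGoodFilt D FM) (d : ℤ) :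
    IsLat (u0 D) (v0 D) (NLat D w FM d) :=
  IsLat.restrict (L := D.K0) (Q := Q) (V := Fin n → Q) (NLat_lat D h d)

theorem poly_mem_K0 {m : ℤ} {f : Q} (hf : f ∈ polyLE k D.u D.v m) : f ∈ D.K0 := by
  unfold polyLE at hf
  induction hf using Submodule.span_induction with
  | mem x hx =>
    obtain ⟨i, j, _, rfl⟩ := hx
    exact mul_mem (pow_mem (IntermediateField.subset_adjoin _ _ (by simp)) _)
      (pow_mem (IntermediateField.subset_adjoin _ _ (by simp)) _)
  | zero => exact zero_mem _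
  | add x y _ _ hx hy => exact add_mem hx hy
  | smul c x _ hx => exact D.K0.toSubalgebra.smul_mem hx c

theorem spanK_StdL (n : ℕ) : spanK D.K0 (StdL D n) =
    Submodule.span D.K0 (Set.range (fun i : Fin n => (Pi.single i (1 : Q) : Fin n → Q))) := by
  apply le_antisymm
  · unfold spanK
    rw [Submodule.span_le]
    intro f hf
    obtain ⟨m, hm⟩ := Set.mem_iUnion.mp hf
    rw [SetLike.mem_coe, mem_StdL] at hm
    have e : f = ∑ i, (⟨f i, poly_mem_K0 D (hm i)⟩ : D.K0) • (Pi.single i (1 : Q) : Fin n → Q) := by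
      funext j
      rw [Finset.sum_apply]
      have : ∀ i : Fin n, ((⟨f i, poly_mem_K0 D (hm i)⟩ : D.K0) •
          (Pi.single i (1 : Q) : Fin n → Q)) j = if i = j then f i else 0 := by
        intro i
        rw [Pi.smul_apply, Pi.single_apply]
        change (f i) * _ = _
        by_cases h : i = j
        · simp [h]
        · rw [if_neg (fun h' => h h'.symm), if_neg h, mul_zero]
      simp only [this]
      simp
    rw [SetLike.mem_coe, e]
    exact Submodule.sum_mem _ fun i _ => Submodule.smul_mem _ _ (Submodule.subset_span ⟨i, rfl⟩)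
  · rw [Submodule.span_le]
    rintro _ ⟨i, rfl⟩
    refine Submodule.subset_span (Set.mem_iUnion.mpr ⟨0, ?_⟩)
    rw [SetLike.mem_coe, mem_StdL]
    intro j
    change (Pi.single i (1 : Q) : Fin n → Q) j ∈ _
    rw [Pi.single_apply]
    split_ifs
    · exact Submodule.subset_span ⟨0, 0, by simp, by simp⟩
    · exact Submodule.zero_mem _

theorem finite_spanK_StdL (n : ℕ) : Module.Finite D.K0 (spanK D.K0 (StdL D n)) := by
  rw [spanK_StdL]
  exact FiniteDimensional.span_of_finite _ (Set.finite_range _)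

theorem rk_StdL (n : ℕ) : rk D.K0 (StdL D n) = n := by
  unfold rk
  rw [spanK_StdL]
  have hli : LinearIndependent D.K0 (fun i : Fin n => (Pi.single i (1 : Q) : Fin n → Q)) := by
    have h := (Pi.basisFun Q (Fin n)).linearIndependent
    have h2 := h.restrict_scalars (R := D.K0) (by
      intro a b hab
      apply Subtype.ext
      simpa [Algebra.smul_def] using hab)
    convert h2 using 1
    funext i
    simp
  rw [finrank_span_eq_card hli, Fintype.card_fin]

/-- a sublattice of `A^n` of rank `r` has `dim ≤ r dim A_m` -/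
theorem finrank_sub_le (hA : ∀ j : ℕ, finrank k (polyLE k D.u D.v (j : ℤ)) = dimA (j : ℤ))
    (E : ℤ → Submodule k (Fin n → Q))
    (hE : ∀ m, E m ≤ StdL D n m) (j : ℕ) :
    finrank k (E (j : ℤ)) ≤ rk D.K0 E * dimA (j : ℤ) := by
  set U : Submodule D.K0 (Fin n → Q) := spanK D.K0 E with hU
  have hS := StdL_lat0 D n
  have h1 := finrank_add hS U (j : ℤ)
  have h2 := rk_add D.isRat hS U
  have hq := hS.quotU U
  have hgen : ∀ m ≥ (0 : ℤ), ∀ e ∈ quotU (StdL D n) U (m + 1), ∃ x ∈ quotU (StdL D n) U m,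
      ∃ y ∈ quotU (StdL D n) U m, ∃ z ∈ quotU (StdL D n) U m,
        e = x + (u0 D) • y + (v0 D) • z := by
    intro m hm e he
    obtain ⟨f, hf, rfl⟩ := he
    rw [SetLike.mem_coe, mem_StdL] at hf
    choose a ha b hb c hc hh using fun i => poly_gen D hm (f i) (hf i)
    refine ⟨U.mkQ a, ⟨a, (mem_StdL D).mpr ha, rfl⟩, U.mkQ b, ⟨b, (mem_StdL D).mpr hb, rfl⟩,
      U.mkQ c, ⟨c, (mem_StdL D).mpr hc, rfl⟩, ?_⟩
    rw [← map_smul, ← map_smul, ← map_add, ← map_add]
    change U.mkQ f = _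
    congr 1
    funext i
    exact hh i
  have h3 := E4.le_finrank_of_gen D.isRat.indep hq hgen (j : ℤ)
  have h4 : rk D.K0 (interU (StdL D n) U) ≤ rk D.K0 E := by
    have hle : spanK D.K0 (interU (StdL D n) U) ≤ U := by
      unfold spanK
      rw [Submodule.span_le]
      intro x hx
      obtain ⟨m, hm⟩ := Set.mem_iUnion.mp hx
      exact hm.2
    have hfin : Module.Finite D.K0 U := by
      have h0 := finite_spanK_StdL D n
      refine Submodule.finiteDimensional_of_le (S₂ := spanK D.K0 (StdL D n)) ?_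
      rw [hU]
      unfold spanK
      exact Submodule.span_mono (Set.iUnion_mono fun m => hE m)
    exact Submodule.finrank_mono hle
  have h5 : finrank k (E (j : ℤ)) ≤ finrank k (interU (StdL D n) U (j : ℤ)) := by
    have hfin : Module.Finite k (interU (StdL D n) U (j : ℤ)) := by
      have := StdL_fin D n (j : ℤ)
      exact Submodule.finiteDimensional_of_le (inf_le_left : _ ⊓ _ ≤ StdL D n (j : ℤ))
    refine Submodule.finrank_mono ?_
    intro x hx
    refine ⟨hE _ hx, ?_⟩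
    change x ∈ U
    rw [hU]
    exact Submodule.subset_span (Set.mem_iUnion.mpr ⟨_, hx⟩)
  rw [finrank_StdL D hA n j] at h1
  rw [rk_StdL] at h2
  rw [sub_zero] at h3
  nlinarith [h1, h2, h3, h4, h5, Nat.zero_le (dimA (j : ℤ)),
    Nat.mul_le_mul_right (dimA (j : ℤ)) h4]

theorem dimA_rat (j : ℕ) : (dimA (j : ℤ) : ℚ) = 1 / 2 * (j : ℚ) ^ 2 + 3 / 2 * j + 1 := by
  have h := two_dimA j
  have h' : (2 : ℚ) * dimA (j : ℤ) = (j + 1) * (j + 2) := by exact_mod_cast h
  linarith

/-- the three numerical invariants of `N^(d)` -/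
theorem NLat_hp [Infinite k]
    (hA : ∀ j : ℕ, finrank k (polyLE k D.u D.v (j : ℤ)) = dimA (j : ℤ))
    {w : Fin n → M} {FM : ℤ → Submodule k M} (h : IsGoodFilt D FM) (d : ℤ) :
    ∃ (r : ℕ) (β γ : ℚ), HasHP (NLat D w FM d) r β γ ∧ r ≤ n ∧ β ≤ 3 / 2 * r := by
  obtain ⟨β, γ, hHP, -, -⟩ := IsLat.exists_hasHP D.isRat (NLat_lat0 D (w := w) h d)
  refine ⟨rk D.K0 (NLat D w FM d), β, γ, hHP, ?_, ?_⟩
  · have h1 := rk_le_of_le (StdL_lat0 D n) (NLat_lat0 D (w := w) h d) ⟨0, fun m _ => NLat_le D w FM d m⟩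
    rwa [rk_StdL] at h1
  · obtain ⟨m₀, hm₀⟩ := hHP
    have key : ∀ m : ℤ, max m₀ 0 ≤ m →
        (rk D.K0 (NLat D w FM d) : ℚ) / 2 * (m : ℚ) ^ 2 + β * m + γ ≤
        (rk D.K0 (NLat D w FM d) : ℚ) / 2 * (m : ℚ) ^ 2 +
          (3 / 2 * rk D.K0 (NLat D w FM d)) * m + rk D.K0 (NLat D w FM d) := by
      intro m hm
      have h0 : 0 ≤ m := le_trans (le_max_right _ _) hm
      obtain ⟨j, rfl⟩ := Int.eq_ofNat_of_zero_le h0
      have h1 := finrank_sub_le D hA (NLat D w FM d) (NLat_le D w FM d) j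
      have h2 := hm₀ j (le_trans (le_max_left _ _) hm)
      have h3 : (finrank k (NLat D w FM d (j : ℤ)) : ℚ) ≤
        rk D.K0 (NLat D w FM d) * dimA (j : ℤ) := by exact_mod_cast h1
      rw [h2, dimA_rat] at h3
      push_cast
      push_cast at h3
      linarith
    exact (E4.quad_le key).2 rfl

/-- (A2) the numerical inequality. -/
theorem A2 [Infinite k] (hG : GrFree D M n) (FM : ℤ → Submodule k M)
    (h : IsGoodFilt D FM) :
    ∃ b c : ℚ, HasGrHP FM n b c ∧ 0 ≤ Jinv n b c := by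
  obtain ⟨⟨w, hw⟩, hA⟩ := exists_frame D hG
  obtain ⟨c, hc⟩ := h.bdd
  choose r β γ hHP hrn hβ using fun e : ℕ => NLat_hp D hA (w := w) h ((e : ℤ) - c)
  -- e = 0
  have h0 : r 0 = n ∧ β 0 = 3 / 2 * n ∧ γ 0 = n := by
    have hstd : HasHP (NLat D w FM (((0 : ℕ) : ℤ) - c)) n (3 / 2 * n) n := by
      refine ⟨0, fun m hm => ?_⟩
      obtain ⟨j, rfl⟩ := Int.eq_ofNat_of_zero_le hm
      have e1 : (finrank k (NLat D w FM (((0 : ℕ) : ℤ) - c) (j : ℤ)) : ℚ) = n * dimA (j : ℤ) := by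
        rw [finrank_NLat, NL_top D hc _ (by simp), finrank_top]
        have := poly_finite D j
        rw [Module.finrank_pi_fintype]
        simp [hA j]
      rw [e1, dimA_rat]
      push_cast
      ring
    exact hasHP_unique (hHP 0) hstd
  have hM : r (2 * c + 1) = 0 ∧ β (2 * c + 1) = 0 ∧ γ (2 * c + 1) = 0 := by
    have hstd : HasHP (NLat D w FM (((2 * c + 1 : ℕ) : ℤ) - c)) 0 0 0 := by
      refine ⟨0, fun m hm => ?_⟩
      obtain ⟨j, rfl⟩ := Int.eq_ofNat_of_zero_le hm
      rw [finrank_NLat, NL_bot D hw hc _ (by push_cast; omega)]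
      simp
    exact hasHP_unique (hHP (2 * c + 1)) hstd
  choose m₁ hm₁ using hHP
  -- a common bound
  obtain ⟨B, hB⟩ : ∃ B : ℤ, ∀ e ∈ Finset.range (2 * c + 2), m₁ e ≤ B := by
    refine ⟨((Finset.range (2 * c + 2)).sup' ⟨0, by simp⟩ m₁), fun e he => ?_⟩
    exact Finset.le_sup' m₁ he
  have hh : ∃ l₀ : ℤ, ∀ l ≥ l₀, (grdim FM l : ℚ) = ∑ e ∈ Finset.range (2 * c + 1),
      (((r e : ℚ) / 2 * ((l : ℚ) + (c : ℤ) - e) ^ 2 + β e * ((l : ℚ) + (c : ℤ) - e) + γ e)
        - ((r (e + 1) : ℚ) / 2 * ((l : ℚ) + (c : ℤ) - e) ^ 2 + β (e + 1) * ((l : ℚ) + (c : ℤ) - e)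
          + γ (e + 1))) := by
    refine ⟨max (B + 2 * c) (2 * c), fun l hl => ?_⟩
    have hl0 : 0 ≤ l := by have := le_trans (le_max_right _ _) hl; omega
    obtain ⟨l, rfl⟩ := Int.eq_ofNat_of_zero_le hl0
    have hlc : c ≤ l := by have := le_trans (le_max_right _ _) hl; omega
    have hlB : B + 2 * c ≤ l := le_trans (le_max_left _ _) hl
    have h1 := grdim_formula' D hw h hc l hlc
    have h2 : (grdim FM (l : ℤ) : ℚ) = ∑ e ∈ Finset.range (2 * c + 1),
      ((finrank k (NL D w FM ((e : ℤ) - c) (l + c - e)) : ℚ) -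
        finrank k (NL D w FM ((e : ℤ) + 1 - c) (l + c - e))) := by exact_mod_cast h1
    rw [h2]
    refine Finset.sum_congr rfl fun e he => ?_
    rw [Finset.mem_range] at he
    have e1 : ((l + c - e : ℕ) : ℤ) = (l : ℤ) + c - e := by omega
    have e2 : ((l + c - e : ℕ) : ℚ) = (l : ℚ) + c - e := by
      have := congrArg (fun z : ℤ => (z : ℚ)) e1
      push_cast at this
      exact this
    have h3 := hm₁ e ((l + c - e : ℕ) : ℤ) (by
      have := hB e (Finset.mem_range.mpr (by omega)); omega)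
    have h4 := hm₁ (e + 1) ((l + c - e : ℕ) : ℤ) (by
      have := hB (e + 1) (Finset.mem_range.mpr (by omega)); omega)
    rw [finrank_NLat] at h3 h4
    have e3 : (((e + 1 : ℕ) : ℤ) - c) = (e : ℤ) + 1 - c := by push_cast; ring
    rw [e3] at h4
    rw [h3, h4, Int.cast_natCast, e2]
    push_cast
    ring
  obtain ⟨b, c', hb, hJ⟩ := AAbel.jinv_nonneg_of_abel hG.1 (2 * c) r β γ hrn hβ h0 hM (c : ℤ)
    (fun l => (grdim FM l : ℚ)) hh
  exact ⟨b, c', hb, hJ⟩

end A2

end Crest.Agent.R169
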