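import Crest.Agent.R169.ADefs

/-!
# Row 169, Part A3: a good filtration with minimal `J` is near-semistable (helper914)
-/

set_option autoImplicit false
set_option linter.unusedSectionVars false

namespace Crest.Agent.R169

open Module

namespace A3

section LA

theorem finrank_map_add {F X Y : Type*} [Field F] [AddCommGroup X] [Module F X] [AddCommGroup Y]
    [Module F Y] (S : Submodule F X) [FiniteDimensional F S] (f : X →ₗ[F] Y) :
    finrank F (S.map f) + finrank F ↥(S ⊓ LinearMap.ker f) = finrank F S := by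
  have h := LinearMap.finrank_range_add_finrank_ker (f.domRestrict S)
  have h1 : LinearMap.range (f.domRestrict S) = S.map f := by
    rw [LinearMap.domRestrict, LinearMap.range_comp, Submodule.range_subtype]
  have h2 : LinearMap.ker (f.domRestrict S) = (LinearMap.ker f).comap S.subtype := by
    rw [LinearMap.domRestrict, LinearMap.ker_comp]
  have h3 : finrank F ↥((LinearMap.ker f).comap S.subtype) = finrank F ↥(S ⊓ LinearMap.ker f) := by
    rw [← Submodule.map_comap_subtype S (LinearMap.ker f)]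
    exact (Submodule.finrank_map_subtype_eq S _).symm
  rw [h1, h2, h3] at h
  exact h

variable {F X Y : Type*} [Field F] [AddCommGroup X] [Module F X] [AddCommGroup Y] [Module F Y]

/-- `dim A/B` from a linear map on `A` with kernel `B`. -/
theorem quot_eq_range (A B : Submodule F X) (g : ↥A →ₗ[F] Y)
    (hg : ∀ a : A, g a = 0 ↔ (a : X) ∈ B) :
    finrank F (↥A ⧸ B.submoduleOf A) = finrank F (LinearMap.range g) := by
  have hk : B.submoduleOf A = LinearMap.ker g := by
    ext a
    rw [LinearMap.mem_ker, hg a]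
    rfl
  rw [hk]
  exact LinearEquiv.finrank_eq g.quotKerEquivRange

theorem quot_finite (A B : Submodule F X) (g : ↥A →ₗ[F] Y)
    (hg : ∀ a : A, g a = 0 ↔ (a : X) ∈ B) [FiniteDimensional F (LinearMap.range g)] :
    FiniteDimensional F (↥A ⧸ B.submoduleOf A) := by
  have hk : B.submoduleOf A = LinearMap.ker g := by
    ext a
    rw [LinearMap.mem_ker, hg a]
    rfl
  rw [hk]
  exact Module.Finite.equiv g.quotKerEquivRange.symm

/-- additivity of the codimension in a chain `B ≤ C ≤ A`. -/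
theorem quot_add (A B C : Submodule F X) (hBC : B ≤ C) (hCA : C ≤ A)
    [h1 : FiniteDimensional F (↥A ⧸ C.submoduleOf A)]
    [h2 : FiniteDimensional F (↥C ⧸ B.submoduleOf C)] :
    finrank F (↥A ⧸ B.submoduleOf A)
      = finrank F (↥A ⧸ C.submoduleOf A) + finrank F (↥C ⧸ B.submoduleOf C) := by
  -- the map `C → A / B`
  let ι : ↥C →ₗ[F] ↥A ⧸ B.submoduleOf A :=
    (B.submoduleOf A).mkQ.comp (Submodule.inclusion hCA)
  -- the map `A / B → A / C`
  let π : (↥A ⧸ B.submoduleOf A) →ₗ[F] ↥A ⧸ C.submoduleOf A :=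
    Submodule.mapQ _ _ LinearMap.id (by
      intro a ha
      exact hBC ha)
  have hι : ∀ c : C, ι c = 0 ↔ (c : X) ∈ B := by
    intro c
    change (B.submoduleOf A).mkQ (Submodule.inclusion hCA c) = 0 ↔ _
    rw [Submodule.mkQ_apply, Submodule.Quotient.mk_eq_zero]
    rfl
  have e1 := quot_eq_range C B ι hι
  have hker : LinearMap.ker π = LinearMap.range ι := by
    ext x
    obtain ⟨a, rfl⟩ := Submodule.mkQ_surjective _ x
    rw [LinearMap.mem_ker, LinearMap.mem_range]
    change (C.submoduleOf A).mkQ a = 0 ↔ _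
    rw [Submodule.mkQ_apply, Submodule.Quotient.mk_eq_zero]
    constructor
    · intro ha
      exact ⟨⟨a, ha⟩, rfl⟩
    · rintro ⟨c, hc⟩
      have hc' : (B.submoduleOf A).mkQ (Submodule.inclusion hCA c)
        = (B.submoduleOf A).mkQ a := hc
      rw [Submodule.mkQ_apply, Submodule.mkQ_apply, Submodule.Quotient.eq] at hc'
      have h3 : ((Submodule.inclusion hCA c : A) : X) - (a : X) ∈ B := hc'
      have h4 : (a : X) = (c : X) - ((c : X) - (a : X)) := by abel
      change (a : X) ∈ C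
      rw [h4]
      exact C.sub_mem c.2 (hBC h3)
  have hsurj : Function.Surjective π := by
    intro x
    obtain ⟨a, rfl⟩ := Submodule.mkQ_surjective _ x
    exact ⟨(B.submoduleOf A).mkQ a, rfl⟩
  have hrange : LinearMap.range π = ⊤ := LinearMap.range_eq_top.2 hsurj
  have hfr : FiniteDimensional F (LinearMap.range ι) := by
    have hk : B.submoduleOf C = LinearMap.ker ι := by
      ext a
      rw [LinearMap.mem_ker, hι a]
      rfl
    rw [hk] at h2
    exact Module.Finite.equiv ι.quotKerEquivRange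
  have hfk : FiniteDimensional F (LinearMap.ker π) := by rw [hker]; exact hfr
  have hfin : FiniteDimensional F (↥A ⧸ B.submoduleOf A) := by
    have hq : FiniteDimensional F ((↥A ⧸ B.submoduleOf A) ⧸ LinearMap.ker π) := by
      have : FiniteDimensional F (LinearMap.range π) := by
        rw [hrange]
        exact Module.Finite.equiv (Submodule.topEquiv).symm
      exact Module.Finite.equiv π.quotKerEquivRange.symm
    exact Module.Finite.of_submodule_quotient (LinearMap.ker π)
  have e2 := LinearMap.finrank_range_add_finrank_ker π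
  rw [hrange, hker, ← e1, finrank_top] at e2
  exact e2.symm

end LA

section

variable {k Q : Type} [Field k] [Field Q] [Algebra k Q] (D : TData k Q)
variable (M : Type) [AddCommGroup M] [Module D.Ttot M] [Module k M] [IsScalarTower k D.Ttot M]

theorem mp_anti {i j : ℤ} (h : i ≤ j) : D.mp M j ≤ D.mp M i := by
  intro x hx
  have h1 : D.mI ^ j.toNat ≤ D.mI ^ i.toNat := Ideal.pow_le_pow_right (by omega)
  exact Submodule.smul_mono_left h1 hx

variable {M}

/-- the modified filtration -/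
noncomputable def newF {R : ℕ} (FM : ℤ → Submodule k M)
    (σ : ∀ j : ℤ, ↥(FM j) →ₗ[k] (Fin R → Q)) (U : Submodule Q (Fin R → Q)) :
    ℤ → Submodule k M :=
  fun j => ((U.restrictScalars k).comap (σ j)).map (FM j).subtype

theorem mem_newF {R : ℕ} {FM : ℤ → Submodule k M}
    {σ : ∀ j : ℤ, ↥(FM j) →ₗ[k] (Fin R → Q)} {U : Submodule Q (Fin R → Q)} {j : ℤ} {w : M} :
    w ∈ newF FM σ U j ↔ ∃ h : w ∈ FM j, σ j ⟨w, h⟩ ∈ U := by
  constructor
  · rintro ⟨x, hx, rfl⟩
    exact ⟨x.2, hx⟩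
  · rintro ⟨h, hx⟩
    exact ⟨⟨w, h⟩, hx, rfl⟩

theorem newF_le {R : ℕ} {FM : ℤ → Submodule k M}
    {σ : ∀ j : ℤ, ↥(FM j) →ₗ[k] (Fin R → Q)} {U : Submodule Q (Fin R → Q)} (j : ℤ) :
    newF FM σ U j ≤ FM j := by
  intro w hw
  obtain ⟨h, _⟩ := mem_newF.1 hw
  exact h

theorem le_newF {R : ℕ} {FM : ℤ → Submodule k M} {E : ℤ → Submodule k (Fin R → Q)}
    {σ : ∀ j : ℤ, ↥(FM j) →ₗ[k] (Fin R → Q)} (h : IsGoodFilt D FM) (hσ : IsSymb D FM E σ)
    (U : Submodule Q (Fin R → Q)) (j : ℤ) :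
    FM (j + 1) ≤ newF FM σ U j := by
  intro w hw
  rw [mem_newF]
  refine ⟨h.anti j hw, ?_⟩
  have : σ j ⟨w, h.anti j hw⟩ = 0 := (hσ.ker j _).2 hw
  rw [this]
  exact U.zero_mem

theorem newF_good {R : ℕ} {FM : ℤ → Submodule k M} {E : ℤ → Submodule k (Fin R → Q)}
    {σ : ∀ j : ℤ, ↥(FM j) →ₗ[k] (Fin R → Q)} (h : IsGoodFilt D FM) (hσ : IsSymb D FM E σ)
    (U : Submodule Q (Fin R → Q)) : IsGoodFilt D (newF FM σ U) where
  anti j := (newF_le (j + 1)).trans (le_newF D h hσ U j)
  act i f hf j w hw := by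
    rw [mem_newF] at hw ⊢
    obtain ⟨hw1, hw2⟩ := hw
    have h1 := h.act i f hf j w hw1
    refine ⟨h1, ?_⟩
    rw [hσ.act i f hf j ⟨w, hw1⟩ h1]
    exact U.smul_mem f hw2
  bdd := by
    obtain ⟨c, hc⟩ := h.bdd
    refine ⟨c + 1, fun j => ⟨?_, ?_⟩⟩
    · refine le_trans ?_ (le_newF D h hσ U j)
      refine le_trans (le_of_eq ?_) (hc (j + 1)).1
      congr 1
      push_cast
      ring
    · refine (newF_le j).trans ((hc j).2.trans ?_)
      apply mp_anti
      push_cast
      linarith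
  tf i f hf hf0 j w hw hfw := by
    rw [mem_newF] at hfw
    obtain ⟨h1, h2⟩ := hfw
    have hw1 : w ∈ FM (j + 1) := h.tf i f hf hf0 j w (newF_le j hw) h1
    rw [mem_newF]
    refine ⟨hw1, ?_⟩
    have h3 : (i : ℤ) + (j + 1) = i + j + 1 := by ring
    have h4 : D.mono i f hf • w ∈ FM (i + (j + 1)) := by rw [h3]; exact h1
    have h5 := hσ.act i f hf (j + 1) ⟨w, hw1⟩ h4
    have h6 : ∀ (a b : ℤ) (hab : a = b) (x : M) (ha : x ∈ FM a) (hb : x ∈ FM b),
        σ a ⟨x, ha⟩ = σ b ⟨x, hb⟩ := by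
      intro a b hab x ha hb
      subst hab
      rfl
    have h7 : f • σ (j + 1) ⟨w, hw1⟩ ∈ U := by
      rw [← h5, h6 _ _ h3 _ h4 h1]
      exact h2
    have h8 := U.smul_mem f⁻¹ h7
    rwa [smul_smul, inv_mul_cancel₀ hf0, one_smul] at h8

/-- (A3) -/
theorem A3 (n : ℕ) (hG : GrFree D M n) (FM : ℤ → Submodule k M)
    (h : IsGoodFilt D FM) (b c : ℚ) (hHP : HasGrHP FM n b c)
    (hmin : ∀ (FM' : ℤ → Submodule k M), IsGoodFilt D FM' → ∀ b' c' : ℚ, HasGrHP FM' n b' c' →
      Jinv n b c ≤ Jinv n b' c')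
    (R : ℕ) (E : ℤ → Submodule k (Fin R → Q)) (σ : ∀ j : ℤ, ↥(FM j) →ₗ[k] (Fin R → Q))
    (hσ : IsSymb D FM E σ) : HasHP E n b c ∧ NSS (Q := Q) E n b := by
  have hn : (0 : ℚ) < n := by exact_mod_cast hG.1
  have hfinE : ∀ m, Module.Finite k (E m) := hσ.lat.lat.fin
  -- `dim E m = grdim FM m`
  have hE : ∀ m, grdim FM m = finrank k (E m) := by
    intro m
    rw [grdim, quot_eq_range (FM m) (FM (m + 1)) (σ m) (hσ.ker m), hσ.range m]
  have hHPE : HasHP E n b c := by
    obtain ⟨m₀, hm₀⟩ := hHP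
    refine ⟨m₀, fun m hm => ?_⟩
    rw [← hE m]
    exact hm₀ m hm
  refine ⟨hHPE, ?_⟩
  intro U n₁ b₁ c₁ h₁
  -- the dimension formula
  have hdim : ∀ m, grdim (newF FM σ U) m + finrank k (interU E U (m + 1))
      = finrank k (interU E U m) + finrank k (E (m + 1)) := by
    intro m
    -- first piece
    let g1 : ↥(newF FM σ U m) →ₗ[k] (Fin R → Q) :=
      (σ m).comp (Submodule.inclusion (newF_le m))
    have hg1 : ∀ a : newF FM σ U m, g1 a = 0 ↔ (a : M) ∈ FM (m + 1) := by
      intro a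
      exact hσ.ker m _
    have hr1 : LinearMap.range g1 = interU E U m := by
      ext x
      rw [interU, Submodule.mem_inf, Submodule.restrictScalars_mem, hσ.range m]
      constructor
      · rintro ⟨a, rfl⟩
        obtain ⟨h1, h2⟩ := mem_newF.1 a.2
        exact ⟨⟨_, rfl⟩, h2⟩
      · rintro ⟨⟨w, rfl⟩, h2⟩
        exact ⟨⟨w.1, mem_newF.2 ⟨w.2, h2⟩⟩, rfl⟩
    -- second piece
    let g2 : ↥(FM (m + 1)) →ₗ[k] ((Fin R → Q) ⧸ U) :=
      (U.mkQ.restrictScalars k).comp (σ (m + 1))
    have hg2 : ∀ a : FM (m + 1), g2 a = 0 ↔ (a : M) ∈ newF FM σ U (m + 1) := by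
      intro a
      change U.mkQ (σ (m + 1) a) = 0 ↔ _
      rw [Submodule.mkQ_apply, Submodule.Quotient.mk_eq_zero, mem_newF]
      exact ⟨fun h => ⟨a.2, h⟩, fun ⟨_, h⟩ => h⟩
    have hr2 : LinearMap.range g2 = (E (m + 1)).map (U.mkQ.restrictScalars k) := by
      rw [LinearMap.range_comp, hσ.range (m + 1)]
    have hk2 : E (m + 1) ⊓ LinearMap.ker (U.mkQ.restrictScalars k) = interU E U (m + 1) := by
      ext x
      rw [interU, Submodule.mem_inf, Submodule.mem_inf, Submodule.restrictScalars_mem,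
        LinearMap.mem_ker]
      have : (U.mkQ.restrictScalars k) x = 0 ↔ x ∈ U := by
        change U.mkQ x = 0 ↔ _
        rw [Submodule.mkQ_apply, Submodule.Quotient.mk_eq_zero]
      rw [this]
    have f1 : FiniteDimensional k (LinearMap.range g1) := by
      rw [hr1]
      have : Module.Finite k (E m) := hfinE m
      exact Submodule.finiteDimensional_of_le (S₂ := E m) inf_le_left
    have f2 : FiniteDimensional k (LinearMap.range g2) := by
      rw [hr2]
      have : Module.Finite k (E (m + 1)) := hfinE (m + 1)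
      infer_instance
    have q1 : FiniteDimensional k
        (↥(newF FM σ U m) ⧸ (FM (m + 1)).submoduleOf (newF FM σ U m)) :=
      quot_finite _ _ g1 hg1
    have q2 : FiniteDimensional k
        (↥(FM (m + 1)) ⧸ (newF FM σ U (m + 1)).submoduleOf (FM (m + 1))) :=
      quot_finite _ _ g2 hg2
    have e0 := quot_add (newF FM σ U m) (newF FM σ U (m + 1)) (FM (m + 1))
      (newF_le (m + 1)) (le_newF D h hσ U m)
    have e1 := quot_eq_range _ _ g1 hg1
    have e2 := quot_eq_range _ _ g2 hg2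
    have : Module.Finite k (E (m + 1)) := hfinE (m + 1)
    have e3 := finrank_map_add (E (m + 1)) (U.mkQ.restrictScalars k)
    rw [hk2] at e3
    rw [hr1] at e1
    rw [hr2] at e2
    rw [grdim, e0, e1, e2]
    omega
  have hnew : HasGrHP (newF FM σ U) n (b + n - n₁) (c + b + n / 2 - n₁ / 2 - b₁) := by
    obtain ⟨m₀, hm₀⟩ := hHPE
    obtain ⟨m₁, hm₁⟩ := h₁
    refine ⟨max m₀ m₁, fun m hm => ?_⟩
    have h0 := hm₀ (m + 1) (by have := le_max_left m₀ m₁; omega)
    have h1 := hm₁ m (by have := le_max_right m₀ m₁; omega)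
    have h2 := hm₁ (m + 1) (by have := le_max_right m₀ m₁; omega)
    have h3 : (grdim (newF FM σ U) m : ℚ) + finrank k (interU E U (m + 1))
      = finrank k (interU E U m) + finrank k (E (m + 1)) := by exact_mod_cast hdim m
    rw [h0, h1, h2] at h3
    push_cast at h3
    linear_combination h3
  have key := hmin _ (newF_good D h hσ U) _ _ hnew
  unfold Jinv at key
  have h5 : b ^ 2 / (2 * (n : ℚ)) * (2 * n) = b ^ 2 := by field_simp
  have h6 : (b + n - n₁) ^ 2 / (2 * (n : ℚ)) * (2 * n) = (b + n - n₁) ^ 2 := by field_simp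
  have h7 : (c - b ^ 2 / (2 * (n : ℚ))) * (2 * n)
      ≤ (c + b + n / 2 - n₁ / 2 - b₁ - (b + n - n₁) ^ 2 / (2 * (n : ℚ))) * (2 * n) := by
    apply mul_le_mul_of_nonneg_right _ (by linarith)
    linarith
  rw [sub_mul, h5, sub_mul _ ((b + n - n₁) ^ 2 / (2 * (n : ℚ))), h6] at h7
  nlinarith

end

end A3

end Crest.Agent.R169
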