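import Crest.Agent.R169.A2b

/-!
# Row 169, Part A, step A4 (helper592): symbol maps of a good filtration into `Q^R`
-/

set_option autoImplicit false
set_option linter.unusedSectionVars false

namespace Crest.Agent.R169

open Module

namespace A4

variable {k Q : Type} [Field k] [Field Q] [Algebra k Q] (D : TData k Q)
variable {M : Type} [AddCommGroup M] [Module D.Ttot M] [Module k M] [IsScalarTower k D.Ttot M]

theorem mono_zero' (i : ℕ) (h : (0 : Q) ∈ D.F (i : ℤ)) : D.mono i 0 h = 0 := by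
  apply Subtype.ext
  change Polynomial.monomial i (0 : Q) = 0
  exact Polynomial.monomial_zero_right _

/-- the value of `∑ t_i X^e w_i` -/
noncomputable def cmb {R : ℕ} (w : Fin R → M) (e : ℕ) (t : Fin R → D.F (e : ℤ)) : M :=
  ∑ i, D.mono e (t i : Q) (t i).2 • w i

theorem cmb_add {R : ℕ} (w : Fin R → M) (e : ℕ) (t t' : Fin R → D.F (e : ℤ)) :
    cmb D w e (t + t') = cmb D w e t + cmb D w e t' := by
  unfold cmb
  rw [← Finset.sum_add_distrib]
  refine Finset.sum_congr rfl fun i _ => ?_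
  rw [← add_smul, ← mono_add]
  rfl

theorem cmb_smul {R : ℕ} (w : Fin R → M) (e : ℕ) (c : k) (t : Fin R → D.F (e : ℤ)) :
    cmb D w e (c • t) = c • cmb D w e t := by
  unfold cmb
  rw [Finset.smul_sum]
  refine Finset.sum_congr rfl fun i _ => ?_
  rw [← smul_assoc, ← mono_smul]
  rfl

theorem cmb_zero {R : ℕ} (w : Fin R → M) (e : ℕ) : cmb D w e 0 = 0 := by
  have := cmb_smul D w e (0 : k) 0
  rwa [zero_smul, zero_smul] at this

theorem mono_cmb {R : ℕ} (w : Fin R → M) (i e : ℕ) (f : Q) (hf : f ∈ D.F (i : ℤ))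
    (t : Fin R → D.F (e : ℤ)) :
    D.mono i f hf • cmb D w e t =
      cmb D w (i + e) (fun j => ⟨f * t j, mul_mem_F D i e f (t j) hf (t j).2⟩) := by
  unfold cmb
  rw [Finset.smul_sum]
  refine Finset.sum_congr rfl fun j _ => ?_
  rw [mono_smul_mono]

theorem cmb_congr {R : ℕ} (w : Fin R → M) {e e' : ℕ} (h : e = e') (t : Fin R → D.F (e : ℤ))
    (t' : Fin R → D.F (e' : ℤ)) (ht : ∀ i, (t i : Q) = t' i) : cmb D w e t = cmb D w e' t' := by
  subst h
  unfold cmb
  refine Finset.sum_congr rfl fun i _ => ?_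
  rw [mono_congr D rfl (ht i)]

/-- `T`-independence of a family in `FM J` -/
structure Indep (FM : ℤ → Submodule k M) (J : ℤ) {R : ℕ} (w : Fin R → M) : Prop where
  mem : ∀ i, w i ∈ FM J
  inj : ∀ (e : ℕ) (t : Fin R → D.F (e : ℤ)), cmb D w e t ∈ FM (J + e + 1) → t = 0

variable {D}

theorem cmb_mem {FM : ℤ → Submodule k M} (h : IsGoodFilt D FM) {J : ℤ} {R : ℕ} {w : Fin R → M}
    (hw : ∀ i, w i ∈ FM J) (e : ℕ) (t : Fin R → D.F (e : ℤ)) : cmb D w e t ∈ FM (J + e) := by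
  unfold cmb
  refine Submodule.sum_mem _ fun i _ => ?_
  have := h.act e (t i) (t i).2 J (w i) (hw i)
  rwa [add_comm] at this

theorem gr_finite {FM : ℤ → Submodule k M} (h : IsGoodFilt D FM) {n : ℕ} (hG : GrFree D M n)
    (l : ℤ) : Module.Finite k (↥(FM l) ⧸ (FM (l + 1)).submoduleOf (FM l)) := by
  obtain ⟨⟨w, hw⟩, hA⟩ := exists_frame D hG
  obtain ⟨c, hc⟩ := h.bdd
  have h1 : D.mp M (((l + 1 + c).toNat : ℕ) : ℤ) ≤ FM (l + 1) :=
    (mp_anti D (by omega)).trans (hc (l + 1)).1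
  have h2 := (A2.qdim_mp D hw (FM l) (l + 1 + c).toNat (h1.trans (h.anti l))).1
  exact qfin_top h1

/-- the linear map `(F_e)^R → FM (J+e) / FM (J+e+1)` of an independent family is injective -/
theorem card_bound {FM : ℤ → Submodule k M} (h : IsGoodFilt D FM) {n : ℕ} (hG : GrFree D M n)
    {J : ℤ} {R : ℕ} {w : Fin R → M} (hw : Indep D FM J w) (e : ℕ) :
    R * finrank k (D.F (e : ℤ)) ≤ grdim FM (J + e) := by
  have hfin := gr_finite h hG (J + e)
  have hfF := D.lat.fin (e : ℤ)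
  let φ : (Fin R → D.F (e : ℤ)) →ₗ[k]
      (↥(FM (J + e)) ⧸ (FM (J + e + 1)).submoduleOf (FM (J + e))) :=
    ((FM (J + e + 1)).submoduleOf (FM (J + e))).mkQ ∘ₗ
      (({ toFun := cmb D w e
          map_add' := cmb_add D w e
          map_smul' := cmb_smul D w e } : (Fin R → D.F (e : ℤ)) →ₗ[k] M).codRestrict
        (FM (J + e)) (cmb_mem h hw.mem e))
  have hφ : Function.Injective φ := by
    rw [injective_iff_map_eq_zero]
    intro t ht
    apply hw.inj e t
    change Submodule.Quotient.mk _ = _ at ht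
    rw [Submodule.Quotient.mk_eq_zero, mem_subOf] at ht
    exact ht
  have h1 := LinearMap.finrank_le_finrank_of_injective hφ
  rw [Module.finrank_pi_fintype] at h1
  simp only [Finset.sum_const, Finset.card_univ, Fintype.card_fin, smul_eq_mul] at h1
  exact h1

theorem rank_bound {FM : ℤ → Submodule k M} (h : IsGoodFilt D FM) {n : ℕ} (hG : GrFree D M n)
    (hF : ∃ (N : ℕ) (b c : ℚ), 0 < N ∧ HasHP D.F N b c) {b c : ℚ} (hHP : HasGrHP FM n b c)
    {J : ℤ} {R : ℕ} {w : Fin R → M} (hw : Indep D FM J w) : R ≤ n := by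
  obtain ⟨N, bT, cT, hN, m₀, hm₀⟩ := hF
  obtain ⟨m₁, hm₁⟩ := hHP
  have key : ∀ m : ℤ, max (max m₀ 0) (m₁ - J) ≤ m →
      ((R : ℚ) * (N / 2)) * (m : ℚ) ^ 2 + (R * bT) * m + R * cT ≤
      ((n : ℚ) / 2) * (m : ℚ) ^ 2 + (n * J + b) * m + (n / 2 * (J : ℚ) ^ 2 + b * J + c) := by
    intro m hm
    have h0 : 0 ≤ m := le_trans (le_trans (le_max_right _ _) (le_max_left _ _)) hm
    obtain ⟨e, rfl⟩ := Int.eq_ofNat_of_zero_le h0
    have h1 := card_bound h hG hw e
    have h2 := hm₀ e (le_trans (le_trans (le_max_left _ _) (le_max_left _ _)) hm)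
    have h3 := hm₁ (J + e) (by have := le_trans (le_max_right _ _) hm; omega)
    have h4 : (R : ℚ) * finrank k (D.F (e : ℤ)) ≤ grdim FM (J + e) := by exact_mod_cast h1
    rw [h2, h3] at h4
    push_cast at h4 ⊢
    linarith
  have h1 := (E4.quad_le key).1
  have h2 : (R : ℚ) * N ≤ n := by linarith
  have h3 : R * N ≤ n := by exact_mod_cast h2
  calc R = R * 1 := (mul_one R).symm
    _ ≤ R * N := Nat.mul_le_mul_left R hN
    _ ≤ n := h3

/-- there is a one-element independent family -/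
theorem exists_one {FM : ℤ → Submodule k M} (h : IsGoodFilt D FM) {n : ℕ} (hn : 0 < n)
    {b c : ℚ} (hHP : HasGrHP FM n b c) :
    ∃ (J : ℤ) (w : Fin 1 → M), Indep D FM J w := by
  obtain ⟨m₁, hm₁⟩ := hHP
  -- some `grdim` is nonzero
  obtain ⟨J, hJ⟩ : ∃ J : ℤ, grdim FM J ≠ 0 := by
    by_contra hcon
    push Not at hcon
    have key : ∀ m : ℤ, m₁ ≤ m →
        ((n : ℚ) / 2) * (m : ℚ) ^ 2 + b * m + c ≤ 0 * (m : ℚ) ^ 2 + 0 * m + 0 := by
      intro m hm
      have h1 := hm₁ m hm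
      rw [hcon m] at h1
      push_cast at h1
      linarith
    have h2 := (E4.quad_le key).1
    have h3 : (0 : ℚ) < n := by exact_mod_cast hn
    linarith
  obtain ⟨x, hx, hx'⟩ : ∃ x ∈ FM J, x ∉ FM (J + 1) := by
    by_contra hcon
    push Not at hcon
    apply hJ
    have e : FM (J + 1) = FM J := le_antisymm (h.anti J) hcon
    rw [grdim_eq, e, qdim_self]
  refine ⟨J, fun _ => x, fun _ => hx, ?_⟩
  intro e t ht
  have h1 : cmb D (fun _ : Fin 1 => x) e t = D.mono e (t 0 : Q) (t 0).2 • x := by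
    unfold cmb
    rw [Fin.sum_univ_one]
  rw [h1] at ht
  by_contra hne
  have h0 : (t 0 : Q) ≠ 0 := by
    intro h0
    apply hne
    funext i
    rw [Fin.fin_one_eq_zero i]
    exact Subtype.ext h0
  have e2 : J + (e : ℤ) + 1 = e + J + 1 := by ring
  rw [e2] at ht
  exact hx' (h.tf e (t 0) (t 0).2 h0 J x hx ht)

/-- shifting an independent family by a power of `X` -/
theorem Indep.shift {FM : ℤ → Submodule k M} (h : IsGoodFilt D FM) {J : ℤ} {R : ℕ}
    {w : Fin R → M} (hw : Indep D FM J w) (s : ℕ) (h1 : (1 : Q) ∈ D.F (s : ℤ)) :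
    Indep D FM (s + J) (fun i => D.mono s 1 h1 • w i) where
  mem := fun i => h.act s 1 h1 J (w i) (hw.mem i)
  inj := by
    intro e t ht
    have e1 : cmb D (fun i => D.mono s 1 h1 • w i) e t = D.mono s 1 h1 • cmb D w e t := by
      unfold cmb
      rw [Finset.smul_sum]
      refine Finset.sum_congr rfl fun i _ => ?_
      rw [smul_smul, smul_smul, mul_comm]
    rw [e1] at ht
    have e2 : (s : ℤ) + J + e + 1 = s + (J + e) + 1 := by ring
    rw [e2] at ht
    exact hw.inj e t (h.tf s 1 h1 one_ne_zero _ _ (cmb_mem h hw.mem e t) ht)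

theorem one_mem (s : ℕ) : (1 : Q) ∈ D.F (s : ℤ) :=
  F_le D (show (((0 : ℕ) : ℤ)) ≤ (s : ℤ) by simp) (one_mem_zero D)

variable (D) in
/-- maximal independent families -/
structure MaxIndep (FM : ℤ → Submodule k M) (J : ℤ) {R : ℕ} (w : Fin R → M) :
    Prop where
  indep : Indep D FM J w
  max : ∀ (J' : ℤ) (w' : Fin (R + 1) → M), ¬ Indep D FM J' w'

theorem exists_maxIndep {FM : ℤ → Submodule k M} (h : IsGoodFilt D FM) {n : ℕ}
    (hG : GrFree D M n) (hF : ∃ (N : ℕ) (b c : ℚ), 0 < N ∧ HasHP D.F N b c) {b c : ℚ}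
    (hHP : HasGrHP FM n b c) :
    ∃ (R : ℕ), 0 < R ∧ ∃ (J : ℤ) (w : Fin R → M), MaxIndep D FM J w := by
  classical
  let P : ℕ → Prop := fun R => ∃ (J : ℤ) (w : Fin R → M), Indep D FM J w
  have hP1 : P 1 := exists_one h hG.1 hHP
  have hb : ∀ R, P R → R ≤ n := fun R ⟨J, w, hw⟩ => rank_bound h hG hF hHP hw
  have hn : 1 ≤ n := hb 1 hP1
  obtain ⟨R, hR1, hR2⟩ : ∃ R, P R ∧ ¬ P (R + 1) ∧ 0 < R := by
    by_contra hcon
    push Not at hcon
    have : ∀ m : ℕ, P (m + 1) := by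
      intro m
      induction m with
      | zero => exact hP1
      | succ m ih =>
        by_contra h'
        have := hcon (m + 1) ih h'
        omega
    have := hb (n + 1) (this n)
    omega
  obtain ⟨J, w, hw⟩ := hR1
  exact ⟨R, hR2.2, J, w, hw, fun J' w' hw' => hR2.1 ⟨J', w', hw'⟩⟩

variable (D) in
/-- the coordinate relation -/
def Rel (FM : ℤ → Submodule k M) (J : ℤ) {R : ℕ} (w : Fin R → M) (l : ℤ) (g : M)
    (q : Fin R → Q) : Prop :=
  ∃ (d e : ℕ) (t : Q) (ht : t ∈ D.F (d : ℤ)) (hq : ∀ i, t * q i ∈ D.F (e : ℤ)),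
    t ≠ 0 ∧ l + d = J + e ∧
    D.mono d t ht • g - cmb D w e (fun i => ⟨t * q i, hq i⟩) ∈ FM (l + d + 1)

variable {FM : ℤ → Submodule k M} {J : ℤ} {R : ℕ} {w : Fin R → M}

/-- common rescaling of a relation -/
theorem rel_scale (h : IsGoodFilt D FM) {l : ℤ} {g : M} {q : Fin R → Q} {d e : ℕ} {t : Q}
    {ht : t ∈ D.F (d : ℤ)} {hq : ∀ i, t * q i ∈ D.F (e : ℤ)}
    (H : D.mono d t ht • g - cmb D w e (fun i => ⟨t * q i, hq i⟩) ∈ FM (l + d + 1))
    (s : ℕ) (f : Q) (hf : f ∈ D.F (s : ℤ)) :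
    D.mono (s + d) (f * t) (mul_mem_F D s d f t hf ht) • g -
      cmb D w (s + e) (fun i => ⟨f * (t * q i), mul_mem_F D s e f _ hf (hq i)⟩) ∈
        FM (l + (s + d : ℕ) + 1) := by
  have h1 := h.act s f hf _ _ H
  rw [smul_sub, mono_smul_mono, mono_cmb] at h1
  have e1 : (s : ℤ) + (l + d + 1) = l + (s + d : ℕ) + 1 := by push_cast; ring
  rw [e1] at h1
  exact h1

theorem rel_add (h : IsGoodFilt D FM) {l : ℤ} {g g' : M} {q q' : Fin R → Q}
    (H : Rel D FM J w l g q) (H' : Rel D FM J w l g' q') : Rel D FM J w l (g + g') (q + q') := by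
  obtain ⟨d, e, t, ht, hq, ht0, hde, H⟩ := H
  obtain ⟨d', e', t', ht', hq', ht0', hde', H'⟩ := H'
  have h1 := rel_scale h H d' t' ht'
  have h2 := rel_scale h H' d t ht
  have ee : d' + e = d + e' := by omega
  have hmem : ∀ i, t' * t * (q + q') i ∈ D.F ((d' + e : ℕ) : ℤ) := by
    intro i
    have a1 := mul_mem_F D d' e t' _ ht' (hq i)
    have a2 := mul_mem_F D d e' t _ ht (hq' i)
    rw [← ee] at a2
    have : t' * t * (q + q') i = t' * (t * q i) + t * (t' * q' i) := by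
      rw [Pi.add_apply]; ring
    rw [this]
    exact Submodule.add_mem _ a1 a2
  refine ⟨d' + d, d' + e, t' * t, mul_mem_F D d' d t' t ht' ht, hmem, mul_ne_zero ht0' ht0,
    by push_cast; omega, ?_⟩
  have e1 : l + ((d + d' : ℕ) : ℤ) + 1 = l + ((d' + d : ℕ) : ℤ) + 1 := by push_cast; ring
  rw [e1] at h2
  have h3 := Submodule.add_mem _ h1 h2
  have e2 : D.mono (d + d') (t * t') (mul_mem_F D d d' t t' ht ht') =
      D.mono (d' + d) (t' * t) (mul_mem_F D d' d t' t ht' ht) :=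
    mono_congr D (by omega) (mul_comm _ _) _ _
  rw [e2] at h3
  have e3 : cmb D w (d + e') (fun i => ⟨t * (t' * q' i), mul_mem_F D d e' t _ ht (hq' i)⟩) =
      cmb D w (d' + e) (fun i => ⟨t * (t' * q' i), by
        have := mul_mem_F D d e' t _ ht (hq' i); rwa [← ee] at this⟩) :=
    cmb_congr D w ee.symm _ _ (fun _ => rfl)
  rw [e3] at h3
  have e4 : cmb D w (d' + e) (fun i => ⟨t' * t * (q + q') i, hmem i⟩) =
      cmb D w (d' + e) (fun i => ⟨t' * (t * q i), mul_mem_F D d' e t' _ ht' (hq i)⟩) +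
      cmb D w (d' + e) (fun i => ⟨t * (t' * q' i), by
        have := mul_mem_F D d e' t _ ht (hq' i); rwa [← ee] at this⟩) := by
    rw [← cmb_add]
    refine cmb_congr D w rfl _ _ (fun i => ?_)
    simp only [Pi.add_apply, Submodule.coe_add]
    ring
  rw [e4, smul_add]
  convert h3 using 1
  abel

theorem rel_smul {l : ℤ} {g : M} {q : Fin R → Q} (c : k)
    (H : Rel D FM J w l g q) : Rel D FM J w l (c • g) (c • q) := by
  obtain ⟨d, e, t, ht, hq, ht0, hde, H⟩ := H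
  have hmem : ∀ i, t * (c • q) i ∈ D.F (e : ℤ) := by
    intro i
    rw [Pi.smul_apply, mul_smul_comm]
    exact Submodule.smul_mem _ _ (hq i)
  refine ⟨d, e, t, ht, hmem, ht0, hde, ?_⟩
  have e1 : cmb D w e (fun i => ⟨t * (c • q) i, hmem i⟩) =
      c • cmb D w e (fun i => ⟨t * q i, hq i⟩) := by
    rw [← cmb_smul]
    refine cmb_congr D w rfl _ _ (fun i => ?_)
    simp only [Pi.smul_apply, Submodule.coe_smul, mul_smul_comm]
  rw [e1, smul_algebra_smul_comm, ← smul_sub]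
  exact Submodule.smul_mem _ _ H

/-- kernel -/
theorem rel_ker (h : IsGoodFilt D FM) (hw : Indep D FM J w) {l : ℤ} {g : M} {q : Fin R → Q}
    (hg : g ∈ FM l) (H : Rel D FM J w l g q) : g ∈ FM (l + 1) ↔ q = 0 := by
  obtain ⟨d, e, t, ht, hq, ht0, hde, H⟩ := H
  constructor
  · intro hg'
    have h1 := h.act d t ht _ _ hg'
    have e1 : (d : ℤ) + (l + 1) = l + d + 1 := by ring
    rw [e1] at h1
    have h2 := Submodule.sub_mem _ h1 H
    rw [sub_sub_cancel, hde] at h2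
    have h3 := hw.inj e _ h2
    funext i
    have h4 := congrArg Subtype.val (congrFun h3 i)
    simp only [Pi.zero_apply, Submodule.coe_zero] at h4
    exact (mul_eq_zero.mp h4).resolve_left ht0
  · intro hq0
    subst hq0
    have e1 : cmb D w e (fun i => ⟨t * (0 : Fin R → Q) i, hq i⟩) = 0 := by
      rw [← cmb_zero D w e]
      refine cmb_congr D w rfl _ _ (fun i => ?_)
      simp
    rw [e1, sub_zero] at H
    have e2 : l + (d : ℤ) + 1 = d + l + 1 := by ring
    rw [e2] at H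
    exact h.tf d t ht ht0 l g hg H

theorem rel_unique (h : IsGoodFilt D FM) (hw : Indep D FM J w) {l : ℤ} {g : M} {q q' : Fin R → Q}
    (H : Rel D FM J w l g q) (H' : Rel D FM J w l g q') : q = q' := by
  have h1 := rel_add h H (rel_smul (-1 : k) H')
  have h2 : g + (-1 : k) • g = 0 := by simp
  rw [h2] at h1
  have h3 := (rel_ker h hw (Submodule.zero_mem _) h1).mp (Submodule.zero_mem _)
  have h4 : q - q' = 0 := by
    rw [← h3]; simp [sub_eq_add_neg]
  exact sub_eq_zero.mp h4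

/-- compatibility with `T` -/
theorem rel_act (h : IsGoodFilt D FM) {l : ℤ} {g : M} {q : Fin R → Q} (H : Rel D FM J w l g q)
    (i : ℕ) (f : Q) (hf : f ∈ D.F (i : ℤ)) :
    Rel D FM J w (i + l) (D.mono i f hf • g) (f • q) := by
  obtain ⟨d, e, t, ht, hq, ht0, hde, H⟩ := H
  have hmem : ∀ j, t * (f • q) j ∈ D.F ((i + e : ℕ) : ℤ) := by
    intro j
    have := mul_mem_F D i e f _ hf (hq j)
    have e1 : t * (f • q) j = f * (t * q j) := by
      rw [Pi.smul_apply, smul_eq_mul]; ring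
    rwa [e1]
  refine ⟨d, i + e, t, ht, hmem, ht0, by push_cast; omega, ?_⟩
  have h1 := h.act i f hf _ _ H
  rw [smul_sub, mono_cmb] at h1
  have e1 : (i : ℤ) + (l + d + 1) = i + l + d + 1 := by ring
  rw [e1] at h1
  have e2 : D.mono i f hf • D.mono d t ht • g = D.mono d t ht • D.mono i f hf • g := by
    rw [smul_smul, smul_smul, mul_comm]
  rw [e2] at h1
  have e3 : cmb D w (i + e) (fun j => ⟨t * (f • q) j, hmem j⟩) =
      cmb D w (i + e) (fun j => ⟨f * (t * q j), mul_mem_F D i e f _ hf (hq j)⟩) := by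
    refine cmb_congr D w rfl _ _ (fun j => ?_)
    simp only [Pi.smul_apply, smul_eq_mul]
    ring
  rw [e3]
  exact h1

theorem cmb_cons {R : ℕ} (g : M) (w : Fin R → M) (e : ℕ) (t : Fin (R + 1) → D.F (e : ℤ)) :
    cmb D (Fin.cons g w : Fin (R + 1) → M) e t =
      D.mono e (t 0 : Q) (t 0).2 • g + cmb D w e (fun i => t i.succ) := by
  unfold cmb
  rw [Fin.sum_univ_succ]
  rfl

/-- from maximality: a dependency relation -/
theorem exists_dep (hw : MaxIndep D FM J w) {J' : ℤ} {w' : Fin R → M} (hw' : Indep D FM J' w')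
    (g : M) (hg : g ∈ FM J') : ∃ (e : ℕ) (t : D.F (e : ℤ)) (s : Fin R → D.F (e : ℤ)),
      (t : Q) ≠ 0 ∧ D.mono e (t : Q) t.2 • g + cmb D w' e s ∈ FM (J' + e + 1) := by
  have h1 := hw.max J' (Fin.cons g w')
  by_contra hcon
  push Not at hcon
  apply h1
  refine ⟨?_, ?_⟩
  · intro i
    refine Fin.cases ?_ ?_ i
    · exact hg
    · intro i; exact hw'.mem i
  · intro e t ht
    rw [cmb_cons] at ht
    have h0 : ((t 0 : D.F (e : ℤ)) : Q) = 0 := by
      by_contra hne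
      exact hcon e (t 0) (fun i => t i.succ) hne ht
    have e1 : D.mono e (t 0 : Q) (t 0).2 • g = 0 := by
      have : D.mono e (t 0 : Q) (t 0).2 = 0 := by
        rw [mono_congr D rfl h0 (t 0).2 (Submodule.zero_mem _), mono_zero']
      rw [this, zero_smul]
    rw [e1, zero_add] at ht
    have h2 := hw'.inj e _ ht
    funext i
    refine Fin.cases ?_ ?_ i
    · exact Subtype.ext h0
    · intro i; exact congrFun h2 i

/-- every element has coordinates -/
theorem rel_total (h : IsGoodFilt D FM) (hw : MaxIndep D FM J w) (l : ℤ) (g : M)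
    (hg : g ∈ FM l) : ∃ q : Fin R → Q, Rel D FM J w l g q := by
  rcases le_or_gt J l with hJl | hJl
  · -- `J ≤ l`
    obtain ⟨s, rfl⟩ : ∃ s : ℕ, l = s + J := ⟨(l - J).toNat, by omega⟩
    have h1 := one_mem (D := D) s
    obtain ⟨e, t, t', ht0, H⟩ := exists_dep hw (hw.indep.shift h s h1) g hg
    have hq : ∀ i, (t : Q) * (-(t' i : Q) / t) ∈ D.F ((s + e : ℕ) : ℤ) := by
      intro i
      have : (t : Q) * (-(t' i : Q) / t) = -(t' i : Q) := by field_simp
      rw [this]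
      exact Submodule.neg_mem _ (F_le D (by push_cast; omega) (t' i).2)
    refine ⟨fun i => -(t' i : Q) / t, e, s + e, t, t.2, hq, ht0, by push_cast; ring, ?_⟩
    have e1 : cmb D w (s + e) (fun i => ⟨(t : Q) * (-(t' i : Q) / t), hq i⟩) =
        - cmb D (fun i => D.mono s 1 h1 • w i) e t' := by
      have e2 : cmb D (fun i => D.mono s 1 h1 • w i) e t' = D.mono s 1 h1 • cmb D w e t' := by
        unfold cmb
        rw [Finset.smul_sum]
        refine Finset.sum_congr rfl fun i _ => ?_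
        rw [smul_smul, smul_smul, mul_comm]
      rw [e2, mono_cmb]
      have e3 := cmb_smul D w (s + e) (-1 : k)
        (fun i => ⟨(1 : Q) * (t' i : Q), mul_mem_F D s e 1 (t' i) h1 (t' i).2⟩)
      rw [neg_one_smul] at e3
      rw [← e3]
      refine cmb_congr D w rfl _ _ (fun i => ?_)
      simp only [Pi.smul_apply, Submodule.coe_smul, one_mul, neg_smul, one_smul]
      field_simp
    rw [e1, sub_neg_eq_add]
    exact H
  · -- `l < J`
    obtain ⟨s, rfl⟩ : ∃ s : ℕ, J = s + l := ⟨(J - l).toNat, by omega⟩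
    have h1 := one_mem (D := D) s
    obtain ⟨e, t, t', ht0, H⟩ := exists_dep hw hw.indep (D.mono s 1 h1 • g) (h.act s 1 h1 l g hg)
    have hq : ∀ i, ((t : Q) * 1) * (-(t' i : Q) / t) ∈ D.F ((e : ℕ) : ℤ) := by
      intro i
      have : ((t : Q) * 1) * (-(t' i : Q) / t) = -(t' i : Q) := by field_simp
      rw [this]
      exact Submodule.neg_mem _ (t' i).2
    refine ⟨fun i => -(t' i : Q) / t, e + s, e, (t : Q) * 1, mul_mem_F D e s t 1 t.2 h1, hq,
      by rw [mul_one]; exact ht0, by push_cast; ring, ?_⟩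
    have e1 : cmb D w e (fun i => ⟨((t : Q) * 1) * (-(t' i : Q) / t), hq i⟩) = - cmb D w e t' := by
      have e3 := cmb_smul D w e (-1 : k) t'
      rw [neg_one_smul] at e3
      rw [← e3]
      refine cmb_congr D w rfl _ _ (fun i => ?_)
      simp only [Pi.smul_apply, Submodule.coe_smul, neg_smul, one_smul]
      field_simp
    rw [e1, sub_neg_eq_add, ← mono_smul_mono]
    have e4 : l + ((e + s : ℕ) : ℤ) + 1 = (s : ℤ) + l + e + 1 := by push_cast; ring
    rw [e4]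
    exact H
    

/-- the symbol map -/
noncomputable def sig (h : IsGoodFilt D FM) (hw : MaxIndep D FM J w) (l : ℤ) :
    ↥(FM l) →ₗ[k] (Fin R → Q) where
  toFun := fun g => (rel_total h hw l g g.2).choose
  map_add' := fun g g' => rel_unique h hw.indep (rel_total h hw l (g + g') (g + g').2).choose_spec
    (rel_add h (rel_total h hw l g g.2).choose_spec (rel_total h hw l g' g'.2).choose_spec)
  map_smul' := fun c g => rel_unique h hw.indep (rel_total h hw l (c • g) (c • g).2).choose_spec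
    (rel_smul c (rel_total h hw l g g.2).choose_spec)

theorem sig_spec (h : IsGoodFilt D FM) (hw : MaxIndep D FM J w) (l : ℤ) (g : ↥(FM l)) :
    Rel D FM J w l g (sig h hw l g) := (rel_total h hw l g g.2).choose_spec

theorem sig_eq (h : IsGoodFilt D FM) (hw : MaxIndep D FM J w) (l : ℤ) (g : ↥(FM l))
    {q : Fin R → Q} (H : Rel D FM J w l g q) : sig h hw l g = q :=
  rel_unique h hw.indep (sig_spec h hw l g) H

theorem sig_ker (h : IsGoodFilt D FM) (hw : MaxIndep D FM J w) (l : ℤ) (g : ↥(FM l)) :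
    sig h hw l g = 0 ↔ (g : M) ∈ FM (l + 1) :=
  (rel_ker h hw.indep g.2 (sig_spec h hw l g)).symm

theorem sig_act (h : IsGoodFilt D FM) (hw : MaxIndep D FM J w) (i : ℕ) (f : Q)
    (hf : f ∈ D.F (i : ℤ)) (l : ℤ) (g : ↥(FM l)) (hm : D.mono i f hf • (g : M) ∈ FM (i + l)) :
    sig h hw (i + l) ⟨D.mono i f hf • (g : M), hm⟩ = f • sig h hw l g :=
  sig_eq h hw _ _ (rel_act h (sig_spec h hw l g) i f hf)

/-- finite generation: one step -/
theorem gen_step {n : ℕ} {v : Fin n → M} (hv : IsFrame D v) (h : IsGoodFilt D FM) (d : ℤ) :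
    ∃ m₁ : ℕ, ∀ j : ℕ, m₁ ≤ j → ∀ g ∈ FM (((j + 1 : ℕ) : ℤ) + d) ⊓ D.mp M ((j + 1 : ℕ) : ℤ),
      ∃ a ∈ FM ((j : ℤ) + d), ∃ b ∈ FM ((j : ℤ) + d), ∃ c ∈ FM ((j : ℤ) + d),
        g - (D.x0 • a + D.x1 • b + D.x2 • c) ∈
          FM (((j + 1 : ℕ) : ℤ) + d) ⊓ D.mp M (((j + 1 : ℕ) : ℤ) + 1) := by
  obtain ⟨m₁, hm₁⟩ := (A2.NLat_lat D (w := v) h d).gen
  refine ⟨m₁.toNat, fun j hj g hg => ?_⟩
  -- symbol of `g`
  set f := A2.symL D hv (j + 1) ⟨g, hg.2⟩ with hf
  have h1 : g - frm D v (j + 1) f ∈ D.mp M (((j + 1 : ℕ) : ℤ) + 1) := A2.symL_spec D hv (j + 1) ⟨g, hg.2⟩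
  have h2 : f ∈ A2.NL D v FM d (j + 1) := by
    change frm D v (j + 1) f ∈ FM (((j + 1 : ℕ) : ℤ) + d) ⊔ D.mp M (((j + 1 : ℕ) : ℤ) + 1)
    have := Submodule.sub_mem (FM (((j + 1 : ℕ) : ℤ) + d) ⊔ D.mp M (((j + 1 : ℕ) : ℤ) + 1))
      (Submodule.mem_sup_left hg.1) (Submodule.mem_sup_right h1)
    rwa [sub_sub_cancel] at this
  have h3 : A2.polyIncl D n (j + 1) f ∈ A2.NLat D v FM d ((j : ℤ) + 1) := ⟨f, h2, rfl⟩
  obtain ⟨a, ha, b, hb, c, hc, he⟩ := hm₁ j (by omega) _ h3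
  obtain ⟨a, ha, rfl⟩ := ha
  obtain ⟨b, hb, rfl⟩ := hb
  obtain ⟨c, hc, rfl⟩ := hc
  -- lifts of a b c
  have lift : ∀ a' : Fin n → polyLE k D.u D.v (j : ℤ), a' ∈ A2.NL D v FM d j →
      ∃ y ∈ FM ((j : ℤ) + d), y - frm D v j a' ∈ D.mp M ((j : ℤ) + 1) := by
    intro a' ha'
    change frm D v j a' ∈ FM ((j : ℤ) + d) ⊔ D.mp M ((j : ℤ) + 1) at ha'
    obtain ⟨y, hy, z, hz, hyz⟩ := Submodule.mem_sup.mp ha'
    refine ⟨y, hy, ?_⟩
    rw [← hyz, sub_add_cancel_left]
    exact Submodule.neg_mem _ hz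
  obtain ⟨ya, hya, hya'⟩ := lift a ha
  obtain ⟨yb, hyb, hyb'⟩ := lift b hb
  obtain ⟨yc, hyc, hyc'⟩ := lift c hc
  refine ⟨ya, hya, yb, hyb, yc, hyc, ?_, ?_⟩
  · refine Submodule.sub_mem _ hg.1 ?_
    have hh : ∀ (q : Q) (hq : q ∈ D.F ((1 : ℕ) : ℤ)), ∀ y ∈ FM ((j : ℤ) + d),
        D.mono 1 q hq • y ∈ FM (((j + 1 : ℕ) : ℤ) + d) := by
      intro q hq y hy
      have := h.act 1 q hq _ y hy
      have e : ((1 : ℕ) : ℤ) + ((j : ℤ) + d) = ((j + 1 : ℕ) : ℤ) + d := by push_cast; ring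
      rwa [e] at this
    exact Submodule.add_mem _ (Submodule.add_mem _ (hh 1 (by simpa using D.one_mem) ya hya)
      (hh D.u (by simpa using D.u_mem) yb hyb)) (hh D.v (by simpa using D.v_mem) yc hyc)
  · have hh : ∀ t ∈ D.mI, ∀ y ∈ D.mp M ((j : ℤ) + 1), t • y ∈ D.mp M (((j + 1 : ℕ) : ℤ) + 1) := by
      intro t ht y hy
      have := smul_mem_mp D 1 t (by simpa using ht) _ y hy
      have e : ((1 : ℕ) : ℤ) + ((j : ℤ) + 1) = ((j + 1 : ℕ) : ℤ) + 1 := by push_cast; ring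
      rwa [e] at this
    obtain ⟨fa, e0, e0'⟩ : ∃ g', D.x0 • frm D v j a = frm D v (j + 1) g' ∧
        ∀ i, (g' i : Q) = a i := ⟨_, frm_x0 D v j a, fun _ => rfl⟩
    obtain ⟨fb, e1, e1'⟩ : ∃ g', D.x1 • frm D v j b = frm D v (j + 1) g' ∧
        ∀ i, (g' i : Q) = D.u * b i := ⟨_, frm_x1 D v j b, fun _ => rfl⟩
    obtain ⟨fc, e2, e2'⟩ : ∃ g', D.x2 • frm D v j c = frm D v (j + 1) g' ∧
        ∀ i, (g' i : Q) = D.v * c i := ⟨_, frm_x2 D v j c, fun _ => rfl⟩
    have e3 : f = fa + fb + fc := by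
      funext i
      apply Subtype.ext
      have := congrFun he i
      change (f i : Q) = (a i : Q) + D.u * (b i : Q) + D.v * (c i : Q) at this
      rw [this]
      simp only [Pi.add_apply, Submodule.coe_add, e0', e1', e2']
    rw [e3, map_add, map_add, ← e0, ← e1, ← e2] at h1
    have h4 := Submodule.sub_mem _ h1 (Submodule.add_mem _ (Submodule.add_mem _
      (hh _ (x0_mem D) _ hya') (hh _ (x1_mem D) _ hyb')) (hh _ (x2_mem D) _ hyc'))
    have e5 : g - (D.x0 • frm D v j a + D.x1 • frm D v j b + D.x2 • frm D v j c) -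
        (D.x0 • (ya - frm D v j a) + D.x1 • (yb - frm D v j b) + D.x2 • (yc - frm D v j c)) =
        g - (D.x0 • ya + D.x1 • yb + D.x2 • yc) := by
      simp only [smul_sub]
      abel
    rw [e5] at h4
    exact h4

/-- finite generation of `gr` -/
theorem gen_gr {n : ℕ} {v : Fin n → M} (hv : IsFrame D v) (h : IsGoodFilt D FM) :
    ∃ l₁ : ℤ, ∀ l ≥ l₁, ∀ g ∈ FM (l + 1), ∃ a ∈ FM l, ∃ b ∈ FM l, ∃ c ∈ FM l,
      g - (D.x0 • a + D.x1 • b + D.x2 • c) ∈ FM (l + 2) := by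
  obtain ⟨c₀, hc₀⟩ := h.bdd
  choose m₁ hm₁ using fun d : ℤ => gen_step hv h d
  -- a bound for all relevant `d = l - j`, `|d| ≤ c₀ + 1`
  obtain ⟨B, hB⟩ : ∃ B : ℕ, ∀ d ∈ Finset.Icc (-((c₀ : ℤ) + 2)) ((c₀ : ℤ) + 2), m₁ d ≤ B := by
    refine ⟨(Finset.Icc (-((c₀ : ℤ) + 2)) ((c₀ : ℤ) + 2)).sup m₁, fun d hd => ?_⟩
    exact Finset.le_sup (f := m₁) hd
  refine ⟨(B : ℤ) + c₀ + 2, fun l hl g hg => ?_⟩
  -- descending: for `s ≤ 2 c₀ + 3`, the remainder lies in `mp (l + 1 - c₀ + s)`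
  have key : ∀ s : ℕ, s ≤ 2 * c₀ + 1 → ∃ a ∈ FM l, ∃ b ∈ FM l, ∃ c ∈ FM l,
      g - (D.x0 • a + D.x1 • b + D.x2 • c) ∈ FM (l + 1) ⊓ D.mp M (l + 1 - c₀ + s) := by
    intro s
    induction s with
    | zero =>
      intro _
      refine ⟨0, Submodule.zero_mem _, 0, Submodule.zero_mem _, 0, Submodule.zero_mem _, ?_⟩
      simp only [smul_zero, add_zero, sub_zero, Nat.cast_zero]
      exact ⟨hg, (hc₀ (l + 1)).2 hg⟩
    | succ s ih =>
      intro hs
      obtain ⟨a, ha, b, hb, c, hc, H⟩ := ih (by omega)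
      -- `j + 1 = l + 1 - c₀ + s`
      obtain ⟨j, hj⟩ : ∃ j : ℕ, (j : ℤ) = l - c₀ + s := ⟨(l - c₀ + s).toNat, by omega⟩
      have e1 : l + 1 - (c₀ : ℤ) + s = ((j + 1 : ℕ) : ℤ) := by push_cast; omega
      have e2 : l + 1 = ((j + 1 : ℕ) : ℤ) + (l - j) := by push_cast; ring
      have hH : g - (D.x0 • a + D.x1 • b + D.x2 • c) ∈
          FM (((j + 1 : ℕ) : ℤ) + (l - j)) ⊓ D.mp M ((j + 1 : ℕ) : ℤ) := by
        rw [← e2, ← e1]; exact H
      obtain ⟨a', ha', b', hb', c', hc', H'⟩ := hm₁ (l - j) j (by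
        have := hB (l - j) (Finset.mem_Icc.mpr ⟨by omega, by omega⟩)
        omega) _ hH
      have e3 : (j : ℤ) + (l - j) = l := by ring
      rw [e3] at ha' hb' hc'
      refine ⟨a + a', Submodule.add_mem _ ha ha', b + b', Submodule.add_mem _ hb hb', c + c',
        Submodule.add_mem _ hc hc', ?_⟩
      have e4 : g - (D.x0 • a + D.x1 • b + D.x2 • c) - (D.x0 • a' + D.x1 • b' + D.x2 • c') =
          g - (D.x0 • (a + a') + D.x1 • (b + b') + D.x2 • (c + c')) := by
        simp only [smul_add]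
        abel
      rw [e4, ← e2] at H'
      have e5 : ((j + 1 : ℕ) : ℤ) + 1 = l + 1 - c₀ + ((s + 1 : ℕ) : ℤ) := by push_cast; omega
      rw [e5] at H'
      exact H'
  obtain ⟨a, ha, b, hb, c, hc, H⟩ := key (2 * c₀ + 1) le_rfl
  refine ⟨a, ha, b, hb, c, hc, ?_⟩
  refine (hc₀ (l + 2)).1 ?_
  have e : l + 1 - (c₀ : ℤ) + ((2 * c₀ + 1 : ℕ) : ℤ) = l + 2 + c₀ := by push_cast; ring
  rw [← e]
  exact H.2

/-- the lattice of symbols -/
theorem symb (h : IsGoodFilt D FM) {n : ℕ} (hG : GrFree D M n) (hw : MaxIndep D FM J w) :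
    IsSymb D FM (fun l => LinearMap.range (sig h hw l)) (sig h hw) where
  ker := sig_ker h hw
  range := fun _ => rfl
  act := fun i f hf j w' hm => sig_act h hw i f hf j w' hm
  lat := by
    have hact : ∀ (i : ℕ) (f : Q) (hf : f ∈ D.F (i : ℤ)) (l : ℤ), ∀ x ∈ LinearMap.range (sig h hw l),
        f • x ∈ LinearMap.range (sig h hw (i + l)) := by
      rintro i f hf l _ ⟨g, rfl⟩
      exact ⟨⟨_, h.act i f hf l g g.2⟩, sig_act h hw i f hf l g _⟩
    have hone : (1 : Q) ∈ D.F ((1 : ℕ) : ℤ) := by simpa using D.one_mem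
    have hu : D.u ∈ D.F ((1 : ℕ) : ℤ) := by simpa using D.u_mem
    have hv : D.v ∈ D.F ((1 : ℕ) : ℤ) := by simpa using D.v_mem
    have hcast : ∀ l : ℤ, ((1 : ℕ) : ℤ) + l = l + 1 := fun l => by push_cast; ring
    obtain ⟨⟨v, hv'⟩, -⟩ := exists_frame D hG
    refine ⟨⟨?_, ?_, ?_, ?_, ?_, ?_⟩, ?_, ?_⟩
    · intro m x hx
      have := hact 1 1 hone m x hx
      rwa [one_smul, hcast] at this
    · intro m x hx
      have := hact 1 D.u hu m x hx
      rwa [hcast] at this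
    · intro m x hx
      have := hact 1 D.v hv m x hx
      rwa [hcast] at this
    · intro m
      have := gr_finite h hG m
      exact Module.Finite.equiv (qEquiv (sig h hw m) (sig_ker h hw m))
    · obtain ⟨c, hc⟩ := h.bdd
      refine ⟨-(c : ℤ) - 1, fun m hm => ?_⟩
      rw [LinearMap.range_eq_bot]
      ext1 g
      rw [LinearMap.zero_apply, sig_ker]
      apply (hc (m + 1)).1
      rw [mp_nonpos D (by omega)]
      trivial
    · obtain ⟨l₁, hl₁⟩ := gen_gr hv' h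
      refine ⟨l₁, fun l hl x hx => ?_⟩
      obtain ⟨⟨g, hg⟩, rfl⟩ := hx
      obtain ⟨a, ha, b, hb, c, hc, H⟩ := hl₁ l hl g hg
      refine ⟨sig h hw l ⟨a, ha⟩, ⟨_, rfl⟩, sig h hw l ⟨b, hb⟩, ⟨_, rfl⟩, sig h hw l ⟨c, hc⟩,
        ⟨_, rfl⟩, ?_⟩
      -- all inside FM (l+1)
      have ha1 : D.x0 • a ∈ FM (l + 1) := by
        have := h.act 1 1 hone l a ha; rwa [hcast] at this
      have hb1 : D.x1 • b ∈ FM (l + 1) := by
        have := h.act 1 D.u hu l b hb; rwa [hcast] at this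
      have hc1 : D.x2 • c ∈ FM (l + 1) := by
        have := h.act 1 D.v hv l c hc; rwa [hcast] at this
      have e0 : sig h hw (l + 1) (⟨g, hg⟩ - (⟨D.x0 • a, ha1⟩ + ⟨D.x1 • b, hb1⟩ +
          ⟨D.x2 • c, hc1⟩)) = 0 := by
        rw [sig_ker]
        have e : l + 1 + 1 = l + 2 := by ring
        rw [e]
        exact H
      have hR : ∀ (f : Q) (hf : f ∈ D.F ((1 : ℕ) : ℤ)) (y : M) (hy : y ∈ FM l)
          (hy1 : D.mono 1 f hf • y ∈ FM (l + 1)),
          sig h hw (l + 1) ⟨D.mono 1 f hf • y, hy1⟩ = f • sig h hw l ⟨y, hy⟩ := by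
        intro f hf y hy hy1
        apply sig_eq
        have := rel_act h (sig_spec h hw l ⟨y, hy⟩) 1 f hf
        rwa [hcast] at this
      rw [map_sub, map_add, map_add] at e0
      rw [sub_eq_zero.mp e0]
      have r0 := hR 1 hone a ha ha1
      have r1 := hR D.u hu b hb hb1
      have r2 := hR D.v hv c hc hc1
      rw [one_smul] at r0
      rw [← r0, ← r1, ← r2]
      rfl
    · intro i j f hf x hx
      rcases lt_or_ge i 0 with hi | hi
      · rw [D.F_neg i hi, Submodule.mem_bot] at hf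
        rw [hf, zero_smul]
        exact Submodule.zero_mem _
      · obtain ⟨i, rfl⟩ := Int.eq_ofNat_of_zero_le hi
        exact hact i f hf j x hx
    · rw [eq_top_iff, ← (Pi.basisFun Q (Fin R)).span_eq, Submodule.span_le]
      rintro _ ⟨i, rfl⟩
      refine Submodule.subset_span (Set.mem_iUnion.mpr ⟨J, ?_⟩)
      refine ⟨⟨w i, hw.indep.mem i⟩, ?_⟩
      apply sig_eq
      have hq : ∀ j, (1 : Q) * (Pi.basisFun Q (Fin R) i) j ∈ D.F (((0 : ℕ)) : ℤ) := by
        intro j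
        rw [one_mul, Pi.basisFun_apply, Pi.single_apply]
        split_ifs
        · exact one_mem_zero D
        · exact Submodule.zero_mem _
      refine ⟨0, 0, 1, one_mem_zero D, hq, one_ne_zero, by ring, ?_⟩
      have e1 : cmb D w 0 (fun j => ⟨(1 : Q) * (Pi.basisFun Q (Fin R) i) j, hq j⟩) = w i := by
        unfold cmb
        rw [Finset.sum_eq_single i]
        · have : D.mono 0 ((1 : Q) * (Pi.basisFun Q (Fin R) i) i) (hq i) = 1 := by
            rw [← mono_zero_one D (one_mem_zero D)]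
            refine mono_congr D rfl ?_ _ _
            rw [one_mul, Pi.basisFun_apply, Pi.single_eq_same]
          rw [this, one_smul]
        · intro j _ hj
          have : D.mono 0 ((1 : Q) * (Pi.basisFun Q (Fin R) i) j) (hq j) = 0 := by
            rw [← mono_zero' D 0 (Submodule.zero_mem _)]
            refine mono_congr D rfl ?_ _ _
            rw [one_mul, Pi.basisFun_apply, Pi.single_eq_of_ne hj]
          rw [this, zero_smul]
        · intro hi; exact absurd (Finset.mem_univ i) hi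
      rw [e1, mono_zero_one, one_smul]
      simp

end A4

/-- (A4) symbol maps into `Q^R`. -/
theorem A4 {k Q : Type} [Field k] [Field Q] [Algebra k Q] (D : TData k Q)
    (M : Type) [AddCommGroup M] [Module D.Ttot M] [Module k M] [IsScalarTower k D.Ttot M]
    (n : ℕ) (hG : GrFree D M n) (hF : ∃ (N : ℕ) (b c : ℚ), 0 < N ∧ HasHP D.F N b c)
    (FM : ℤ → Submodule k M) (h : IsGoodFilt D FM) (b c : ℚ) (hHP : HasGrHP FM n b c) :
    ∃ R : ℕ, 0 < R ∧ ∃ (E : ℤ → Submodule k (Fin R → Q))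
      (σ : ∀ j : ℤ, ↥(FM j) →ₗ[k] (Fin R → Q)), IsSymb D FM E σ := by
  obtain ⟨R, hR, J, w, hw⟩ := A4.exists_maxIndep h hG hF hHP
  exact ⟨R, hR, _, A4.sig h hw, A4.symb h hG hw⟩

end Crest.Agent.R169
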