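import Crest.Agent.R169.ADefs

/-!
# Row 169, Part A: basic lemmas (owner helper592)
-/

set_option autoImplicit false

namespace Crest.Agent.R169

open Module

section QDim

variable {k M W : Type} [Field k] [AddCommGroup M] [Module k M] [AddCommGroup W] [Module k W]

/-- `dim A/B` (junk unless `B ≤ A`, finite-dimensional quotient) -/
noncomputable def qdim (A B : Submodule k M) : ℕ :=
  finrank k (↥A ⧸ B.submoduleOf A)

theorem mem_subOf {A B : Submodule k M} (x : A) : x ∈ B.submoduleOf A ↔ (x : M) ∈ B := Iff.rfl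

theorem grdim_eq (FM : ℤ → Submodule k M) (l : ℤ) : grdim FM l = qdim (FM l) (FM (l + 1)) := rfl

/-- the quotient is isomorphic to the range of a map with the right kernel -/
noncomputable def qEquiv {A B : Submodule k M} (φ : ↥A →ₗ[k] W)
    (h : ∀ a : A, φ a = 0 ↔ (a : M) ∈ B) :
    (↥A ⧸ B.submoduleOf A) ≃ₗ[k] LinearMap.range φ :=
  (Submodule.quotEquivOfEq _ _ (by
    ext a
    rw [LinearMap.mem_ker, h a]
    rfl)).trans φ.quotKerEquivRange

theorem qdim_eq_finrank_range {A B : Submodule k M} (φ : ↥A →ₗ[k] W)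
    (h : ∀ a : A, φ a = 0 ↔ (a : M) ∈ B) : qdim A B = finrank k (LinearMap.range φ) :=
  (qEquiv φ h).finrank_eq

theorem qdim_self (A : Submodule k M) : qdim A A = 0 := by
  rw [qdim_eq_finrank_range (0 : ↥A →ₗ[k] k) (by intro a; simp)]
  simp

theorem qfin_of_range {A B : Submodule k M} (φ : ↥A →ₗ[k] W)
    (h : ∀ a : A, φ a = 0 ↔ (a : M) ∈ B) [Module.Finite k (LinearMap.range φ)] :
    Module.Finite k (↥A ⧸ B.submoduleOf A) :=
  Module.Finite.equiv (qEquiv φ h).symm

/-- canonical map `B → A/C` -/
noncomputable def subQ {A B : Submodule k M} (hBA : B ≤ A) (C : Submodule k M) :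
    ↥B →ₗ[k] (↥A ⧸ C.submoduleOf A) :=
  (C.submoduleOf A).mkQ ∘ₗ Submodule.inclusion hBA

theorem subQ_eq_zero {A B : Submodule k M} (hBA : B ≤ A) (C : Submodule k M) (b : B) :
    subQ hBA C b = 0 ↔ (b : M) ∈ C := by
  simp only [subQ, LinearMap.comp_apply, Submodule.mkQ_apply, Submodule.Quotient.mk_eq_zero,
    mem_subOf, Submodule.coe_inclusion]

theorem qfin_mid {A B C : Submodule k M} (hBA : B ≤ A)
    [Module.Finite k (↥A ⧸ C.submoduleOf A)] : Module.Finite k (↥B ⧸ C.submoduleOf B) :=
  qfin_of_range (subQ hBA C) (subQ_eq_zero hBA C)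

/-- canonical map `A → A/B` factors: `A/C → A/B` surjective when `C ≤ B` -/
theorem qfin_top {A B C : Submodule k M} (hCB : C ≤ B)
    [Module.Finite k (↥A ⧸ C.submoduleOf A)] : Module.Finite k (↥A ⧸ B.submoduleOf A) := by
  have hle : C.submoduleOf A ≤ B.submoduleOf A := by
    intro x hx
    rw [mem_subOf] at hx ⊢
    exact hCB hx
  refine Module.Finite.of_surjective (Submodule.factor hle) ?_
  exact Submodule.factor_surjective hle

theorem qdim_add {A B C : Submodule k M} (hBA : B ≤ A) (hCB : C ≤ B)
    [Module.Finite k (↥A ⧸ C.submoduleOf A)] : qdim A C = qdim A B + qdim B C := by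
  have hle : C.submoduleOf A ≤ B.submoduleOf A := by
    intro x hx
    rw [mem_subOf] at hx ⊢
    exact hCB hx
  -- the map A/C → A/B
  set f := Submodule.factor hle with hf
  have hfs : Function.Surjective f := Submodule.factor_surjective hle
  have h1 := LinearMap.finrank_range_add_finrank_ker f
  rw [LinearMap.range_eq_top.mpr hfs, finrank_top] at h1
  have h2 : LinearMap.range (subQ hBA C) = LinearMap.ker f := by
    ext x
    constructor
    · rintro ⟨b, rfl⟩
      rw [LinearMap.mem_ker, hf]
      simp only [subQ, LinearMap.comp_apply, Submodule.mkQ_apply]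
      change Submodule.Quotient.mk _ = _
      rw [Submodule.Quotient.mk_eq_zero, mem_subOf]
      exact b.2
    · intro hx
      obtain ⟨a, rfl⟩ := Submodule.mkQ_surjective _ x
      rw [LinearMap.mem_ker, hf, Submodule.mkQ_apply] at hx
      change Submodule.Quotient.mk _ = _ at hx
      rw [Submodule.Quotient.mk_eq_zero, mem_subOf] at hx
      exact ⟨⟨a, hx⟩, rfl⟩
  have h3 := qdim_eq_finrank_range (subQ hBA C) (subQ_eq_zero hBA C)
  rw [h2] at h3
  unfold qdim at *
  omega

theorem qfin_ext {A B C : Submodule k M} (hBA : B ≤ A) (hCB : C ≤ B)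
    (h1 : Module.Finite k (↥A ⧸ B.submoduleOf A)) (h2 : Module.Finite k (↥B ⧸ C.submoduleOf B)) :
    Module.Finite k (↥A ⧸ C.submoduleOf A) := by
  have hle : C.submoduleOf A ≤ B.submoduleOf A := by
    intro x hx
    rw [mem_subOf] at hx ⊢
    exact hCB hx
  -- the map A/C → A/B
  set f := Submodule.factor hle with hf
  have hfs : Function.Surjective f := Submodule.factor_surjective hle
  have h3 : LinearMap.range (subQ hBA C) = LinearMap.ker f := by
    ext x
    constructor
    · rintro ⟨b, rfl⟩
      rw [LinearMap.mem_ker, hf]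
      simp only [subQ, LinearMap.comp_apply, Submodule.mkQ_apply]
      change Submodule.Quotient.mk _ = _
      rw [Submodule.Quotient.mk_eq_zero, mem_subOf]
      exact b.2
    · intro hx
      obtain ⟨a, rfl⟩ := Submodule.mkQ_surjective _ x
      rw [LinearMap.mem_ker, hf, Submodule.mkQ_apply] at hx
      change Submodule.Quotient.mk _ = _ at hx
      rw [Submodule.Quotient.mk_eq_zero, mem_subOf] at hx
      exact ⟨⟨a, hx⟩, rfl⟩
  have h4 : Module.Finite k (LinearMap.ker f) := by
    rw [← h3]
    exact Module.Finite.equiv (qEquiv (subQ hBA C) (subQ_eq_zero hBA C))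
  have h5 : Module.Finite k ((↥A ⧸ C.submoduleOf A) ⧸ LinearMap.ker f) :=
    Module.Finite.equiv (f.quotKerEquivOfSurjective hfs).symm
  exact Module.Finite.of_submodule_quotient (LinearMap.ker f)

end QDim

section

variable {k Q : Type} [Field k] [Field Q] [Algebra k Q] (D : TData k Q)
variable {M : Type} [AddCommGroup M] [Module D.Ttot M] [Module k M] [IsScalarTower k D.Ttot M]

theorem mp_anti {i j : ℤ} (h : i ≤ j) : D.mp M j ≤ D.mp M i := by
  unfold TData.mp
  intro x hx
  rw [Submodule.restrictScalars_mem] at hx ⊢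
  exact Submodule.smul_mono_left (Ideal.pow_le_pow_right (Int.toNat_le_toNat h)) hx

omit [Module D.Ttot M] [IsScalarTower k D.Ttot M] in
theorem filt_anti {FM : ℤ → Submodule k M} (h : ∀ j, FM (j + 1) ≤ FM j) {i j : ℤ} (hij : i ≤ j) :
    FM j ≤ FM i := by
  obtain ⟨t, rfl⟩ : ∃ t : ℕ, j = i + t := ⟨(j - i).toNat, by omega⟩
  clear hij
  induction t with
  | zero => simp
  | succ t ih =>
    refine le_trans ?_ ih
    have := h (i + t)
    rw [add_assoc] at this
    exact_mod_cast this

end

end Crest.Agent.R169
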