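import Crest.Agent.R169.Defs

/-!
# Row 169, Part A (local → graded): internal representation (owner helper592)

`M` is a module over `T = D.Ttot` and over `k`.  No `gr`-types: a *good filtration* is a family
`FM : ℤ → Submodule k M`; `grdim FM l = dim FM l / FM (l+1)`.
-/

set_option autoImplicit false

namespace Crest.Agent.R169

section PartA

variable {k Q : Type} [Field k] [Field Q] [Algebra k Q] (D : TData k Q)

/-- the element `X` of `T` -/
noncomputable def TData.x0 : D.Ttot := D.mono 1 1 (by simpa using D.one_mem)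
/-- the element `X u` of `T` -/
noncomputable def TData.x1 : D.Ttot := D.mono 1 D.u (by simpa using D.u_mem)
/-- the element `X v` of `T` -/
noncomputable def TData.x2 : D.Ttot := D.mono 1 D.v (by simpa using D.v_mem)

/-- the ideal `(X, Xu, Xv)` of `T` -/
noncomputable def TData.mI : Ideal D.Ttot := Ideal.span {D.x0, D.x1, D.x2}

variable (M : Type) [AddCommGroup M] [Module D.Ttot M] [Module k M] [IsScalarTower k D.Ttot M]

/-- `m^j M`, `j ∈ ℤ` (`= M` for `j ≤ 0`), as a `k`-subspace. -/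
noncomputable def TData.mp (j : ℤ) : Submodule k M :=
  ((D.mI ^ j.toNat) • (⊤ : Submodule D.Ttot M)).restrictScalars k

/-- `dim_k FM l / FM (l+1)` -/
noncomputable def grdim {k M : Type} [Field k] [AddCommGroup M] [Module k M]
    (FM : ℤ → Submodule k M) (l : ℤ) : ℕ :=
  Module.finrank k (↥(FM l) ⧸ (FM (l + 1)).submoduleOf (FM l))

variable {M}

/-- good filtrations: decreasing, compatible with `T`, comparable with the `m`-adic one, and
with torsion-free associated graded. -/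
structure IsGoodFilt (FM : ℤ → Submodule k M) : Prop where
  anti : ∀ j, FM (j + 1) ≤ FM j
  act : ∀ (i : ℕ) (f : Q) (hf : f ∈ D.F i) (j : ℤ), ∀ w ∈ FM j, D.mono i f hf • w ∈ FM (i + j)
  bdd : ∃ c : ℕ, ∀ j : ℤ, D.mp M (j + c) ≤ FM j ∧ FM j ≤ D.mp M (j - c)
  tf : ∀ (i : ℕ) (f : Q) (hf : f ∈ D.F i), f ≠ 0 → ∀ (j : ℤ), ∀ w ∈ FM j,
    D.mono i f hf • w ∈ FM (i + j + 1) → w ∈ FM (j + 1)

/-- Hilbert polynomial of the associated graded of a filtration. -/
def HasGrHP {k M : Type} [Field k] [AddCommGroup M] [Module k M]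
    (FM : ℤ → Submodule k M) (n : ℕ) (b c : ℚ) : Prop :=
  ∃ m₀ : ℤ, ∀ m ≥ m₀, (grdim FM m : ℚ) = n / 2 * (m : ℚ) ^ 2 + b * m + c

/-- symbol maps of a good filtration into `Q^R`: `σ j : FM j → Q^R` with kernel `FM (j+1)`,
compatible with `T`; `E j` is the image of `σ j`. -/
structure IsSymb {R : ℕ} (FM : ℤ → Submodule k M) (E : ℤ → Submodule k (Fin R → Q))
    (σ : ∀ j : ℤ, ↥(FM j) →ₗ[k] (Fin R → Q)) : Prop where
  ker : ∀ j (w : FM j), σ j w = 0 ↔ (w : M) ∈ FM (j + 1)
  range : ∀ j, E j = LinearMap.range (σ j)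
  act : ∀ (i : ℕ) (f : Q) (hf : f ∈ D.F i) (j : ℤ) (w : FM j)
    (h : D.mono i f hf • (w : M) ∈ FM (i + j)), σ (i + j) ⟨D.mono i f hf • (w : M), h⟩ = f • σ j w
  lat : IsTLat D E

/-- the standing hypothesis on `M`: `gr_m M ≅ A^n` (`n = dim M/mM > 0`) in dimension form. -/
def GrFree (M : Type) [AddCommGroup M] [Module D.Ttot M] [Module k M]
    [IsScalarTower k D.Ttot M] (n : ℕ) : Prop :=
  0 < n ∧ ∀ j : ℕ, grdim (D.mp M) (j : ℤ) = n * dimA j

end PartA

end Crest.Agent.R169
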