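import Crest.Agent.R169.A3

/-!
# Row 169, Part A: discreteness of `J` and assembly of Part A from A1, A2, A4 (helper914)
-/

set_option autoImplicit false
set_option linter.unusedSectionVars false

namespace Crest.Agent.R169

open Module

namespace AMin

/-- integrality of the coefficients of an integer valued quadratic polynomial. -/
theorem integrality {n : ℕ} {b c : ℚ} {m₀ : ℤ}
    (h : ∀ m ≥ m₀, ∃ a : ℕ, (a : ℚ) = n / 2 * (m : ℚ) ^ 2 + b * m + c) :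
    (∃ z : ℤ, 2 * b = z) ∧ ∃ z : ℤ, c = z := by
  -- choose an even `m ≥ m₀`
  set m : ℤ := 2 * (|m₀| + 1) with hm
  have hm1 : m ≥ m₀ := by
    have := le_abs_self m₀
    have := abs_nonneg m₀
    omega
  obtain ⟨a0, h0⟩ := h m hm1
  obtain ⟨a1, h1⟩ := h (m + 1) (by omega)
  obtain ⟨t, ht⟩ : ∃ t : ℤ, m = 2 * t := ⟨|m₀| + 1, hm⟩
  have e1 : (2 : ℚ) * b = ((2 * (a1 : ℤ) - 2 * a0 - n * (2 * m + 1) : ℤ) : ℚ) := by
    push_cast at h0 h1 ⊢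
    linear_combination 2 * h0 - 2 * h1
  refine ⟨⟨_, e1⟩, ?_⟩
  refine ⟨(a0 : ℤ) - n * (2 * t ^ 2) - (2 * (a1 : ℤ) - 2 * a0 - n * (2 * m + 1)) * t, ?_⟩
  have h0' := h0
  rw [ht] at h0' e1
  push_cast at h0' e1 ⊢
  rw [ht]
  push_cast
  linear_combination -h0' - (t : ℚ) * e1

theorem jinv_discrete {n : ℕ} (hn : 0 < n) {b c : ℚ} (hb : ∃ z : ℤ, 2 * b = z)
    (hc : ∃ z : ℤ, c = z) : ∃ z : ℤ, 8 * n * Jinv n b c = z := by
  obtain ⟨x, hx⟩ := hb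
  obtain ⟨y, hy⟩ := hc
  have hn' : (n : ℚ) ≠ 0 := by exact_mod_cast hn.ne'
  refine ⟨8 * n * y - x ^ 2 + (n : ℤ) ^ 2, ?_⟩
  unfold Jinv
  have h1 : b ^ 2 / (2 * (n : ℚ)) * (2 * n) = b ^ 2 := by field_simp
  have h2 : (x : ℚ) ^ 2 = 4 * b ^ 2 := by rw [← hx]; ring
  push_cast
  rw [h2, ← hy]
  linear_combination (-4) * h1

/-- a nonempty set of pairs `(b, c)` with `8 n J ∈ ℤ` and `J ≥ 0` has a minimum of `J`. -/
theorem exists_min {n : ℕ} (hn : 0 < n) (P : ℚ → ℚ → Prop) (hne : ∃ b c, P b c)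
    (hint : ∀ b c, P b c → ∃ z : ℤ, 8 * n * Jinv n b c = z)
    (hpos : ∀ b c, P b c → 0 ≤ Jinv n b c) :
    ∃ b c, P b c ∧ ∀ b' c', P b' c' → Jinv n b c ≤ Jinv n b' c' := by
  classical
  have hn' : (0 : ℚ) < 8 * n := by
    have : (0 : ℚ) < n := by exact_mod_cast hn
    linarith
  have key : ∀ b c, P b c → ∃ a : ℕ, 8 * n * Jinv n b c = (a : ℚ) := by
    intro b c hP
    obtain ⟨z, hz⟩ := hint b c hP
    have h1 : (0 : ℚ) ≤ z := by
      rw [← hz]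
      exact mul_nonneg hn'.le (hpos b c hP)
    have h2 : 0 ≤ z := by exact_mod_cast h1
    refine ⟨z.toNat, ?_⟩
    rw [hz]
    have : ((z.toNat : ℤ) : ℚ) = (z : ℚ) := by rw [Int.toNat_of_nonneg h2]
    exact_mod_cast this.symm
  have hex : ∃ a : ℕ, ∃ b c, P b c ∧ 8 * n * Jinv n b c = (a : ℚ) := by
    obtain ⟨b, c, hP⟩ := hne
    obtain ⟨a, ha⟩ := key b c hP
    exact ⟨a, b, c, hP, ha⟩
  obtain ⟨b, c, hP, hbc⟩ := Nat.find_spec hex
  refine ⟨b, c, hP, fun b' c' hP' => ?_⟩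
  obtain ⟨a', ha'⟩ := key b' c' hP'
  have h3 : Nat.find hex ≤ a' := Nat.find_min' hex ⟨b', c', hP', ha'⟩
  have h4 : 8 * n * Jinv n b c ≤ 8 * n * Jinv n b' c' := by
    rw [hbc, ha']
    exact_mod_cast h3
  exact le_of_mul_le_mul_left h4 hn'

section

variable {k Q : Type} [Field k] [Field Q] [Algebra k Q] (D : TData k Q)
variable (M : Type) [AddCommGroup M] [Module D.Ttot M] [Module k M] [IsScalarTower k D.Ttot M]

/-- assembly of Part A. -/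
theorem partA_of (n : ℕ) (hG : GrFree D M n)
    (hA1 : ∃ FM : ℤ → Submodule k M, IsGoodFilt D FM)
    (hA2 : ∀ FM : ℤ → Submodule k M, IsGoodFilt D FM →
      ∃ b c : ℚ, HasGrHP FM n b c ∧ 0 ≤ Jinv n b c)
    (hA4 : ∀ FM : ℤ → Submodule k M, IsGoodFilt D FM → ∀ b c : ℚ, HasGrHP FM n b c →
      ∃ R : ℕ, 0 < R ∧ ∃ (E : ℤ → Submodule k (Fin R → Q))
        (σ : ∀ j : ℤ, ↥(FM j) →ₗ[k] (Fin R → Q)), IsSymb D FM E σ) :
    ∃ R : ℕ, 0 < R ∧ ∃ G : ℤ → Submodule k (Fin R → Q), IsTLat D G ∧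
      ∃ b c : ℚ, HasHP G n b c ∧ 0 ≤ Jinv n b c ∧ NSS (Q := Q) G n b := by
  have hn : 0 < n := hG.1
  let P : ℚ → ℚ → Prop := fun b c =>
    (∃ FM : ℤ → Submodule k M, IsGoodFilt D FM ∧ HasGrHP FM n b c) ∧ 0 ≤ Jinv n b c
  have hne : ∃ b c, P b c := by
    obtain ⟨FM, hFM⟩ := hA1
    obtain ⟨b, c, h1, h2⟩ := hA2 FM hFM
    exact ⟨b, c, ⟨FM, hFM, h1⟩, h2⟩
  have hint : ∀ b c, P b c → ∃ z : ℤ, 8 * n * Jinv n b c = z := by
    rintro b c ⟨⟨FM, -, m₀, hm₀⟩, -⟩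
    have := integrality (n := n) (b := b) (c := c) (m₀ := m₀)
      (fun m hm => ⟨grdim FM m, hm₀ m hm⟩)
    exact jinv_discrete hn this.1 this.2
  obtain ⟨b, c, ⟨⟨FM, hFM, hHP⟩, hJ⟩, hmin⟩ := exists_min hn P hne hint (fun b c h => h.2)
  -- uniqueness of the value of J on a filtration is not needed: use A2 and minimality
  have hmin' : ∀ (FM' : ℤ → Submodule k M), IsGoodFilt D FM' → ∀ b' c' : ℚ,
      HasGrHP FM' n b' c' → Jinv n b c ≤ Jinv n b' c' := by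
    intro FM' hFM' b' c' h'
    obtain ⟨b₂, c₂, h₂, hJ₂⟩ := hA2 FM' hFM'
    -- the coefficients are unique
    have huniq : b' = b₂ ∧ c' = c₂ := by
      obtain ⟨m₁, hm₁⟩ := h'
      obtain ⟨m₂, hm₂⟩ := h₂
      set m := max m₁ m₂ with hm
      have e1 := hm₁ m (le_max_left _ _)
      have e2 := hm₂ m (le_max_right _ _)
      have e3 := hm₁ (m + 1) (by have := le_max_left m₁ m₂; omega)
      have e4 := hm₂ (m + 1) (by have := le_max_right m₁ m₂; omega)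
      push_cast at e1 e2 e3 e4
      have hb : b' = b₂ := by linear_combination e1 - e2 - e3 + e4
      refine ⟨hb, ?_⟩
      rw [hb] at e1
      linear_combination e2 - e1
    rw [huniq.1, huniq.2]
    exact hmin b₂ c₂ ⟨⟨FM', hFM', h₂⟩, hJ₂⟩
  obtain ⟨R, hR, E, σ, hσ⟩ := hA4 FM hFM b c hHP
  obtain ⟨h1, h2⟩ := A3.A3 D n hG FM hFM b c hHP hmin' R E σ hσ
  exact ⟨R, hR, E, hσ.lat, b, c, h1, hJ, h2⟩

end

end AMin

end Crest.Agent.R169
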