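import Mathlib

/-!
# Row 169, F3 (U3): Kummer extensions of unique factorisation domains

`k` is a field with a primitive `n`-th root of unity `ζ`, `K` an extension field of `k`, `L/K` a field
extension, `y i ∈ L` with `y i ^ n ∈ K` and `y i / y j ∉ K`.  Then the `y i` are linearly independent over `K`
and an element `∑ g i • y i` is integral over a subring `R` of `K` (containing `k`) iff all `g i • y i` are.
-/

set_option autoImplicit false

open Polynomial

namespace Crest.Agent.R169.Kummer

section Field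

variable {k K L : Type*} [Field k] [Field K] [Field L] [Algebra k K] [Algebra K L] [Algebra k L]
  [IsScalarTower k K L] {n : ℕ} {ζ : k} {κ : Type*} {y : κ → L}

lemma exists_root (hn : 0 < n) (hζ : IsPrimitiveRoot ζ n) {x w : L} (hx : x ≠ 0) (h : w ^ n = x ^ n) :
    ∃ e : k, e ^ n = 1 ∧ w = algebraMap k L e * x := by
  have : NeZero n := ⟨hn.ne'⟩
  have hζ' : IsPrimitiveRoot (algebraMap k L ζ) n := hζ.map_of_injective (algebraMap k L).injective
  have h1 : (w / x) ^ n = 1 := by
    rw [div_pow, h, div_self (pow_ne_zero _ hx)]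
  obtain ⟨i, -, hi⟩ := hζ'.eq_pow_of_pow_eq_one h1
  refine ⟨ζ ^ i, by rw [← pow_mul, mul_comm, pow_mul, hζ.pow_eq_one, one_pow], ?_⟩
  rw [map_pow, hi, div_mul_cancel₀ _ hx]

/-- Separating automorphism. -/
lemma exists_aut [Normal K L] (hn : 0 < n) (hζ : IsPrimitiveRoot ζ n) (hy : ∀ i, y i ≠ 0)
    (hpow : ∀ i, ∃ a : K, y i ^ n = algebraMap K L a)
    (hne : ∀ i j, i ≠ j → ∀ a : K, y i ≠ algebraMap K L a * y j) {i j : κ} (hij : i ≠ j) :
    ∃ (σ : L ≃ₐ[K] L) (e : κ → k), (∀ l, σ (y l) = algebraMap k L (e l) * y l) ∧ e i ≠ e j := by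
  have hnK : (n : K) ≠ 0 := by
    have : NeZero n := ⟨hn.ne'⟩
    have : NeZero (n : k) := hζ.neZero'
    have h1 : algebraMap k K (n : k) ≠ 0 := by
      rw [Ne, map_eq_zero]; exact this.ne
    simpa using h1
  set u : L := y i / y j with hu
  obtain ⟨a, ha⟩ := hpow i
  obtain ⟨b, hb⟩ := hpow j
  have hb0 : b ≠ 0 := by
    rintro rfl
    rw [map_zero] at hb
    exact hy j (pow_eq_zero_iff hn.ne' |>.1 hb)
  have ha0 : a ≠ 0 := by
    rintro rfl
    rw [map_zero] at ha
    exact hy i (pow_eq_zero_iff hn.ne' |>.1 ha)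
  have hu0 : u ≠ 0 := div_ne_zero (hy i) (hy j)
  have hun : u ^ n = algebraMap K L (a / b) := by
    rw [hu, div_pow, ha, hb, map_div₀]
  have hdvd : minpoly K u ∣ X ^ n - C (a / b) := by
    apply minpoly.dvd
    simp [hun]
  have hsep : IsSeparable K u :=
    (separable_X_pow_sub_C (a / b) hnK (div_ne_zero ha0 hb0)).of_dvd hdvd
  have hnot : u ∉ (⊥ : Subalgebra K L) := by
    intro h
    obtain ⟨c, hc⟩ := Algebra.mem_bot.1 h
    refine hne i j hij c ?_
    rw [hc, hu, div_mul_cancel₀ _ (hy j)]
  obtain ⟨w, hw, hconj⟩ := (notMem_iff_exists_ne_and_isConjRoot hsep (Normal.splits' u)).1 hnot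
  obtain ⟨σ, hσ⟩ := isConjRoot_iff_exists_algEquiv.1 hconj.symm
  have hex : ∀ l, ∃ e : k, σ (y l) = algebraMap k L e * y l := by
    intro l
    obtain ⟨c, hc⟩ := hpow l
    have h2 : σ (y l) ^ n = y l ^ n := by
      rw [← map_pow, hc]; simp
    obtain ⟨e, -, he⟩ := exists_root (k := k) hn hζ (hy l) h2
    exact ⟨e, he⟩
  choose e he using hex
  refine ⟨σ, e, he, ?_⟩
  intro hee
  apply hw
  have h3 : σ u = u := by
    rw [hu, map_div₀, he i, he j, hee]
    have h4 : algebraMap k L (e j) ≠ 0 := by
      intro h0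
      have := he j
      rw [h0, zero_mul] at this
      exact hy j ((map_eq_zero σ).1 this)
    rw [mul_div_mul_left _ _ h4]
  rw [← hσ, h3]

lemma indep_aux [Normal K L] (hn : 0 < n) (hζ : IsPrimitiveRoot ζ n) (hy : ∀ i, y i ≠ 0)
    (hpow : ∀ i, ∃ a : K, y i ^ n = algebraMap K L a)
    (hne : ∀ i j, i ≠ j → ∀ a : K, y i ≠ algebraMap K L a * y j) (s : Finset κ) :
    ∀ g : κ → K, ∑ i ∈ s, g i • y i = 0 → ∀ i ∈ s, g i = 0 := by
  classical
  induction s using Finset.induction_on with
  | empty => intro g _ i hi; simp at hi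
  | insert j t hj ih =>
    intro g hg
    have ht : ∀ i ∈ t, g i = 0 := by
      intro i hi
      have hij : i ≠ j := fun h => hj (h ▸ hi)
      obtain ⟨σ, e, he, hne'⟩ := exists_aut (k := k) hn hζ hy hpow hne hij
      have h1 := congrArg σ hg
      rw [map_zero, map_sum] at h1
      have h2 : ∑ l ∈ insert j t, g l • (algebraMap k L (e l) * y l) = 0 := by
        rw [← h1]
        refine Finset.sum_congr rfl fun l _ => ?_
        rw [map_smul, he]
      have h3 : ∑ l ∈ t, (g l * algebraMap k K (e l - e j)) • y l = 0 := by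
        have h4 : ∑ l ∈ insert j t, g l • (algebraMap k L (e l) * y l)
            - algebraMap k L (e j) * ∑ l ∈ insert j t, g l • y l = 0 := by rw [h2, hg]; simp
        rw [Finset.mul_sum, ← Finset.sum_sub_distrib, Finset.sum_insert hj] at h4
        have h5 : g j • (algebraMap k L (e j) * y j) - algebraMap k L (e j) * g j • y j = 0 := by
          rw [mul_smul_comm, sub_self]
        rw [h5, zero_add] at h4
        rw [← h4]
        refine Finset.sum_congr rfl fun l _ => ?_
        rw [mul_smul_comm, ← smul_sub, ← sub_mul, ← map_sub, mul_smul, Algebra.smul_def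
          (algebraMap k K (e l - e j)), ← IsScalarTower.algebraMap_apply]
      have h6 := ih _ h3 i hi
      rcases mul_eq_zero.1 h6 with h7 | h7
      · exact h7
      · rw [map_eq_zero, sub_eq_zero] at h7
        exact absurd h7 hne'
    rw [Finset.sum_insert hj, Finset.sum_eq_zero (fun i hi => by rw [ht i hi, zero_smul]), add_zero] at hg
    intro i hi
    rcases Finset.mem_insert.1 hi with rfl | hi
    · rcases smul_eq_zero.1 hg with h | h
      · exact h
      · exact absurd h (hy i)
    · exact ht i hi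

lemma integral_aux {R : Type*} [CommRing R] [Algebra R K] [Algebra R L] [IsScalarTower R K L] [Algebra k R]
    [IsScalarTower k R L] [Normal K L] (hn : 0 < n) (hζ : IsPrimitiveRoot ζ n) (hy : ∀ i, y i ≠ 0)
    (hpow : ∀ i, ∃ a : K, y i ^ n = algebraMap K L a)
    (hne : ∀ i j, i ≠ j → ∀ a : K, y i ≠ algebraMap K L a * y j) (s : Finset κ) :
    ∀ g : κ → K, IsIntegral R (∑ i ∈ s, g i • y i) → ∀ i ∈ s, IsIntegral R (g i • y i) := by
  classical
  have hint : ∀ e : k, IsIntegral R (algebraMap k L e) := fun e => by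
    rw [IsScalarTower.algebraMap_apply k R L]; exact isIntegral_algebraMap
  induction s using Finset.induction_on with
  | empty => intro g _ i hi; simp at hi
  | insert j t hj ih =>
    intro g hg
    have ht : ∀ i ∈ t, IsIntegral R (g i • y i) := by
      intro i hi
      have hij : i ≠ j := fun h => hj (h ▸ hi)
      obtain ⟨σ, e, he, hne'⟩ := exists_aut (k := k) hn hζ hy hpow hne hij
      have h1 : IsIntegral R (σ (∑ l ∈ insert j t, g l • y l)) :=
        hg.map (σ.toAlgHom.restrictScalars R)
      have h2 : σ (∑ l ∈ insert j t, g l • y l) = ∑ l ∈ insert j t, g l • (algebraMap k L (e l) * y l) := by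
        rw [map_sum]
        refine Finset.sum_congr rfl fun l _ => ?_
        rw [map_smul, he]
      have h3 : IsIntegral R (∑ l ∈ t, (g l * algebraMap k K (e l - e j)) • y l) := by
        have h4 : IsIntegral R (∑ l ∈ insert j t, g l • (algebraMap k L (e l) * y l)
            - algebraMap k L (e j) * ∑ l ∈ insert j t, g l • y l) := by
          rw [← h2]; exact h1.sub ((hint _).mul hg)
        rw [Finset.mul_sum, ← Finset.sum_sub_distrib, Finset.sum_insert hj] at h4
        have h5 : g j • (algebraMap k L (e j) * y j) - algebraMap k L (e j) * g j • y j = 0 := by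
          rw [mul_smul_comm, sub_self]
        rw [h5, zero_add] at h4
        convert h4 using 1
        refine Finset.sum_congr rfl fun l _ => ?_
        rw [mul_smul_comm, ← smul_sub, ← sub_mul, ← map_sub, mul_smul, Algebra.smul_def
          (algebraMap k K (e l - e j)), ← IsScalarTower.algebraMap_apply]
      have h6 := ih _ h3 i hi
      have h7 : g i • y i = algebraMap k L (e i - e j)⁻¹ *
          ((g i * algebraMap k K (e i - e j)) • y i) := by
        rw [mul_smul, Algebra.smul_def (algebraMap k K (e i - e j)), ← IsScalarTower.algebraMap_apply,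
          mul_smul_comm, ← mul_assoc, ← map_mul, inv_mul_cancel₀ (sub_ne_zero.2 hne'), map_one, one_mul]
      rw [h7]
      exact (hint _).mul h6
    intro i hi
    rcases Finset.mem_insert.1 hi with rfl | hi
    · rw [Finset.sum_insert hj] at hg
      have h8 : IsIntegral R (∑ l ∈ t, g l • y l) := IsIntegral.sum _ ht
      have h9 := hg.sub h8
      rwa [add_sub_cancel_right] at h9
    · exact ht i hi

/-- **Kummer independence.** -/
theorem linearIndependent (hn : 0 < n) (hζ : IsPrimitiveRoot ζ n) (hy : ∀ i, y i ≠ 0)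
    (hpow : ∀ i, ∃ a : K, y i ^ n = algebraMap K L a)
    (hne : ∀ i j, i ≠ j → ∀ a : K, y i ≠ algebraMap K L a * y j) : LinearIndependent K y := by
  classical
  set E := IntermediateField.adjoin K (Set.range y) with hE
  have hmem : ∀ i, y i ∈ E := fun i => IntermediateField.subset_adjoin K _ ⟨i, rfl⟩
  have halg : Algebra.IsAlgebraic K E := by
    refine IntermediateField.isAlgebraic_adjoin ?_
    rintro _ ⟨i, rfl⟩
    obtain ⟨a, ha⟩ := hpow i
    refine IsIntegral.of_pow hn ?_
    rw [ha]; exact isIntegral_algebraMap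
  let φ : E →ₐ[K] AlgebraicClosure K := IsAlgClosed.lift
  let y' : κ → E := fun i => ⟨y i, hmem i⟩
  have hy' : ∀ i, φ (y' i) ≠ 0 := fun i h => hy i (congrArg Subtype.val ((map_eq_zero φ).1 h))
  have hpow' : ∀ i, ∃ a : K, φ (y' i) ^ n = algebraMap K (AlgebraicClosure K) a := by
    intro i
    obtain ⟨a, ha⟩ := hpow i
    refine ⟨a, ?_⟩
    have h1 : y' i ^ n = algebraMap K E a := Subtype.ext ha
    rw [← map_pow, h1]; simp
  have hne' : ∀ i j, i ≠ j → ∀ a : K, φ (y' i) ≠ algebraMap K (AlgebraicClosure K) a * φ (y' j) := by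
    intro i j hij a h
    have h1 : φ (y' i) = φ (algebraMap K E a * y' j) := by rw [h]; simp
    have h2 := congrArg Subtype.val (φ.injective h1)
    exact hne i j hij a h2
  rw [linearIndependent_iff']
  intro s g hg
  refine indep_aux (k := k) hn hζ hy' hpow' hne' s g ?_
  have h1 : ∑ i ∈ s, g i • y' i = 0 := by
    apply Subtype.ext
    simpa using hg
  have h2 := congrArg φ h1
  rw [map_zero, map_sum] at h2
  simpa using h2

/-- **Kummer integrality.** -/
theorem isIntegral_smul {R : Type*} [CommRing R] [Algebra R K] [Algebra R L] [IsScalarTower R K L]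
    [Algebra k R] [IsScalarTower k R K] (hn : 0 < n) (hζ : IsPrimitiveRoot ζ n) (hy : ∀ i, y i ≠ 0)
    (hpow : ∀ i, ∃ a : K, y i ^ n = algebraMap K L a)
    (hne : ∀ i j, i ≠ j → ∀ a : K, y i ≠ algebraMap K L a * y j) (s : Finset κ)
    (g : κ → K) (hg : IsIntegral R (∑ i ∈ s, g i • y i)) : ∀ i ∈ s, IsIntegral R (g i • y i) := by
  classical
  set E := IntermediateField.adjoin K (Set.range y) with hE
  have hmem : ∀ i, y i ∈ E := fun i => IntermediateField.subset_adjoin K _ ⟨i, rfl⟩
  have halg : Algebra.IsAlgebraic K E := by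
    refine IntermediateField.isAlgebraic_adjoin ?_
    rintro _ ⟨i, rfl⟩
    obtain ⟨a, ha⟩ := hpow i
    refine IsIntegral.of_pow hn ?_
    rw [ha]; exact isIntegral_algebraMap
  let φ : E →ₐ[K] AlgebraicClosure K := IsAlgClosed.lift
  let y' : κ → E := fun i => ⟨y i, hmem i⟩
  have hy' : ∀ i, φ (y' i) ≠ 0 := fun i h => hy i (congrArg Subtype.val ((map_eq_zero φ).1 h))
  have hpow' : ∀ i, ∃ a : K, φ (y' i) ^ n = algebraMap K (AlgebraicClosure K) a := by
    intro i
    obtain ⟨a, ha⟩ := hpow i
    refine ⟨a, ?_⟩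
    have h1 : y' i ^ n = algebraMap K E a := Subtype.ext ha
    rw [← map_pow, h1]; simp
  have hne' : ∀ i j, i ≠ j → ∀ a : K, φ (y' i) ≠ algebraMap K (AlgebraicClosure K) a * φ (y' j) := by
    intro i j hij a h
    have h1 : φ (y' i) = φ (algebraMap K E a * y' j) := by rw [h]; simp
    have h2 := congrArg Subtype.val (φ.injective h1)
    exact hne i j hij a h2
  have hval : ∀ x : E, IsIntegral R (φ x) ↔ IsIntegral R (x : L) := by
    intro x
    have h1 : IsIntegral R (φ x) ↔ IsIntegral R x :=
      isIntegral_algHom_iff (φ.restrictScalars R) φ.injective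
    have h2 : IsIntegral R (x : L) ↔ IsIntegral R x :=
      isIntegral_algHom_iff (E.val.restrictScalars R) E.val.injective
    rw [h1, h2]
  intro i hi
  have h1 : IsIntegral R (∑ i ∈ s, g i • φ (y' i)) := by
    have h2 : ∑ i ∈ s, g i • φ (y' i) = φ (∑ i ∈ s, g i • y' i) := by simp
    rw [h2, hval]
    simpa using hg
  have h3 := integral_aux (k := k) (R := R) hn hζ hy' hpow' hne' s g h1 i hi
  have h4 : g i • φ (y' i) = φ (g i • y' i) := by simp
  rw [h4, hval] at h3
  simpa using h3

end Field

/-- the monomials `z ^ β` -/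
def zmon {M : Type*} [CommMonoid M] {n : ℕ} {ι : Type*} [Fintype ι] (z : ι → M) (β : ι → Fin n) : M :=
  ∏ j, z j ^ (β j : ℕ)

section UFD

variable {k R K L : Type*} [Field k] [CommRing R] [IsDomain R] [UniqueFactorizationMonoid R]
  [Field K] [Field L] [Algebra k R] [Algebra k K] [Algebra k L] [Algebra R K] [Algebra R L]
  [Algebra K L] [IsScalarTower k R K] [IsScalarTower k K L] [IsScalarTower R K L] [IsFractionRing R K]
  {n : ℕ} {ζ : k} {ι : Type*} [Fintype ι] {p : ι → R} {z : ι → L}

/-- the monomial `∏ p_j ^ β_j` -/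
def mon (p : ι → R) (β : ι → Fin n) : R := ∏ j, p j ^ (β j : ℕ)

omit [IsDomain R] in
lemma emultiplicity_mon [IsDomain R] (hp : ∀ j, Prime (p j))
    (hpp : ∀ i j, i ≠ j → ¬ Associated (p i) (p j))
    (β : ι → Fin n) (j : ι) : emultiplicity (p j) (mon p β) = (β j : ℕ) := by
  classical
  unfold mon
  rw [Finset.emultiplicity_prod (hp j)]
  have h1 : ∀ i ∈ (Finset.univ : Finset ι), emultiplicity (p j) (p i ^ (β i : ℕ)) =
      if i = j then ((β j : ℕ) : ℕ∞) else 0 := by
    intro i _
    rw [emultiplicity_pow (hp j)]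
    split_ifs with h
    · subst h
      rw [(FiniteMultiplicity.of_not_isUnit (hp i).not_isUnit (hp i).ne_zero).emultiplicity_self]
      simp
    · have : emultiplicity (p j) (p i) = 0 := by
        rw [emultiplicity_eq_zero]
        intro hd
        exact hpp j i (Ne.symm h) ((hp j).associated_of_dvd (hp i) hd)
      rw [this]; simp
  rw [Finset.sum_congr rfl h1]
  simp

lemma mon_ne_zero (hp : ∀ j, Prime (p j)) (β : ι → Fin n) : mon p β ≠ 0 :=
  Finset.prod_ne_zero_iff.2 fun j _ => pow_ne_zero _ (hp j).ne_zero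

/-- an element `g ∈ K` with `g ^ n * p ^ β ∈ R`, `β < n`, is in `R`. -/
lemma mem_of_pow_mul_mon (hn : 0 < n) (hp : ∀ j, Prime (p j))
    (hpp : ∀ i j, i ≠ j → ¬ Associated (p i) (p j)) (β : ι → Fin n) (g : K) (c : R)
    (hg : g ^ n * algebraMap R K (mon p β) = algebraMap R K c) : ∃ r : R, algebraMap R K r = g := by
  obtain ⟨r, s, hrs, hgs⟩ := IsFractionRing.exists_reduced_fraction (A := R) g
  have hs0 : (s : R) ≠ 0 := nonZeroDivisors.coe_ne_zero s
  have hs0' : algebraMap R K s ≠ 0 := by
    simpa using hs0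
  have hg' : g = algebraMap R K r / algebraMap R K s := by
    rw [← hgs, IsFractionRing.mk'_eq_div]
  have h1 : r ^ n * mon p β = c * (s : R) ^ n := by
    apply IsFractionRing.injective R K
    rw [hg', div_pow, div_mul_eq_mul_div, div_eq_iff (pow_ne_zero _ hs0')] at hg
    rw [map_mul, map_mul, map_pow, map_pow]
    exact hg
  by_cases hu : IsUnit (s : R)
  · obtain ⟨u, hu⟩ := hu
    refine ⟨r * ↑u⁻¹, ?_⟩
    rw [hg', ← hu, map_mul, div_eq_mul_inv]
    congr 1
    refine eq_inv_of_mul_eq_one_left ?_
    rw [← map_mul, Units.inv_mul, map_one]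
  · exfalso
    obtain ⟨q, hq, hqs⟩ := WfDvdMonoid.exists_irreducible_factor hu hs0
    have hqp : Prime q := hq.prime
    have hqr : ¬ q ∣ r := fun h => hq.not_isUnit (hrs h hqs)
    have h2 : q ^ n ∣ r ^ n * mon p β := by
      rw [h1]; exact Dvd.dvd.mul_left (pow_dvd_pow_of_dvd hqs n) c
    have h3 : ¬ q ∣ r ^ n := fun h => hqr (hqp.dvd_of_dvd_pow h)
    have h4 : q ^ n ∣ mon p β := hqp.pow_dvd_of_dvd_mul_left n h3 h2
    have h5 : q ∣ mon p β := (dvd_pow_self q hn.ne').trans h4
    obtain ⟨j, -, hj⟩ := (hqp.dvd_finsetProd_iff _).1 h5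
    have h6 : q ∣ p j := hqp.dvd_of_dvd_pow hj
    have h7 : Associated q (p j) := hqp.associated_of_dvd (hp j) h6
    have h8 : p j ^ n ∣ mon p β := (h7.pow_pow.dvd_iff_dvd_left).1 h4
    have h9 : (n : ℕ∞) ≤ emultiplicity (p j) (mon p β) := pow_dvd_iff_le_emultiplicity.1 h8
    rw [emultiplicity_mon hp hpp] at h9
    have h10 : n ≤ (β j : ℕ) := by exact_mod_cast h9
    exact absurd (β j).2 (by omega)

omit [Fintype ι] [IsDomain R] [UniqueFactorizationMonoid R] in
lemma z_ne_zero (hinj : Function.Injective (algebraMap R L)) (hn : 0 < n) (hp : ∀ j, p j ≠ 0)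
    (hz : ∀ j, z j ^ n = algebraMap R L (p j)) (j : ι) : z j ≠ 0 := by
  intro h
  have h1 := hz j
  rw [h, zero_pow hn.ne'] at h1
  exact hp j (hinj (by rw [← h1, map_zero]))

omit [IsDomain R] [UniqueFactorizationMonoid R] in
lemma zmon_pow (hz : ∀ j, z j ^ n = algebraMap R L (p j)) (β : ι → Fin n) :
    zmon z β ^ n = algebraMap R L (mon p β) := by
  unfold zmon mon
  rw [← Finset.prod_pow, map_prod]
  refine Finset.prod_congr rfl fun j _ => ?_
  rw [← pow_mul, mul_comm, pow_mul, hz, map_pow]

omit [IsDomain R] [UniqueFactorizationMonoid R] in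
lemma zmon_ne_zero (hinj : Function.Injective (algebraMap R L)) (hn : 0 < n) (hp : ∀ j, p j ≠ 0)
    (hz : ∀ j, z j ^ n = algebraMap R L (p j)) (β : ι → Fin n) : zmon z β ≠ 0 :=
  Finset.prod_ne_zero_iff.2 fun j _ => pow_ne_zero _ (z_ne_zero hinj hn hp hz j)

variable (K) in
include K in
omit [IsDomain R] [UniqueFactorizationMonoid R] in
lemma algebraMap_inj : Function.Injective (algebraMap R L) := by
  rw [IsScalarTower.algebraMap_eq R K L]
  exact (algebraMap K L).injective.comp (IsFractionRing.injective R K)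

lemma zmon_ne (hn : 0 < n) (hp : ∀ j, Prime (p j))
    (hpp : ∀ i j, i ≠ j → ¬ Associated (p i) (p j))
    (hz : ∀ j, z j ^ n = algebraMap R L (p j)) (β β' : ι → Fin n) (hb : β ≠ β') (a : K) :
    zmon z β ≠ algebraMap K L a * zmon z β' := by
  intro h
  apply hb
  have hinj := algebraMap_inj (R := R) K (L := L)
  have h1 : zmon z β ^ n = algebraMap K L a ^ n * zmon z β' ^ n := by rw [h, mul_pow]
  rw [zmon_pow hz, zmon_pow hz, IsScalarTower.algebraMap_apply R K L,
    IsScalarTower.algebraMap_apply R K L, ← map_pow, ← map_mul] at h1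
  have h2 := (algebraMap K L).injective h1
  obtain ⟨r, s, hs, rfl⟩ := IsFractionRing.div_surjective (A := R) a
  have hs0 : s ≠ 0 := nonZeroDivisors.ne_zero hs
  have hs0' : algebraMap R K s ≠ 0 := by
    rw [Ne, map_eq_zero_iff _ (IsFractionRing.injective R K)]; exact hs0
  have h3 : s ^ n * mon p β = r ^ n * mon p β' := by
    apply IsFractionRing.injective R K
    rw [div_pow, div_mul_eq_mul_div, eq_div_iff (pow_ne_zero _ hs0')] at h2
    rw [map_mul, map_mul, map_pow, map_pow, ← h2, mul_comm]
  have hr0 : r ≠ 0 := by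
    rintro rfl
    rw [zero_pow hn.ne', zero_mul] at h3
    exact mul_ne_zero (pow_ne_zero _ hs0) (mon_ne_zero hp β) h3
  funext j
  have h4 := congrArg (emultiplicity (p j)) h3
  rw [emultiplicity_mul (hp j), emultiplicity_mul (hp j), emultiplicity_pow (hp j),
    emultiplicity_pow (hp j), emultiplicity_mon hp hpp, emultiplicity_mon hp hpp] at h4
  have fs : FiniteMultiplicity (p j) s := FiniteMultiplicity.of_not_isUnit (hp j).not_isUnit hs0
  have fr : FiniteMultiplicity (p j) r := FiniteMultiplicity.of_not_isUnit (hp j).not_isUnit hr0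
  rw [fs.emultiplicity_eq_multiplicity, fr.emultiplicity_eq_multiplicity] at h4
  have h5 : n * multiplicity (p j) s + (β j : ℕ) = n * multiplicity (p j) r + (β' j : ℕ) := by
    exact_mod_cast h4
  have h6 := congrArg (· % n) h5
  simp only [Nat.mul_add_mod] at h6
  rw [Nat.mod_eq_of_lt (β j).2, Nat.mod_eq_of_lt (β' j).2] at h6
  exact Fin.ext h6

/-- **Kummer basis**: the monomials `z ^ β`, `0 ≤ β_j < n`, are linearly independent over `K`. -/
theorem linearIndependent_zmon (hn : 0 < n) (hζ : IsPrimitiveRoot ζ n) (hp : ∀ j, Prime (p j))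
    (hpp : ∀ i j, i ≠ j → ¬ Associated (p i) (p j))
    (hz : ∀ j, z j ^ n = algebraMap R L (p j)) :
    LinearIndependent K (zmon z : (ι → Fin n) → L) := by
  have hinj := algebraMap_inj (R := R) K (L := L)
  refine linearIndependent hn hζ (zmon_ne_zero hinj hn (fun j => (hp j).ne_zero) hz) (fun β => ?_)
    (fun β β' hb a => zmon_ne hn hp hpp hz β β' hb a)
  exact ⟨algebraMap R K (mon p β), by rw [zmon_pow hz, IsScalarTower.algebraMap_apply R K L]⟩

/-- **Kummer normality**, coefficient form. -/
theorem exists_coeff (hn : 0 < n) (hζ : IsPrimitiveRoot ζ n) (hp : ∀ j, Prime (p j))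
    (hpp : ∀ i j, i ≠ j → ¬ Associated (p i) (p j))
    (hz : ∀ j, z j ^ n = algebraMap R L (p j)) (s : Finset (ι → Fin n)) (g : (ι → Fin n) → K)
    (hg : IsIntegral R (∑ β ∈ s, g β • zmon z β)) (β : ι → Fin n) (hβ : β ∈ s) :
    ∃ r : R, algebraMap R K r = g β := by
  have hinj := algebraMap_inj (R := R) K (L := L)
  have h1 := isIntegral_smul (k := k) (R := R) hn hζ
    (zmon_ne_zero hinj hn (fun j => (hp j).ne_zero) hz)
    (fun β => ⟨algebraMap R K (mon p β), by rw [zmon_pow hz, IsScalarTower.algebraMap_apply R K L]⟩)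
    (fun β β' hb a => zmon_ne hn hp hpp hz β β' hb a) s g hg β hβ
  have h2 := h1.pow n
  rw [Algebra.smul_def, mul_pow, zmon_pow hz, IsScalarTower.algebraMap_apply R K L, ← map_pow,
    ← map_mul] at h2
  have h3 : IsIntegral R (g β ^ n * algebraMap R K (mon p β)) :=
    (isIntegral_algebraMap_iff (algebraMap K L).injective).1 h2
  obtain ⟨c, hc⟩ := (IsIntegrallyClosed.isIntegral_iff).1 h3
  exact mem_of_pow_mul_mon hn hp hpp β (g β) c hc.symm

end UFD

section Ring

variable {k R S : Type*} [Field k] [CommRing R] [IsDomain R] [UniqueFactorizationMonoid R]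
  [CommRing S] [Algebra k R] [Algebra R S]
  {n : ℕ} {ζ : k} {ι : Type*} [Fintype ι] {p : ι → R} {Z : ι → S}

/-- Any `R`-algebra homomorphism from a ring spanned over `R` by the monomials `Z ^ β`, `β_j < n`,
`Z_j ^ n = p_j`, to a field containing `R` is injective, and the monomials are independent over `R`. -/
theorem injective_of_hom {L : Type*} [Field L] [Algebra R L] (hinj : Function.Injective (algebraMap R L))
    (φ : S →ₐ[R] L) (hn : 0 < n) (hζ : IsPrimitiveRoot ζ n) (hp : ∀ j, Prime (p j))
    (hpp : ∀ i j, i ≠ j → ¬ Associated (p i) (p j)) (hZ : ∀ j, Z j ^ n = algebraMap R S (p j))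
    (hspan : Submodule.span R (Set.range (zmon Z : (ι → Fin n) → S)) = ⊤) :
    Function.Injective φ ∧ LinearIndependent R (zmon Z : (ι → Fin n) → S) := by
  classical
  have : FaithfulSMul R L := (faithfulSMul_iff_algebraMap_injective R L).2 hinj
  letI : Algebra (FractionRing R) L := FractionRing.liftAlgebra R L
  have htow : IsScalarTower R (FractionRing R) L := FractionRing.isScalarTower_liftAlgebra R L
  letI : Algebra k L := ((algebraMap (FractionRing R) L).comp (algebraMap k (FractionRing R))).toAlgebra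
  have : IsScalarTower k (FractionRing R) L := IsScalarTower.of_algebraMap_eq fun x => rfl
  have hz : ∀ j, φ (Z j) ^ n = algebraMap R L (p j) := fun j => by
    rw [← map_pow, hZ, AlgHom.commutes]
  have hind := linearIndependent_zmon (k := k) (R := R) (K := FractionRing R) (L := L) (z := fun j => φ (Z j))
    hn hζ hp hpp hz
  have hmon : ∀ β : ι → Fin n, φ (zmon Z β) = zmon (fun j => φ (Z j)) β := by
    intro β
    unfold zmon
    rw [map_prod]
    simp_rw [map_pow]
  have hind' : LinearIndependent R (zmon (fun j => φ (Z j)) : (ι → Fin n) → L) := by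
    refine hind.restrict_scalars ?_
    intro a b hab
    simp only [Algebra.smul_def, mul_one] at hab
    exact IsFractionRing.injective R (FractionRing R) hab
  have hindS : LinearIndependent R (zmon Z : (ι → Fin n) → S) := by
    have h1 : (zmon (fun j => φ (Z j)) : (ι → Fin n) → L) = φ.toLinearMap ∘ (zmon Z) := by
      funext β; exact (hmon β).symm
    rw [h1] at hind'
    exact hind'.of_comp
  refine ⟨?_, hindS⟩
  rw [injective_iff_map_eq_zero]
  intro x hx
  have hxm : x ∈ Submodule.span R (Set.range (zmon Z : (ι → Fin n) → S)) := hspan ▸ Submodule.mem_top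
  rw [Submodule.mem_span_range_iff_exists_fun] at hxm
  obtain ⟨c, rfl⟩ := hxm
  rw [map_sum] at hx
  simp_rw [map_smul, hmon] at hx
  have h2 := Fintype.linearIndependent_iff.1 hind' c hx
  exact Finset.sum_eq_zero fun β _ => by rw [h2 β, zero_smul]

/-- **Kummer normality.** -/
theorem isIntegrallyClosed [IsDomain S] [Algebra k S] [IsScalarTower k R S]
    (hinj : Function.Injective (algebraMap R S)) (hn : 0 < n) (hζ : IsPrimitiveRoot ζ n)
    (hp : ∀ j, Prime (p j)) (hpp : ∀ i j, i ≠ j → ¬ Associated (p i) (p j))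
    (hZ : ∀ j, Z j ^ n = algebraMap R S (p j))
    (hspan : Submodule.span R (Set.range (zmon Z : (ι → Fin n) → S)) = ⊤) :
    IsIntegrallyClosed S := by
  classical
  have hfin : Module.Finite R S :=
    ⟨⟨(Set.finite_range (zmon Z : (ι → Fin n) → S)).toFinset, by simpa using hspan⟩⟩
  have hint : Algebra.IsIntegral R S := Algebra.IsIntegral.of_finite R S
  have hfS : FaithfulSMul R S := (faithfulSMul_iff_algebraMap_injective R S).2 hinj
  set L := FractionRing S with hL
  have hinjL : Function.Injective (algebraMap R L) := by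
    rw [IsScalarTower.algebraMap_eq R S L]
    exact (IsFractionRing.injective S L).comp hinj
  have : FaithfulSMul R L := (faithfulSMul_iff_algebraMap_injective R L).2 hinjL
  letI : Algebra (FractionRing R) L := FractionRing.liftAlgebra R L
  have htow : IsScalarTower R (FractionRing R) L := FractionRing.isScalarTower_liftAlgebra R L
  have htk : IsScalarTower k (FractionRing R) L := by
    refine IsScalarTower.of_algebraMap_eq fun x => ?_
    rw [IsScalarTower.algebraMap_apply k R (FractionRing R), ← IsScalarTower.algebraMap_apply R (FractionRing R) L,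
      IsScalarTower.algebraMap_apply R S L, ← IsScalarTower.algebraMap_apply k R S,
      ← IsScalarTower.algebraMap_apply k S L]
  have hz : ∀ j, algebraMap S L (Z j) ^ n = algebraMap R L (p j) := fun j => by
    rw [← map_pow, hZ, IsScalarTower.algebraMap_apply R S L]
  have hmon : ∀ β : ι → Fin n, algebraMap S L (zmon Z β) = zmon (fun j => algebraMap S L (Z j)) β := by
    intro β
    unfold zmon
    rw [map_prod]
    simp_rw [map_pow]
  rw [isIntegrallyClosed_iff L]
  intro x hx
  have hxR : IsIntegral R x := isIntegral_trans (R := R) (A := S) x hx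
  obtain ⟨⟨a, b⟩, hab⟩ := IsLocalization.surj (Algebra.algebraMapSubmonoid S (nonZeroDivisors R)) x
  obtain ⟨r, hr, hrb⟩ := b.2
  have hr0 : r ≠ 0 := nonZeroDivisors.ne_zero hr
  simp only at hab
  rw [← hrb, ← IsScalarTower.algebraMap_apply R S L] at hab
  have ham : a ∈ Submodule.span R (Set.range (zmon Z : (ι → Fin n) → S)) := hspan ▸ Submodule.mem_top
  rw [Submodule.mem_span_range_iff_exists_fun] at ham
  obtain ⟨c, rfl⟩ := ham
  set g : (ι → Fin n) → FractionRing R := fun β => algebraMap R (FractionRing R) (c β) /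
    algebraMap R (FractionRing R) r with hg
  have hx' : x = ∑ β : ι → Fin n, g β • zmon (fun j => algebraMap S L (Z j)) β := by
    have hrL : algebraMap R L r ≠ 0 := by
      rw [Ne, map_eq_zero_iff _ hinjL]; exact hr0
    have h1 : x = (algebraMap R L r)⁻¹ * algebraMap S L (∑ β, c β • zmon Z β) := by
      rw [← hab, mul_comm x, inv_mul_cancel_left₀ hrL]
    rw [h1, map_sum, Finset.mul_sum]
    refine Finset.sum_congr rfl fun β _ => ?_
    rw [Algebra.smul_def, Algebra.smul_def, map_mul, hmon, hg]
    simp only [map_div₀]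
    rw [← IsScalarTower.algebraMap_apply R (FractionRing R) L,
      ← IsScalarTower.algebraMap_apply R (FractionRing R) L, ← IsScalarTower.algebraMap_apply R S L]
    rw [div_eq_mul_inv]
    ring
  rw [hx'] at hxR
  have h2 : ∀ β, ∃ r : R, algebraMap R (FractionRing R) r = g β := fun β =>
    exists_coeff (k := k) (R := R) (K := FractionRing R) (L := L) hn hζ hp hpp hz Finset.univ g hxR β
      (Finset.mem_univ β)
  choose d hd using h2
  refine ⟨∑ β, d β • zmon Z β, ?_⟩
  rw [hx', map_sum]
  refine Finset.sum_congr rfl fun β _ => ?_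
  rw [Algebra.smul_def, Algebra.smul_def, map_mul, hmon, ← hd,
    ← IsScalarTower.algebraMap_apply R (FractionRing R) L, ← IsScalarTower.algebraMap_apply R S L]

end Ring

end Crest.Agent.R169.Kummer
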