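import Crest.Agent.R169.RingDefs
import Crest.Agent.R169.Kummer

/-!
# Row 169, part F: `O n k` over `O 1 k`

`ORing n k` is a module over `ORing 1 k` through `z_j ↦ z_j ^ n`, spanned by the monomials `z ^ β`,
`0 ≤ β_j < n`.  If `ORing 1 k` is a UFD in which the `z_j` are pairwise non-associated primes, then this is a
basis, `ORing n k` is a domain and integrally closed.
-/

set_option autoImplicit false

open MvPolynomial Crest.R169
open Crest.Agent.R169.Kummer (zmon)

namespace Crest.Agent.R169.OnOverO1

variable (n : ℕ) (k : Type*) [Field k]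

/-- `O 1 k → O n k`, `z_j ↦ z_j ^ n`. -/
noncomputable def incl : ORing 1 k →ₐ[k] ORing n k :=
  ORing.lift (fun j => z n k j ^ n) (fun j => by simpa using z_rel n k j)

@[simp] lemma incl_z (j : Fin 5) : incl n k (z 1 k j) = z n k j ^ n := by
  unfold incl
  rw [ORing.lift_z]

/-- the algebra structure of `O n k` over `O 1 k` (not an instance). -/
noncomputable abbrev algO : Algebra (ORing 1 k) (ORing n k) := (incl n k).toRingHom.toAlgebra

attribute [local instance] algO

lemma algebraMap_eq : algebraMap (ORing 1 k) (ORing n k) = (incl n k).toRingHom := rfl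

lemma algebraMap_z (j : Fin 5) : algebraMap (ORing 1 k) (ORing n k) (z 1 k j) = z n k j ^ n :=
  incl_z n k j

instance isScalarTower : IsScalarTower k (ORing 1 k) (ORing n k) :=
  IsScalarTower.of_algebraMap_eq fun x => ((incl n k).commutes x).symm

lemma zm_mem_span (hn : 0 < n) (γ : Fin 5 → ℕ) :
    zm n k γ ∈ Submodule.span (ORing 1 k) (Set.range (zmon (z n k) : (Fin 5 → Fin n) → ORing n k)) := by
  have h : zm n k γ = (zm 1 k (fun j => γ j / n)) •
      zmon (z n k) (fun j => (⟨γ j % n, Nat.mod_lt _ hn⟩ : Fin n)) := by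
    rw [Algebra.smul_def]
    unfold zm zmon
    rw [map_prod, ← Finset.prod_mul_distrib]
    refine Finset.prod_congr rfl fun j _ => ?_
    rw [map_pow, algebraMap_z, ← pow_mul, ← pow_add, Nat.div_add_mod]
  rw [h]
  exact Submodule.smul_mem _ _ (Submodule.subset_span ⟨_, rfl⟩)

/-- `O n k` is spanned over `k` by monomials -/
lemma span_zm : Submodule.span k (Set.range (zm n k)) = ⊤ := by
  rw [eq_top_iff]
  rintro x -
  obtain ⟨p, rfl⟩ := toO_surjective n k x
  induction p using MvPolynomial.induction_on' with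
  | monomial u a =>
    have h : toO n k (monomial u a) = a • zm n k u := by
      rw [monomial_eq, ← smul_eq_C_mul, map_smul, Finsupp.prod_fintype _ _ (fun i => pow_zero _), map_prod]
      simp_rw [map_pow]
      rfl
    rw [h]
    exact Submodule.smul_mem _ _ (Submodule.subset_span ⟨_, rfl⟩)
  | add p q hp hq => rw [map_add]; exact Submodule.add_mem _ hp hq

theorem span_zmon (hn : 0 < n) :
    Submodule.span (ORing 1 k) (Set.range (zmon (z n k) : (Fin 5 → Fin n) → ORing n k)) = ⊤ := by
  rw [eq_top_iff]
  rintro x -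
  have hx : x ∈ Submodule.span k (Set.range (zm n k)) := by rw [span_zm]; exact Submodule.mem_top
  induction hx using Submodule.span_induction with
  | mem x hx => obtain ⟨γ, rfl⟩ := hx; exact zm_mem_span n k hn γ
  | zero => exact Submodule.zero_mem _
  | add x y _ _ hx hy => exact Submodule.add_mem _ hx hy
  | smul c x _ hx =>
    rw [← algebraMap_smul (ORing 1 k) c x]
    exact Submodule.smul_mem _ _ hx

section UFD

variable {n k} [IsDomain (ORing 1 k)]

/-- an `O 1 k`-algebra homomorphism from `O n k` to the algebraic closure of `Frac (O 1 k)` -/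
lemma exists_hom (hn : 0 < n) :
    Nonempty (ORing n k →ₐ[ORing 1 k] AlgebraicClosure (FractionRing (ORing 1 k))) := by
  set L := AlgebraicClosure (FractionRing (ORing 1 k)) with hL
  have hroot : ∀ j : Fin 5, ∃ x : L, x ^ n = algebraMap (ORing 1 k) L (z 1 k j) := fun j =>
    IsAlgClosed.exists_pow_nat_eq _ hn
  choose y hy using hroot
  have hrel : ∀ j, y j ^ n * y (j + 1) ^ n = 1 + y (j + 3) ^ n := by
    intro j
    rw [hy, hy, hy, ← map_mul, ← map_one (algebraMap (ORing 1 k) L), ← map_add]
    congr 1
    simpa using z_rel 1 k j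
  let φ : ORing n k →ₐ[k] L := ORing.lift y hrel
  have hφ : ∀ r : ORing 1 k, φ (algebraMap (ORing 1 k) (ORing n k) r) = algebraMap (ORing 1 k) L r := by
    intro r
    have h : φ.comp (incl n k) = IsScalarTower.toAlgHom k (ORing 1 k) L := by
      apply ORing.algHom_ext
      intro j
      rw [AlgHom.comp_apply, incl_z, map_pow, IsScalarTower.coe_toAlgHom']
      simp only [φ, ORing.lift_z]
      exact hy j
    exact DFunLike.congr_fun h r
  exact ⟨{ φ with commutes' := hφ }⟩

variable [UniqueFactorizationMonoid (ORing 1 k)]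

lemma inj_L : Function.Injective (algebraMap (ORing 1 k) (AlgebraicClosure (FractionRing (ORing 1 k)))) := by
  rw [IsScalarTower.algebraMap_eq (ORing 1 k) (FractionRing (ORing 1 k)) _]
  exact (algebraMap (FractionRing (ORing 1 k)) _).injective.comp
    (IsFractionRing.injective (ORing 1 k) (FractionRing (ORing 1 k)))

/-- `z ^ β`, `0 ≤ β_j < n`, are independent over `O 1 k`. -/
theorem linearIndependent_zmon {ζ : k} (hn : 0 < n) (hζ : IsPrimitiveRoot ζ n)
    (hp : ∀ j, Prime (z 1 k j)) (hpp : ∀ i j, i ≠ j → ¬ Associated (z 1 k i) (z 1 k j)) :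
    LinearIndependent (ORing 1 k) (zmon (z n k) : (Fin 5 → Fin n) → ORing n k) := by
  obtain ⟨φ⟩ := exists_hom (k := k) hn
  exact (Kummer.injective_of_hom inj_L φ hn hζ hp hpp (fun j => (algebraMap_z n k j).symm)
    (span_zmon n k hn)).2

/-- `O n k` is a domain. -/
theorem isDomain {ζ : k} (hn : 0 < n) (hζ : IsPrimitiveRoot ζ n)
    (hp : ∀ j, Prime (z 1 k j)) (hpp : ∀ i j, i ≠ j → ¬ Associated (z 1 k i) (z 1 k j)) :
    IsDomain (ORing n k) := by
  obtain ⟨φ⟩ := exists_hom (k := k) hn
  have h := (Kummer.injective_of_hom inj_L φ hn hζ hp hpp (fun j => (algebraMap_z n k j).symm)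
    (span_zmon n k hn)).1
  exact h.isDomain φ.toRingHom

/-- `O 1 k → O n k` is injective -/
theorem incl_injective (hn : 0 < n) : Function.Injective (incl n k) := by
  obtain ⟨φ⟩ := exists_hom (k := k) hn
  have h : (φ : ORing n k → _) ∘ (incl n k) = algebraMap (ORing 1 k) _ := by
    funext r
    exact φ.commutes r
  have h2 : Function.Injective ((φ : ORing n k → _) ∘ (incl n k)) := by
    rw [h]; exact inj_L
  exact h2.of_comp

/-- `O n k` is integrally closed. -/
theorem isIntegrallyClosed {ζ : k} (hn : 0 < n) (hζ : IsPrimitiveRoot ζ n)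
    (hp : ∀ j, Prime (z 1 k j)) (hpp : ∀ i j, i ≠ j → ¬ Associated (z 1 k i) (z 1 k j)) :
    IsIntegrallyClosed (ORing n k) := by
  have := isDomain hn hζ hp hpp
  exact Kummer.isIntegrallyClosed (k := k) (R := ORing 1 k) (Z := z n k) (incl_injective hn) hn hζ hp hpp
    (fun j => (algebraMap_z n k j).symm) (span_zmon n k hn)

end UFD

end Crest.Agent.R169.OnOverO1
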