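import Crest.Agent.R169.RingSpan

/-!
# Row 169, part F3: the five chart valuations of `O_1`

`hs i : ORing 1 k →ₐ[k] HahnSeries ℤ k[T;T⁻¹]`, `order (hs i f) = - w_i(f)`.
-/

set_option autoImplicit false
set_option linter.unusedSimpArgs false

noncomputable section

namespace Crest.Agent.R169.Val

open HahnSeries Crest.R169

variable (k : Type*) [Field k]

/-- the target of the chart homomorphisms -/
abbrev HS : Type _ := HahnSeries ℤ (LaurentPolynomial k)

open LaurentPolynomial in
/-- values of the generators in chart `0` -/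
def aHS : Fin 5 → HS k :=
  ![single 1 (1 + T (-1)) + single 2 (T (-1)), single (-1) 1, single 0 (T 1) + single 1 1,
    single 0 (T (-1)) + single 1 (T (-1)), single (-1) (T 1)]

open LaurentPolynomial in
theorem aHS_rel (j : Fin 5) : aHS k j * aHS k (j + 1) = 1 + aHS k (j + 3) := by
  have hT : (T 1 * T (-1) : LaurentPolynomial k) = 1 := by rw [← T_add]; simp
  have hT' : (T (-1) * T 1 : LaurentPolynomial k) = 1 := by rw [← T_add]; simp
  have h1 : (1 : HS k) = single 0 1 := rfl
  fin_cases j <;>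
  · simp only [aHS, Fin.zero_eta, Fin.mk_one, Fin.reduceFinMk, Fin.isValue, Fin.reduceAdd, zero_add,
      Matrix.cons_val_zero, Matrix.cons_val_one,
      Matrix.cons_val, add_mul, mul_add, single_mul_single, hT, hT', mul_one, one_mul]
    rw [h1]
    norm_num
    try abel

/-- order of the generators in chart `0` -/
def ordA : Fin 5 → ℤ := ![1, -1, 0, 0, -1]

open LaurentPolynomial in
/-- leading coefficient of the generators in chart `0` -/
def lcA : Fin 5 → LaurentPolynomial k := ![1 + T (-1), 1, T 1, T (-1), T 1]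

open LaurentPolynomial in
theorem one_add_T_ne : (1 + T (-1) : LaurentPolynomial k) ≠ 0 := by
  intro h
  have h2 : ((1 + T (-1) : LaurentPolynomial k)).coeff (-1) = 0 := by rw [h]; rfl
  rw [show (1 : LaurentPolynomial k) = T 0 from rfl] at h2
  simp only [AddMonoidAlgebra.coeff_add, Finsupp.add_apply, T_apply] at h2
  norm_num at h2

open LaurentPolynomial in
theorem T_ne (n : ℤ) : (T n : LaurentPolynomial k) ≠ 0 := by
  intro h
  have h2 : ((T n : LaurentPolynomial k)).coeff n = 0 := by rw [h]; rfl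
  simp only [T_apply] at h2
  norm_num at h2

theorem aHS_lead (j : Fin 5) :
    (aHS k j).orderTop = ((ordA j : ℤ) : WithTop ℤ) ∧ (aHS k j).leadingCoeff = lcA k j := by
  have hlt : ∀ (a b : ℤ) (x y : LaurentPolynomial k), a < b → x ≠ 0 → y ≠ 0 →
      (single a x).orderTop < (single b y).orderTop := by
    intro a b x y hab hx hy
    rw [orderTop_single hx, orderTop_single hy]
    exact_mod_cast hab
  fin_cases j
  · have h := hlt 1 2 _ _ (by norm_num) (one_add_T_ne k) (T_ne k (-1))
    simp only [aHS, ordA, lcA, Fin.zero_eta, Fin.isValue, Matrix.cons_val_zero]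
    rw [orderTop_add_eq_left h, leadingCoeff_add_eq_left h, orderTop_single (one_add_T_ne k),
      leadingCoeff_of_single]
    exact ⟨rfl, rfl⟩
  · simp only [aHS, ordA, lcA, Fin.mk_one, Fin.isValue, Matrix.cons_val_one, Matrix.cons_val_zero]
    rw [orderTop_single one_ne_zero, leadingCoeff_of_single]
    exact ⟨rfl, rfl⟩
  · have h := hlt 0 1 _ _ (by norm_num) (T_ne k 1) one_ne_zero
    simp only [aHS, ordA, lcA, Fin.reduceFinMk, Fin.isValue, Matrix.cons_val]
    rw [orderTop_add_eq_left h, leadingCoeff_add_eq_left h, orderTop_single (T_ne k 1),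
      leadingCoeff_of_single]
    exact ⟨rfl, rfl⟩
  · have h := hlt 0 1 _ _ (by norm_num) (T_ne k (-1)) (T_ne k (-1))
    simp only [aHS, ordA, lcA, Fin.reduceFinMk, Fin.isValue, Matrix.cons_val]
    rw [orderTop_add_eq_left h, leadingCoeff_add_eq_left h, orderTop_single (T_ne k (-1)),
      leadingCoeff_of_single]
    exact ⟨rfl, rfl⟩
  · simp only [aHS, ordA, lcA, Fin.reduceFinMk, Fin.isValue, Matrix.cons_val]
    rw [orderTop_single (T_ne k 1), leadingCoeff_of_single]
    exact ⟨rfl, rfl⟩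


/-- value of a monomial in chart `0` -/
def mHS (β : Fin 5 → ℕ) : HS k := ∏ j, aHS k j ^ β j

/-- the exponent of the leading coefficient -/
def eA (β : Fin 5 → ℕ) : ℤ := (β 4 : ℤ) + β 2 - β 3

theorem orderTop_pow' (x : HS k) (e : ℤ) (h : x.orderTop = (e : WithTop ℤ)) (n : ℕ) :
    (x ^ n).orderTop = ((n * e : ℤ) : WithTop ℤ) := by
  induction n with
  | zero => simp
  | succ n ih =>
    rw [pow_succ, orderTop_mul, ih, h]
    norm_cast
    push_cast
    ring

theorem leadingCoeff_pow' (x : HS k) (n : ℕ) :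
    (x ^ n).leadingCoeff = x.leadingCoeff ^ n := by
  induction n with
  | zero => simp
  | succ n ih => rw [pow_succ, leadingCoeff_mul, ih, pow_succ]

theorem mHS_orderTop (β : Fin 5 → ℕ) : (mHS k β).orderTop = ((-(w 0 β) : ℤ) : WithTop ℤ) := by
  rw [mHS, Fin.prod_univ_five]
  simp only [orderTop_mul, orderTop_pow' k _ _ (aHS_lead k _).1]
  norm_cast
  simp only [ordA, w]
  simp
  ring

open LaurentPolynomial in
theorem mHS_leadingCoeff (β : Fin 5 → ℕ) :
    (mHS k β).leadingCoeff = (1 + T (-1)) ^ (β 0) * T (eA β) := by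
  rw [mHS, Fin.prod_univ_five]
  simp only [leadingCoeff_mul, leadingCoeff_pow', (aHS_lead k _).2]
  simp only [lcA]
  simp only [Matrix.cons_val, T_pow, one_pow, Matrix.cons_val_zero, Matrix.cons_val_one, mul_one,
    mul_assoc, ← T_add]
  congr 2
  rw [eA]
  ring

/-- the good monomials with the same weight have different leading coefficients -/
theorem eA_inj {β γ : Fin 5 → ℕ} (hβ : Good 1 β) (hγ : Good 1 γ) (hw : w 0 β = w 0 γ)
    (he : eA β = eA γ) : β = γ := by
  have b0 := hβ 0
  have b1 := hβ 1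
  have b2 := hβ 2
  have b3 := hβ 3
  have b4 := hβ 4
  have c0 := hγ 0
  have c1 := hγ 1
  have c2 := hγ 2
  have c3 := hγ 3
  have c4 := hγ 4
  simp only [w, eA] at hw he
  simp only [Fin.isValue, Fin.reduceAdd, zero_add] at *
  funext j
  fin_cases j <;> simp only [Fin.zero_eta, Fin.mk_one, Fin.reduceFinMk, Fin.isValue] <;> omega

theorem w_eq_beta0 {β : Fin 5 → ℕ} (hβ : Good 1 β) : β 0 = (-(w 0 β)).toNat := by
  have b0 := hβ 0
  have b4 := hβ 4
  simp only [w]
  simp only [Fin.isValue, Fin.reduceAdd, zero_add] at *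
  omega


/-- cyclic shift of an exponent -/
def sh (i : Fin 5) (β : Fin 5 → ℕ) : Fin 5 → ℕ := fun j => β (j + i)

theorem w_sh (i : Fin 5) (β : Fin 5 → ℕ) : w 0 (sh i β) = w i β := by
  simp only [w, sh, Fin.isValue, zero_add]
  rw [add_comm (4 : Fin 5) i, add_comm (1 : Fin 5) i]

theorem good_sh {n : ℕ} (i : Fin 5) {β : Fin 5 → ℕ} (h : Good n β) : Good n (sh i β) := by
  intro j
  have := h (j + i)
  simp only [sh]
  rwa [show j + 1 + i = j + i + 1 by clear this; revert i j; decide]

theorem sh_inj (i : Fin 5) {β γ : Fin 5 → ℕ} (h : sh i β = sh i γ) : β = γ := by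
  funext j
  have := congrFun h (j - i)
  simpa [sh] using this

section
attribute [-instance] HahnSeries.powerSeriesAlgebra

/-- the chart homomorphism as an algebra homomorphism -/
def hsA (i : Fin 5) : ORing 1 k →ₐ[k] HS k :=
  ORing.lift (fun j => aHS k (j - i)) (by
    intro j
    simp only [pow_one]
    rw [show j + 1 - i = (j - i) + 1 by revert i j; decide,
      show j + 3 - i = (j - i) + 3 by revert i j; decide]
    exact aHS_rel k _)

/-- the chart homomorphism -/
def hs (i : Fin 5) : ORing 1 k →+* HS k := (hsA k i).toRingHom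

theorem hs_z (i j : Fin 5) : hs k i (z 1 k j) = aHS k (j - i) := by
  change hsA k i (z 1 k j) = _
  simp [hsA]

theorem hs_smul (i : Fin 5) (c : k) (x : ORing 1 k) : hs k i (c • x) = c • hs k i x := by
  change hsA k i (c • x) = c • hsA k i x
  rw [map_smul]

end

theorem hs_zm (i : Fin 5) (β : Fin 5 → ℕ) : hs k i (zm 1 k β) = mHS k (sh i β) := by
  rw [zm, map_prod, mHS]
  rw [← Equiv.prod_comp (Equiv.addRight i)]
  refine Finset.prod_congr rfl fun j _ => ?_
  rw [map_pow, hs_z]
  simp [sh]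

theorem hs_zm_orderTop (i : Fin 5) (β : Fin 5 → ℕ) :
    (hs k i (zm 1 k β)).orderTop = ((-(w i β) : ℤ) : WithTop ℤ) := by
  rw [hs_zm, mHS_orderTop, w_sh]

open LaurentPolynomial in
/-- coefficient of a combination of good monomials in top weight -/
theorem coeff_sum_hs (i : Fin 5) (s : Finset (Fin 5 → ℕ)) (c : (Fin 5 → ℕ) → k)
    (hs' : ∀ β ∈ s, Good 1 β) (M : ℤ) (hM : ∀ β ∈ s, w i β ≤ M) :
    (hs k i (∑ β ∈ s, c β • zm 1 k β)).coeff (-M) =
      (1 + T (-1)) ^ (-M).toNat *
        ∑ β ∈ s.filter (fun β => w i β = M), c β • T (eA (sh i β)) := by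
  rw [map_sum, Finset.mul_sum, Finset.sum_filter]
  rw [HahnSeries.coeff_sum]
  refine Finset.sum_congr rfl fun β hβ => ?_
  rw [hs_smul, HahnSeries.coeff_smul]
  split_ifs with h
  · have h1 : (hs k i (zm 1 k β)).coeff (-M) = (hs k i (zm 1 k β)).leadingCoeff := by
      rw [leadingCoeff_eq]
      congr 1
      have h2 := hs_zm_orderTop k i β
      have h3 : hs k i (zm 1 k β) ≠ 0 := by
        intro h0
        rw [h0, orderTop_zero] at h2
        exact WithTop.top_ne_coe h2
      rw [← order_eq_orderTop_of_ne_zero h3] at h2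
      have h4 : (hs k i (zm 1 k β)).order = -(w i β) := by exact_mod_cast h2
      rw [h4, h]
    rw [h1, hs_zm, mHS_leadingCoeff, w_eq_beta0 (good_sh i (hs' β hβ)), w_sh, h, mul_smul_comm]
  · have h1 : (hs k i (zm 1 k β)).coeff (-M) = 0 := by
      apply coeff_eq_zero_of_lt_orderTop
      rw [hs_zm_orderTop]
      have := lt_of_le_of_ne (hM β hβ) h
      exact_mod_cast neg_lt_neg this
    rw [h1, smul_zero]

open LaurentPolynomial in
theorem coeff_sum_hs_ne (i : Fin 5) (s : Finset (Fin 5 → ℕ)) (c : (Fin 5 → ℕ) → k)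
    (hs' : ∀ β ∈ s, Good 1 β) (M : ℤ) (hM : ∀ β ∈ s, w i β ≤ M) {β₀ : Fin 5 → ℕ} (h0 : β₀ ∈ s)
    (hc : c β₀ ≠ 0) (hw : w i β₀ = M) :
    (hs k i (∑ β ∈ s, c β • zm 1 k β)).coeff (-M) ≠ 0 := by
  rw [coeff_sum_hs k i s c hs' M hM]
  refine mul_ne_zero (pow_ne_zero _ (one_add_T_ne k)) ?_
  intro h
  have h2 : (∑ β ∈ s.filter (fun β => w i β = M), c β • T (eA (sh i β)) :
      LaurentPolynomial k).coeff (eA (sh i β₀)) = 0 := by
    rw [h]; rfl
  rw [AddMonoidAlgebra.coeff_sum, Finset.sum_apply'] at h2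
  rw [Finset.sum_eq_single β₀] at h2
  · rw [AddMonoidAlgebra.coeff_smul, Finsupp.smul_apply, T_apply, if_pos rfl, smul_eq_mul,
      mul_one] at h2
    exact hc h2
  · intro β hβ hne
    rw [Finset.mem_filter] at hβ
    rw [AddMonoidAlgebra.coeff_smul, Finsupp.smul_apply, T_apply, if_neg, smul_zero]
    intro he
    apply hne
    apply sh_inj i
    exact eA_inj (good_sh i (hs' β hβ.1)) (good_sh i (hs' β₀ h0)) (by rw [w_sh, w_sh, hβ.2, hw]) he
  · intro hn
    exact absurd (Finset.mem_filter.2 ⟨h0, hw⟩) hn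

/-- the weight of a combination of good monomials is the maximum of the weights -/
theorem le_orderTop_sum_iff (i : Fin 5) (s : Finset (Fin 5 → ℕ)) (c : (Fin 5 → ℕ) → k)
    (hs' : ∀ β ∈ s, Good 1 β) (hc : ∀ β ∈ s, c β ≠ 0) (m : ℤ) :
    (((-m : ℤ) : WithTop ℤ) ≤ (hs k i (∑ β ∈ s, c β • zm 1 k β)).orderTop) ↔
      ∀ β ∈ s, w i β ≤ m := by
  constructor
  · intro h
    by_contra hcon
    push Not at hcon
    obtain ⟨β₁, hβ₁, hlt⟩ := hcon
    obtain ⟨β₀, hβ₀, hmax⟩ := Finset.exists_max_image s (fun β => w i β) ⟨β₁, hβ₁⟩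
    have hne := coeff_sum_hs_ne k i s c hs' (w i β₀) hmax hβ₀ (hc β₀ hβ₀) rfl
    have h2 : m < w i β₀ := lt_of_lt_of_le hlt (hmax β₁ hβ₁)
    apply hne
    apply coeff_eq_zero_of_lt_orderTop
    refine lt_of_lt_of_le ?_ h
    exact_mod_cast neg_lt_neg h2
  · intro h
    rw [le_orderTop_iff_forall]
    intro g hg
    rw [map_sum, HahnSeries.coeff_sum]
    refine Finset.sum_eq_zero fun β hβ => ?_
    rw [hs_smul, HahnSeries.coeff_smul]
    have h1 : (hs k i (zm 1 k β)).coeff g = 0 := by
      apply coeff_eq_zero_of_lt_orderTop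
      rw [hs_zm_orderTop]
      refine lt_of_lt_of_le hg ?_
      exact_mod_cast neg_le_neg (h β hβ)
    rw [h1, smul_zero]


theorem toO_monomial {k : Type*} [Field k] (n : ℕ) (γ : Fin 5 →₀ ℕ) (c : k) :
    toO n k (MvPolynomial.monomial γ c) = c • zm n k γ := by
  rw [← mul_one c, ← smul_eq_mul, ← MvPolynomial.smul_monomial, map_smul, smul_eq_mul, mul_one]
  congr 1
  rw [MvPolynomial.monomial_eq, map_mul, zm, Finsupp.prod_fintype _ _ (fun _ => pow_zero _),
    map_prod]
  simp [z]

section good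

variable {k} {n : ℕ}

theorem span_good_eq_top (hn : 0 < n) :
    Submodule.span k (zm n k '' {β | Good n β}) = ⊤ := by
  rw [eq_top_iff]
  rintro x -
  obtain ⟨p, rfl⟩ := toO_surjective n k x
  induction p using MvPolynomial.induction_on' with
  | monomial γ c =>
    rw [toO_monomial]
    refine Submodule.smul_mem _ _ ?_
    exact Submodule.span_mono (Set.image_mono fun β hβ => hβ.1) (zm_mem_span_good hn γ)
  | add p q hp hq =>
    rw [map_add]
    exact Submodule.add_mem _ hp hq

theorem exists_good_sum (hn : 0 < n) (x : ORing n k) :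
    ∃ (s : Finset (Fin 5 → ℕ)) (c : (Fin 5 → ℕ) → k), (∀ β ∈ s, Good n β) ∧
      (∀ β ∈ s, c β ≠ 0) ∧ x = ∑ β ∈ s, c β • zm n k β := by
  have hx : x ∈ Submodule.span k (zm n k '' {β | Good n β}) := by
    rw [span_good_eq_top hn]; trivial
  obtain ⟨l, hl, rfl⟩ := (Finsupp.mem_span_image_iff_linearCombination k).1 hx
  refine ⟨l.support, l, fun β hβ => hl hβ, fun β hβ => Finsupp.mem_support_iff.1 hβ, ?_⟩
  rw [Finsupp.linearCombination_apply, Finsupp.sum]

end good

section one

/-- the good monomials of `O_1` are linearly independent (any field) -/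
theorem eq_zero_of_sum_eq_zero_one (s : Finset (Fin 5 → ℕ)) (c : (Fin 5 → ℕ) → k)
    (hs' : ∀ β ∈ s, Good 1 β) (hc : ∀ β ∈ s, c β ≠ 0) (i : Fin 5)
    (h : hs k i (∑ β ∈ s, c β • zm 1 k β) = 0) : s = ∅ := by
  rw [Finset.eq_empty_iff_forall_notMem]
  intro β hβ
  have h1 := (le_orderTop_sum_iff k i s c hs' hc (w i β - 1)).1 (by rw [h]; simp) β hβ
  omega

theorem hs_injective (i : Fin 5) : Function.Injective (hs k i) := by
  rw [injective_iff_map_eq_zero]
  intro x hx
  obtain ⟨s, c, h1, h2, rfl⟩ := exists_good_sum one_pos x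
  rw [eq_zero_of_sum_eq_zero_one k s c h1 h2 i hx, Finset.sum_empty]

instance instIsDomainO1 : IsDomain (ORing 1 k) := (hs_injective k 0).isDomain (hs k 0)

theorem linearIndependent_zm_one :
    LinearIndependent k (fun β : {β : Fin 5 → ℕ // Good 1 β} => zm 1 k β.1) := by
  rw [linearIndependent_iff']
  intro s g hg β hβ
  by_contra hne
  classical
  let t : Finset (Fin 5 → ℕ) := (s.filter fun β => g β ≠ 0).map ⟨Subtype.val, Subtype.val_injective⟩
  let c : (Fin 5 → ℕ) → k := fun β => if h : Good 1 β then g ⟨β, h⟩ else 0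
  have hc : ∀ β : {β : Fin 5 → ℕ // Good 1 β}, c β.1 = g β := by
    intro β
    simp only [c]
    rw [dif_pos β.2]
  have h1 : ∑ β ∈ t, c β • zm 1 k β = 0 := by
    rw [Finset.sum_map]
    simp only [Function.Embedding.coeFn_mk, hc]
    rw [Finset.sum_filter_of_ne, hg]
    intro x _ hx h0
    apply hx
    rw [h0, zero_smul]
  have h2 := eq_zero_of_sum_eq_zero_one k t c (by
      intro β hβ
      simp only [t, Finset.mem_map, Function.Embedding.coeFn_mk] at hβ
      obtain ⟨a, _, rfl⟩ := hβ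
      exact a.2) (by
      intro β hβ
      simp only [t, Finset.mem_map, Function.Embedding.coeFn_mk, Finset.mem_filter] at hβ
      obtain ⟨a, ha, rfl⟩ := hβ
      rw [hc]
      exact ha.2) 0 (by rw [h1, map_zero])
  have h3 : β.1 ∈ t := by
    simp only [t, Finset.mem_map, Function.Embedding.coeFn_mk, Finset.mem_filter]
    exact ⟨β, ⟨hβ, hne⟩, rfl⟩
  rw [h2] at h3
  simp at h3

variable {k}

/-- order of `hs i` on the filtration -/
theorem le_orderTop_of_mem_span (i : Fin 5) (m : ℤ) {x : ORing 1 k}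
    (hx : x ∈ Submodule.span k (zm 1 k '' {γ | w i γ ≤ m})) :
    ((-m : ℤ) : WithTop ℤ) ≤ (hs k i x).orderTop := by
  induction hx using Submodule.span_induction with
  | mem x hx =>
    obtain ⟨γ, hγ, rfl⟩ := hx
    rw [hs_zm_orderTop]
    exact_mod_cast neg_le_neg hγ
  | zero => simp
  | add x y _ _ h1 h2 =>
    rw [map_add]
    exact le_trans (le_min h1 h2) min_orderTop_le_orderTop_add
  | smul c x _ h =>
    rw [hs_smul]
    exact h.trans (orderTop_le_orderTop_smul c _)

/-- `F_m(O_1)` in terms of the five chart valuations -/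
theorem mem_Fil_one_iff (m : ℤ) (x : ORing 1 k) :
    x ∈ Fil 1 k m ↔ ∀ i, ((-m : ℤ) : WithTop ℤ) ≤ (hs k i x).orderTop := by
  constructor
  · intro hx i
    exact le_orderTop_of_mem_span i m (Submodule.span_mono
      (Set.image_mono fun (γ : Fin 5 → ℕ) (hγ : ∀ i, w i γ ≤ m) => hγ i) hx)
  · intro h
    obtain ⟨s, c, h1, h2, rfl⟩ := exists_good_sum one_pos x
    refine Submodule.sum_mem _ fun β hβ => Submodule.smul_mem _ _ (zm_mem_Fil fun i => ?_)
    exact (le_orderTop_sum_iff k i s c h1 h2 m).1 (h i) β hβ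

end one

end Crest.Agent.R169.Val
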