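import Crest.Agent.R169.Ring
import Crest.Agent.R169.OnOverO1
import Crest.Agent.R169.Val

/-!
# Row 169, F3: averaging over `μ_n^5` (helper789)

`sig ζ j` : the automorphism `z_j ↦ ζ z_j` of `O n k`.
`AI n k N m` : the `k`-space of the `f ∈ O n k` with `c f^j ∈ F_{⌊(L + j m)/N⌋}` for all `j`
(some `0 ≠ c ∈ O 1 k`, `L ∈ ℤ`); it is stable under `sig`, hence under taking isotypic components.
-/

set_option autoImplicit false

open Crest.R169 Crest.Agent.R169.OnOverO1

namespace Crest.Agent.R169.Avg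

variable {n : ℕ} {k : Type*} [Field k]

/-- rescaling automorphism `z_j ↦ ζ z_j` -/
noncomputable def sig {ζ : k} (hζ : ζ ^ n = 1) (j : Fin 5) : ORing n k →ₐ[k] ORing n k :=
  ORing.lift (fun i => (if i = j then ζ else 1 : k) • z n k i) (by
    intro i
    rw [smul_pow, smul_pow, smul_pow]
    have h1 : ∀ i : Fin 5, (if i = j then ζ else 1 : k) ^ n = 1 := by
      intro i; split_ifs <;> simp [hζ]
    rw [h1, h1, h1, one_smul, one_smul, one_smul, z_rel])

theorem sig_z {ζ : k} (hζ : ζ ^ n = 1) (j i : Fin 5) :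
    sig hζ j (z n k i) = (if i = j then ζ else 1 : k) • z n k i := by
  unfold sig
  rw [ORing.lift_z]

theorem sig_zm {ζ : k} (hζ : ζ ^ n = 1) (j : Fin 5) (β : Fin 5 → ℕ) :
    sig hζ j (zm n k β) = ζ ^ β j • zm n k β := by
  unfold zm
  rw [map_prod]
  have h1 : ∀ i ∈ (Finset.univ : Finset (Fin 5)), sig hζ j (z n k i ^ β i) =
      (if i = j then ζ ^ β j else 1 : k) • z n k i ^ β i := by
    intro i _
    rw [map_pow, sig_z, smul_pow]
    split_ifs with h
    · rw [h]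
    · rw [one_pow]
  rw [Finset.prod_congr rfl h1, Finset.prod_smul]
  congr 1
  rw [Finset.prod_ite_eq' Finset.univ j (fun _ => ζ ^ β j)]
  simp

theorem sig_incl {ζ : k} (hζ : ζ ^ n = 1) (j : Fin 5) (f : ORing 1 k) :
    sig hζ j (incl n k f) = incl n k f := by
  have h : (sig hζ j).comp (incl n k) = incl n k := by
    apply ORing.algHom_ext
    intro i
    rw [AlgHom.comp_apply, incl_z, map_pow, sig_z, smul_pow]
    split_ifs
    · rw [hζ, one_smul]
    · rw [one_pow, one_smul]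
  exact DFunLike.congr_fun h f

theorem sig_mem_Fil {ζ : k} (hζ : ζ ^ n = 1) (j : Fin 5) {m : ℤ} {x : ORing n k}
    (hx : x ∈ Fil n k m) : sig hζ j x ∈ Fil n k m := by
  induction hx using Submodule.span_induction with
  | mem x hx =>
    obtain ⟨γ, hγ, rfl⟩ := hx
    rw [sig_zm]
    exact Submodule.smul_mem _ _ (zm_mem_Fil hγ)
  | zero => rw [map_zero]; exact Submodule.zero_mem _
  | add x y _ _ h1 h2 => rw [map_add]; exact Submodule.add_mem _ h1 h2
  | smul c x _ h => rw [map_smul]; exact Submodule.smul_mem _ _ h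

theorem floor_add_le {N : ℤ} (hN : 0 < N) (x y : ℤ) : x / N + y / N ≤ (x + y) / N := by
  rw [Int.le_ediv_iff_mul_le hN]
  have h1 := Int.ediv_mul_le x hN.ne'
  have h2 := Int.ediv_mul_le y hN.ne'
  linarith

variable (n k) in
/-- almost integral elements of degree `m / N` -/
noncomputable def AI (N : ℕ) (hN : 0 < N) (m : ℤ) : Submodule k (ORing n k) where
  carrier := {f | ∃ c : ORing 1 k, c ≠ 0 ∧ ∃ L : ℤ, ∀ j : ℕ,
    incl n k c * f ^ j ∈ Fil n k ((L + j * m) / N)}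
  zero_mem' := by
    refine ⟨1, one_ne_zero, 0, fun j => ?_⟩
    rcases Nat.eq_zero_or_pos j with rfl | hj
    · simpa using one_mem_Fil_zero (n := n) (k := k)
    · rw [zero_pow hj.ne', mul_zero]
      exact Submodule.zero_mem _
  add_mem' := by
    rintro f g ⟨c, hc, L, hf⟩ ⟨c', hc', L', hg⟩
    refine ⟨c * c', mul_ne_zero hc hc', L + L', fun j => ?_⟩
    rw [add_pow, Finset.mul_sum]
    refine Submodule.sum_mem _ fun i hi => ?_
    have hi' : i ≤ j := Nat.lt_succ_iff.1 (Finset.mem_range.1 hi)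
    have h1 : incl n k (c * c') * (f ^ i * g ^ (j - i) * ↑(j.choose i)) =
        (j.choose i : k) • ((incl n k c * f ^ i) * (incl n k c' * g ^ (j - i))) := by
      rw [map_mul, Algebra.smul_def, map_natCast]
      ring
    rw [h1]
    refine Submodule.smul_mem _ _ (Fil_mono ?_ (Fil_mul_mem (hf i) (hg (j - i))))
    refine (floor_add_le (by exact_mod_cast hN) _ _).trans (le_of_eq ?_)
    congr 1
    push_cast [hi']
    ring
  smul_mem' := by
    rintro a f ⟨c, hc, L, hf⟩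
    refine ⟨c, hc, L, fun j => ?_⟩
    rw [smul_pow, mul_smul_comm]
    exact Submodule.smul_mem _ _ (hf j)

theorem sig_mem_AI {N : ℕ} {hN : 0 < N} {m : ℤ} {ζ : k} (hζ : ζ ^ n = 1) (j : Fin 5)
    {x : ORing n k} (hx : x ∈ AI n k N hN m) : sig hζ j x ∈ AI n k N hN m := by
  obtain ⟨c, hc, L, hf⟩ := hx
  refine ⟨c, hc, L, fun i => ?_⟩
  have h := sig_mem_Fil hζ j (hf i)
  rwa [map_mul, sig_incl, map_pow] at h

/-- isotypic components of an element of a `sig`-stable subspace are in the subspace -/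
theorem comp_mem {ζ : k} (hζ : IsPrimitiveRoot ζ n) (S : Submodule k (ORing n k))
    (hS : ∀ j, ∀ x ∈ S, sig hζ.pow_eq_one j x ∈ S) (s : Finset (Fin 5 → Fin n)) :
    ∀ v : (Fin 5 → Fin n) → ORing n k,
      (∀ χ ∈ s, ∀ j, sig hζ.pow_eq_one j (v χ) = ζ ^ (χ j : ℕ) • v χ) →
      ∑ χ ∈ s, v χ ∈ S → ∀ χ ∈ s, v χ ∈ S := by
  classical
  induction s using Finset.induction_on with
  | empty => intro v _ _ χ hχ; simp at hχ
  | insert χ₀ t hχ₀ ih =>
    intro v hv hsum
    have ht : ∀ χ ∈ t, v χ ∈ S := by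
      intro χ hχ
      have hne : χ ≠ χ₀ := fun h => hχ₀ (h ▸ hχ)
      obtain ⟨j, hj⟩ := Function.ne_iff.1 hne
      have hcoef : ζ ^ (χ j : ℕ) - ζ ^ (χ₀ j : ℕ) ≠ 0 := by
        intro h
        apply hj
        exact Fin.ext (hζ.pow_inj (χ j).2 (χ₀ j).2 (sub_eq_zero.1 h))
      have h1 : sig hζ.pow_eq_one j (∑ χ ∈ insert χ₀ t, v χ) - ζ ^ (χ₀ j : ℕ) •
          ∑ χ ∈ insert χ₀ t, v χ ∈ S := Submodule.sub_mem _ (hS j _ hsum) (Submodule.smul_mem _ _ hsum)
      have h2 : sig hζ.pow_eq_one j (∑ χ ∈ insert χ₀ t, v χ) - ζ ^ (χ₀ j : ℕ) •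
          ∑ χ ∈ insert χ₀ t, v χ = ∑ χ' ∈ t, (ζ ^ (χ' j : ℕ) - ζ ^ (χ₀ j : ℕ)) • v χ' := by
        rw [map_sum, Finset.smul_sum, ← Finset.sum_sub_distrib, Finset.sum_insert hχ₀,
          hv χ₀ (Finset.mem_insert_self _ _) j, sub_self, zero_add]
        refine Finset.sum_congr rfl fun χ' hχ' => ?_
        rw [hv χ' (Finset.mem_insert_of_mem hχ') j, sub_smul]
      rw [h2] at h1
      have h3 := ih (fun χ' => (ζ ^ (χ' j : ℕ) - ζ ^ (χ₀ j : ℕ)) • v χ') (by
        intro χ' hχ' i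
        rw [map_smul, hv χ' (Finset.mem_insert_of_mem hχ') i, smul_comm]) h1 χ hχ
      have h4 : v χ = (ζ ^ (χ j : ℕ) - ζ ^ (χ₀ j : ℕ))⁻¹ • ((ζ ^ (χ j : ℕ) - ζ ^ (χ₀ j : ℕ)) • v χ) := by
        rw [smul_smul, inv_mul_cancel₀ hcoef, one_smul]
      rw [h4]
      exact Submodule.smul_mem _ _ h3
    intro χ hχ
    rcases Finset.mem_insert.1 hχ with rfl | hχ
    · rw [Finset.sum_insert hχ₀] at hsum
      have h5 := Submodule.sub_mem _ hsum (Submodule.sum_mem _ ht)
      rwa [add_sub_cancel_right] at h5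
    · exact ht χ hχ

section Norm

attribute [local instance] algO

theorem module_finite (hn : 0 < n) : Module.Finite (ORing 1 k) (ORing n k) := by
  rw [Module.finite_def, Submodule.fg_def]
  exact ⟨_, Set.finite_range _, span_zmon n k hn⟩

theorem exists_mul_eq_incl (hn : 0 < n) [IsDomain (ORing n k)] {c : ORing n k} (hc : c ≠ 0) :
    ∃ (c' : ORing n k) (c₀ : ORing 1 k), c₀ ≠ 0 ∧ c * c' = incl n k c₀ := by
  have := module_finite (k := k) hn
  have hint : IsIntegral (ORing 1 k) c := Algebra.IsIntegral.isIntegral c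
  have h1 := Ideal.comap_ne_bot_of_integral_mem hc (Ideal.mem_span_singleton_self c) hint
  obtain ⟨c₀, hc₀, hne⟩ := Submodule.exists_mem_ne_zero_of_ne_bot h1
  rw [Ideal.mem_comap, Ideal.mem_span_singleton] at hc₀
  obtain ⟨c', hc'⟩ := hc₀
  exact ⟨c', c₀, hne, hc'.symm⟩

end Norm

theorem isNoetherianRing_ORing : IsNoetherianRing (ORing n k) :=
  isNoetherianRing_of_surjective _ _ (toO n k).toRingHom (toO_surjective n k)

/-- from the hypothesis of the theorem to `AI` -/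
theorem mem_AI (hn : 0 < n) [IsDomain (ORing n k)] {N : ℕ} (hN : 0 < N) {m l : ℤ} {c q : ORing n k}
    (hc : c ≠ 0) (h : ∀ j : ℕ, c * q ^ (N * j) ∈ Fil n k (l + j * m)) : q ∈ AI n k N hN m := by
  obtain ⟨c', c₀, hc₀, hcc⟩ := exists_mul_eq_incl (k := k) hn hc
  obtain ⟨a, ha⟩ := exists_mem_Fil c'
  have hb : ∀ r : ℕ, ∃ b : ℕ, q ^ r ∈ Fil n k b := fun r => exists_mem_Fil _
  choose b hb using hb
  set B : ℕ := ∑ r ∈ Finset.range N, b r with hB
  refine ⟨c₀, hc₀, N * (a + l + B) + N * |m|, fun j => ?_⟩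
  have hr : j % N < N := Nat.mod_lt _ hN
  have h1 : incl n k c₀ * q ^ j = c' * (c * q ^ (N * (j / N))) * q ^ (j % N) := by
    rw [← hcc]
    conv_lhs => rw [← Nat.div_add_mod j N, pow_add]
    ring
  rw [h1]
  refine Fil_mono ?_ (Fil_mul_mem (Fil_mul_mem ha (h (j / N))) (hb (j % N)))
  rw [Int.le_ediv_iff_mul_le (by exact_mod_cast hN)]
  have h2 : b (j % N) ≤ B := by
    rw [hB]
    exact Finset.single_le_sum (f := b) (fun _ _ => Nat.zero_le _) (Finset.mem_range.2 hr)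
  have h3 : ((j : ℕ) : ℤ) = N * ((j / N : ℕ) : ℤ) + ((j % N : ℕ) : ℤ) := by
    exact_mod_cast (Nat.div_add_mod j N).symm
  have h4 : (((j % N : ℕ) : ℤ)) * m ≥ -(N * |m|) := by
    have h5 : |((j % N : ℕ) : ℤ) * m| ≤ N * |m| := by
      rw [abs_mul, Nat.abs_cast]
      exact mul_le_mul_of_nonneg_right (by exact_mod_cast hr.le) (abs_nonneg m)
    have := (abs_le.1 h5).1
    linarith
  have h6 : ((b (j % N) : ℕ) : ℤ) ≤ B := by exact_mod_cast h2
  have hN' : (0 : ℤ) < N := by exact_mod_cast hN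
  have e : (N * (a + l + B) + N * |m| + (j : ℤ) * m) =
      N * (a + l + B) + N * |m| + (N * ((j / N : ℕ) : ℤ) + ((j % N : ℕ) : ℤ)) * m := by rw [← h3]
  rw [e]
  nlinarith [mul_le_mul_of_nonneg_left h6 hN'.le]

end Crest.Agent.R169.Avg
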