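import Mathlib

set_option autoImplicit false

/-! Row 169, (C2): descent of derivation-stable subspaces.
A `Q`-subspace `U` of `Q^R` stable under coordinatewise additive maps `D i` killing `1`... is spanned
by vectors with entries in the common kernel. -/

namespace Crest.Agent.R169

set_option linter.unusedSectionVars false

section Descent

variable {Q : Type*} [Field Q] {ι : Type*} [Fintype ι] {κ : Type*}

/-- support of a vector -/
private noncomputable def supp (w : ι → Q) : Finset ι := by
  classical exact Finset.univ.filter (fun i => w i ≠ 0)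

private lemma mem_supp (w : ι → Q) (i : ι) : i ∈ supp w ↔ w i ≠ 0 := by
  classical
  simp [supp]

/-- If a `Q`-subspace `U` of `Q^ι` is stable under the coordinatewise action of additive maps `D j`
with `D j 1 = 0`, then it is spanned by those of its vectors all of whose entries are killed by all `D j`. -/
theorem le_span_of_stable (D : κ → (Q →+ Q)) (hD1 : ∀ j, D j 1 = 0)
    (U : Submodule Q (ι → Q)) (hU : ∀ j, ∀ w ∈ U, (fun i => D j (w i)) ∈ U) :
    U ≤ Submodule.span Q {c | c ∈ U ∧ ∀ i j, D j (c i) = 0} := by
  classical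
  intro w hw
  induction' hn : (supp w).card using Nat.strong_induction_on with n ih generalizing w
  by_cases hw0 : w = 0
  · rw [hw0]; exact Submodule.zero_mem _
  -- choose a nonzero vector of minimal support
  have hex : ∃ m, ∃ c ∈ U, c ≠ 0 ∧ supp c ⊆ supp w ∧ (supp c).card = m :=
    ⟨_, w, hw, hw0, subset_rfl, rfl⟩
  obtain ⟨c, hcU, hc0, hcw, hcm⟩ := Nat.find_spec hex
  have hmin : ∀ c' ∈ U, supp c' ⊆ supp w → (supp c').card < Nat.find hex → c' = 0 := by
    intro c' hc' hs hlt
    by_contra h0
    exact Nat.find_min hex hlt ⟨c', hc', h0, hs, rfl⟩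
  obtain ⟨i0, hi0⟩ : ∃ i, c i ≠ 0 := by
    by_contra h
    push Not at h
    exact hc0 (funext h)
  set c1 : ι → Q := (c i0)⁻¹ • c with hc1
  have hc1U : c1 ∈ U := U.smul_mem _ hcU
  have hc1i : c1 i0 = 1 := by simp [hc1, hi0]
  have hsupp1 : supp c1 = supp c := by
    ext i
    rw [mem_supp, mem_supp, hc1]
    simp [hi0]
  have hker : ∀ j, (fun i => D j (c1 i)) = 0 := by
    intro j
    refine hmin _ (hU j _ hc1U) ?_ ?_
    · intro i hi
      rw [mem_supp] at hi
      apply hcw
      rw [mem_supp]
      intro h
      apply hi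
      simp [hc1, h]
    · rw [← hcm]
      apply Finset.card_lt_card
      rw [Finset.ssubset_iff_of_subset]
      · refine ⟨i0, (mem_supp _ _).2 hi0, ?_⟩
        rw [mem_supp]
        simp [hc1i, hD1]
      · intro i hi
        rw [mem_supp] at hi
        rw [mem_supp]
        intro h
        apply hi
        simp [hc1, h]
  have hc1S : c1 ∈ Submodule.span Q {c | c ∈ U ∧ ∀ i j, D j (c i) = 0} :=
    Submodule.subset_span ⟨hc1U, fun i j => congrFun (hker j) i⟩
  have hrest : w - w i0 • c1 ∈ Submodule.span Q {c | c ∈ U ∧ ∀ i j, D j (c i) = 0} := by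
    refine ih (supp (w - w i0 • c1)).card ?_ (U.sub_mem hw (U.smul_mem _ hc1U)) rfl
    rw [← hn]
    apply Finset.card_lt_card
    rw [Finset.ssubset_iff_of_subset]
    · refine ⟨i0, hcw ((mem_supp _ _).2 hi0), ?_⟩
      rw [mem_supp]
      simp [hc1i]
    · intro i hi
      rw [mem_supp] at hi
      rw [mem_supp]
      intro h
      apply hi
      have h1 : c i = 0 := by
        by_contra hne
        exact ((mem_supp _ _).1 (hcw ((mem_supp _ _).2 hne))) h
      simp [hc1, h, h1]
  have := Submodule.add_mem _ hrest (Submodule.smul_mem _ (w i0) hc1S)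
  simpa using this

variable (p : ℕ) [Fact p.Prime] [CharP Q p]

/-- coordinatewise Frobenius on `ι → Q`, as an additive map -/
def frobVec (ι : Type*) : (ι → Q) →+ (ι → Q) where
  toFun v := fun i => v i ^ p
  map_zero' := by
    funext i
    simp [zero_pow (Fact.out : p.Prime).ne_zero]
  map_add' v w := by
    funext i
    simp [add_pow_char]

@[simp] lemma frobVec_apply (v : ι → Q) (i : ι) : frobVec p ι v i = v i ^ p := rfl

lemma frobVec_smul (a : Q) (v : ι → Q) : frobVec p ι (a • v) = a ^ p • frobVec p ι v := by
  funext i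
  simp [mul_pow]

/-- preimage of a subspace under the coordinatewise Frobenius: again a subspace -/
def frobComap (U : Submodule Q (ι → Q)) : Submodule Q (ι → Q) where
  carrier := {v | frobVec p ι v ∈ U}
  zero_mem' := by simp
  add_mem' := by
    intro a b ha hb
    simp only [Set.mem_ofPred_eq] at *
    rw [map_add]
    exact U.add_mem ha hb
  smul_mem' := by
    intro c v hv
    simp only [Set.mem_ofPred_eq] at *
    rw [frobVec_smul]
    exact U.smul_mem _ hv

lemma mem_frobComap (U : Submodule Q (ι → Q)) (v : ι → Q) :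
    v ∈ frobComap p U ↔ frobVec p ι v ∈ U := Iff.rfl

/-- (C2) `U = Q·φ(V')` for `D`-stable `U`, where the common kernel of the `D j` is `Q^p`. -/
theorem eq_span_frob (D : κ → (Q →+ Q)) (hD1 : ∀ j, D j 1 = 0)
    (hker : ∀ a : Q, (∀ j, D j a = 0) → ∃ b, b ^ p = a)
    (U : Submodule Q (ι → Q)) (hU : ∀ j, ∀ w ∈ U, (fun i => D j (w i)) ∈ U) :
    U = Submodule.span Q (frobVec p ι '' (frobComap p U : Set (ι → Q))) := by
  apply le_antisymm
  · refine (le_span_of_stable D hD1 U hU).trans (Submodule.span_mono ?_)
    rintro c ⟨hcU, hc⟩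
    choose b hb using fun i => hker (c i) (fun j => hc i j)
    refine ⟨b, ?_, ?_⟩
    · show frobVec p ι b ∈ U
      have : frobVec p ι b = c := funext hb
      rw [this]; exact hcU
    · exact funext hb
  · rw [Submodule.span_le]
    rintro _ ⟨v, hv, rfl⟩
    exact hv

end Descent

end Crest.Agent.R169
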