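import Crest.Agent.R169.Defs

/-!
# Row 169: basic API of `TData` (shared; helper461's lemmas moved here by the integrator)
Namespace `Crest.Agent.R169`.  Nobody else may declare `TData.*` names.
-/

set_option autoImplicit false

namespace Crest.Agent.R169

variable {k Q : Type} [Field k] [Field Q] [Algebra k Q] (D : TData k Q)

theorem TData.F_mono {i j : ℤ} (h : i ≤ j) : D.F i ≤ D.F j := by
  obtain ⟨n, rfl⟩ := Int.le.dest h
  induction n with
  | zero => simp
  | succ n ih =>
    have h1 := ih (by omega)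
    refine h1.trans ?_
    have := D.lat.mono (i + n)
    rwa [add_assoc] at this

theorem TData.one_mem_zero : (1 : Q) ∈ D.F 0 := by
  rw [D.F_zero]
  exact Submodule.mem_span_singleton_self 1

theorem TData.one_mem_of_nonneg {m : ℤ} (hm : 0 ≤ m) : (1 : Q) ∈ D.F m :=
  D.F_mono hm D.one_mem_zero

theorem TData.pow_mem {a : Q} (ha : a ∈ D.F 1) (n : ℕ) : a ^ n ∈ D.F n := by
  induction n with
  | zero => simpa using D.one_mem_zero
  | succ n ih =>
    rw [pow_succ]
    have := D.mul_mem n 1 _ ih _ ha
    exact_mod_cast this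

theorem TData.pow_mem' {a : Q} {i : ℤ} (ha : a ∈ D.F i) (n : ℕ) : a ^ n ∈ D.F (n * i) := by
  induction n with
  | zero => simpa using D.one_mem_zero
  | succ n ih =>
    rw [pow_succ]
    have := D.mul_mem _ _ _ ih _ ha
    convert this using 2
    push_cast
    ring

theorem TData.algebraMap_mem (c : k) {m : ℤ} (hm : 0 ≤ m) : algebraMap k Q c ∈ D.F m := by
  rw [Algebra.algebraMap_eq_smul_one]
  exact (D.F m).smul_mem _ (D.one_mem_of_nonneg hm)

theorem TData.mem_zero_iff {f : Q} : f ∈ D.F 0 ↔ ∃ c : k, f = algebraMap k Q c := by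
  rw [D.F_zero, Submodule.mem_span_singleton]
  constructor
  · rintro ⟨c, rfl⟩
    exact ⟨c, (Algebra.algebraMap_eq_smul_one c).symm⟩
  · rintro ⟨c, rfl⟩
    exact ⟨c, (Algebra.algebraMap_eq_smul_one c).symm⟩

theorem TData.fin (m : ℤ) : Module.Finite k (D.F m) := D.lat.fin m

theorem TData.eq_zero_of_neg {f : Q} {m : ℤ} (hm : m < 0) (hf : f ∈ D.F m) : f = 0 := by
  rw [D.F_neg m hm] at hf
  exact (Submodule.mem_bot k).1 hf

/-- generation in a uniform way: if `F (m+1) = F m + u F m + v F m` for `m ≥ c` then the same with a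
`T`-lattice condition on a general `IsLat`. -/
theorem IsLat.mono_le {K V : Type} [Field K] [Algebra k K] [AddCommGroup V] [Module k V]
    [Module K V] {u v : K} {E : ℤ → Submodule k V} (hE : IsLat u v E) {i j : ℤ} (h : i ≤ j) :
    E i ≤ E j := by
  obtain ⟨n, rfl⟩ := Int.le.dest h
  induction n with
  | zero => simp
  | succ n ih =>
    have h1 := ih (by omega)
    refine h1.trans ?_
    have := hE.mono (i + n)
    rwa [add_assoc] at this

end Crest.Agent.R169
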