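import Crest.Agent.R169.D2
import Crest.Agent.R169.C.Frob

/-!
# Row 169: Part D, step (1): exact dimension counts along a generic flag, for a `T`-lattice `G`
and its Frobenius pull-back (helper641).
-/

set_option autoImplicit false
set_option linter.unusedSectionVars false

namespace Crest.Agent.R169.Flag1

open Module PC

theorem finrank_map_add' {F X Y : Type*} [Field F] [AddCommGroup X] [Module F X] [AddCommGroup Y]
    [Module F Y] (S : Submodule F X) [FiniteDimensional F S] (f : X →ₗ[F] Y) :
    finrank F (S.map f) + finrank F ↥(S ⊓ LinearMap.ker f) = finrank F S := by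
  have h := LinearMap.finrank_range_add_finrank_ker (f.domRestrict S)
  have h1 : LinearMap.range (f.domRestrict S) = S.map f := by
    rw [LinearMap.domRestrict, LinearMap.range_comp, Submodule.range_subtype]
  have h2 : LinearMap.ker (f.domRestrict S) = (LinearMap.ker f).comap S.subtype := by
    rw [LinearMap.domRestrict, LinearMap.ker_comp]
  have h3 : finrank F ↥((LinearMap.ker f).comap S.subtype) = finrank F ↥(S ⊓ LinearMap.ker f) := by
    rw [← Submodule.map_comap_subtype S (LinearMap.ker f)]
    exact (Submodule.finrank_map_subtype_eq S _).symm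
  rw [h1, h2, h3] at h
  exact h

section General

variable {k Q V ι : Type} [Field k] [Field Q] [Algebra k Q] [AddCommGroup V] [Module k V]
  [Module Q V] [IsScalarTower k Q V] {D : TData k Q}

/-- a generic flag: basis `e`, `e i ∈ W (a i)` for `i < r`, detected at every place by normalised
functionals. -/
structure IsFlag (S : Places D ι) {r : ℕ} (W : ℤ → Submodule k V) (e : Basis (Fin (r + 1)) Q V)
    (a : Fin r → ℤ) : Prop where
  mem : ∀ i : Fin r, e i.castSucc ∈ W (a i)
  loc : ∀ (P : ι) (i : Fin r), ∃ l : V →ₗ[Q] Q,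
    (∀ j : Fin (r + 1), j < i.castSucc → l (e j) = 0) ∧
    (∀ m : ℤ, ∀ g ∈ W m, l g = 0 ∨ -(S.c P) * m ≤ (S.pl P).ord (l g)) ∧
    l (e i.castSucc) ≠ 0 ∧ (S.pl P).ord (l (e i.castSucc)) = -(S.c P) * a i

variable {S : Places D ι} {r : ℕ} {W : ℤ → Submodule k V} {e : Basis (Fin (r + 1)) Q V}
  {a : Fin r → ℤ}

theorem IsFlag.coord_mem (h : IsFlag S W e a) {m : ℤ} {w : V} (hw : w ∈ W m) (i : Fin r)
    (h0 : ∀ j : Fin (r + 1), i.castSucc < j → e.repr w j = 0) :
    e.repr w i.castSucc ∈ D.F (m - a i) := by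
  apply S.mem_of_ge
  intro P
  obtain ⟨l, h1, h2, h3, h4⟩ := h.loc P i
  have hlw : l w = e.repr w i.castSucc * l (e i.castSucc) := by
    conv_lhs => rw [← e.sum_repr w]
    rw [map_sum, Finset.sum_eq_single i.castSucc]
    · rw [map_smul, smul_eq_mul]
    · intro j _ hj
      rw [map_smul, smul_eq_mul]
      rcases lt_or_gt_of_ne hj with h | h
      · rw [h1 j h, mul_zero]
      · rw [h0 j h, zero_mul]
    · intro h; exact absurd (Finset.mem_univ _) h
  by_cases hf : e.repr w i.castSucc = 0
  · exact Or.inl hf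
  right
  rcases h2 m w hw with h5 | h5
  · rw [hlw] at h5
    exact absurd h5 (mul_ne_zero hf h3)
  · rw [hlw, (S.pl P).ord_mul _ _ hf h3, h4] at h5
    have : S.c P * (m - a i) = S.c P * m - S.c P * a i := by ring
    rw [this]
    linarith

/-- `W m ∩ ⟨e j, j < n⟩`. -/
def fil (W : ℤ → Submodule k V) (e : Basis (Fin (r + 1)) Q V) (m : ℤ) (n : ℕ) :
    Submodule k V where
  carrier := {w | w ∈ W m ∧ ∀ j : Fin (r + 1), n ≤ j.val → e.repr w j = 0}
  add_mem' := by
    rintro x y ⟨hx, hx'⟩ ⟨hy, hy'⟩
    refine ⟨(W m).add_mem hx hy, fun j hj => ?_⟩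
    rw [map_add, Finsupp.add_apply, hx' j hj, hy' j hj, add_zero]
  zero_mem' := ⟨(W m).zero_mem, fun j _ => by simp⟩
  smul_mem' := by
    rintro x w ⟨hw, hw'⟩
    refine ⟨(W m).smul_mem x hw, fun j hj => ?_⟩
    have : x • w = (algebraMap k Q x) • w := by rw [algebraMap_smul]
    rw [this, map_smul, Finsupp.smul_apply, hw' j hj, smul_zero]

theorem fil_le (m : ℤ) (n : ℕ) : fil W e m n ≤ W m := fun _ h => h.1

theorem fil_top (m : ℤ) : fil W e m (r + 1) = W m := by
  refine le_antisymm (fil_le m _) fun w hw => ⟨hw, fun j hj => ?_⟩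
  exact absurd j.isLt (by omega)

theorem fil_zero (m : ℤ) : fil W e m 0 = ⊥ := by
  rw [eq_bot_iff]
  rintro w ⟨_, hw⟩
  rw [Submodule.mem_bot]
  have : e.repr w = 0 := by
    ext j
    exact hw j (Nat.zero_le _)
  simpa using this

/-- the `j`-th coordinate as a `k`-linear map -/
noncomputable def co (k : Type) {Q V : Type} [Field k] [Field Q] [Algebra k Q] [AddCommGroup V]
    [Module k V] [Module Q V] [IsScalarTower k Q V] {r : ℕ} (e : Basis (Fin (r + 1)) Q V)
    (j : Fin (r + 1)) : V →ₗ[k] Q := (e.coord j).restrictScalars k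

theorem co_apply (j : Fin (r + 1)) (w : V) : co k e j w = e.repr w j := rfl

theorem fil_step (hfin : ∀ m, Module.Finite k (W m)) (m : ℤ) (i : Fin (r + 1)) :
    finrank k (fil W e m (i.val + 1)) =
      finrank k (fil W e m i.val) + finrank k ((fil W e m (i.val + 1)).map (co k e i)) := by
  have := hfin m
  have hfd : FiniteDimensional k (fil W e m (i.val + 1)) :=
    Submodule.finiteDimensional_of_le (fil_le m _)
  have h := finrank_map_add' (fil W e m (i.val + 1)) (co k e i)
  have h1 : fil W e m (i.val + 1) ⊓ LinearMap.ker (co k e i) = fil W e m i.val := by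
    ext w
    constructor
    · rintro ⟨⟨hw, hw'⟩, hk⟩
      refine ⟨hw, fun j hj => ?_⟩
      rcases Nat.lt_or_ge i.val j.val with h | h
      · exact hw' j h
      · have : j = i := Fin.ext (by omega)
        subst this
        exact hk
    · rintro ⟨hw, hw'⟩
      exact ⟨⟨hw, fun j hj => hw' j (by omega)⟩, hw' i le_rfl⟩
  rw [h1] at h
  omega

theorem IsFlag.map_eq (h : IsFlag S W e a)
    (hact : ∀ i j : ℤ, ∀ f ∈ D.F i, ∀ g ∈ W j, f • g ∈ W (i + j)) (m : ℤ) (i : Fin r) :
    (fil W e m (i.val + 1)).map (co k e i.castSucc) = D.F (m - a i) := by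
  ext f
  constructor
  · rintro ⟨w, ⟨hw, hw'⟩, rfl⟩
    rw [co_apply]
    refine h.coord_mem hw i fun j hj => hw' j ?_
    have := Fin.lt_def.1 hj
    simpa using this
  · intro hf
    refine ⟨f • e i.castSucc, ⟨?_, ?_⟩, ?_⟩
    · have := hact (m - a i) (a i) f hf _ (h.mem i)
      rwa [sub_add_cancel] at this
    · intro j hj
      rw [map_smul, Finsupp.smul_apply, e.repr_self, Finsupp.single_apply, if_neg, smul_zero]
      intro hij
      have := congrArg Fin.val hij
      simp at this
      omega
    · rw [co_apply, map_smul, Finsupp.smul_apply, e.repr_self, Finsupp.single_eq_same,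
        smul_eq_mul, mul_one]

theorem IsFlag.dims (h : IsFlag S W e a) (hfin : ∀ m, Module.Finite k (W m))
    (hact : ∀ i j : ℤ, ∀ f ∈ D.F i, ∀ g ∈ W j, f • g ∈ W (i + j)) (m : ℤ) :
    finrank k (W m) = ∑ i, finrank k (D.F (m - a i)) +
      finrank k ((W m).map (co k e (Fin.last r))) := by
  have key : ∀ n : ℕ, n ≤ r → finrank k (fil W e m n) =
      ∑ i ∈ Finset.univ.filter (fun i : Fin r => i.val < n), finrank k (D.F (m - a i)) := by
    intro n
    induction n with
    | zero =>
      intro _
      rw [fil_zero, finrank_bot]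
      simp
    | succ n ih =>
      intro hn
      have h1 := fil_step (e := e) hfin m ⟨n, by omega⟩
      simp only at h1
      rw [h1, ih (by omega)]
      have h2 := h.map_eq hact m ⟨n, by omega⟩
      simp only at h2
      have h3 : (⟨n, by omega⟩ : Fin r).castSucc = (⟨n, by omega⟩ : Fin (r + 1)) := rfl
      rw [h3] at h2
      rw [h2]
      have h4 : Finset.univ.filter (fun i : Fin r => i.val < n + 1) =
          insert (⟨n, by omega⟩ : Fin r) (Finset.univ.filter (fun i : Fin r => i.val < n)) := by
        ext i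
        simp only [Finset.mem_filter, Finset.mem_univ, true_and, Finset.mem_insert, Fin.ext_iff]
        omega
      rw [h4, Finset.sum_insert (by simp)]
      ring
  have h1 := fil_step (e := e) hfin m (Fin.last r)
  rw [Fin.val_last, fil_top, key r le_rfl] at h1
  rw [h1]
  congr 1
  apply Finset.sum_congr _ fun _ _ => rfl
  ext i
  simp

end General

section Map

variable {k Q V V' : Type} [Field k] [Field Q] [Algebra k Q] [AddCommGroup V] [Module k V]
  [Module Q V] [IsScalarTower k Q V] [AddCommGroup V'] [Module k V'] [Module Q V']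
  [IsScalarTower k Q V'] {D : TData k Q}

/-- image of a lattice by a `Q`-linear map -/
def mapT (ψ : V →ₗ[Q] V') (G : ℤ → Submodule k V) : ℤ → Submodule k V' :=
  fun m => (G m).map (ψ.restrictScalars k)

theorem mem_mapT {ψ : V →ₗ[Q] V'} {G : ℤ → Submodule k V} {m : ℤ} {w : V'} :
    w ∈ mapT ψ G m ↔ ∃ g ∈ G m, ψ g = w := Iff.rfl

/-- the image of a `T`-lattice by a surjective linear map is a `T`-lattice. -/
theorem isTLat_mapT {G : ℤ → Submodule k V} (hG : IsTLat D G) (ψ : V →ₗ[Q] V')
    (hψ : Function.Surjective ψ) : IsTLat D (mapT ψ G) where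
  lat :=
    { mono := fun m => Submodule.map_mono (hG.lat.mono m)
      umul := by
        rintro m _ ⟨e, he, rfl⟩
        exact ⟨D.u • e, hG.lat.umul m e he, by simp⟩
      vmul := by
        rintro m _ ⟨e, he, rfl⟩
        exact ⟨D.v • e, hG.lat.vmul m e he, by simp⟩
      fin := fun m => by
        have := hG.lat.fin m
        exact (Module.Finite.iff_fg.2 ((Module.Finite.iff_fg.1 this).map _))
      bot := by
        obtain ⟨m₀, h⟩ := hG.lat.bot
        refine ⟨m₀, fun m hm => ?_⟩
        unfold mapT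
        rw [h m hm, Submodule.map_bot]
      gen := by
        obtain ⟨m₁, h⟩ := hG.lat.gen
        refine ⟨m₁, fun m hm => ?_⟩
        rintro _ ⟨e, he, rfl⟩
        obtain ⟨a, ha, b, hb, c, hc, rfl⟩ := h m hm e he
        exact ⟨_, ⟨a, ha, rfl⟩, _, ⟨b, hb, rfl⟩, _, ⟨c, hc, rfl⟩, by simp⟩ }
  act := by
    rintro i j f hf _ ⟨g, hg, rfl⟩
    exact ⟨f • g, hG.act i j f hf g hg, by simp⟩
  full := by
    rw [eq_top_iff]
    have h1 : (spanK Q G).map ψ ≤ spanK Q (mapT ψ G) := by
      rw [spanK, Submodule.map_span, spanK]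
      apply Submodule.span_mono
      rintro _ ⟨x, hx, rfl⟩
      obtain ⟨m, hm⟩ := Set.mem_iUnion.1 hx
      exact Set.mem_iUnion.2 ⟨m, x, hm, rfl⟩
    rw [hG.full, Submodule.map_top, LinearMap.range_eq_top.2 hψ] at h1
    exact h1

end Map

section Frobenius

variable {k Q ι : Type} [Field k] [Field Q] [Algebra k Q] {D : TData k Q} {p : ℕ}
  [Fact p.Prime] [CharP Q p]

/-- the functional `l^φ`, `l^φ (φ w) = (l w)^p`. -/
noncomputable def lphi (p : ℕ) {R : ℕ} (l : (Fin R → Q) →ₗ[Q] Q) : (Fin R → Q) →ₗ[Q] Q :=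
  Fintype.linearCombination Q (fun j => l (Pi.single j 1) ^ p)

theorem lphi_phi {R : ℕ} (l : (Fin R → Q) →ₗ[Q] Q) (w : Fin R → Q) :
    lphi p l (phi p w) = l w ^ p := by
  have h1 : l w = ∑ j, w j * l (Pi.single j 1) := by
    have h3 : w = ∑ j, w j • (Pi.single j (1 : Q) : Fin R → Q) := by
      funext i
      simp [Finset.sum_apply, Pi.single_apply]
    conv_lhs => rw [h3]
    rw [map_sum]
    refine Finset.sum_congr rfl fun j _ => ?_
    rw [map_smul, smul_eq_mul]
  rw [h1, sum_pow_char]
  rw [lphi, Fintype.linearCombination_apply]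
  refine Finset.sum_congr rfl fun j _ => ?_
  rw [smul_eq_mul, phi_apply, mul_pow]

/-- Frobenius twist of a basis of `Q^R`. -/
theorem phi_basis {R : ℕ} (e : Basis (Fin R) Q (Fin R → Q)) :
    ∃ e' : Basis (Fin R) Q (Fin R → Q), (∀ j, e' j = phi p (e j)) ∧
      ∀ w j, e'.repr (phi p w) j = (e.repr w j) ^ p := by
  classical
  have hexp : ∀ w : Fin R → Q, phi p w = ∑ j, (e.repr w j) ^ p • phi p (e j) := by
    intro w
    conv_lhs => rw [← e.sum_repr w]
    rw [phi_eq_frobVec, map_sum]
    refine Finset.sum_congr rfl fun j _ => ?_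
    rw [← phi_eq_frobVec, phi_smul]
  have hspan : ⊤ ≤ Submodule.span Q (Set.range fun j => phi p (e j)) := by
    intro w _
    have h1 : ∀ i : Fin R, (Pi.single i (1 : Q) : Fin R → Q) ∈
        Submodule.span Q (Set.range fun j => phi p (e j)) := by
      intro i
      have h2 : phi p (Pi.single i (1 : Q) : Fin R → Q) = Pi.single i 1 := by
        funext j
        rw [phi_apply]
        by_cases hij : j = i
        · subst hij; simp
        · simp [Pi.single_eq_of_ne hij, (Fact.out : p.Prime).ne_zero]
      rw [← h2, hexp]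
      exact Submodule.sum_mem _ fun j _ => Submodule.smul_mem _ _
        (Submodule.subset_span ⟨j, rfl⟩)
    have h3 : w = ∑ j, w j • (Pi.single j (1 : Q) : Fin R → Q) := by
      funext i
      simp [Finset.sum_apply, Pi.single_apply]
    rw [h3]
    exact Submodule.sum_mem _ fun j _ => Submodule.smul_mem _ _ (h1 j)
  let e' : Basis (Fin R) Q (Fin R → Q) := basisOfTopLeSpanOfCardEqFinrank _ hspan (by simp)
  have he' : ∀ j, e' j = phi p (e j) := by
    intro j
    have := coe_basisOfTopLeSpanOfCardEqFinrank (fun j => phi p (e j)) hspan (by simp)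
    exact congrFun this j
  refine ⟨e', he', ?_⟩
  intro w j
  have h4 : phi p w = ∑ j, (e.repr w j) ^ p • e' j := by
    rw [hexp w]
    exact Finset.sum_congr rfl fun j _ => by rw [he']
  rw [h4]
  rw [map_sum, Finsupp.finsetSum_apply]
  rw [Finset.sum_eq_single j]
  · simp
  · intro i _ hij
    rw [map_smul, Finsupp.smul_apply, e'.repr_self, Finsupp.single_apply, if_neg hij, smul_zero]
  · intro h; exact absurd (Finset.mem_univ _) h

/-- the Frobenius pull-back of a generic flag is a generic flag. -/
theorem IsFlag.frob {S : Places D ι} {r : ℕ} {G : ℤ → Submodule k (Fin (r + 1) → Q)}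
    {e e' : Basis (Fin (r + 1)) Q (Fin (r + 1) → Q)} {a : Fin r → ℤ} (h : IsFlag S G e a)
    (he' : ∀ j, e' j = phi p (e j)) :
    IsFlag S (frobPull D p G) e' (fun i => p * a i) where
  mem := by
    intro i
    rw [he']
    have := mem_frobPull D (p := p) (i := 0) (j := a i) (m := p * a i) (by ring) D.one_mem_zero
      (h.mem i)
    rwa [one_smul] at this
  loc := by
    intro P i
    obtain ⟨l, h1, h2, h3, h4⟩ := h.loc P i
    refine ⟨lphi p l, ?_, ?_, ?_, ?_⟩
    · intro j hj
      rw [he', lphi_phi, h1 j hj, zero_pow (Fact.out : p.Prime).ne_zero]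
    · intro m g hg
      have key : (S.pl P).ge (-(S.c P) * m) (lphi p l g) := by
        unfold frobPull at hg
        induction hg using Submodule.span_induction with
        | mem w hw =>
          obtain ⟨j, f, hf, g', hg', rfl⟩ := hw
          rw [map_smul, smul_eq_mul, lphi_phi]
          have h5 := S.ge_of_mem hf P
          have h6 : (S.pl P).ge (p * (-(S.c P) * j)) (l g' ^ p) := by
            rcases h2 j g' hg' with h | h
            · left; rw [h, zero_pow (Fact.out : p.Prime).ne_zero]
            · by_cases h0 : l g' = 0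
              · left; rw [h0, zero_pow (Fact.out : p.Prime).ne_zero]
              · right
                rw [Place.ord_pow _ _ h0]
                exact mul_le_mul_of_nonneg_left h (by positivity)
          exact (h5.mul h6).mono (le_of_eq (by ring))
        | zero => rw [map_zero]; exact Place.ge_zero _ _
        | add x y _ _ hx hy => rw [map_add]; exact hx.add hy
        | smul c x _ hx =>
          have : c • x = (algebraMap k Q c) • x := by rw [algebraMap_smul]
          rw [this, map_smul, smul_eq_mul]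
          have := (S.ge_algebraMap P c).mul hx
          rwa [zero_add] at this
      exact key
    · rw [he', lphi_phi]
      exact pow_ne_zero _ h3
    · rw [he', lphi_phi, Place.ord_pow _ _ h3, h4]
      ring

/-- image of the Frobenius pull-back under a coordinate -/
theorem map_co_frobPull {r : ℕ} {G : ℤ → Submodule k (Fin (r + 1) → Q)}
    {e e' : Basis (Fin (r + 1)) Q (Fin (r + 1) → Q)}
    (he : ∀ w j, e'.repr (phi p w) j = (e.repr w j) ^ p) (m : ℤ) (i : Fin (r + 1)) :
    (frobPull D p G m).map (co k e' i) = frob1 D p (fun m => (G m).map (co k e i)) m := by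
  unfold frobPull frob1
  rw [Submodule.map_span]
  congr 1
  ext x
  constructor
  · rintro ⟨_, ⟨j, f, hf, g, hg, rfl⟩, rfl⟩
    refine ⟨j, f, hf, co k e i g, ⟨g, hg, rfl⟩, ?_⟩
    rw [co_apply, co_apply, map_smul, Finsupp.smul_apply, smul_eq_mul, he]
  · rintro ⟨j, f, hf, _, ⟨g, hg, rfl⟩, rfl⟩
    refine ⟨f • phi p g, ⟨j, f, hf, g, hg, rfl⟩, ?_⟩
    rw [co_apply, co_apply, map_smul, Finsupp.smul_apply, smul_eq_mul, he]

/-- **Step (1)**: exact dimension counts along a generic flag, for `G` and its Frobenius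
pull-back. -/
theorem flag_dims [Infinite k] (S : Places D ι) {r : ℕ}
    (G : ℤ → Submodule k (Fin (r + 1) → Q)) (hG : IsTLat D G) :
    ∃ (a : Fin r → ℤ) (I : ℤ → Submodule k Q), IsTLat D I ∧
      (∀ m, finrank k (G m) = ∑ i, finrank k (D.F (m - a i)) + finrank k (I m)) ∧
      (∀ m, finrank k (frobPull D p G m) =
        ∑ i, finrank k (D.F (m - p * a i)) + finrank k (frob1 D p I m)) := by
  obtain ⟨e, a, h1, h2⟩ := D2.flagStatement S r G hG
  have hflag : IsFlag S G e a := ⟨h1, h2⟩
  obtain ⟨e', he1, he2⟩ := phi_basis (p := p) e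
  have hflag' := hflag.frob (p := p) he1
  refine ⟨a, fun m => (G m).map (co k e (Fin.last r)), ?_, ?_, ?_⟩
  · refine isTLat_mapT hG (e.coord (Fin.last r)) ?_
    intro x
    refine ⟨x • e (Fin.last r), ?_⟩
    rw [map_smul, Basis.coord_apply, e.repr_self, Finsupp.single_eq_same, smul_eq_mul, mul_one]
  · exact hflag.dims hG.lat.fin hG.act
  · intro m
    have h3 := hflag'.dims (fun m => frobPull_fin D hG m)
      (fun i j f hf g hg => frobPull_act D hf hg) m
    rw [h3, map_co_frobPull he2]

end Frobenius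

end Crest.Agent.R169.Flag1
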