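import Crest.Agent.R169.P5

/-!
# Part P: umbrella file, everything is PROVED (sorry-free).
P1 = Hilb.lean (helper132), P2, P3 (helper272), P4, P5, Bridge (helper649).
-/

set_option autoImplicit false

namespace Crest.Agent.R169

variable {k K V : Type} [Field k] [Field K] [Algebra k K] [AddCommGroup V] [Module k V]
  [Module K V] {u v : K} {E : ℤ → Submodule k V}

/-- P4 (Bogomolov): a stable lattice has `n² + 2nJ ≤ 1`. -/
theorem bogomolov [IsScalarTower k K V] [IsAlgClosed k] (hK : IsRat k u v) (hE : IsLat u v E)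
    {n : ℕ} {b c : ℚ} (hHP : HasHP E n b c) (hn : 0 < n)
    (hst : ∀ (U : Submodule K V) (n₁ : ℕ) (b₁ c₁ : ℚ), HasHP (interU E U) n₁ b₁ c₁ →
      0 < n₁ → n₁ < n → b₁ * n < n₁ * b) :
    (n : ℚ) ^ 2 + 2 * n * Jinv n b c ≤ 1 := P4.bogomolov hK hE hHP hn hst

/-- P5: slopes of all sublattices `≤ ζ + s₁`, of all quotients `≥ ζ - s₂` imply `J ≤ n s₁ s₂/2`. -/
theorem jinv_le [IsScalarTower k K V] [IsAlgClosed k] (hK : IsRat k u v) (hE : IsLat u v E)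
    {n : ℕ} {b c : ℚ} (hHP : HasHP E n b c) (hn : 0 < n) (s₁ s₂ : ℚ)
    (h₁ : ∀ (U : Submodule K V) (n₁ : ℕ) (b₁ c₁ : ℚ), HasHP (interU E U) n₁ b₁ c₁ →
      b₁ * n - n₁ * b ≤ s₁ * n₁ * n)
    (h₂ : ∀ (U : Submodule K V) (n₁ : ℕ) (b₁ c₁ : ℚ), HasHP (interU E U) n₁ b₁ c₁ →
      b₁ * n - n₁ * b ≤ s₂ * (n - n₁) * n) :
    Jinv n b c ≤ n / 2 * s₁ * s₂ := P5.jinv_le hK hE hHP hn s₁ s₂ h₁ h₂

end Crest.Agent.R169
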