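import Mathlib

/-!
# Row 169: definitions (FROZEN interface)

Dehomogenised language.  `A = k[x,y,z]`, `x = 1`: everything lives in vector spaces over
`K = k(u,v)` (or over a function field `Q` containing `u, v`).
A graded torsion-free module is an increasing `ℤ`-family of finite dimensional `k`-subspaces.
-/

set_option autoImplicit false

namespace Crest.Agent.R169

/-- `K = k(u,v)` is a rational function field with coordinates `u, v`. -/
structure IsRat (k : Type) {K : Type} [Field k] [Field K] [Algebra k K] (u v : K) : Prop where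
  indep : AlgebraicIndependent k ![u, v]
  top : IntermediateField.adjoin k ({u, v} : Set K) = ⊤

section Lattice

variable {k K V : Type} [Field k] [Field K] [Algebra k K] [AddCommGroup V] [Module k V]
  [Module K V]

/-- A (graded, torsion-free, f.g.) lattice in `V`, dehomogenised. -/
structure IsLat (u v : K) (E : ℤ → Submodule k V) : Prop where
  mono : ∀ m, E m ≤ E (m + 1)
  umul : ∀ m, ∀ e ∈ E m, u • e ∈ E (m + 1)
  vmul : ∀ m, ∀ e ∈ E m, v • e ∈ E (m + 1)
  fin : ∀ m, Module.Finite k (E m)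
  bot : ∃ m₀ : ℤ, ∀ m ≤ m₀, E m = ⊥
  gen : ∃ m₁ : ℤ, ∀ m ≥ m₁, ∀ e ∈ E (m + 1), ∃ a ∈ E m, ∃ b ∈ E m, ∃ c ∈ E m,
    e = a + u • b + v • c

/-- the `K`-span of a family -/
def spanK (K : Type) {k V : Type} [Field k] [Field K] [AddCommGroup V] [Module k V]
    [Module K V] (E : ℤ → Submodule k V) : Submodule K V :=
  Submodule.span K (⋃ m, (E m : Set V))

/-- the rank over `K` -/
noncomputable def rk (K : Type) {k V : Type} [Field k] [Field K] [AddCommGroup V] [Module k V]
    [Module K V] (E : ℤ → Submodule k V) : ℕ :=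
  Module.finrank K (spanK K E)

/-- `dim E m = n/2 m² + b m + c` for all large `m`. -/
def HasHP (E : ℤ → Submodule k V) (n : ℕ) (b c : ℚ) : Prop :=
  ∃ m₀ : ℤ, ∀ m ≥ m₀, (Module.finrank k (E m) : ℚ) = n / 2 * (m : ℚ) ^ 2 + b * m + c

/-- the normalised discriminant-like invariant `J = c - b²/2n + n/8`. -/
def Jinv (n : ℕ) (b c : ℚ) : ℚ := c - b ^ 2 / (2 * n) + n / 8

/-- intersection with a subspace -/
def interU (E : ℤ → Submodule k V) (U : Submodule K V) [IsScalarTower k K V] :
    ℤ → Submodule k V :=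
  fun m => E m ⊓ U.restrictScalars k

/-- image in the quotient by a subspace -/
def quotU (E : ℤ → Submodule k V) (U : Submodule K V) [IsScalarTower k K V] :
    ℤ → Submodule k (V ⧸ U) :=
  fun m => (E m).map (U.mkQ.restrictScalars k)

end Lattice

/-- `dim k[u,v]_{≤ m}` -/
def dimA (m : ℤ) : ℕ := ((m + 1).toNat * (m + 2).toNat) / 2

/-- The data `T = ⊕ F m X^m` (graded domain generated over a function field `Q`). -/
structure TData (k Q : Type) [Field k] [Field Q] [Algebra k Q] where
  F : ℤ → Submodule k Q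
  u : Q
  v : Q
  F_zero : F 0 = Submodule.span k {1}
  F_neg : ∀ m < 0, F m = ⊥
  mul_mem : ∀ i j : ℤ, ∀ f ∈ F i, ∀ g ∈ F j, f * g ∈ F (i + j)
  one_mem : (1 : Q) ∈ F 1
  u_mem : u ∈ F 1
  v_mem : v ∈ F 1
  lat : IsLat (K := Q) u v F
  frac : ∀ q : Q, ∃ m : ℤ, ∃ f ∈ F m, ∃ g ∈ F m, g ≠ 0 ∧ q * g = f
  indep : AlgebraicIndependent k ![u, v]

section TLat

variable {k Q V : Type} [Field k] [Field Q] [Algebra k Q] [AddCommGroup V] [Module k V]
  [Module Q V]

/-- the field `k(u,v)` inside `Q` -/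
def TData.K0 (D : TData k Q) : IntermediateField k Q := IntermediateField.adjoin k {D.u, D.v}

/-- graded torsion-free `T`-module spanning `V` -/
structure IsTLat (D : TData k Q) (G : ℤ → Submodule k V) : Prop where
  lat : IsLat D.u D.v G
  act : ∀ i j : ℤ, ∀ f ∈ D.F i, ∀ g ∈ G j, f • g ∈ G (i + j)
  full : spanK Q G = ⊤

/-- near-semistability of a `T`-lattice with Hilbert polynomial `n/2 m² + b m + c`:
for every `Q`-subspace `U`, with `n₁, b₁` the invariants of `G ∩ U`:
`b₁ - n₁ b/n ≤ n₁ (n-n₁)/(2n)`. -/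
def NSS [IsScalarTower k Q V] (G : ℤ → Submodule k V) (n : ℕ) (b : ℚ) : Prop :=
  ∀ U : Submodule Q V, ∀ (n₁ : ℕ) (b₁ c₁ : ℚ), HasHP (interU G U) n₁ b₁ c₁ →
    b₁ * n - n₁ * b ≤ n₁ * (n - n₁) / 2

end TLat

/-- The total graded ring `T = ⊕ F m X^m ⊆ Q[X]`. -/
noncomputable def TData.Ttot {k Q : Type} [Field k] [Field Q] [Algebra k Q] (D : TData k Q) :
    Subalgebra k (Polynomial Q) where
  carrier := {f | ∀ m : ℕ, f.coeff m ∈ D.F m}
  mul_mem' := by
    intro f g hf hg m
    rw [Polynomial.coeff_mul]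
    refine Submodule.sum_mem _ fun x hx => ?_
    have := D.mul_mem x.1 x.2 _ (hf x.1) _ (hg x.2)
    have hx' := Finset.HasAntidiagonal.mem_antidiagonal.mp hx
    have h2 : ((x.1 : ℤ) + (x.2 : ℤ)) = (m : ℤ) := by exact_mod_cast hx'
    rwa [h2] at this
  add_mem' := by
    intro f g hf hg m
    rw [Polynomial.coeff_add]
    exact Submodule.add_mem _ (hf m) (hg m)
  algebraMap_mem' := by
    intro r m
    rw [Polynomial.algebraMap_apply, Polynomial.coeff_C]
    split_ifs with h
    · subst h
      have : algebraMap k Q r = r • (1 : Q) := Algebra.algebraMap_eq_smul_one r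
      rw [this]
      simp only [Nat.cast_zero]
      rw [D.F_zero]
      exact Submodule.smul_mem _ _ (Submodule.mem_span_singleton_self 1)
    · exact Submodule.zero_mem _

/-- the element `f X^m` of `T` -/
noncomputable def TData.mono {k Q : Type} [Field k] [Field Q] [Algebra k Q] (D : TData k Q)
    (m : ℕ) (f : Q) (hf : f ∈ D.F m) : D.Ttot :=
  ⟨Polynomial.monomial m f, by
    intro j
    rw [Polynomial.coeff_monomial]
    split_ifs with h
    · subst h; exact hf
    · exact Submodule.zero_mem _⟩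

end Crest.Agent.R169
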