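/-
Row 169, part D5: colength of Frobenius powers of graded ideals with bounded Hilbert function
(helper858).  Everything is in the dehomogenised language: T = ⊕ F_m X^m ⊂ Q[X],
graded ideals are families I_m ≤ F_m.
-/
import Crest.Agent.R169.Defs

set_option autoImplicit false

namespace Crest.Agent.R169

open Module

variable {k Q : Type} [Field k] [Field Q] [Algebra k Q]

namespace TData

variable (D : TData k Q)

theorem one0 : (1 : Q) ∈ D.F 0 := by
  rw [D.F_zero]; exact Submodule.mem_span_singleton_self 1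

theorem mono1 (m : ℤ) : D.F m ≤ D.F (m + 1) := by
  intro f hf
  have := D.mul_mem m 1 f hf 1 D.one_mem
  simpa using this

theorem monoN (m : ℤ) (n : ℕ) : D.F m ≤ D.F (m + n) := by
  induction n with
  | zero => simp
  | succ n ih =>
    refine ih.trans ?_
    have := D.mono1 (m + n)
    push_cast
    rw [← add_assoc]; exact this

theorem mono_le {m n : ℤ} (hmn : m ≤ n) : D.F m ≤ D.F n := by
  obtain ⟨t, rfl⟩ := Int.le.dest hmn
  exact D.monoN m t

theorem pow_memC {i : ℤ} {f : Q} (hf : f ∈ D.F i) (n : ℕ) : f ^ n ∈ D.F (n * i) := by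
  induction n with
  | zero => simpa using D.one0
  | succ n ih =>
    rw [pow_succ]
    have := D.mul_mem _ _ _ ih _ hf
    convert this using 2
    push_cast; ring

theorem nonneg_of_mem {i : ℤ} {f : Q} (hf : f ∈ D.F i) (h0 : f ≠ 0) : 0 ≤ i := by
  by_contra hc
  push Not at hc
  rw [D.F_neg i hc] at hf
  exact h0 (by simpa using hf)

instance fin' (m : ℤ) : Module.Finite k (D.F m) := D.lat.fin m

/-- `F_{c+N} = Σ_{a+b≤N} u^a v^b F_c` -/
theorem gen_span {c1 : ℤ} (hgen : ∀ m ≥ c1, ∀ e ∈ D.F (m + 1), ∃ a ∈ D.F m, ∃ b ∈ D.F m,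
    ∃ c ∈ D.F m, e = a + D.u • b + D.v • c) (N : ℕ) :
    D.F (c1 + N) ≤ Submodule.span k {x | ∃ a b : ℕ, a + b ≤ N ∧ ∃ f ∈ D.F c1,
      x = D.u ^ a * D.v ^ b * f} := by
  induction N with
  | zero =>
    intro f hf
    refine Submodule.subset_span ⟨0, 0, le_rfl, f, by simpa using hf, by simp⟩
  | succ N ih =>
    intro f hf
    have hf' : f ∈ D.F (c1 + N + 1) := by
      have : c1 + ((N + 1 : ℕ) : ℤ) = c1 + N + 1 := by push_cast; ring
      rwa [this] at hf
    obtain ⟨a, ha, b, hb, c, hc, rfl⟩ := hgen _ (by omega) f hf'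
    have key : ∀ (w : Q) (da db : ℕ), da + db ≤ 1 → w = D.u ^ da * D.v ^ db →
        ∀ x ∈ D.F (c1 + N),
        w * x ∈ Submodule.span k {x | ∃ a b : ℕ, a + b ≤ N + 1 ∧ ∃ f ∈ D.F c1,
          x = D.u ^ a * D.v ^ b * f} := by
      intro w da db hd hw x hx
      have hx' := ih hx
      have : w * x ∈ (Submodule.span k {x | ∃ a b : ℕ, a + b ≤ N ∧ ∃ f ∈ D.F c1,
          x = D.u ^ a * D.v ^ b * f}).map (LinearMap.mulLeft k w) :=
        ⟨x, hx', rfl⟩
      rw [Submodule.map_span] at this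
      refine Submodule.span_mono ?_ this
      rintro _ ⟨y, ⟨a', b', hab, f', hf', rfl⟩, rfl⟩
      refine ⟨a' + da, b' + db, by omega, f', hf', ?_⟩
      simp only [LinearMap.mulLeft_apply, hw]
      ring
    refine Submodule.add_mem _ (Submodule.add_mem _ ?_ ?_) ?_
    · have := key 1 0 0 (by omega) (by simp) a ha
      simpa using this
    · exact key D.u 1 0 (by omega) (by simp) b hb
    · exact key D.v 0 1 (by omega) (by simp) c hc

/-- Lemma G: `F_m = F_{m-q} + u^q F_{m-q} + v^q F_{m-q}` for all large `m`. -/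
theorem bigGen (q : ℕ) : ∃ m1 : ℤ, ∀ m ≥ m1, D.F m ≤
    Submodule.span k {x | ∃ g ∈ D.F (m - q), x = g ∨ x = D.u ^ q * g ∨ x = D.v ^ q * g} := by
  obtain ⟨c1, hgen⟩ := D.lat.gen
  refine ⟨c1 + 3 * q, fun m hm f hf => ?_⟩
  obtain ⟨N, hN⟩ := Int.le.dest (show c1 ≤ m by omega)
  subst hN
  have h3 : 3 * q ≤ N := by omega
  refine Submodule.span_mono ?_ (D.gen_span hgen N hf)
  rintro _ ⟨a, b, hab, g, hg, rfl⟩
  by_cases ha : q ≤ a
  · refine ⟨D.u ^ (a - q) * D.v ^ b * g, ?_, Or.inr (Or.inl ?_)⟩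
    · have h1 := D.mul_mem _ _ _ (D.mul_mem _ _ _ (D.pow_memC D.u_mem (a - q)) _
        (D.pow_memC D.v_mem b)) _ hg
      refine D.mono_le ?_ h1
      push_cast [ha]
      have : (a : ℤ) + b ≤ N := by exact_mod_cast hab
      linarith
    · rw [← mul_assoc, ← mul_assoc, ← pow_add, Nat.add_sub_cancel' ha]
  · by_cases hb : q ≤ b
    · refine ⟨D.u ^ a * D.v ^ (b - q) * g, ?_, Or.inr (Or.inr ?_)⟩
      · have h1 := D.mul_mem _ _ _ (D.mul_mem _ _ _ (D.pow_memC D.u_mem a) _
          (D.pow_memC D.v_mem (b - q))) _ hg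
        refine D.mono_le ?_ h1
        push_cast [hb]
        have : (a : ℤ) + b ≤ N := by exact_mod_cast hab
        linarith
      · have : D.v ^ b = D.v ^ q * D.v ^ (b - q) := by rw [← pow_add, Nat.add_sub_cancel' hb]
        rw [this]; ring
    · refine ⟨D.u ^ a * D.v ^ b * g, ?_, Or.inl rfl⟩
      have h1 := D.mul_mem _ _ _ (D.mul_mem _ _ _ (D.pow_memC D.u_mem a) _
        (D.pow_memC D.v_mem b)) _ hg
      refine D.mono_le ?_ h1
      have : (a : ℤ) + b + q ≤ N := by
        have : a + b + q ≤ N := by omega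
        exact_mod_cast this
      linarith

end TData

/-- `I` is (the dehomogenisation of) a graded ideal of `T`. -/
structure IsIdl (D : TData k Q) (I : ℤ → Submodule k Q) : Prop where
  le : ∀ m, I m ≤ D.F m
  mul : ∀ i j : ℤ, ∀ f ∈ D.F i, ∀ g ∈ I j, f * g ∈ I (i + j)

/-- the Frobenius power `T · I^{[p]}` of a graded ideal (as a family). -/
def frobI (D : TData k Q) (p : ℕ) (I : ℤ → Submodule k Q) (m : ℤ) : Submodule k Q :=
  Submodule.span k {x | ∃ j : ℤ, ∃ f ∈ D.F (m - p * j), ∃ g ∈ I j, x = f * g ^ p}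

/-- the ideal `T x`, `x ∈ F_d`. -/
def prin (D : TData k Q) (d : ℤ) (x : Q) (m : ℤ) : Submodule k Q :=
  (D.F (m - d)).map (LinearMap.mulLeft k x)

/-- the colon ideal `(I : x)`, `x ∈ F_d`. -/
def colon (D : TData k Q) (I : ℤ → Submodule k Q) (d : ℤ) (x : Q) (m : ℤ) : Submodule k Q :=
  D.F m ⊓ (I (m + d)).comap (LinearMap.mulLeft k x)

variable {D : TData k Q}

theorem mem_colon {I : ℤ → Submodule k Q} {d : ℤ} {x : Q} {m : ℤ} {f : Q} :
    f ∈ colon D I d x m ↔ f ∈ D.F m ∧ x * f ∈ I (m + d) := Iff.rfl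

theorem mem_prin {d : ℤ} {x : Q} {m : ℤ} {f : Q} :
    f ∈ prin D d x m ↔ ∃ g ∈ D.F (m - d), x * g = f := Iff.rfl

namespace IsIdl

variable {I J : ℤ → Submodule k Q}

theorem mono (hI : IsIdl D I) {m n : ℤ} (h : m ≤ n) : I m ≤ I n := by
  intro g hg
  have h1 : (1 : Q) ∈ D.F (n - m) := by
    have := D.mono_le (show (0 : ℤ) ≤ n - m by omega) D.one0
    exact this
  have := hI.mul _ _ _ h1 _ hg
  simpa using this

theorem frob_idl (p : ℕ) (hI : IsIdl D I) : IsIdl D (frobI D p I) := by
  constructor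
  · intro m
    rw [frobI, Submodule.span_le]
    rintro _ ⟨j, f, hf, g, hg, rfl⟩
    have := D.mul_mem _ _ _ hf _ (D.pow_memC (hI.le _ hg) p)
    have e : m - p * j + p * j = m := by ring
    rwa [e] at this
  · intro i j f hf g hg
    have : f * g ∈ (frobI D p I j).map (LinearMap.mulLeft k f) := ⟨g, hg, rfl⟩
    rw [frobI, Submodule.map_span] at this
    refine Submodule.span_mono ?_ this
    rintro _ ⟨y, ⟨l, f', hf', g', hg', rfl⟩, rfl⟩
    refine ⟨l, f * f', ?_, g', hg', ?_⟩
    · have := D.mul_mem _ _ _ hf _ hf'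
      have e : i + (j - p * l) = i + j - p * l := by ring
      rwa [e] at this
    · simp [mul_assoc]

theorem mem_frob {p : ℕ} {m j : ℤ} {f g : Q} (hf : f ∈ D.F (m - p * j)) (hg : g ∈ I j) :
    f * g ^ p ∈ frobI D p I m :=
  Submodule.subset_span ⟨j, f, hf, g, hg, rfl⟩

theorem sup (hI : IsIdl D I) (hJ : IsIdl D J) : IsIdl D (fun m => I m ⊔ J m) := by
  constructor
  · intro m; exact sup_le (hI.le m) (hJ.le m)
  · intro i j f hf g hg
    obtain ⟨a, ha, b, hb, rfl⟩ := Submodule.mem_sup.mp hg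
    rw [mul_add]
    exact Submodule.add_mem_sup (hI.mul _ _ _ hf _ ha) (hJ.mul _ _ _ hf _ hb)

theorem prin_idl {d : ℤ} {x : Q} (hx : x ∈ D.F d) : IsIdl D (prin D d x) := by
  constructor
  · rintro m _ ⟨g, hg, rfl⟩
    have := D.mul_mem _ _ _ hx _ hg
    have e : d + (m - d) = m := by ring
    rwa [e] at this
  · rintro i j f hf _ ⟨g, hg, rfl⟩
    refine ⟨f * g, ?_, ?_⟩
    · have := D.mul_mem _ _ _ hf _ hg
      have e : i + (j - d) = i + j - d := by ring
      rwa [e] at this
    · simp only [LinearMap.mulLeft_apply]; ring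

theorem colon_idl (hI : IsIdl D I) (d : ℤ) (x : Q) : IsIdl D (colon D I d x) := by
  constructor
  · intro m; exact inf_le_left
  · intro i j f hf g hg
    rw [mem_colon] at hg ⊢
    refine ⟨D.mul_mem _ _ _ hf _ hg.1, ?_⟩
    have := hI.mul _ _ _ hf _ hg.2
    rw [← add_assoc] at this
    convert this using 1
    ring

end IsIdl

/-- finite colength: `I_m = F_m` for all large `m` -/
def Cofin (D : TData k Q) (I : ℤ → Submodule k Q) : Prop := ∃ m0 : ℤ, ∀ m ≥ m0, D.F m ≤ I m

theorem Cofin.frob {I : ℤ → Submodule k Q} (p : ℕ) (h : Cofin D I) :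
    Cofin D (frobI D p I) := by
  obtain ⟨m0, h0⟩ := h
  obtain ⟨j, hj1, hj0⟩ : ∃ j : ℕ, m0 ≤ j ∧ 0 ≤ j := ⟨m0.toNat, Int.self_le_toNat m0, by omega⟩
  obtain ⟨m1, h1⟩ := D.bigGen (p * j)
  refine ⟨m1, fun m hm => (h1 m hm).trans ?_⟩
  rw [Submodule.span_le]
  have hu : D.u ^ j ∈ I j := h0 j hj1 (by simpa using D.pow_memC D.u_mem j)
  have hv : D.v ^ j ∈ I j := h0 j hj1 (by simpa using D.pow_memC D.v_mem j)
  have ho : (1 : Q) ∈ I j := h0 j hj1 (D.mono_le (by omega) D.one0)
  rintro x ⟨g, hg, hx⟩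
  have e : m - ((p * j : ℕ) : ℤ) = m - p * (j : ℤ) := by push_cast; ring
  rw [e] at hg
  rcases hx with rfl | rfl | rfl
  · have := IsIdl.mem_frob (p := p) hg ho
    simpa using this
  · have := IsIdl.mem_frob (p := p) hg hu
    rwa [← pow_mul, mul_comm, mul_comm j p] at this
  · have := IsIdl.mem_frob (p := p) hg hv
    rwa [← pow_mul, mul_comm, mul_comm j p] at this

/-- graded prime ideal -/
structure IsPrm (D : TData k Q) (P : ℤ → Submodule k Q) : Prop extends IsIdl D P where
  prime : ∀ i j : ℤ, ∀ f ∈ D.F i, ∀ g ∈ D.F j, f * g ∈ P (i + j) → f ∈ P i ∨ g ∈ P j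

/-- `T` is regular at the (relevant, one-dimensional) graded prime `P`:
`s P ⊆ a T + b T` for some homogeneous `s ∉ P`, `a, b ∈ P`. -/
def RegAt (D : TData k Q) (P : ℤ → Submodule k Q) : Prop :=
  ∃ (σ α β : ℕ) (s a b : Q), s ∈ D.F σ ∧ s ∉ P σ ∧ a ∈ P α ∧ b ∈ P β ∧
    ∀ m : ℤ, ∀ f ∈ P m, ∃ g ∈ D.F (m + σ - α), ∃ h ∈ D.F (m + σ - β), s * f = a * g + b * h

/-- a graded prime `P` such that `T/P` has Hilbert function one -/
structure IsPoint (D : TData k Q) (P : ℤ → Submodule k Q) (w : Q) : Prop extends IsPrm D P where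
  w_mem : w ∈ D.F 1
  w_not : w ∉ P 1
  one_dim : ∀ m : ℕ, ∀ f ∈ D.F m, ∃ c : k, f - c • w ^ m ∈ P m

section point

variable {P : ℤ → Submodule k Q} {w : Q}

private theorem span_step {σ α β : ℕ} {s a b : Q} (hP : IsPoint D P w)
    (hreg : ∀ m : ℤ, ∀ f ∈ P m, ∃ g ∈ D.F (m + σ - α), ∃ h ∈ D.F (m + σ - β),
      s * f = a * g + b * h) (N : ℕ) :
    ∀ m : ℤ, (N : ℤ) * (α + β) ≤ m → ∀ f ∈ D.F m, s ^ N * f ∈
      Submodule.span k ({x | ∃ i j : ℕ, i + j < N ∧ x = a ^ i * b ^ j * s ^ (N - i - j) *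
          w ^ (m + (i + j) * σ - i * α - j * β).toNat} ∪
        {x | ∃ i j : ℕ, i + j = N ∧ ∃ g ∈ D.F (m + N * σ - i * α - j * β),
          x = a ^ i * b ^ j * g}) := by
  induction N with
  | zero =>
    intro m hm f hf
    refine Submodule.subset_span (Or.inr ⟨0, 0, rfl, f, ?_, by simp⟩)
    simpa using hf
  | succ N ih =>
    intro m hm f hf
    have hαβ : (0 : ℤ) ≤ (α : ℤ) + β := by positivity
    have hm' : (N : ℤ) * (α + β) ≤ m := by
      push_cast at hm
      nlinarith
    have h1 := ih m hm' f hf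
    have h2 : s ^ (N + 1) * f ∈ (Submodule.span k ({x | ∃ i j : ℕ, i + j < N ∧
        x = a ^ i * b ^ j * s ^ (N - i - j) *
          w ^ (m + (i + j) * σ - i * α - j * β).toNat} ∪
        {x | ∃ i j : ℕ, i + j = N ∧ ∃ g ∈ D.F (m + N * σ - i * α - j * β),
          x = a ^ i * b ^ j * g})).map (LinearMap.mulLeft k s) := by
      refine ⟨_, h1, ?_⟩
      simp only [LinearMap.mulLeft_apply]; ring
    rw [Submodule.map_span] at h2
    refine (Submodule.span_le.mpr ?_) h2
    rintro _ ⟨y, hy | hy, rfl⟩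
    · obtain ⟨i, j, hij, rfl⟩ := hy
      refine Submodule.subset_span (Or.inl ⟨i, j, by omega, ?_⟩)
      have e : N + 1 - i - j = N - i - j + 1 := by omega
      rw [e, pow_succ]
      simp only [LinearMap.mulLeft_apply]; ring
    · obtain ⟨i, j, hij, g, hg, rfl⟩ := hy
      obtain ⟨m', hm'eq⟩ : ∃ m' : ℕ, m + N * σ - i * α - j * β = (m' : ℤ) := by
        refine ⟨(m + N * σ - i * α - j * β).toNat, (Int.toNat_of_nonneg ?_).symm⟩
        have hi : (i : ℤ) ≤ N := by exact_mod_cast (by omega : i ≤ N)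
        have hj : (j : ℤ) ≤ N := by exact_mod_cast (by omega : j ≤ N)
        have h3 : (i : ℤ) * α ≤ N * α := mul_le_mul_of_nonneg_right hi (by positivity)
        have h4 : (j : ℤ) * β ≤ N * β := mul_le_mul_of_nonneg_right hj (by positivity)
        have h5 : (0 : ℤ) ≤ N * σ := by positivity
        nlinarith
      rw [hm'eq] at hg
      obtain ⟨c, hc⟩ := hP.one_dim m' g hg
      obtain ⟨g1, hg1, h1', hh1, hsum⟩ := hreg _ _ hc
      have hEq : s * (a ^ i * b ^ j * g) =
          c • (a ^ i * b ^ j * s * w ^ m') + a ^ (i + 1) * b ^ j * g1 +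
            a ^ i * b ^ (j + 1) * h1' := by
        have : s * g = c • (s * w ^ m') + (a * g1 + b * h1') := by
          rw [← hsum, mul_sub, mul_smul_comm]; ring
        calc s * (a ^ i * b ^ j * g) = a ^ i * b ^ j * (s * g) := by ring
          _ = _ := by
            rw [this, mul_add, mul_smul_comm]
            ring_nf
      rw [LinearMap.mulLeft_apply, hEq]
      refine Submodule.add_mem _ (Submodule.add_mem _ (Submodule.smul_mem _ _ ?_) ?_) ?_
      · refine Submodule.subset_span (Or.inl ⟨i, j, by omega, ?_⟩)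
        have e : N + 1 - i - j = 1 := by omega
        have e2 : (m + ((i : ℤ) + j) * σ - i * α - j * β).toNat = m' := by
          have : (m + ((i : ℤ) + j) * σ - i * α - j * β) = m' := by
            rw [← hm'eq]
            have : (N : ℤ) = i + j := by exact_mod_cast hij.symm
            rw [this]
          rw [this]; simp
        rw [e, e2, pow_one]
      · refine Submodule.subset_span (Or.inr ⟨i + 1, j, by omega, g1, ?_, rfl⟩)
        have e : m + ((N + 1 : ℕ) : ℤ) * σ - ((i + 1 : ℕ) : ℤ) * α - j * β = m' + σ - α := by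
          rw [← hm'eq]; push_cast; ring
        rw [e]; exact hg1
      · refine Submodule.subset_span (Or.inr ⟨i, j + 1, by omega, h1', ?_, rfl⟩)
        have e : m + ((N + 1 : ℕ) : ℤ) * σ - i * α - ((j + 1 : ℕ) : ℤ) * β = m' + σ - β := by
          rw [← hm'eq]; push_cast; ring
        rw [e]; exact hh1

/-- elements of degree `σ` have a power in `s^N T + T P^{[p]}` -/
private theorem pow_two_p_mem (p : ℕ) [Fact p.Prime] [CharP Q p] {σ : ℕ} {s : Q}
    (hP : IsPoint D P w) (hs : s ∈ D.F σ) (hs' : s ∉ P σ) {f : Q} (hf : f ∈ D.F σ) :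
    f ^ (2 * p) ∈ (frobI D p P (2 * p * σ) ⊔
      (D.F (2 * p * σ - (2 * p - 1 : ℕ) * σ)).map (LinearMap.mulLeft k (s ^ (2 * p - 1)))) := by
  have hp : 1 ≤ p := (Fact.out : p.Prime).one_lt.le
  -- f = c s + π
  obtain ⟨c1, h1⟩ := hP.one_dim σ s hs
  obtain ⟨c2, h2⟩ := hP.one_dim σ f hf
  have hc1 : c1 ≠ 0 := by
    rintro rfl
    apply hs'
    simpa using h1
  have h3 : f - (c2 / c1) • s ∈ P σ := by
    have : f - (c2 / c1) • s = (f - c2 • w ^ σ) - (c2 / c1) • (s - c1 • w ^ σ) := by
      rw [smul_sub, smul_smul, div_mul_cancel₀ _ hc1]; ring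
    rw [this]
    exact Submodule.sub_mem _ h2 (Submodule.smul_mem _ _ h1)
  set c := c2 / c1
  obtain ⟨π, hπ⟩ : ∃ π, π = f - c • s := ⟨_, rfl⟩
  rw [← hπ] at h3
  have hfe : f = c • s + π := by rw [hπ]; ring
  have hfp : f ^ p = c ^ p • s ^ p + π ^ p := by
    rw [hfe, add_pow_char, smul_pow]
  have hf2 : f ^ (2 * p) = (c ^ p • f ^ p) * s ^ p + f ^ p * π ^ p := by
    rw [two_mul, pow_add]
    nth_rw 2 [hfp]
    rw [mul_add, mul_smul_comm, smul_mul_assoc]
  have hf2' : f ^ (2 * p) = (c ^ (2 * p) • s ) * s ^ (2 * p - 1) + (c ^ p • s ^ p + f ^ p) * π ^ p := by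
    rw [hf2]
    have : s ^ (2 * p - 1) * s = s ^ p * s ^ p := by
      rw [← pow_succ, ← pow_add]; congr 1; omega
    have e : (c ^ (2 * p) • s) * s ^ (2 * p - 1) = c ^ (2 * p) • (s ^ p * s ^ p) := by
      rw [smul_mul_assoc, mul_comm s, this]
    rw [e]
    have h5 : (c ^ p • f ^ p) * s ^ p = c ^ (2 * p) • (s ^ p * s ^ p) + c ^ p • (s ^ p * π ^ p) := by
      rw [hfp, smul_add, add_mul, smul_smul, ← pow_add, smul_mul_assoc, smul_mul_assoc, ← two_mul]
      ring_nf
    rw [h5, add_mul, smul_mul_assoc]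
    ring
  rw [hf2', add_comm]
  refine Submodule.add_mem_sup ?_ ?_
  · refine IsIdl.mem_frob (j := σ) ?_ h3
    have e : (2 * (p : ℤ) * σ - p * σ) = p * σ := by ring
    rw [e]
    exact Submodule.add_mem _ (Submodule.smul_mem _ _ (D.pow_memC hs p)) (D.pow_memC hf p)
  · refine ⟨c ^ (2 * p) • s, ?_, ?_⟩
    · have e : (2 * (p : ℤ) * σ - ((2 * p - 1 : ℕ) : ℤ) * σ) = σ := by
        rw [Nat.cast_sub (by omega)]; push_cast; ring
      rw [e]
      exact Submodule.smul_mem _ _ hs
    · simp only [LinearMap.mulLeft_apply]; ring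

/-- the ideal `s^N T + T P^{[p]}` -/
private theorem idl_sp (p : ℕ) {σ : ℕ} {s : Q} (hP : IsIdl D P) (hs : s ∈ D.F σ) (N : ℕ) :
    IsIdl D (fun M => frobI D p P M ⊔ (D.F (M - N * σ)).map (LinearMap.mulLeft k (s ^ N))) := by
  have h1 := hP.frob_idl p
  have h2 : IsIdl D (prin D (N * σ) (s ^ N)) := IsIdl.prin_idl (D.pow_memC hs N)
  exact h1.sup h2

private theorem cofin_sp (p : ℕ) [Fact p.Prime] [CharP Q p] {σ : ℕ} {s : Q}
    (hP : IsPoint D P w) (hs : s ∈ D.F σ) (hs' : s ∉ P σ) :
    Cofin D (fun M => frobI D p P M ⊔ (D.F (M - (2 * p - 1 : ℕ) * σ)).map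
      (LinearMap.mulLeft k (s ^ (2 * p - 1)))) := by
  have hid := idl_sp p hP.toIsIdl hs (2 * p - 1)
  obtain ⟨m1, h1⟩ := D.bigGen (2 * p * σ)
  refine ⟨m1, fun m hm => (h1 m hm).trans ?_⟩
  rw [Submodule.span_le]
  have key : ∀ f ∈ D.F (σ : ℤ), ∀ g ∈ D.F (m - ((2 * p * σ : ℕ) : ℤ)), f ^ (2 * p) * g ∈
      (frobI D p P m ⊔ (D.F (m - (2 * p - 1 : ℕ) * σ)).map
      (LinearMap.mulLeft k (s ^ (2 * p - 1)))) := by
    intro f hf g hg
    have := hid.mul _ _ _ hg _ (pow_two_p_mem p hP hs hs' hf)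
    have e : m - ((2 * p * σ : ℕ) : ℤ) + 2 * p * σ = m := by push_cast; ring
    rw [e] at this
    rw [mul_comm (f ^ (2 * p)) g]; exact this
  have hu : D.u ^ σ ∈ D.F σ := (by simpa using D.pow_memC D.u_mem σ)
  have hv : D.v ^ σ ∈ D.F σ := (by simpa using D.pow_memC D.v_mem σ)
  have ho : (1 : Q) ∈ D.F σ := D.mono_le (by omega) D.one0
  rintro x ⟨g, hg, hx⟩
  rcases hx with rfl | rfl | rfl
  · simpa using key 1 ho _ hg
  · have := key _ hu _ hg
    rwa [← pow_mul, mul_comm σ (2 * p)] at this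
  · have := key _ hv _ hg
    rwa [← pow_mul, mul_comm σ (2 * p)] at this

/-- the local length bound at a regular point: `dim (T / T P^{[p]})_m ≤ p²` for large `m`;
in the strong form: there is a subspace of dimension `≤ p²` complementing. -/
theorem point_bound (p : ℕ) [Fact p.Prime] [CharP Q p] (hP : IsPoint D P w) (hreg : RegAt D P) :
    ∃ M0 : ℤ, ∀ M ≥ M0, ∃ S : Submodule k Q, Module.Finite k S ∧ finrank k S ≤ p ^ 2 ∧
      D.F M ≤ frobI D p P M ⊔ S := by
  obtain ⟨σ, α, β, s, a, b, hs, hs', ha, hb, hreg⟩ := hreg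
  have hp : 1 ≤ p := (Fact.out : p.Prime).one_lt.le
  obtain ⟨M1, h1⟩ := cofin_sp p hP hs hs'
  set N := 2 * p - 1 with hN
  refine ⟨max M1 (N * σ + N * (α + β)), fun M hM => ?_⟩
  have hM1 : M1 ≤ M := le_trans (le_max_left _ _) hM
  have hM2 : (N * σ + N * (α + β) : ℤ) ≤ M := le_trans (le_max_right _ _) hM
  set m : ℤ := M - N * σ with hm
  let e : ℕ × ℕ → Q := fun t => a ^ t.1 * b ^ t.2 * s ^ (N - t.1 - t.2) *
          w ^ (m + (t.1 + t.2) * σ - t.1 * α - t.2 * β).toNat
  classical
  let S0 : Finset Q := (Finset.range p ×ˢ Finset.range p).image e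
  refine ⟨Submodule.span k (S0 : Set Q), inferInstance, ?_, ?_⟩
  · refine (finrank_span_finset_le_card S0).trans ?_
    refine Finset.card_image_le.trans ?_
    simp [Finset.card_product, sq]
  · refine (h1 M hM1).trans ?_
    refine sup_le le_sup_left ?_
    rintro _ ⟨f, hf, rfl⟩
    have hmN : (N : ℤ) * (α + β) ≤ m := by rw [hm]; linarith
    have h2 := span_step hP hreg N m hmN f hf
    rw [LinearMap.mulLeft_apply]
    refine (Submodule.span_le.mpr ?_) h2
    have hmem : ∀ i j : ℕ, (p ≤ i ∨ p ≤ j) → ∀ y ∈ D.F (M - i * α - j * β),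
        a ^ i * b ^ j * y ∈ frobI D p P M := by
      intro i j hij y hy
      rcases hij with hi | hj
      · have h3 : a ^ (i - p) * b ^ j * y ∈ D.F (M - p * α) := by
          have := D.mul_mem _ _ _ (D.mul_mem _ _ _ (D.pow_memC (hP.le _ ha) (i - p)) _
            (D.pow_memC (hP.le _ hb) j)) _ hy
          have e : ((i - p : ℕ) : ℤ) * α + j * β + (M - i * α - j * β) = M - p * α := by
            rw [Nat.cast_sub hi]; ring
          rwa [e] at this
        have h4 := IsIdl.mem_frob (p := p) h3 ha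
        have : a ^ (i - p) * b ^ j * y * a ^ p = a ^ i * b ^ j * y := by
          have : a ^ i = a ^ (i - p) * a ^ p := by rw [← pow_add, Nat.sub_add_cancel hi]
          rw [this]; ring
        rwa [this] at h4
      · have h3 : a ^ i * b ^ (j - p) * y ∈ D.F (M - p * β) := by
          have := D.mul_mem _ _ _ (D.mul_mem _ _ _ (D.pow_memC (hP.le _ ha) i) _
            (D.pow_memC (hP.le _ hb) (j - p))) _ hy
          have e : (i : ℤ) * α + ((j - p : ℕ) : ℤ) * β + (M - i * α - j * β) = M - p * β := by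
            rw [Nat.cast_sub hj]; ring
          rwa [e] at this
        have h4 := IsIdl.mem_frob (p := p) h3 hb
        have : a ^ i * b ^ (j - p) * y * b ^ p = a ^ i * b ^ j * y := by
          have : b ^ j = b ^ (j - p) * b ^ p := by rw [← pow_add, Nat.sub_add_cancel hj]
          rw [this]; ring
        rwa [this] at h4
    rintro x (⟨i, j, hij, rfl⟩ | ⟨i, j, hij, g, hg, rfl⟩)
    · by_cases hc : i < p ∧ j < p
      · refine Submodule.mem_sup_right (Submodule.subset_span ?_)
        simp only [S0, Finset.coe_image, Set.mem_image]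
        refine ⟨(i, j), ?_, rfl⟩
        simp [hc.1, hc.2]
      · refine Submodule.mem_sup_left ?_
        have hc' : p ≤ i ∨ p ≤ j := by
          by_contra h
          push Not at h
          exact hc ⟨h.1, h.2⟩
        rw [mul_assoc]
        refine hmem i j hc' _ ?_
        have h5 := D.mul_mem _ _ _ (D.pow_memC hs (N - i - j)) _
          (D.pow_memC hP.w_mem (m + (i + j) * σ - i * α - j * β).toNat)
        have hnn : 0 ≤ m + (i + j) * σ - i * α - j * β := by
          have hi : (i : ℤ) ≤ N := by exact_mod_cast (by omega : i ≤ N)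
          have hj : (j : ℤ) ≤ N := by exact_mod_cast (by omega : j ≤ N)
          have h3 : (i : ℤ) * α ≤ N * α := mul_le_mul_of_nonneg_right hi (by positivity)
          have h4 : (j : ℤ) * β ≤ N * β := mul_le_mul_of_nonneg_right hj (by positivity)
          have h5 : (0 : ℤ) ≤ (i + j) * σ := by positivity
          nlinarith
        have e : ((N - i - j : ℕ) : ℤ) * σ + ((m + (i + j) * σ - i * α - j * β).toNat : ℤ) * 1 =
            M - i * α - j * β := by
          rw [Int.toNat_of_nonneg hnn, Nat.sub_sub, Nat.cast_sub hij.le, hm]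
          push_cast; ring
        rwa [e] at h5
    · refine Submodule.mem_sup_left (hmem i j (by omega) g ?_)
      have e : m + N * σ - i * α - j * β = M - i * α - j * β := by rw [hm]; ring
      rwa [e] at hg

end point

section onedim

variable {P : ℤ → Submodule k Q}

private theorem pow_not_mem (hP : IsPrm D P) {m : ℤ} {f : Q} (hf : f ∈ D.F m) (hf' : f ∉ P m)
    (j : ℕ) : f ^ j ∉ P (j * m) := by
  induction j with
  | zero =>
    intro h
    apply hf'
    have := hP.mul _ _ _ hf _ h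
    simpa using this
  | succ j ih =>
    intro h
    have e : ((j + 1 : ℕ) : ℤ) * m = j * m + m := by push_cast; ring
    rw [e, pow_succ] at h
    rcases hP.prime _ _ _ (D.pow_memC hf j) _ hf h with h1 | h1
    · exact ih h1
    · exact hf' h1

private theorem prod_not_mem (hP : IsPrm D P) {m : ℤ} {f g : Q} (hf : f ∈ D.F m) (hg : g ∈ D.F m)
    (hf' : f ∉ P m) (hg' : ∀ c : k, g - c • f ∉ P m) (R : Multiset k) (j : ℕ) :
    f ^ j * (R.map (fun r => g - r • f)).prod ∈ D.F ((j + Multiset.card R) * m) ∧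
    f ^ j * (R.map (fun r => g - r • f)).prod ∉ P ((j + Multiset.card R) * m) := by
  induction R using Multiset.induction_on with
  | empty =>
    simp only [Multiset.map_zero, Multiset.prod_zero, mul_one, Multiset.card_zero]
    refine ⟨by simpa using D.pow_memC hf j, by simpa using pow_not_mem hP hf hf' j⟩
  | cons r R ih =>
    have e : ((j : ℤ) + (Multiset.card (r ::ₘ R) : ℕ)) * m = m + (j + Multiset.card R) * m := by
      simp only [Multiset.card_cons]; push_cast; ring
    have e2 : f ^ j * ((r ::ₘ R).map (fun r => g - r • f)).prod =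
        (g - r • f) * (f ^ j * (R.map (fun r => g - r • f)).prod) := by
      simp only [Multiset.map_cons, Multiset.prod_cons]; ring
    have h1 : g - r • f ∈ D.F m := Submodule.sub_mem _ hg (Submodule.smul_mem _ _ hf)
    rw [e, e2]
    refine ⟨D.mul_mem _ _ _ h1 _ ih.1, fun h => ?_⟩
    rcases hP.prime _ _ _ h1 _ ih.1 h with h2 | h2
    · exact hg' r h2
    · exact ih.2 h2

private theorem aeval_not_mem [IsAlgClosed k] (hP : IsPrm D P) {m : ℤ} {f g : Q}
    (hf : f ∈ D.F m) (hg : g ∈ D.F m)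
    (hf' : f ∉ P m) (hg' : ∀ c : k, g - c • f ∉ P m) (N : ℕ) (h : Polynomial k) (h0 : h ≠ 0)
    (hd : h.natDegree ≤ N) :
    f ^ N * Polynomial.aeval (g / f) h ∉ P (N * m) := by
  have hf0 : f ≠ 0 := by rintro rfl; exact hf' (Submodule.zero_mem _)
  have hs := IsAlgClosed.splits h
  have h1 : h = Polynomial.C h.leadingCoeff * (h.roots.map (fun a => Polynomial.X - Polynomial.C a)).prod :=
    Polynomial.Splits.eq_prod_roots hs
  have hcard : Multiset.card h.roots = h.natDegree := (Polynomial.Splits.natDegree_eq_card_roots hs).symm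
  have hle : Multiset.card h.roots ≤ N := by rw [hcard]; exact hd
  have h2 : Polynomial.aeval (g / f) h = algebraMap k Q h.leadingCoeff *
      (h.roots.map (fun a => g / f - algebraMap k Q a)).prod := by
    conv_lhs => rw [h1]
    rw [map_mul, map_multiset_prod, Multiset.map_map]
    simp
  have h3 : ∀ R : Multiset k, f ^ (Multiset.card R) * (R.map (fun a => g / f - algebraMap k Q a)).prod
      = (R.map (fun a => g - a • f)).prod := by
    intro R
    induction R using Multiset.induction_on with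
    | empty => simp
    | cons r R ih =>
      simp only [Multiset.map_cons, Multiset.prod_cons, Multiset.card_cons]
      rw [← ih, pow_succ]
      have : g - r • f = f * (g / f - algebraMap k Q r) := by
        rw [mul_sub, mul_div_cancel₀ _ hf0, Algebra.smul_def]; ring
      rw [this]; ring
  have h4 : f ^ N * Polynomial.aeval (g / f) h = h.leadingCoeff •
      (f ^ (N - Multiset.card h.roots) * (h.roots.map (fun a => g - a • f)).prod) := by
    rw [h2, ← h3, Algebra.smul_def]
    have : f ^ N = f ^ (N - Multiset.card h.roots) * f ^ (Multiset.card h.roots) := by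
      rw [← pow_add, Nat.sub_add_cancel hle]
    rw [this]; ring
  rw [h4]
  intro hmem
  have hl : h.leadingCoeff ≠ 0 := Polynomial.leadingCoeff_ne_zero.mpr h0
  have h5 := (Submodule.smul_mem_iff _ hl).mp hmem
  have h6 := (prod_not_mem hP hf hg hf' hg' h.roots (N - Multiset.card h.roots)).2
  apply h6
  have e : (((N - Multiset.card h.roots : ℕ) : ℤ) + (Multiset.card h.roots : ℕ)) * m = N * m := by
    rw [← Nat.cast_add, Nat.sub_add_cancel hle]
  rw [e]; exact h5

private theorem aeval_mem {m : ℤ} {f g : Q} (hf : f ∈ D.F m) (hg : g ∈ D.F m) (hf0 : f ≠ 0)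
    (N : ℕ) (h : Polynomial k) (hd : h.natDegree ≤ N) :
    f ^ N * Polynomial.aeval (g / f) h ∈ D.F (N * m) := by
  rw [Polynomial.aeval_eq_sum_range' (n := N + 1) (by omega), Finset.mul_sum]
  refine Submodule.sum_mem _ fun i hi => ?_
  have hi' : i ≤ N := by simpa [Nat.lt_succ_iff] using hi
  rw [mul_smul_comm]
  refine Submodule.smul_mem _ _ ?_
  have e : f ^ N * (g / f) ^ i = f ^ (N - i) * g ^ i := by
    have : f ^ N = f ^ (N - i) * f ^ i := by rw [← pow_add, Nat.sub_add_cancel hi']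
    rw [this, div_pow, mul_assoc, mul_div_cancel₀ _ (pow_ne_zero _ hf0)]
  rw [e]
  have := D.mul_mem _ _ _ (D.pow_memC hf (N - i)) _ (D.pow_memC hg i)
  have e2 : ((N - i : ℕ) : ℤ) * m + i * m = N * m := by
    rw [Nat.cast_sub hi']; ring
  rwa [e2] at this

/-- a graded prime with bounded Hilbert function has Hilbert function `≤ 1`. -/
private theorem one_dim_of_bdd [IsAlgClosed k] (hP : IsPrm D P) (e : ℕ) (m0 : ℤ)
    (hb : ∀ m ≥ m0, finrank k (D.F m) ≤ finrank k (P m) + e) (m : ℕ) {f g : Q}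
    (hf : f ∈ D.F m) (hg : g ∈ D.F m) (hf' : f ∉ P m) : ∃ c : k, g - c • f ∈ P m := by
  by_contra hcon
  push Not at hcon
  have hf0 : f ≠ 0 := by rintro rfl; exact hf' (Submodule.zero_mem _)
  rcases Nat.eq_zero_or_pos m with rfl | hm
  · -- degree zero
    have h1 : f ∈ Submodule.span k {(1 : Q)} := by rw [← D.F_zero]; simpa using hf
    have h2 : g ∈ Submodule.span k {(1 : Q)} := by rw [← D.F_zero]; simpa using hg
    obtain ⟨a, rfl⟩ := Submodule.mem_span_singleton.mp h1
    obtain ⟨b, rfl⟩ := Submodule.mem_span_singleton.mp h2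
    have ha : a ≠ 0 := by rintro rfl; simp at hf0
    apply hcon (b / a)
    rw [smul_smul, div_mul_cancel₀ _ ha, sub_self]
    exact Submodule.zero_mem _
  obtain ⟨N, hN1, hN2⟩ : ∃ N : ℕ, m0 ≤ N * (m : ℤ) ∧ e ≤ N := by
    refine ⟨max m0.toNat e, ?_, le_max_right _ _⟩
    have h1 : m0 ≤ (m0.toNat : ℤ) := Int.self_le_toNat m0
    have h2 : (m0.toNat : ℤ) ≤ (max m0.toNat e : ℕ) := by exact_mod_cast le_max_left _ _
    have h3 : (1 : ℤ) ≤ m := by exact_mod_cast hm
    nlinarith
  let M : ℤ := N * (m : ℤ)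
  have hbM := hb M hN1
  have : Module.Finite k (P M) := Submodule.finiteDimensional_of_le (hP.le M)
  let Φ : Polynomial k →ₗ[k] Q :=
    (LinearMap.mulLeft k (f ^ N)).comp (Polynomial.aeval (g / f)).toLinearMap
  let Ψ : (P M) × (Polynomial.degreeLT k (N + 1)) →ₗ[k] Q :=
    LinearMap.coprod (P M).subtype (Φ.comp (Polynomial.degreeLT k (N + 1)).subtype)
  have hdeg : ∀ h : Polynomial.degreeLT k (N + 1), (h : Polynomial k).natDegree ≤ N := by
    intro h
    have h1 := Polynomial.mem_degreeLT.mp h.2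
    by_cases h0 : (h : Polynomial k) = 0
    · rw [h0]; simp
    · rw [Polynomial.degree_eq_natDegree h0] at h1
      have : (h : Polynomial k).natDegree < N + 1 := by exact_mod_cast h1
      omega
  have hinj : Function.Injective Ψ := by
    rw [← LinearMap.ker_eq_bot, LinearMap.ker_eq_bot']
    rintro ⟨x, h⟩ hx
    have hx' : (x : Q) + Φ h = 0 := hx
    have hh : (h : Polynomial k) = 0 := by
      by_contra h0
      apply aeval_not_mem hP hf hg hf' hcon N h h0 (hdeg h)
      have : Φ h = -(x : Q) := by linear_combination hx'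
      change Φ h ∈ P M
      rw [this]
      exact Submodule.neg_mem _ x.2
    have hh' : h = 0 := Subtype.ext hh
    subst hh'
    have hx0 : x = 0 := by
      apply Subtype.ext
      simpa [Φ] using hx'
    rw [hx0]; rfl
  have hrange : LinearMap.range Ψ ≤ D.F M := by
    rintro _ ⟨⟨x, h⟩, rfl⟩
    refine Submodule.add_mem _ (hP.le _ x.2) ?_
    exact aeval_mem hf hg hf0 N h (hdeg h)
  have h1 : finrank k (LinearMap.range Ψ) ≤ finrank k (D.F M) := Submodule.finrank_mono hrange
  have : Module.Finite k (Polynomial.degreeLT k (N + 1)) :=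
    Module.Finite.equiv (Polynomial.degreeLTEquiv k (N + 1)).symm
  rw [LinearMap.finrank_range_of_inj hinj, Module.finrank_prod,
    (Polynomial.degreeLTEquiv k (N + 1)).finrank_eq, Module.finrank_fin_fun] at h1
  omega

end onedim

section main

variable {I P : ℤ → Submodule k Q}

/-- `I + T x` -/
private theorem frob_sup_prin (p : ℕ) [Fact p.Prime] [CharP Q p] (d : ℤ) (x : Q) (m : ℤ) :
    frobI D p (fun m => I m ⊔ prin D d x m) m ≤
      frobI D p I m ⊔ (D.F (m - p * d)).map (LinearMap.mulLeft k (x ^ p)) := by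
  rw [frobI, Submodule.span_le]
  rintro _ ⟨j, f, hf, g, hg, rfl⟩
  obtain ⟨a, ha, b, hb, rfl⟩ := Submodule.mem_sup.mp hg
  obtain ⟨h, hh, rfl⟩ := mem_prin.mp hb
  rw [add_pow_char, mul_add, mul_pow]
  refine Submodule.add_mem_sup (IsIdl.mem_frob hf ha) ⟨f * h ^ p, ?_, ?_⟩
  · have := D.mul_mem _ _ _ hf _ (D.pow_memC hh p)
    have e : m - p * j + p * (j - d) = m - p * d := by ring
    rwa [e] at this
  · simp only [LinearMap.mulLeft_apply]; ring

private theorem frob_colon (p : ℕ) (d : ℤ) (x : Q) (m : ℤ) :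
    (frobI D p (colon D I d x) (m - p * d)).map (LinearMap.mulLeft k (x ^ p)) ≤
      frobI D p I m := by
  rw [frobI, Submodule.map_span, Submodule.span_le]
  rintro _ ⟨y, ⟨j, f, hf, g, hg, rfl⟩, rfl⟩
  rw [mem_colon] at hg
  have e : m - p * d - p * j = m - p * (j + d) := by ring
  rw [e] at hf
  have h := IsIdl.mem_frob (p := p) hf hg.2
  have e2 : LinearMap.mulLeft k (x ^ p) (f * g ^ p) = f * (x * g) ^ p := by
    simp only [LinearMap.mulLeft_apply]; ring
  rw [e2]
  exact h

private theorem finite_idl (hI : IsIdl D I) (m : ℤ) : Module.Finite k (I m) :=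
  Submodule.finiteDimensional_of_le (hI.le m)

private theorem finrank_map_inj {x : Q} (hx : x ≠ 0) (S : Submodule k Q) :
    finrank k (S.map (LinearMap.mulLeft k x)) = finrank k S := by
  have hinj : Function.Injective (LinearMap.mulLeft k x) := by
    intro a b h
    simp only [LinearMap.mulLeft_apply] at h
    exact mul_left_cancel₀ hx h
  exact (Submodule.equivMapOfInjective _ hinj S).finrank_eq.symm

/-- dimension count for `0 → T/(I:x)(-d) → T/I → T/(I+Tx) → 0`. -/
private theorem dim_colon (hI : IsIdl D I) {d : ℤ} {x : Q} (hx : x ∈ D.F d) (hx' : x ∉ I d)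
    (m : ℤ) :
    finrank k (D.F m) + finrank k (I (m + d)) =
      finrank k (I (m + d) ⊔ prin D d x (m + d) : Submodule k Q) +
        finrank k (colon D I d x m) := by
  have hx0 : x ≠ 0 := by rintro rfl; exact hx' (Submodule.zero_mem _)
  have h1 : prin D d x (m + d) = (D.F m).map (LinearMap.mulLeft k x) := by
    rw [prin, add_sub_cancel_right]
  have := finite_idl hI (m + d)
  have := finite_idl (IsIdl.prin_idl hx) (m + d)
  have h2 := Submodule.finrank_sup_add_finrank_inf_eq (I (m + d)) (prin D d x (m + d))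
  have h3 : I (m + d) ⊓ prin D d x (m + d) =
      (colon D I d x m).map (LinearMap.mulLeft k x) := by
    ext y
    rw [h1]
    constructor
    · rintro ⟨hy1, f, hf, rfl⟩
      exact ⟨f, ⟨hf, hy1⟩, rfl⟩
    · rintro ⟨f, ⟨hf, hy⟩, rfl⟩
      exact ⟨hy, f, hf, rfl⟩
  rw [h3, finrank_map_inj hx0] at h2
  have h4 : finrank k (prin D d x (m + d)) = finrank k (D.F m) := by
    rw [h1, finrank_map_inj hx0]
  omega

/-- ascending chain condition on graded ideals of `T`, given that graded ideals are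
generated in bounded degree -/
theorem wf_idl (hsub : ∀ I : ℤ → Submodule k Q, IsIdl D I → IsLat D.u D.v I) :
    WellFoundedGT {I : ℤ → Submodule k Q // IsIdl D I} := by
  rw [wellFoundedGT_iff_monotone_chain_condition]
  intro a
  let J : ℤ → Submodule k Q := fun m => ⨆ n, (a n).1 m
  have hmono : ∀ m, Monotone (fun n => (a n).1 m) := fun m i j hij => a.mono hij m
  have hmem : ∀ m x, x ∈ J m ↔ ∃ n, x ∈ (a n).1 m := fun m x =>
    Submodule.mem_iSup_of_directed _ (hmono m).directed_le
  have hJ : IsIdl D J := by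
    constructor
    · intro m; exact iSup_le fun n => (a n).2.le m
    · intro i j f hf g hg
      obtain ⟨n, hn⟩ := (hmem _ _).mp hg
      exact (hmem _ _).mpr ⟨n, (a n).2.mul _ _ _ hf _ hn⟩
  obtain ⟨m1, h1⟩ := (hsub J hJ).gen
  -- stabilisation in every degree
  have hst : ∀ m, ∃ n, ∀ n' ≥ n, J m ≤ (a n').1 m := by
    intro m
    have := finite_idl hJ m
    obtain ⟨T, hT⟩ := Module.Finite.iff_fg.mp this
    have : ∀ T : Finset Q, (∀ x ∈ T, x ∈ J m) → ∃ n, ∀ x ∈ T, x ∈ (a n).1 m := by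
      classical
      intro T
      induction T using Finset.induction_on with
      | empty => intro _; exact ⟨0, by simp⟩
      | insert x T _ ih =>
        intro h
        obtain ⟨n1, hn1⟩ := ih (fun y hy => h y (Finset.mem_insert_of_mem hy))
        obtain ⟨n2, hn2⟩ := (hmem _ _).mp (h x (Finset.mem_insert_self _ _))
        refine ⟨max n1 n2, fun y hy => ?_⟩
        rcases Finset.mem_insert.mp hy with rfl | hy
        · exact hmono m (le_max_right n1 n2) hn2
        · exact hmono m (le_max_left n1 n2) (hn1 y hy)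
    obtain ⟨n, hn⟩ := this T (fun x hx => by rw [← hT]; exact Submodule.subset_span hx)
    refine ⟨n, fun n' hn' => ?_⟩
    rw [← hT, Submodule.span_le]
    intro x hx
    exact hmono m hn' (hn x hx)
  -- finitely many degrees at the same time
  have hst2 : ∀ B : ℕ, ∃ n, ∀ n' ≥ n, ∀ m : ℕ, m ≤ B → J m ≤ (a n').1 m := by
    intro B
    induction B with
    | zero =>
      obtain ⟨n, hn⟩ := hst 0
      refine ⟨n, fun n' hn' m hm => ?_⟩
      obtain rfl : m = 0 := by omega
      exact hn n' hn'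
    | succ B ih =>
      obtain ⟨n1, hn1⟩ := ih
      obtain ⟨n2, hn2⟩ := hst (B + 1 : ℕ)
      refine ⟨max n1 n2, fun n' hn' m hm => ?_⟩
      rcases Nat.lt_or_ge m (B + 1) with h | h
      · exact hn1 n' (le_trans (le_max_left _ _) hn') m (by omega)
      · obtain rfl : m = B + 1 := by omega
        exact hn2 n' (le_trans (le_max_right _ _) hn')
  obtain ⟨n, hn⟩ := hst2 m1.toNat
  have hall : ∀ n' ≥ n, ∀ m, J m ≤ (a n').1 m := by
    intro n' hn' m
    rcases lt_or_ge m 0 with h0 | h0
    · intro x hx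
      have := hJ.le m hx
      rw [D.F_neg m h0] at this
      have hx0 : x = 0 := by simpa using this
      rw [hx0]; exact Submodule.zero_mem _
    obtain ⟨m, rfl⟩ := Int.eq_ofNat_of_zero_le h0
    clear h0
    induction m with
    | zero => exact hn n' hn' 0 (Nat.zero_le _)
    | succ m ih =>
      by_cases hm : m + 1 ≤ m1.toNat
      · exact hn n' hn' _ hm
      · have hm' : m1 ≤ (m : ℤ) := by omega
        intro x hx
        have e : ((m + 1 : ℕ) : ℤ) = (m : ℤ) + 1 := by push_cast; ring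
        rw [e] at hx ⊢
        obtain ⟨y0, hy0, y1, hy1, y2, hy2, rfl⟩ := h1 m hm' x hx
        have hid := (a n').2
        have e1 : ∀ w ∈ D.F 1, ∀ y ∈ J m, w * y ∈ (a n').1 ((m : ℤ) + 1) := by
          intro w hw y hy
          have := hid.mul _ _ _ hw _ (ih hy)
          rwa [add_comm] at this
        refine Submodule.add_mem _ (Submodule.add_mem _ ?_ ?_) ?_
        · simpa using e1 1 D.one_mem y0 hy0
        · exact e1 _ D.u_mem y1 hy1
        · exact e1 _ D.v_mem y2 hy2
  refine ⟨n, fun n' hn' => ?_⟩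
  apply Subtype.ext
  funext m
  apply le_antisymm
  · exact hmono m hn'
  · refine le_trans ?_ (hall n le_rfl m)
    exact le_iSup (fun n => (a n).1 m) n'

private theorem colon_prime (hwf : WellFoundedGT {I : ℤ → Submodule k Q // IsIdl D I})
    (hI : IsIdl D I) (h0 : ∃ d : ℤ, ∃ x ∈ D.F d, x ∉ I d) :
    ∃ d : ℤ, ∃ x ∈ D.F d, x ∉ I d ∧ IsPrm D (colon D I d x) := by
  let S : Set {I : ℤ → Submodule k Q // IsIdl D I} :=
    {P | ∃ d : ℤ, ∃ x ∈ D.F d, x ∉ I d ∧ P.1 = colon D I d x}
  have hS : S.Nonempty := by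
    obtain ⟨d, x, hx, hx'⟩ := h0
    exact ⟨⟨colon D I d x, hI.colon_idl d x⟩, d, x, hx, hx', rfl⟩
  obtain ⟨P, ⟨d, x, hx, hx', hPe⟩, hmax⟩ := hwf.wf.has_min S hS
  refine ⟨d, x, hx, hx', hI.colon_idl d x, ?_⟩
  intro i j s hs t ht hst
  by_contra hcon
  push Not at hcon
  obtain ⟨hs', ht'⟩ := hcon
  -- x t ∉ I
  have h1 : x * t ∈ D.F (j + d) := by
    have := D.mul_mem _ _ _ hx _ ht
    rwa [add_comm] at this
  have h2 : x * t ∉ I (j + d) := fun h => ht' ⟨ht, h⟩
  let P' : {I : ℤ → Submodule k Q // IsIdl D I} :=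
    ⟨colon D I (j + d) (x * t), hI.colon_idl _ _⟩
  have hP' : P' ∈ S := ⟨j + d, x * t, h1, h2, rfl⟩
  have hle : P ≤ P' := by
    intro m f hf
    have hf' : f ∈ colon D I d x m := by rw [← hPe]; exact hf
    rw [mem_colon] at hf'
    refine ⟨hf'.1, ?_⟩
    have := hI.mul _ _ _ ht _ hf'.2
    have e : j + (m + d) = m + (j + d) := by ring
    rw [e] at this
    have e2 : x * t * f = t * (x * f) := by ring
    simp only [LinearMap.mulLeft_apply, Submodule.mem_comap, SetLike.mem_coe]
    rw [e2]; exact this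
  have hnlt : ¬ P < P' := fun h => hmax P' hP' h
  have hEq : P = P' := by
    by_contra hne
    exact hnlt (lt_of_le_of_ne hle hne)
  apply hs'
  have h3 : s ∈ P'.1 i := by
    refine ⟨hs, ?_⟩
    have h4 := hst.2
    simp only [LinearMap.mulLeft_apply, Submodule.mem_comap, SetLike.mem_coe] at h4 ⊢
    have e : i + (j + d) = i + j + d := by ring
    rw [e]
    have e2 : x * t * s = x * (s * t) := by ring
    rw [e2]; exact h4
  rw [← hEq, hPe] at h3
  exact h3

/-- **D5**: colength of Frobenius powers. -/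
theorem colen_frob (p : ℕ) [Fact p.Prime] [CharP Q p] [IsAlgClosed k]
    (hwf : WellFoundedGT {I : ℤ → Submodule k Q // IsIdl D I})
    (hreg : ∀ (P : ℤ → Submodule k Q) (w : Q), IsPoint D P w → RegAt D P)
    (I : ℤ → Submodule k Q) (hI : IsIdl D I) (e : ℕ)
    (he : ∃ m0 : ℤ, ∀ m ≥ m0, finrank k (D.F m) ≤ finrank k (I m) + e) :
    ∃ m1 : ℤ, ∀ m ≥ m1, finrank k (D.F m) ≤ finrank k (frobI D p I m) + p ^ 2 * e := by
  suffices H : ∀ I : {I : ℤ → Submodule k Q // IsIdl D I}, ∀ e : ℕ,
      (∃ m0 : ℤ, ∀ m ≥ m0, finrank k (D.F m) ≤ finrank k (I.1 m) + e) →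
      ∃ m1 : ℤ, ∀ m ≥ m1, finrank k (D.F m) ≤ finrank k (frobI D p I.1 m) + p ^ 2 * e from
    H ⟨I, hI⟩ e he
  intro I
  induction I using hwf.wf.induction with
  | _ I ih =>
  obtain ⟨I, hI⟩ := I
  intro e he
  simp only at he ⊢
  have fin_frob : ∀ {J : ℤ → Submodule k Q}, IsIdl D J → ∀ m, Module.Finite k (frobI D p J m) :=
    fun hJ m => finite_idl (hJ.frob_idl p) m
  by_cases hcof : Cofin D I
  · obtain ⟨m1, h1⟩ := Cofin.frob p hcof
    refine ⟨m1, fun m hm => ?_⟩
    have := fin_frob hI m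
    exact (Submodule.finrank_mono (h1 m hm)).trans (Nat.le_add_right _ _)
  · have h0 : ∃ d : ℤ, ∃ x ∈ D.F d, x ∉ I d := by
      by_contra hcon
      push Not at hcon
      exact hcof ⟨0, fun m _ x hx => hcon m x hx⟩
    obtain ⟨d, x, hx, hx', hP⟩ := colon_prime hwf hI h0
    have hI1 : IsIdl D (fun m => I m ⊔ prin D d x m) := hI.sup (IsIdl.prin_idl hx)
    have hlt : (⟨I, hI⟩ : {I : ℤ → Submodule k Q // IsIdl D I}) <
        ⟨fun m => I m ⊔ prin D d x m, hI1⟩ := by
      refine lt_of_le_of_ne (fun m => le_sup_left) ?_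
      intro h
      apply hx'
      have h2 : I = fun m => I m ⊔ prin D d x m := congrArg Subtype.val h
      rw [h2]
      refine Submodule.mem_sup_right ⟨1, ?_, by simp⟩
      rw [sub_self]; exact D.one0
    have IH := ih _ hlt
    simp only at IH
    obtain ⟨m0, hm0⟩ := he
    have hI1fin : ∀ m, Module.Finite k (I m ⊔ prin D d x m : Submodule k Q) :=
      fun m => finite_idl hI1 m
    by_cases hPc : Cofin D (colon D I d x)
    · -- finite colength colon
      have h1 : ∀ m ≥ m0, finrank k (D.F m) ≤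
          finrank k (I m ⊔ prin D d x m : Submodule k Q) + e := by
        intro m hm
        have := hI1fin m
        have h2 : finrank k (I m) ≤ finrank k (I m ⊔ prin D d x m : Submodule k Q) :=
          Submodule.finrank_mono le_sup_left
        have := hm0 m hm
        omega
      obtain ⟨m2, hm2⟩ := IH e ⟨m0, h1⟩
      obtain ⟨m3, hm3⟩ := Cofin.frob p hPc
      refine ⟨max m2 (m3 + p * d), fun m hm => ?_⟩
      have hma : m2 ≤ m := le_trans (le_max_left _ _) hm
      have hmb : m3 ≤ m - p * d := by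
        have := le_trans (le_max_right _ _) hm
        linarith
      have h3 := frob_sup_prin (D := D) (I := I) p d x m
      have h4 : (D.F (m - p * d)).map (LinearMap.mulLeft k (x ^ p)) ≤ frobI D p I m :=
        (Submodule.map_mono (hm3 _ hmb)).trans (frob_colon p d x m)
      have h5 : frobI D p (fun m => I m ⊔ prin D d x m) m ≤ frobI D p I m :=
        h3.trans (sup_le le_rfl h4)
      have := fin_frob hI m
      have h6 := Submodule.finrank_mono h5
      have h7 := hm2 m hma
      omega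
    · -- a point
      have hbd : ∀ m ≥ m0 - d, finrank k (D.F m) ≤ finrank k (colon D I d x m) + e := by
        intro m hm
        have h1 := dim_colon hI hx hx' m
        have h2 : finrank k (I (m + d) ⊔ prin D d x (m + d) : Submodule k Q) ≤
            finrank k (D.F (m + d)) := Submodule.finrank_mono (hI1.le (m + d))
        have h3 := hm0 (m + d) (by linarith)
        omega
      obtain ⟨w, hw, hw'⟩ : ∃ w ∈ D.F 1, w ∉ colon D I d x 1 := by
        by_contra hcon
        push Not at hcon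
        apply hPc
        obtain ⟨m1, h1⟩ := D.bigGen 1
        refine ⟨m1, fun m hm => (h1 m hm).trans ?_⟩
        rw [Submodule.span_le]
        have hk : ∀ w ∈ D.F 1, ∀ g ∈ D.F (m - 1), w * g ∈ colon D I d x m := by
          intro w hw g hg
          have := hP.mul _ _ _ hg _ (hcon w hw)
          rw [sub_add_cancel, mul_comm] at this
          exact this
        rintro y ⟨g, hg, hy⟩
        rw [Nat.cast_one] at hg
        rcases hy with rfl | rfl | rfl
        · simpa using hk 1 D.one_mem _ hg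
        · simpa using hk _ D.u_mem _ hg
        · simpa using hk _ D.v_mem _ hg
      have hwm : ∀ m : ℕ, w ^ m ∈ D.F m := fun m => by simpa using D.pow_memC hw m
      have hwm' : ∀ m : ℕ, w ^ m ∉ colon D I d x m := fun m => by
        simpa using pow_not_mem hP hw hw' m
      have hpt : IsPoint D (colon D I d x) w :=
        { hP with
          w_mem := hw
          w_not := hw'
          one_dim := fun m f hf =>
            one_dim_of_bdd hP e (m0 - d) hbd m (hwm m) hf (hwm' m) }
      obtain ⟨M0, hM0⟩ := point_bound p hpt (hreg _ _ hpt)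
      have hstrict : ∀ m : ℤ, 0 ≤ m → finrank k (I (m + d)) + 1 ≤
          finrank k (I (m + d) ⊔ prin D d x (m + d) : Submodule k Q) := by
        intro m hm
        obtain ⟨n, rfl⟩ := Int.eq_ofNat_of_zero_le hm
        have h1 := dim_colon hI hx hx' (n : ℤ)
        have h2 : finrank k (colon D I d x n) < finrank k (D.F n) := by
          apply Submodule.finrank_lt_finrank_of_lt
          refine lt_of_le_of_ne (hP.le _) ?_
          intro h
          exact hwm' n (h ▸ hwm n)
        omega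
      have he1 : 1 ≤ e := by
        have h1 := hstrict (max 0 (m0 - d)) (le_max_left _ _)
        have h2 := hm0 (max 0 (m0 - d) + d) (by
          have := le_max_right 0 (m0 - d)
          linarith)
        have h3 : finrank k (I (max 0 (m0 - d) + d) ⊔ prin D d x (max 0 (m0 - d) + d) :
            Submodule k Q) ≤ finrank k (D.F (max 0 (m0 - d) + d)) :=
          Submodule.finrank_mono (hI1.le _)
        omega
      have h1 : ∀ m ≥ max m0 d, finrank k (D.F m) ≤
          finrank k (I m ⊔ prin D d x m : Submodule k Q) + (e - 1) := by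
        intro m hm
        have h2 := hm0 m (le_trans (le_max_left _ _) hm)
        have h3 := hstrict (m - d) (by
          have := le_trans (le_max_right _ _) hm
          linarith)
        rw [sub_add_cancel] at h3
        omega
      obtain ⟨m2, hm2⟩ := IH (e - 1) ⟨_, h1⟩
      refine ⟨max m2 (M0 + p * d), fun m hm => ?_⟩
      have hma : m2 ≤ m := le_trans (le_max_left _ _) hm
      have hmb : M0 ≤ m - p * d := by
        have := le_trans (le_max_right _ _) hm
        linarith
      obtain ⟨S, hSfin, hSr, hS⟩ := hM0 _ hmb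
      have h3 := frob_sup_prin (D := D) (I := I) p d x m
      have h4 : (D.F (m - p * d)).map (LinearMap.mulLeft k (x ^ p)) ≤
          frobI D p I m ⊔ S.map (LinearMap.mulLeft k (x ^ p)) := by
        refine (Submodule.map_mono hS).trans ?_
        rw [Submodule.map_sup]
        exact sup_le_sup_right (frob_colon p d x m) _
      have h5 : frobI D p (fun m => I m ⊔ prin D d x m) m ≤
          frobI D p I m ⊔ S.map (LinearMap.mulLeft k (x ^ p)) :=
        h3.trans (sup_le le_sup_left h4)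
      have := fin_frob hI m
      have hSm : Module.Finite k (S.map (LinearMap.mulLeft k (x ^ p))) := inferInstance
      have h6 := Submodule.finrank_mono h5
      have h7 := hm2 m hma
      have h8 := Submodule.finrank_add_le_finrank_add_finrank (frobI D p I m)
        (S.map (LinearMap.mulLeft k (x ^ p)))
      have h9 : finrank k (S.map (LinearMap.mulLeft k (x ^ p))) ≤ finrank k S :=
        Submodule.finrank_map_le _ _
      have h10 : p ^ 2 * e = p ^ 2 * (e - 1) + p ^ 2 := by
        obtain ⟨e', rfl⟩ := Nat.exists_eq_add_of_le' he1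
        simp [mul_add]
      omega

end main

/-- **D6** (arithmetic): the lower bound for `J` of the Frobenius pull back from the flag. -/
theorem flag_arith {r N R : ℕ} (hN : 0 < N) (hR : 0 < R) (hr : r = N * R) (p : ℕ)
    (x : Fin R → ℤ) (bT cT e : ℚ) (b c b' c' : ℚ)
    (hb : b = N * ∑ i, (x i : ℚ) + R * bT)
    (hc : c = N / 2 * ∑ i, (x i : ℚ) ^ 2 + bT * ∑ i, (x i : ℚ) + R * cT - e)
    (hb' : b' = N * (p * ∑ i, (x i : ℚ)) + R * bT)
    (hc' : N / 2 * (p ^ 2 * ∑ i, (x i : ℚ) ^ 2) + bT * (p * ∑ i, (x i : ℚ)) + R * cT -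
      p ^ 2 * e ≤ c') :
    (p : ℚ) ^ 2 * (Jinv r b c - R * Jinv N bT cT) + R * Jinv N bT cT ≤ Jinv r b' c' := by
  have hN' : (N : ℚ) ≠ 0 := by exact_mod_cast hN.ne'
  have hR' : (R : ℚ) ≠ 0 := by exact_mod_cast hR.ne'
  subst hr
  unfold Jinv
  set S1 := ∑ i, (x i : ℚ)
  set S2 := ∑ i, (x i : ℚ) ^ 2
  have h1 : (c : ℚ) - b ^ 2 / (2 * ((N * R : ℕ) : ℚ)) + ((N * R : ℕ) : ℚ) / 8 -
      R * (cT - bT ^ 2 / (2 * N) + N / 8) = N / 2 * S2 - N / (2 * R) * S1 ^ 2 - e := by
    rw [hb, hc]; push_cast; field_simp; ring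
  have h2 : (c' : ℚ) - b' ^ 2 / (2 * ((N * R : ℕ) : ℚ)) + ((N * R : ℕ) : ℚ) / 8 -
      R * (cT - bT ^ 2 / (2 * N) + N / 8) =
      c' - (bT * (p * S1) + R * cT) - N / (2 * R) * (p * S1) ^ 2 := by
    rw [hb']; push_cast; field_simp; ring
  rw [h1]
  have h3 : (c' : ℚ) - b' ^ 2 / (2 * ((N * R : ℕ) : ℚ)) + ((N * R : ℕ) : ℚ) / 8 =
      R * (cT - bT ^ 2 / (2 * N) + N / 8) +
      (c' - (bT * (p * S1) + R * cT) - N / (2 * R) * (p * S1) ^ 2) := by
    rw [← h2]; ring
  rw [h3]
  have h4 : (p : ℚ) ^ 2 * (N / 2 * S2 - N / (2 * R) * S1 ^ 2 - e) =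
      (N / 2 * (p ^ 2 * S2) - p ^ 2 * e) - N / (2 * R) * (p * S1) ^ 2 := by ring
  rw [h4]
  linarith

end Crest.Agent.R169
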