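import Crest.Agent.R169.Frob
import Crest.Agent.R169.Lat

/-!
# Row 169, PART D: places (owner helper862).  FROZEN interface of part D.

A place is a homogeneous height-one prime `q` of `T = ⊕ F m X^m`, seen as a discrete valuation of `Q`
together with the value `c = v_q(X)` (`0` for the primes of `O = ∪ F m`, `1` for the primes over `X`).
-/

set_option autoImplicit false

namespace Crest.Agent.R169

open Module

/-- discrete valuation of a field, `ℤ`-valued on nonzero elements (junk at `0`) -/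
structure Place (Q : Type) [Field Q] where
  ord : Q → ℤ
  ord_mul : ∀ a b, a ≠ 0 → b ≠ 0 → ord (a * b) = ord a + ord b
  ord_add : ∀ a b, a ≠ 0 → b ≠ 0 → a + b ≠ 0 → min (ord a) (ord b) ≤ ord (a + b)
  unif : ∃ π, π ≠ 0 ∧ ord π = 1

/-- the family of all places of `T` -/
structure Places {k Q : Type} [Field k] [Field Q] [Algebra k Q] (D : TData k Q) (ι : Type) where
  pl : ι → Place Q
  c : ι → ℤ
  c_eq : ∀ P, c P = 0 ∨ c P = 1
  memF : ∀ (m : ℤ) (f : Q), f ∈ D.F m ↔ f = 0 ∨ ∀ P, -(c P) * m ≤ (pl P).ord f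
  fin : ∀ f : Q, f ≠ 0 → {P | (pl P).ord f ≠ 0}.Finite
  cfin : {P | c P ≠ 0}.Finite
  lead : ∀ P, ∃ h ∈ D.F 1, h ≠ 0 ∧ (pl P).ord h = -(c P)

/-- finite group of symmetries of `T` (for `T_7`: `μ_7^5 ⋊ ℤ/5`), and the consequence of the
factoriality of `O^μ`: norms from `μ` have gcd's on the affine places. -/
structure Symm {k Q : Type} [Field k] [Field Q] [Algebra k Q] (D : TData k Q) {ι : Type}
    (S : Places D ι) where
  Γ : Type
  [grp : Group Γ]
  [fin : Fintype Γ]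
  act : Γ →* (Q ≃ₐ[k] Q)
  F_le : ∀ (γ : Γ) (m : ℤ), ∀ f ∈ D.F m, act γ f ∈ D.F m
  perm : Γ → ι → ι
  ord_perm : ∀ γ P x, x ≠ 0 → (S.pl (perm γ P)).ord (act γ x) = (S.pl P).ord x
  c_perm : ∀ γ P, S.c (perm γ P) = S.c P
  perm_mul : ∀ γ δ P, perm (γ * δ) P = perm γ (perm δ P)
  perm_one : ∀ P, perm 1 P = P
  trans : ∀ P P', S.c P = 1 → S.c P' = 1 → ∃ γ, perm γ P = P'
  μ : Finset Γ
  μ_one : μ.Nonempty
  gcd : ∀ x y : Q, x ≠ 0 → y ≠ 0 → ∃ g : Q, g ≠ 0 ∧ ∀ P, S.c P = 0 →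
    (S.pl P).ord g = min ((S.pl P).ord (∏ δ ∈ μ, act δ x)) ((S.pl P).ord (∏ δ ∈ μ, act δ y))

attribute [instance] Symm.grp Symm.fin

section

variable {k Q : Type} [Field k] [Field Q] [Algebra k Q] {D : TData k Q} {ι : Type}

/-- values of the nonzero elements of a rank one lattice at a place -/
def ordSet (S : Places D ι) (P : ι) (I : ℤ → Submodule k Q) : Set ℤ :=
  {n | ∃ m : ℤ, ∃ g ∈ I m, g ≠ 0 ∧ n = (S.pl P).ord g + S.c P * m}

/-- order of a rank one lattice at a place -/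
noncomputable def ordL (S : Places D ι) (P : ι) (I : ℤ → Submodule k Q) : ℤ :=
  sInf (ordSet S P I)

/-- image of a rank one lattice by an automorphism -/
def mapL (σ : Q ≃ₐ[k] Q) (I : ℤ → Submodule k Q) : ℤ → Submodule k Q :=
  fun m => (I m).map σ.toLinearMap

/-- Frobenius pull-back of a rank one lattice -/
def frob1 (D : TData k Q) (p : ℕ) (I : ℤ → Submodule k Q) : ℤ → Submodule k Q :=
  fun m => Submodule.span k {w | ∃ j : ℤ, ∃ f ∈ D.F (m - p * j), ∃ g ∈ I j, w = f * g ^ p}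

/-- (D2) generic flag; owner helper641.  `ℓ` is normalised on `G` at the place `P` and takes the
extremal value on the generic section `e i`. -/
def FlagStatement (D : TData k Q) (S : Places D ι) : Prop :=
  ∀ (r : ℕ) (G : ℤ → Submodule k (Fin (r + 1) → Q)), IsTLat D G →
    ∃ (e : Basis (Fin (r + 1)) Q (Fin (r + 1) → Q)) (a : Fin r → ℤ),
      (∀ i : Fin r, e i.castSucc ∈ G (a i)) ∧
      ∀ (P : ι) (i : Fin r), ∃ l : (Fin (r + 1) → Q) →ₗ[Q] Q,
        (∀ j : Fin (r + 1), j < i.castSucc → l (e j) = 0) ∧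
        (∀ m : ℤ, ∀ g ∈ G m, l g = 0 ∨ -(S.c P) * m ≤ (S.pl P).ord (l g)) ∧
        l (e i.castSucc) ≠ 0 ∧ (S.pl P).ord (l (e i.castSucc)) = -(S.c P) * a i

/-- (D3) the sum of all translates of a rank one lattice has principal order function;
owner helper947. -/
def PrincipalStatement (D : TData k Q) (S : Places D ι) (Y : Symm D S) : Prop :=
  ∀ I : ℤ → Submodule k Q, IsTLat D I → ∃ (f : Q) (κ : ℤ), f ≠ 0 ∧ ∀ P : ι,
    ∑ γ : Y.Γ, ∑ δ ∈ Y.μ, ordL S P (mapL (Y.act (γ * δ)) I) = (S.pl P).ord f + S.c P * κ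

/-- (D1) a graded ideal contained in no `q` has bounded colength; owner helper862 -/
def BoundedColengthStatement (D : TData k Q) (S : Places D ι) : Prop :=
  ∀ I : ℤ → Submodule k Q, IsTLat D I → (∀ m, I m ≤ D.F m) → (∀ P, ordL S P I = 0) →
    ∃ e : ℕ, ∀ m : ℤ, finrank k (D.F m) ≤ finrank k (I m) + e

/-- (D5) colength under Frobenius; owner helper858 (from point regularity) -/
def ColengthStatement (D : TData k Q) (p : ℕ) : Prop :=
  ∀ (I : ℤ → Submodule k Q) (e : ℕ), IsTLat D I → (∀ m, I m ≤ D.F m) →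
    (∃ m₀ : ℤ, ∀ m ≥ m₀, finrank k (D.F m) ≤ finrank k (I m) + e) →
    ∃ m₀ : ℤ, ∀ m ≥ m₀, finrank k (D.F m) ≤ finrank k (frob1 D p I m) + p ^ 2 * e

end

end Crest.Agent.R169
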