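import Crest.Agent.R169.Defs

/-!
# Row 169, part F5 / D5: points of `Proj T` and their regularity (interface)

Owner: helper785.  Consumer: D5 (helper858).
Everything is dehomogenised: a homogeneous ideal of `T = ⊕ F m X^m` is a family
`I m ≤ D.F m` with `F i * I j ≤ I (i+j)` (membership form as in `TData.mul_mem`).
-/

set_option autoImplicit false

namespace Crest.Agent.R169

variable {k Q : Type} [Field k] [Field Q] [Algebra k Q]

/-- homogeneous ideal of `T`, dehomogenised -/
structure IsGId (D : TData k Q) (I : ℤ → Submodule k Q) : Prop where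
  le : ∀ m, I m ≤ D.F m
  mul : ∀ i j : ℤ, ∀ f ∈ D.F i, ∀ g ∈ I j, f * g ∈ I (i + j)

/-- `P` is (the homogeneous prime ideal of) a closed point of `Proj T`: it is a homogeneous
prime ideal with `F m / P m` one-dimensional for all large `m`. -/
structure IsPt (D : TData k Q) (P : ℤ → Submodule k Q) : Prop extends IsGId D P where
  prime : ∀ i j : ℤ, ∀ f ∈ D.F i, ∀ g ∈ D.F j, f * g ∈ P (i + j) → f ∈ P i ∨ g ∈ P j
  hilb : ∃ m₀ : ℤ, ∀ m ≥ m₀, ∃ t ∈ D.F m, t ∉ P m ∧ ∀ f ∈ D.F m, ∃ c : k, f - c • t ∈ P m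

/-- `Proj T` is regular at the point `P`: locally `P` is generated by two homogeneous elements
`a`, `b` (`s P ⊆ a T + b T` for some homogeneous `s ∉ P`). -/
def PtRegular (D : TData k Q) (P : ℤ → Submodule k Q) : Prop :=
  ∃ (d e l : ℤ) (a b s : Q), a ∈ P d ∧ b ∈ P e ∧ s ∈ D.F l ∧ s ∉ P l ∧
    ∀ m : ℤ, ∀ f ∈ P m, ∃ g ∈ D.F (m + l - d), ∃ h ∈ D.F (m + l - e), s * f = a * g + b * h

/-- `Proj T` is regular at all its points (END PRODUCT OF F5 for `D7 k`). -/
def AllPtRegular (D : TData k Q) : Prop := ∀ P : ℤ → Submodule k Q, IsPt D P → PtRegular D P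

end Crest.Agent.R169
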