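/-
Row 169, D5 in the frozen form (`ColengthStatement` of Places.lean), from point regularity
(`AllPtRegular` of PtDefs.lean).  helper858
-/
import Crest.Agent.R169.Colen
import Crest.Agent.R169.PtDefs
import Crest.Agent.R169.Places
import Crest.Agent.R169.Noeth

set_option autoImplicit false

namespace Crest.Agent.R169

open Module

variable {k Q : Type} [Field k] [Field Q] [Algebra k Q] {D : TData k Q}

theorem IsIdl.isLat {I : ℤ → Submodule k Q} (hI : IsIdl D I) : IsLat D.u D.v I := by
  refine P1.isLat_of_le D.lat ?_ hI.le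
  refine ⟨fun m => hI.mono (by omega), fun m e he => ?_, fun m e he => ?_⟩
  · have := hI.mul _ _ _ D.u_mem _ he
    rw [add_comm] at this
    exact this
  · have := hI.mul _ _ _ D.v_mem _ he
    rw [add_comm] at this
    exact this

theorem frob1_eq_frobI (p : ℕ) (I : ℤ → Submodule k Q) : frob1 D p I = frobI D p I := rfl

/-- normalising the degrees of the regularity data -/
private theorem regAt_of {P : ℤ → Submodule k Q} {w : Q} (hP : IsPoint D P w)
    (h : PtRegular D P) : RegAt D P := by
  obtain ⟨d, e, l, a, b, s, ha, hb, hs, hs', H⟩ := h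
  have key : ∀ (d : ℤ) (a : Q), a ∈ P d → ∃ (α : ℕ) (a' : Q), a' ∈ P α ∧
      ∀ n : ℤ, ∀ g ∈ D.F (n - d), ∃ g' ∈ D.F (n - α), a * g = a' * g' := by
    intro d a ha
    by_cases h0 : a = 0
    · refine ⟨0, 0, Submodule.zero_mem _, fun n g _ => ⟨0, Submodule.zero_mem _, by simp [h0]⟩⟩
    · have hd : 0 ≤ d := D.nonneg_of_mem (hP.le _ ha) h0
      obtain ⟨α, rfl⟩ := Int.eq_ofNat_of_zero_le hd
      exact ⟨α, a, ha, fun n g hg => ⟨g, hg, rfl⟩⟩
  obtain ⟨α, a', ha', Ha⟩ := key d a ha
  obtain ⟨β, b', hb', Hb⟩ := key e b hb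
  have hs0 : s ≠ 0 := by rintro rfl; exact hs' (Submodule.zero_mem _)
  obtain ⟨σ, rfl⟩ := Int.eq_ofNat_of_zero_le (D.nonneg_of_mem hs hs0)
  refine ⟨σ, α, β, s, a', b', hs, hs', ha', hb', fun m f hf => ?_⟩
  obtain ⟨g, hg, h, hh, heq⟩ := H m f hf
  obtain ⟨g', hg', e1⟩ := Ha _ _ hg
  obtain ⟨h', hh', e2⟩ := Hb _ _ hh
  exact ⟨g', hg', h', hh', by rw [heq, e1, e2]⟩

private theorem isPt_of {P : ℤ → Submodule k Q} {w : Q} (hP : IsPoint D P w) : IsPt D P where
  le := hP.le
  mul := hP.mul
  prime := hP.prime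
  hilb := by
    have hnot : ∀ j : ℕ, w ^ j ∉ P j := by
      intro j
      induction j with
      | zero =>
        intro h
        apply hP.w_not
        have := hP.mul _ _ _ hP.w_mem _ h
        simpa using this
      | succ j ih =>
        intro h
        have e : ((j + 1 : ℕ) : ℤ) = j + 1 := by push_cast; ring
        rw [e, pow_succ] at h
        have hj : w ^ j ∈ D.F j := by simpa using D.pow_memC hP.w_mem j
        rcases hP.prime _ _ _ hj _ hP.w_mem h with h1 | h1
        · exact ih h1
        · exact hP.w_not h1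
    refine ⟨0, fun m hm => ?_⟩
    obtain ⟨j, rfl⟩ := Int.eq_ofNat_of_zero_le hm
    exact ⟨w ^ j, by simpa using D.pow_memC hP.w_mem j, hnot j, fun f hf => hP.one_dim j f hf⟩

/-- **D5**, end product. -/
theorem colengthStatement (D : TData k Q) (p : ℕ) [Fact p.Prime] [CharP k p] [IsAlgClosed k]
    (hpt : AllPtRegular D) : ColengthStatement D p := by
  intro I e hI hle he
  have : CharP Q p := charP_of_injective_algebraMap (algebraMap k Q).injective p
  have hidl : IsIdl D I := ⟨hle, fun i j f hf g hg => hI.act i j f hf g hg⟩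
  exact colen_frob p (wf_idl fun I hI => hI.isLat)
    (fun P w hP => regAt_of hP (hpt P (isPt_of hP))) I hidl e he

end Crest.Agent.R169
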