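import Crest.Agent.R169.Val
import Crest.Agent.R169.OnOverO1

/-!
# Row 169, part F: the components of `O n k` over `O 1 k` (any field `k`, any `n > 0`)

`comp n χ : ORing n k →ₗ[k] ORing 1 k`, the coefficient of `z^χ`; and `F_m` in terms of the
components and the chart valuations `hs i`.
-/

set_option autoImplicit false

noncomputable section

namespace Crest.Agent.R169.Comp

open Crest.R169 Crest.Agent.R169.Val Crest.Agent.R169.OnOverO1

section

variable (n : ℕ) {k : Type*} [Field k] (χ : Fin 5 → ℕ)

/-- value of the component map on monomials -/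
def cG (k : Type*) [Field k] (γ : Fin 5 → ℕ) : ORing 1 k :=
  if ∀ j, γ j % n = χ j then zm 1 k (fun j => γ j / n) else 0

theorem cG_add (hn : 0 < n) (γ δ : Fin 5 → ℕ) :
    cG n χ k (γ + fun j => n * δ j) = cG n χ k γ * zm 1 k δ := by
  unfold cG
  have h1 : ∀ j, (γ + fun j => n * δ j) j % n = γ j % n := by
    intro j
    simp
  have h2 : (fun j => (γ + fun j => n * δ j) j / n) = (fun j => γ j / n) + δ := by
    funext j
    simp only [Pi.add_apply]
    rw [Nat.add_mul_div_left _ _ hn]
  simp only [h1, h2]
  split_ifs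
  · rw [zm_add]
  · rw [zero_mul]

/-- the component map on polynomials -/
def compP (k : Type*) [Field k] : MvPolynomial (Fin 5) k →ₗ[k] ORing 1 k :=
  (MvPolynomial.basisMonomials (Fin 5) k).constr k (fun γ => cG n χ k γ)

theorem compP_monomial (γ : Fin 5 →₀ ℕ) (c : k) :
    compP n χ k (MvPolynomial.monomial γ c) = c • cG n χ k γ := by
  have h : MvPolynomial.monomial γ c = c • (MvPolynomial.basisMonomials (Fin 5) k γ) := by
    rw [MvPolynomial.coe_basisMonomials, MvPolynomial.smul_monomial, smul_eq_mul, mul_one]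
  rw [h, map_smul, compP, Module.Basis.constr_basis]

theorem compP_mul_rel (hn : 0 < n) (j : Fin 5) (q : MvPolynomial (Fin 5) k) :
    compP n χ k (q * (MvPolynomial.X j ^ n * MvPolynomial.X (j + 1) ^ n -
      (1 + MvPolynomial.X (j + 3) ^ n))) = 0 := by
  induction q using MvPolynomial.induction_on' with
  | add p q hp hq => rw [add_mul, map_add, hp, hq, add_zero]
  | monomial γ c =>
    have hX : ∀ i : Fin 5, (MvPolynomial.X i ^ n : MvPolynomial (Fin 5) k) =
        MvPolynomial.monomial (Finsupp.single i n) 1 := by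
      intro i
      rw [MvPolynomial.X_pow_eq_monomial]
    have key : ∀ (δ : Fin 5 →₀ ℕ) (ε : Fin 5 → ℕ), (∀ i, δ i = n * ε i) →
        compP n χ k (MvPolynomial.monomial γ c * MvPolynomial.monomial δ 1) =
          c • (cG n χ k γ * zm 1 k ε) := by
      intro δ ε h
      rw [MvPolynomial.monomial_mul, mul_one, compP_monomial]
      have h2 : ((γ + δ : Fin 5 →₀ ℕ) : Fin 5 → ℕ) = (γ : Fin 5 → ℕ) + fun j => n * ε j := by
        funext i
        rw [Finsupp.add_apply, Pi.add_apply, h]
      rw [h2, cG_add n χ hn]
    rw [mul_sub, map_sub, mul_add, map_add, mul_one, compP_monomial, hX, hX, hX,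
      MvPolynomial.monomial_mul, mul_one,
      key (Finsupp.single j n + Finsupp.single (j + 1) n) (Pi.single j 1 + Pi.single (j + 1) 1) (by
        intro i
        simp only [Finsupp.add_apply, Finsupp.single_apply, Pi.add_apply, Pi.single_apply,
          eq_comm (a := j), eq_comm (a := j + 1)]
        split_ifs <;> ring),
      key (Finsupp.single (j + 3) n) (Pi.single (j + 3) 1) (by
        intro i
        simp only [Finsupp.single_apply, Pi.single_apply, eq_comm (a := j + 3)]
        split_ifs <;> ring)]
    rw [zm_add, zm_single, zm_single, zm_single, pow_one, pow_one, pow_one]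
    have hrel : z 1 k j * z 1 k (j + 1) = 1 + z 1 k (j + 3) := by simpa using z_rel 1 k j
    rw [hrel, ← smul_add, ← smul_sub]
    have : cG n χ k γ * (1 + z 1 k (j + 3)) - (cG n χ k γ + cG n χ k γ * z 1 k (j + 3)) = 0 := by
      ring
    rw [this, smul_zero]

theorem compP_eq_zero (hn : 0 < n) {p : MvPolynomial (Fin 5) k} (hp : p ∈ relIdeal n k) :
    compP n χ k p = 0 := by
  suffices h : ∀ q : MvPolynomial (Fin 5) k, compP n χ k (q * p) = 0 by
    simpa using h 1
  rw [relIdeal] at hp
  induction hp using Submodule.span_induction with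
  | mem x hx =>
    obtain ⟨j, rfl⟩ := hx
    intro q
    exact compP_mul_rel n χ hn j q
  | zero => intro q; rw [mul_zero, map_zero]
  | add x y _ _ hx hy => intro q; rw [mul_add, map_add, hx, hy, add_zero]
  | smul a x _ hx =>
    intro q
    rw [smul_eq_mul, ← mul_assoc]
    exact hx (q * a)

/-- the `χ`-component `ORing n k →ₗ[k] ORing 1 k` -/
def comp (hn : 0 < n) (k : Type*) [Field k] : ORing n k →ₗ[k] ORing 1 k :=
  (Submodule.liftQ (LinearMap.ker (toO n k).toLinearMap) (compP n χ k) (by
    intro p hp
    rw [LinearMap.mem_ker] at hp ⊢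
    exact compP_eq_zero n χ hn ((toO_eq_zero_iff n k p).1 hp))).comp
    ((toO n k).toLinearMap.quotKerEquivOfSurjective (toO_surjective n k)).symm.toLinearMap

theorem comp_toO (hn : 0 < n) (p : MvPolynomial (Fin 5) k) :
    comp n χ hn k (toO n k p) = compP n χ k p := by
  rw [comp, LinearMap.comp_apply]
  have h : ((toO n k).toLinearMap.quotKerEquivOfSurjective (toO_surjective n k)).symm
      (toO n k p) = Submodule.Quotient.mk p := by
    rw [LinearEquiv.symm_apply_eq]
    rfl
  change (Submodule.liftQ _ (compP n χ k) _)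
    (((toO n k).toLinearMap.quotKerEquivOfSurjective (toO_surjective n k)).symm (toO n k p)) = _
  rw [h]
  rfl

theorem comp_zm (hn : 0 < n) (γ : Fin 5 → ℕ) :
    comp n χ hn k (zm n k γ) = if ∀ j, γ j % n = χ j then zm 1 k (fun j => γ j / n) else 0 := by
  have h : zm n k γ = toO n k (MvPolynomial.monomial (Finsupp.equivFunOnFinite.symm γ) 1) := by
    rw [toO_monomial, one_smul]
    rfl
  rw [h, comp_toO, compP_monomial, one_smul]
  rfl

/-- components of the image of `O_1` times a monomial -/
theorem incl_zm (δ : Fin 5 → ℕ) : incl n k (zm 1 k δ) = zm n k (fun j => n * δ j) := by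
  rw [zm, map_prod, zm]
  refine Finset.prod_congr rfl fun j _ => ?_
  rw [map_pow, incl_z, pow_mul]

theorem span_zm_one : Submodule.span k (Set.range (zm n k)) = ⊤ := OnOverO1.span_zm n k

theorem comp_incl_mul (hn : 0 < n) (f : ORing 1 k) (x : ORing n k) :
    comp n χ hn k (incl n k f * x) = f * comp n χ hn k x := by
  have hf : f ∈ Submodule.span k (Set.range (zm 1 k)) := by
    rw [OnOverO1.span_zm]; trivial
  have hx : x ∈ Submodule.span k (Set.range (zm n k)) := by
    rw [OnOverO1.span_zm]; trivial
  induction hf using Submodule.span_induction with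
  | mem f hf =>
    obtain ⟨δ, rfl⟩ := hf
    induction hx using Submodule.span_induction with
    | mem x hx =>
      obtain ⟨γ, rfl⟩ := hx
      rw [incl_zm, ← zm_add, comp_zm, comp_zm]
      have h := cG_add (k := k) n χ hn γ δ
      unfold cG at h
      rw [add_comm, h, mul_comm]
    | zero => rw [mul_zero, map_zero, mul_zero]
    | add x y _ _ hx hy => rw [mul_add, map_add, hx, hy, map_add, mul_add]
    | smul c x _ hx => rw [mul_smul_comm, map_smul, hx, map_smul, mul_smul_comm]
  | zero => rw [map_zero, zero_mul, map_zero, zero_mul]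
  | add f g _ _ hf hg => rw [map_add, add_mul, map_add, hf, hg, add_mul]
  | smul c f _ hf => rw [map_smul, smul_mul_assoc, map_smul, hf, smul_mul_assoc]

theorem comp_incl_mul_zm (hn : 0 < n) (f : ORing 1 k) (ψ : Fin 5 → ℕ)
    (hψ : ∀ j, ψ j < n) :
    comp n χ hn k (incl n k f * zm n k ψ) = if ψ = χ then f else 0 := by
  rw [comp_incl_mul, comp_zm]
  have h1 : ∀ j, ψ j % n = ψ j := fun j => Nat.mod_eq_of_lt (hψ j)
  have h2 : (fun j => ψ j / n) = 0 := by
    funext j
    exact Nat.div_eq_of_lt (hψ j)
  simp only [h1, h2]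
  by_cases h : ψ = χ
  · rw [if_pos (fun j => by rw [h]), if_pos h, zm_zero, mul_one]
  · rw [if_neg (fun h' => h (funext h')), if_neg h, mul_zero]

/-- an element is the sum of its components -/
theorem eq_sum_comp (hn : 0 < n) (x : ORing n k) :
    x = ∑ β : Fin 5 → Fin n, incl n k (comp n (fun j => (β j : ℕ)) hn k x) *
      zm n k (fun j => (β j : ℕ)) := by
  have hx : x ∈ Submodule.span k (Set.range (zm n k)) := by
    rw [OnOverO1.span_zm]; trivial
  induction hx using Submodule.span_induction with
  | mem x hx =>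
    obtain ⟨γ, rfl⟩ := hx
    rw [Finset.sum_eq_single (fun j => (⟨γ j % n, Nat.mod_lt _ hn⟩ : Fin n))]
    · rw [comp_zm, if_pos (fun j => rfl), incl_zm, ← zm_add]
      congr 1
      funext j
      exact (Nat.div_add_mod (γ j) n).symm
    · intro β _ hβ
      rw [comp_zm, if_neg, map_zero, zero_mul]
      intro h
      apply hβ
      funext j
      exact Fin.ext (h j).symm
    · intro h
      exact absurd (Finset.mem_univ _) h
  | zero => simp
  | add x y _ _ hx hy =>
    conv_lhs => rw [hx, hy]
    rw [← Finset.sum_add_distrib]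
    refine Finset.sum_congr rfl fun β _ => ?_
    rw [map_add, map_add, add_mul]
  | smul c x _ hx =>
    conv_lhs => rw [hx]
    rw [Finset.smul_sum]
    refine Finset.sum_congr rfl fun β _ => ?_
    rw [map_smul, map_smul, smul_mul_assoc]

/-- the weights of the components of elements of `F_m` -/
theorem le_orderTop_comp (hn : 0 < n) (m : ℤ) {x : ORing n k} (hx : x ∈ Fil n k m) (i : Fin 5) :
    ((-((m - w i χ) / n) : ℤ) : WithTop ℤ) ≤ (hs k i (comp n χ hn k x)).orderTop := by
  have hn' : (0 : ℤ) < n := by exact_mod_cast hn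
  unfold Fil at hx
  induction hx using Submodule.span_induction with
  | mem x hx =>
    obtain ⟨γ, hγ, rfl⟩ := hx
    rw [comp_zm]
    split_ifs with h
    · rw [hs_zm_orderTop]
      have h1 : w i γ = n * w i (fun j => γ j / n) + w i χ := by
        simp only [w]
        have h2 := Nat.div_add_mod (γ (i + 4)) n
        have h3 := Nat.div_add_mod (γ (i + 1)) n
        have h4 := Nat.div_add_mod (γ i) n
        rw [h] at h2 h3 h4
        zify at h2 h3 h4
        push_cast
        linear_combination -h2 - h3 + h4
      have h5 : w i (fun j => γ j / n) ≤ (m - w i χ) / n := by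
        rw [Int.le_ediv_iff_mul_le hn']
        have := hγ i
        rw [h1] at this
        linarith
      exact_mod_cast neg_le_neg h5
    · simp
  | zero => simp
  | add x y _ _ h1 h2 =>
    rw [map_add, map_add]
    exact le_trans (le_min h1 h2) HahnSeries.min_orderTop_le_orderTop_add
  | smul c x _ h =>
    rw [map_smul, hs_smul]
    exact h.trans (HahnSeries.orderTop_le_orderTop_smul c _)

/-- conversely -/
theorem incl_mul_zm_mem_Fil (hn : 0 < n) (m : ℤ) (f : ORing 1 k)
    (h : ∀ i, ((-((m - w i χ) / n) : ℤ) : WithTop ℤ) ≤ (hs k i f).orderTop) :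
    incl n k f * zm n k χ ∈ Fil n k m := by
  have hn' : (0 : ℤ) < n := by exact_mod_cast hn
  obtain ⟨s, c, h1, h2, rfl⟩ := exists_good_sum one_pos f
  rw [map_sum, Finset.sum_mul]
  refine Submodule.sum_mem _ fun β hβ => ?_
  rw [map_smul, smul_mul_assoc]
  refine Submodule.smul_mem _ _ ?_
  rw [incl_zm, ← zm_add]
  refine zm_mem_Fil fun i => ?_
  have h3 := (le_orderTop_sum_iff k i s c h1 h2 _).1 (h i) β hβ
  rw [Int.le_ediv_iff_mul_le hn'] at h3
  rw [w_add]
  have h4 : w i (fun j => n * β j) = n * w i β := by
    simp only [w]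
    push_cast
    ring
  rw [h4]
  linarith

/-- **`F_m` in terms of components and chart valuations.** -/
theorem mem_Fil_iff_comp (hn : 0 < n) (m : ℤ) (x : ORing n k) :
    x ∈ Fil n k m ↔ ∀ (β : Fin 5 → Fin n) (i : Fin 5),
      ((-((m - w i (fun j => (β j : ℕ))) / n) : ℤ) : WithTop ℤ) ≤
        (hs k i (comp n (fun j => (β j : ℕ)) hn k x)).orderTop := by
  constructor
  · intro hx β i
    exact le_orderTop_comp n _ hn m hx i
  · intro h
    rw [eq_sum_comp n hn x]
    exact Submodule.sum_mem _ fun β _ => incl_mul_zm_mem_Fil n _ hn m _ (h β)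

end

end Crest.Agent.R169.Comp
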