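import Mathlib

set_option autoImplicit false

/-!
# Row 169, F1: the lattice point count

`BSet n t` is the set of exponent vectors `β : Fin 5 → ℕ` without a cyclically adjacent pair of
entries both `≥ n` and with `w_i(β) = β_{i-1} + β_{i+1} - β_i ≤ t_i` for all `i`.

* `card_BFin_nef` : for `n = 1` and `t` nef, `2 |BSet 1 t| = 2 + Σ t_i - Σ t_i² + 2 Σ t_i t_{i+2}`.
* `ncard_BSet_seven_rat` / `ncard_finsupp` : for `m ≥ 40`,
  `|BSet 7 (m,…,m)| = (1715/2) m² - (8575/2) m + 4802`.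
-/

namespace Crest.Agent.R169.Count

open Finset

/-- `w_i(β) = β_{i-1} + β_{i+1} - β_i` -/
def wt (β : Fin 5 → ℕ) (i : Fin 5) : ℤ := (β (i - 1) : ℤ) + β (i + 1) - β i

/-- no cyclically adjacent pair of exponents both `≥ n` -/
def NoAdj (n : ℕ) (β : Fin 5 → ℕ) : Prop := ∀ i, ¬ (n ≤ β i ∧ n ≤ β (i + 1))

/-- the basis exponents of multidegree `≤ t` -/
def BSet (n : ℕ) (t : Fin 5 → ℤ) : Set (Fin 5 → ℕ) := {β | NoAdj n β ∧ ∀ i, wt β i ≤ t i}

/-- `x (x+1)` for `x ≥ 0`, zero otherwise -/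
def T (x : ℤ) : ℤ := if 0 ≤ x then x * (x + 1) else 0

theorem T_add (x : ℤ) : T x + T (-x - 1) = x * (x + 1) := by
  unfold T
  split_ifs with h1 h2 h2
  · omega
  · ring
  · ring
  · omega

theorem T_of_nonneg {x : ℤ} (h : 0 ≤ x) : T x = x * (x + 1) := if_pos h

theorem T_of_neg {x : ℤ} (h : x < 0) : T x = 0 := if_neg (by omega)

theorem T_sub (x : ℤ) : T x - T (x - 1) = 2 * max x 0 := by
  unfold T
  rcases le_or_gt 1 x with h | h
  · rw [if_pos (by omega), if_pos (by omega), max_eq_left (by omega)]; ring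
  · rcases eq_or_ne x 0 with h0 | h0
    · subst h0; simp
    · rw [if_neg (by omega), if_neg (by omega), max_eq_right (by omega)]; ring

/-- the pairs `(α, β)` with `1 ≤ α ≤ a`, `0 ≤ β ≤ b`, `α + β ≤ s` -/
def PP (s a b : ℕ) : Finset (Σ _ : ℕ, ℕ) :=
  (Finset.Icc 1 a).sigma (fun x => Finset.range (min (b + 1) (s + 1 - x)))

theorem mem_PP (s a b : ℕ) (x : Σ _ : ℕ, ℕ) :
    x ∈ PP s a b ↔ 1 ≤ x.1 ∧ x.1 ≤ a ∧ x.2 ≤ b ∧ x.1 + x.2 ≤ s := by
  simp only [PP, Finset.mem_sigma, Finset.mem_Icc, Finset.mem_range]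
  omega

theorem card_PP (s a b : ℕ) :
    (2 * ((PP s a b).card : ℤ)) =
      T s - T (s - a) - T (s - b - 1) + T (s - a - b - 1) := by
  induction a with
  | zero =>
    have : PP s 0 b = ∅ := by
      ext x; rw [mem_PP]; simp; omega
    rw [this]; simp
  | succ a ih =>
    have h1 : (PP s (a + 1) b).card = (PP s a b).card + min (b + 1) (s - a) := by
      unfold PP
      rw [Finset.card_sigma, Finset.card_sigma, Finset.sum_Icc_succ_top (by omega)]
      simp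
    have h2 : (2 * (((min (b + 1) (s - a) : ℕ) : ℤ))) =
        (T (s - a) - T (s - (a + 1))) - (T (s - a - b - 1) - T (s - (a + 1) - b - 1)) := by
      have e1 : (s : ℤ) - (a + 1) = (s - a) - 1 := by ring
      have e2 : (s : ℤ) - (a + 1) - b - 1 = (s - a - b - 1) - 1 := by ring
      rw [e2, e1, T_sub, T_sub]
      omega
    rw [h1]
    push_cast at h2 ⊢
    rw [mul_add, ih, h2]
    ring

/-- the exponent vector `α e_j + β e_{j+2}` -/
def vec (j : Fin 5) (p : Σ _ : ℕ, ℕ) : Fin 5 → ℕ :=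
  fun i => if i = j then p.1 else if i = j + 2 then p.2 else 0

/-- the index set of the nonzero elements of `BSet 1 t` -/
def Idx (t : Fin 5 → ℕ) : Finset (Σ _ : Fin 5, (Σ _ : ℕ, ℕ)) :=
  Finset.univ.sigma (fun j => PP (t (j + 1)) (t (j + 4)) (t (j + 3)))

/-- `BSet 1 t` as a finset -/
def BFin (t : Fin 5 → ℕ) : Finset (Fin 5 → ℕ) :=
  insert 0 ((Idx t).image (fun x => vec x.1 x.2))

theorem noAdj_iff (n : ℕ) (B : Fin 5 → ℕ) : NoAdj n B ↔
    ¬ (n ≤ B 0 ∧ n ≤ B 1) ∧ ¬ (n ≤ B 1 ∧ n ≤ B 2) ∧ ¬ (n ≤ B 2 ∧ n ≤ B 3) ∧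
    ¬ (n ≤ B 3 ∧ n ≤ B 4) ∧ ¬ (n ≤ B 4 ∧ n ≤ B 0) := by
  unfold NoAdj
  constructor
  · intro h
    exact ⟨h 0, h 1, h 2, h 3, h 4⟩
  · rintro ⟨h0, h1, h2, h3, h4⟩ i
    fin_cases i
    exacts [h0, h1, h2, h3, h4]

theorem wt_iff (B : Fin 5 → ℕ) (t : Fin 5 → ℤ) : (∀ i, wt B i ≤ t i) ↔
    ((B 4 : ℤ) + B 1 - B 0 ≤ t 0) ∧ ((B 0 : ℤ) + B 2 - B 1 ≤ t 1) ∧
    ((B 1 : ℤ) + B 3 - B 2 ≤ t 2) ∧ ((B 2 : ℤ) + B 4 - B 3 ≤ t 3) ∧
    ((B 3 : ℤ) + B 0 - B 4 ≤ t 4) := by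
  constructor
  · intro h
    exact ⟨h 0, h 1, h 2, h 3, h 4⟩
  · rintro ⟨h0, h1, h2, h3, h4⟩ i
    fin_cases i
    exacts [h0, h1, h2, h3, h4]

theorem mem_BFin (t : Fin 5 → ℕ) (B : Fin 5 → ℕ) :
    B ∈ BFin t ↔ B ∈ BSet 1 (fun i => (t i : ℤ)) := by
  unfold BFin BSet
  rw [Finset.mem_insert, Finset.mem_image, Set.mem_ofPred_eq, noAdj_iff, wt_iff]
  constructor
  · rintro (rfl | ⟨⟨j, p⟩, hp, rfl⟩)
    · simp
    · unfold Idx at hp
      rw [Finset.mem_sigma] at hp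
      have hp := hp.2
      rw [mem_PP] at hp
      fin_cases j
      all_goals
        simp [vec] at hp ⊢
        omega
  · rintro ⟨hN, hw⟩
    by_cases h0 : B = 0
    · exact Or.inl h0
    · right
      have : ∃ j, 1 ≤ B j ∧ B (j + 3) = 0 := by
        by_contra hcon
        push Not at hcon
        apply h0
        have c0 := hcon 0
        have c1 := hcon 1
        have c2 := hcon 2
        have c3 := hcon 3
        have c4 := hcon 4
        simp at c0 c1 c2 c3 c4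
        ext i
        fin_cases i
        all_goals simp; omega
      obtain ⟨j, hj⟩ := this
      refine ⟨⟨j, ⟨B j, B (j + 2)⟩⟩, ?_, ?_⟩
      · unfold Idx
        rw [Finset.mem_sigma, mem_PP]
        refine ⟨Finset.mem_univ _, ?_⟩
        fin_cases j
        all_goals
          simp at hj ⊢
          omega
      · ext i
        fin_cases j <;> fin_cases i
        all_goals
          simp [vec] at hj ⊢
          try omega

theorem BSet_one (t : Fin 5 → ℕ) : BSet 1 (fun i => (t i : ℤ)) = ↑(BFin t) := by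
  ext B
  rw [Finset.mem_coe, mem_BFin]


theorem vec_inj {j j' : Fin 5} {p p' : Σ _ : ℕ, ℕ} (hp : 1 ≤ p.1) (hp' : 1 ≤ p'.1)
    (h : vec j p = vec j' p') : j = j' ∧ p = p' := by
  obtain ⟨x, y⟩ := p
  obtain ⟨x', y'⟩ := p'
  have e0 := congrFun h 0
  have e1 := congrFun h 1
  have e2 := congrFun h 2
  have e3 := congrFun h 3
  have e4 := congrFun h 4
  fin_cases j <;> fin_cases j'
  all_goals
    simp [vec] at e0 e1 e2 e3 e4 hp hp' ⊢
    try omega

theorem card_BFin (t : Fin 5 → ℕ) :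
    (BFin t).card = 1 + ∑ j : Fin 5, (PP (t (j + 1)) (t (j + 4)) (t (j + 3))).card := by
  unfold BFin
  rw [Finset.card_insert_of_notMem, Finset.card_image_of_injOn, add_comm]
  · unfold Idx
    rw [Finset.card_sigma]
  · rintro ⟨j, p⟩ hx ⟨j', p'⟩ hx' h
    unfold Idx at hx hx'
    rw [Finset.mem_coe, Finset.mem_sigma, mem_PP] at hx hx'
    obtain ⟨rfl, rfl⟩ := vec_inj hx.2.1 hx'.2.1 h
    rfl
  · rw [Finset.mem_image]
    rintro ⟨⟨j, p⟩, hx, h⟩
    unfold Idx at hx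
    rw [Finset.mem_sigma, mem_PP] at hx
    have h2 := congrFun h j
    simp [vec] at h2
    have h1 : 1 ≤ p.1 := hx.2.1
    omega

/-- Riemann-Roch on the pentagon surface. -/
theorem card_BFin_nef (t : Fin 5 → ℕ) (ht : ∀ i, t i ≤ t (i + 2) + t (i + 3)) :
    2 * ((BFin t).card : ℤ) =
      2 + ∑ i, (t i : ℤ) - ∑ i, (t i : ℤ) ^ 2 + 2 * ∑ i, (t i : ℤ) * t (i + 2) := by
  rw [card_BFin]
  push_cast
  rw [mul_add, Finset.mul_sum]
  have h : ∀ j : Fin 5, (2 * ((PP (t (j + 1)) (t (j + 4)) (t (j + 3))).card : ℤ)) =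
      (t (j + 1) : ℤ) * (t (j + 1) + 1) - T (t (j + 1) - t (j + 4)) -
        T (t (j + 1) - t (j + 3) - 1) := by
    intro j
    rw [card_PP]
    have h1 := ht (j + 1)
    have e1 : j + 1 + 2 = j + 3 := by rw [add_assoc]; rfl
    have e2 : j + 1 + 3 = j + 4 := by rw [add_assoc]; rfl
    rw [e1, e2] at h1
    have h2 : ((t (j + 1) : ℤ) - t (j + 4) - t (j + 3) - 1) < 0 := by
      have : (t (j + 1) : ℤ) ≤ t (j + 3) + t (j + 4) := by exact_mod_cast h1
      linarith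
    rw [T_of_nonneg (by positivity : (0 : ℤ) ≤ t (j + 1)), T_of_neg h2]
    ring
  rw [Finset.sum_congr rfl (fun j _ => h j)]
  have k : ∀ a b : ℤ, T (a - b) + T (b - a - 1) = (a - b) * (a - b + 1) := by
    intro a b
    rw [← T_add]
    congr 2
    ring
  simp only [Fin.sum_univ_five]
  have k0 := k (t 1) (t 4)
  have k1 := k (t 2) (t 0)
  have k2 := k (t 3) (t 1)
  have k3 := k (t 4) (t 2)
  have k4 := k (t 0) (t 3)
  simp only [show (1 : Fin 5) + 1 = 2 from rfl, show (2 : Fin 5) + 1 = 3 from rfl,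
    show (3 : Fin 5) + 1 = 4 from rfl, show (4 : Fin 5) + 1 = 0 from rfl,
    show (0 : Fin 5) + 1 = 1 from rfl, show (0 : Fin 5) + 4 = 4 from rfl,
    show (1 : Fin 5) + 4 = 0 from rfl, show (2 : Fin 5) + 4 = 1 from rfl,
    show (3 : Fin 5) + 4 = 2 from rfl, show (4 : Fin 5) + 4 = 3 from rfl,
    show (0 : Fin 5) + 3 = 3 from rfl, show (1 : Fin 5) + 3 = 4 from rfl,
    show (2 : Fin 5) + 3 = 0 from rfl, show (3 : Fin 5) + 3 = 1 from rfl,
    show (4 : Fin 5) + 3 = 2 from rfl, show (0 : Fin 5) + 2 = 2 from rfl,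
    show (1 : Fin 5) + 2 = 3 from rfl, show (2 : Fin 5) + 2 = 4 from rfl,
    show (3 : Fin 5) + 2 = 0 from rfl, show (4 : Fin 5) + 2 = 1 from rfl]
  linarith


/-- `⌊(m - w_i(r))/7⌋` for the residue vector `r` -/
def tt (m : ℤ) (r : Fin 5 → Fin 7) (i : Fin 5) : ℤ := (m - wt (fun j => (r j : ℕ)) i) / 7

theorem wt_rem_le (r : Fin 5 → Fin 7) (i : Fin 5) : wt (fun j => (r j : ℕ)) i ≤ 12 := by
  unfold wt
  have h1 := (r (i - 1)).isLt
  have h2 := (r (i + 1)).isLt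
  have h3 := (r i).isLt
  simp only
  omega

theorem wt_rem_ge (r : Fin 5 → Fin 7) (i : Fin 5) : -6 ≤ wt (fun j => (r j : ℕ)) i := by
  unfold wt
  have h1 := (r (i - 1)).isLt
  have h2 := (r (i + 1)).isLt
  have h3 := (r i).isLt
  simp only
  omega

theorem tt_nonneg {m : ℤ} (hm : 40 ≤ m) (r : Fin 5 → Fin 7) (i : Fin 5) : 0 ≤ tt m r i := by
  unfold tt
  have := wt_rem_le r i
  omega

theorem tt_nef {m : ℤ} (hm : 40 ≤ m) (r : Fin 5 → Fin 7) (i : Fin 5) :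
    tt m r i ≤ tt m r (i + 2) + tt m r (i + 3) := by
  unfold tt
  have h1 := wt_rem_ge r i
  have h2 := wt_rem_le r (i + 2)
  have h3 := wt_rem_le r (i + 3)
  generalize wt (fun j => (r j : ℕ)) i = x at *
  generalize wt (fun j => (r j : ℕ)) (i + 2) = y at *
  generalize wt (fun j => (r j : ℕ)) (i + 3) = z at *
  omega

/-- the recombination `7 B + r` -/
def comb (x : Σ _ : Fin 5 → Fin 7, (Fin 5 → ℕ)) : Fin 5 → ℕ := fun i => 7 * x.2 i + (x.1 i : ℕ)

theorem comb_inj : Function.Injective comb := by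
  rintro ⟨r, B⟩ ⟨r', B'⟩ h
  have h1 : r = r' := by
    ext i
    have := congrFun h i
    have h1 := (r i).isLt
    have h2 := (r' i).isLt
    simp only [comb] at this
    omega
  have h2 : B = B' := by
    ext i
    have := congrFun h i
    have h1 := (r i).isLt
    have h2 := (r' i).isLt
    simp only [comb] at this
    omega
  rw [h1, h2]

/-- `BSet 7 m` as a finset -/
def B7 (m : ℤ) : Finset (Fin 5 → ℕ) :=
  ((Finset.univ : Finset (Fin 5 → Fin 7)).sigma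
    (fun r => BFin (fun i => (tt m r i).toNat))).image comb

theorem mem_B7 {m : ℤ} (hm : 40 ≤ m) (β : Fin 5 → ℕ) :
    β ∈ B7 m ↔ β ∈ BSet 7 (fun _ => m) := by
  unfold B7
  rw [Finset.mem_image]
  have key : ∀ (r : Fin 5 → Fin 7) (B : Fin 5 → ℕ),
      (B ∈ BFin (fun i => (tt m r i).toNat) ↔ comb ⟨r, B⟩ ∈ BSet 7 (fun _ => m)) := by
    intro r B
    rw [mem_BFin]
    unfold BSet
    rw [Set.mem_ofPred_eq, Set.mem_ofPred_eq]
    apply and_congr
    · unfold NoAdj comb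
      apply forall_congr'
      intro i
      have h1 := (r i).isLt
      have h2 := (r (i + 1)).isLt
      simp only
      omega
    · apply forall_congr'
      intro i
      simp only
      rw [Int.toNat_of_nonneg (tt_nonneg hm r i)]
      unfold tt wt comb
      simp only
      push_cast
      generalize (r i : ℕ) = a
      generalize (r (i - 1) : ℕ) = b
      generalize (r (i + 1) : ℕ) = c
      omega
  constructor
  · rintro ⟨⟨r, B⟩, hx, rfl⟩
    rw [Finset.mem_sigma] at hx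
    exact (key r B).1 hx.2
  · intro h
    refine ⟨⟨fun i => ⟨β i % 7, Nat.mod_lt _ (by norm_num)⟩, fun i => β i / 7⟩, ?_, ?_⟩
    · rw [Finset.mem_sigma]
      refine ⟨Finset.mem_univ _, ?_⟩
      rw [key]
      have : comb ⟨fun i => ⟨β i % 7, Nat.mod_lt _ (by norm_num)⟩, fun i => β i / 7⟩ = β := by
        ext i
        simp only [comb]
        omega
      rw [this]
      exact h
    · ext i
      simp only [comb]
      omega

theorem card_B7 (m : ℤ) : (B7 m).card = ∑ r : Fin 5 → Fin 7,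
    (BFin (fun i => (tt m r i).toNat)).card := by
  unfold B7
  rw [Finset.card_image_of_injective _ comb_inj, Finset.card_sigma]

theorem card_B7' {m : ℤ} (hm : 40 ≤ m) : 2 * ((B7 m).card : ℤ) = ∑ r : Fin 5 → Fin 7,
    (2 + ∑ i, tt m r i - ∑ i, (tt m r i) ^ 2 + 2 * ∑ i, tt m r i * tt m r (i + 2)) := by
  rw [card_B7]
  push_cast
  rw [Finset.mul_sum]
  apply Finset.sum_congr rfl
  intro r _
  rw [card_BFin_nef]
  · simp only [Int.toNat_of_nonneg (tt_nonneg hm r _)]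
  · intro i
    have h1 := tt_nef hm r i
    have h2 := tt_nonneg hm r i
    have h3 := tt_nonneg hm r (i + 2)
    have h4 := tt_nonneg hm r (i + 3)
    generalize tt m r i = x at *
    generalize tt m r (i + 2) = y at *
    generalize tt m r (i + 3) = z at *
    omega

/-- `⌊(ρ - (a + c - b))/7⌋` -/
def C (ρ : ℤ) (a b c : Fin 7) : ℤ := (ρ - (((a : ℕ) : ℤ) + ((c : ℕ) : ℤ) - ((b : ℕ) : ℤ))) / 7

theorem tt_eq (q ρ : ℤ) (r : Fin 5 → Fin 7) (i : Fin 5) :
    tt (7 * q + ρ) r i = q + C ρ (r (i - 1)) (r i) (r (i + 1)) := by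
  unfold tt wt C
  simp only
  generalize (r i : ℕ) = a
  generalize (r (i - 1) : ℕ) = b
  generalize (r (i + 1) : ℕ) = c
  omega

/-- 5-tuples -/
def e5 : (Fin 5 → Fin 7) ≃ Fin 7 × Fin 7 × Fin 7 × Fin 7 × Fin 7 where
  toFun r := (r 0, r 1, r 2, r 3, r 4)
  invFun p := ![p.1, p.2.1, p.2.2.1, p.2.2.2.1, p.2.2.2.2]
  left_inv r := by ext i; fin_cases i <;> rfl
  right_inv p := rfl

theorem sum5 (F : Fin 7 → Fin 7 → Fin 7 → Fin 7 → Fin 7 → ℤ) :
    ∑ r : Fin 5 → Fin 7, F (r 0) (r 1) (r 2) (r 3) (r 4) =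
      ∑ a, ∑ b, ∑ c, ∑ d, ∑ e, F a b c d e := by
  have h := Fintype.sum_equiv e5 (fun r : Fin 5 → Fin 7 => F (r 0) (r 1) (r 2) (r 3) (r 4))
    (fun p => F p.1 p.2.1 p.2.2.1 p.2.2.2.1 p.2.2.2.2) (fun r => rfl)
  rw [h]
  simp only [Fintype.sum_prod_type]

theorem sum_shift (F : (Fin 5 → Fin 7) → ℤ) (i : Fin 5) :
    ∑ r : Fin 5 → Fin 7, F (fun j => r (j + i)) = ∑ r, F r :=
  Fintype.sum_equiv (Equiv.arrowCongr (Equiv.subRight i) (Equiv.refl _)) _ _ (fun _ => rfl)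

theorem idx1 (i : Fin 5) : i - 1 = 4 + i := by decide +revert
theorem idx2 (i : Fin 5) : i = 0 + i := by decide +revert
theorem idx3 (i : Fin 5) : i + 1 = 1 + i := by decide +revert
theorem idx4 (i : Fin 5) : i + 2 - 1 = 1 + i := by decide +revert
theorem idx5 (i : Fin 5) : i + 2 = 2 + i := by decide +revert
theorem idx6 (i : Fin 5) : i + 2 + 1 = 3 + i := by decide +revert

theorem sum_one (F : Fin 7 → Fin 7 → Fin 7 → ℤ) (i : Fin 5) :
    ∑ r : Fin 5 → Fin 7, F (r (i - 1)) (r i) (r (i + 1)) = 49 * ∑ a, ∑ b, ∑ c, F c a b := by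
  have h1 := sum_shift (fun r => F (r 4) (r 0) (r 1)) i
  have h2 : ∀ r : Fin 5 → Fin 7, F (r (i - 1)) (r i) (r (i + 1)) =
      F (r (4 + i)) (r (0 + i)) (r (1 + i)) := by
    intro r
    rw [← idx1, ← idx3, ← idx2]
  rw [Finset.sum_congr rfl (fun r _ => h2 r)]
  simp only at h1
  rw [h1, sum5 (fun a b _ _ e => F e a b)]
  simp only [Finset.sum_const, Finset.card_univ, Fintype.card_fin, Finset.mul_sum]
  apply Finset.sum_congr rfl
  intro a _
  apply Finset.sum_congr rfl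
  intro b _
  rw [smul_smul]
  simp [Finset.mul_sum]

theorem sum_two (F G : Fin 7 → Fin 7 → Fin 7 → ℤ) (i : Fin 5) :
    ∑ r : Fin 5 → Fin 7, F (r (i - 1)) (r i) (r (i + 1)) *
        G (r (i + 2 - 1)) (r (i + 2)) (r (i + 2 + 1)) =
      ∑ c, (∑ a, ∑ b, F a b c) * (∑ a, ∑ b, G c a b) := by
  have h1 := sum_shift (fun r => F (r 4) (r 0) (r 1) * G (r 1) (r 2) (r 3)) i
  have h2 : ∀ r : Fin 5 → Fin 7, F (r (i - 1)) (r i) (r (i + 1)) *
        G (r (i + 2 - 1)) (r (i + 2)) (r (i + 2 + 1)) =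
      F (r (4 + i)) (r (0 + i)) (r (1 + i)) * G (r (1 + i)) (r (2 + i)) (r (3 + i)) := by
    intro r
    rw [idx6, idx4, idx5, ← idx1, ← idx3, ← idx2]
  rw [Finset.sum_congr rfl (fun r _ => h2 r)]
  simp only at h1
  rw [h1, sum5 (fun a b c d e => F e a b * G b c d)]
  rw [Finset.sum_comm]
  apply Finset.sum_congr rfl
  intro c _
  have h3 : ∑ a, ∑ b, F a b c = ∑ x, ∑ e, F e x c := Finset.sum_comm
  rw [h3, Finset.sum_mul]
  apply Finset.sum_congr rfl
  intro x _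
  rw [Finset.mul_sum]
  apply Finset.sum_congr rfl
  intro y _
  rw [Finset.mul_sum]
  apply Finset.sum_congr rfl
  intro d _
  rw [Finset.sum_mul]


/-- the three constants -/
def s1 (ρ : ℤ) : ℤ := ∑ a, ∑ b, ∑ c, C ρ c a b
def s2 (ρ : ℤ) : ℤ := ∑ a, ∑ b, ∑ c, (C ρ c a b) ^ 2
def s11 (ρ : ℤ) : ℤ := ∑ c, (∑ a, ∑ b, C ρ a b c) * (∑ a, ∑ b, C ρ c a b)

theorem card_B7_formula {q ρ : ℤ} (hm : 40 ≤ 7 * q + ρ) :
    2 * ((B7 (7 * q + ρ)).card : ℤ) =
      16807 * (2 + 5 * q + 5 * q ^ 2) + (1 + 2 * q) * (245 * s1 ρ) - 245 * s2 ρ + 10 * s11 ρ := by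
  rw [card_B7' hm]
  have h1 : ∀ i : Fin 5, ∑ r : Fin 5 → Fin 7, C ρ (r (i - 1)) (r i) (r (i + 1)) = 49 * s1 ρ :=
    fun i => sum_one (C ρ) i
  have h2 : ∀ i : Fin 5, ∑ r : Fin 5 → Fin 7, (C ρ (r (i - 1)) (r i) (r (i + 1))) ^ 2 =
      49 * s2 ρ := fun i => sum_one (fun a b c => (C ρ a b c) ^ 2) i
  have h3 : ∀ i : Fin 5, ∑ r : Fin 5 → Fin 7, C ρ (r (i - 1)) (r i) (r (i + 1)) *
      C ρ (r (i + 2 - 1)) (r (i + 2)) (r (i + 2 + 1)) = s11 ρ := fun i => sum_two (C ρ) (C ρ) i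
  simp only [Finset.sum_add_distrib, Finset.sum_sub_distrib, ← Finset.mul_sum]
  rw [Finset.sum_comm (f := fun r i => tt (7 * q + ρ) r i),
    Finset.sum_comm (f := fun r i => (tt (7 * q + ρ) r i) ^ 2),
    Finset.sum_comm (f := fun r i => tt (7 * q + ρ) r i * tt (7 * q + ρ) r (i + 2))]
  have k1 : ∀ i : Fin 5, ∑ r : Fin 5 → Fin 7, tt (7 * q + ρ) r i = 16807 * q + 49 * s1 ρ := by
    intro i
    simp only [tt_eq, Finset.sum_add_distrib, h1, Finset.sum_const, Finset.card_univ,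
      Fintype.card_fun, Fintype.card_fin]
    norm_num
  have k2 : ∀ i : Fin 5, ∑ r : Fin 5 → Fin 7, (tt (7 * q + ρ) r i) ^ 2 =
      16807 * q ^ 2 + 2 * q * (49 * s1 ρ) + 49 * s2 ρ := by
    intro i
    have : ∀ r : Fin 5 → Fin 7, (tt (7 * q + ρ) r i) ^ 2 = q ^ 2 +
        2 * q * C ρ (r (i - 1)) (r i) (r (i + 1)) + (C ρ (r (i - 1)) (r i) (r (i + 1))) ^ 2 := by
      intro r
      rw [tt_eq]; ring
    rw [Finset.sum_congr rfl (fun r _ => this r)]
    simp only [Finset.sum_add_distrib, h1, h2, Finset.sum_const, Finset.card_univ,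
      Fintype.card_fun, Fintype.card_fin, ← Finset.mul_sum]
    norm_num
  have k3 : ∀ i : Fin 5, ∑ r : Fin 5 → Fin 7, tt (7 * q + ρ) r i * tt (7 * q + ρ) r (i + 2) =
      16807 * q ^ 2 + 2 * q * (49 * s1 ρ) + s11 ρ := by
    intro i
    have : ∀ r : Fin 5 → Fin 7, tt (7 * q + ρ) r i * tt (7 * q + ρ) r (i + 2) = q ^ 2 +
        q * C ρ (r (i - 1)) (r i) (r (i + 1)) +
        q * C ρ (r (i + 2 - 1)) (r (i + 2)) (r (i + 2 + 1)) +
        C ρ (r (i - 1)) (r i) (r (i + 1)) *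
          C ρ (r (i + 2 - 1)) (r (i + 2)) (r (i + 2 + 1)) := by
      intro r
      rw [tt_eq, tt_eq]; ring
    rw [Finset.sum_congr rfl (fun r _ => this r)]
    simp only [Finset.sum_add_distrib, h1, h3, Finset.sum_const, Finset.card_univ,
      Fintype.card_fun, Fintype.card_fin, ← Finset.mul_sum]
    norm_num
    ring
  simp only [k1, k2, k3, Finset.sum_const, Finset.card_univ, Fintype.card_fin, Fintype.card_fun]
  norm_num
  ring

theorem consts : ∀ n : Fin 7, (s1 ((n : ℕ) : ℤ), s2 ((n : ℕ) : ℤ), s11 ((n : ℕ) : ℤ)) =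
    (![(-294, 364, 13720), (-245, 287, 9947), (-196, 224, 6860), (-147, 175, 4459),
      (-98, 140, 2744), (-49, 119, 1715), (0, 112, 1372)] : Fin 7 → ℤ × ℤ × ℤ) n := by
  decide +kernel

theorem card_B7_eq {m : ℤ} (hm : 40 ≤ m) :
    2 * ((B7 m).card : ℤ) = 1715 * m ^ 2 - 8575 * m + 9604 := by
  obtain ⟨q, n, rfl⟩ : ∃ (q : ℤ) (n : Fin 7), m = 7 * q + ((n : ℕ) : ℤ) := by
    refine ⟨m / 7, ⟨(m % 7).toNat, by omega⟩, ?_⟩
    simp only
    omega
  rw [card_B7_formula hm]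
  have h := consts n
  rw [Prod.mk.injEq, Prod.mk.injEq] at h
  obtain ⟨h1, h2, h3⟩ := h
  rw [h1, h2, h3]
  fin_cases n
  all_goals
    simp
    ring

/-- **F1 (set form).**  For `m ≥ 40` the exponents of the basis monomials of `F m` form a finite
set whose cardinality is `(1715 m² - 8575 m + 9604)/2`. -/
theorem finite_BSet_seven {m : ℤ} (hm : 40 ≤ m) : (BSet 7 (fun _ => m)).Finite := by
  have : BSet 7 (fun _ => m) = ↑(B7 m) := by
    ext β
    rw [Finset.mem_coe, mem_B7 hm]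
  rw [this]
  exact Finset.finite_toSet _

theorem ncard_BSet_seven {m : ℤ} (hm : 40 ≤ m) :
    2 * ((BSet 7 (fun _ => m)).ncard : ℤ) = 1715 * m ^ 2 - 8575 * m + 9604 := by
  have : BSet 7 (fun _ => m) = ↑(B7 m) := by
    ext β
    rw [Finset.mem_coe, mem_B7 hm]
  rw [this, Set.ncard_coe_finset, card_B7_eq hm]

/-- **F1 (rational form).** -/
theorem ncard_BSet_seven_rat {m : ℤ} (hm : 40 ≤ m) :
    ((BSet 7 (fun _ => m)).ncard : ℚ) = 1715 / 2 * (m : ℚ) ^ 2 - 8575 / 2 * m + 4802 := by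
  have h := ncard_BSet_seven hm
  have h2 : (2 * ((BSet 7 (fun _ => m)).ncard : ℚ)) = 1715 * (m : ℚ) ^ 2 - 8575 * m + 9604 := by
    exact_mod_cast h
  linarith

theorem sum_wt (β : Fin 5 → ℕ) : ∑ i, wt β i = ∑ i, (β i : ℤ) := by
  simp only [wt, Fin.sum_univ_five, show (0 : Fin 5) - 1 = 4 from rfl,
    show (1 : Fin 5) - 1 = 0 from rfl, show (2 : Fin 5) - 1 = 1 from rfl,
    show (3 : Fin 5) - 1 = 2 from rfl, show (4 : Fin 5) - 1 = 3 from rfl,
    show (1 : Fin 5) + 1 = 2 from rfl, show (2 : Fin 5) + 1 = 3 from rfl,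
    show (3 : Fin 5) + 1 = 4 from rfl, show (4 : Fin 5) + 1 = 0 from rfl,
    show (0 : Fin 5) + 1 = 1 from rfl]
  ring

theorem le_sum_of_wt_le {t : Fin 5 → ℤ} {β : Fin 5 → ℕ} (h : ∀ i, wt β i ≤ t i) (i : Fin 5) :
    (β i : ℤ) ≤ ∑ j, t j := by
  calc (β i : ℤ) ≤ ∑ j, (β j : ℤ) :=
        Finset.single_le_sum (f := fun j => (β j : ℤ)) (fun j _ => by positivity)
          (Finset.mem_univ i)
    _ = ∑ j, wt β j := (sum_wt β).symm
    _ ≤ ∑ j, t j := Finset.sum_le_sum (fun j _ => h j)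

/-- finitely many exponents of bounded multidegree -/
theorem finite_wt_le (t : Fin 5 → ℤ) : {β : Fin 5 → ℕ | ∀ i, wt β i ≤ t i}.Finite := by
  apply Set.Finite.subset (Set.finite_Iic (fun _ : Fin 5 => (∑ j, t j).toNat))
  intro β h
  rw [Set.mem_Iic]
  intro i
  have := le_sum_of_wt_le h i
  simp only
  omega

theorem finite_BSet (n : ℕ) (t : Fin 5 → ℤ) : (BSet n t).Finite :=
  (finite_wt_le t).subset (fun _ h => h.2)

theorem eq_zero_of_wt_le_zero {β : Fin 5 → ℕ} (h : ∀ i, wt β i ≤ 0) : β = 0 := by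
  ext i
  have := le_sum_of_wt_le (t := fun _ => 0) h i
  simp at this
  simpa using this

theorem not_wt_le_neg {m : ℤ} (hm : m < 0) (β : Fin 5 → ℕ) : ¬ ∀ i, wt β i ≤ m := by
  intro h
  have := le_sum_of_wt_le (t := fun _ => m) h 0
  simp at this
  omega

/-- **F1 (`Finsupp` form).** -/
theorem ncard_finsupp {m : ℤ} (hm : 40 ≤ m) :
    ({β : Fin 5 →₀ ℕ | NoAdj 7 β ∧ ∀ i, wt β i ≤ m}.ncard : ℚ) =
      1715 / 2 * (m : ℚ) ^ 2 - 8575 / 2 * m + 4802 := by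
  rw [← ncard_BSet_seven_rat hm]
  congr 1
  apply Set.ncard_congr (fun (β : Fin 5 →₀ ℕ) _ => (β : Fin 5 → ℕ))
  · intro β h
    exact h
  · intro β β' _ _ h
    exact DFunLike.coe_injective h
  · intro β h
    exact ⟨Finsupp.equivFunOnFinite.symm β, h, rfl⟩

theorem finite_finsupp (n : ℕ) (m : ℤ) :
    {β : Fin 5 →₀ ℕ | NoAdj n β ∧ ∀ i, wt β i ≤ m}.Finite := by
  have := (finite_BSet n (fun _ => m)).preimage (f := fun β : Fin 5 →₀ ℕ => (β : Fin 5 → ℕ))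
    (DFunLike.coe_injective.injOn)
  exact this

end Crest.Agent.R169.Count
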