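import Crest.Agent.R169.PlaceBasic

/-!
# Row 169, part D1: coprime homogeneous elements, bounded colength (helper566)

`boundedColength`: a graded ideal `I` of `T` contained in no place has bounded colength.
-/

set_option autoImplicit false

namespace Crest.Agent.R169.D1

open Module

section Basic

variable {k Q : Type} [Field k] [Field Q] [Algebra k Q] {D : TData k Q} {ι : Type}

theorem ord_div (v : Place Q) {a b : Q} (ha : a ≠ 0) (hb : b ≠ 0) :
    v.ord (a / b) = v.ord a - v.ord b := by
  rw [div_eq_mul_inv, v.ord_mul a b⁻¹ ha (inv_ne_zero hb), v.ord_inv b hb]; ring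

theorem ord_smul (S : Places D ι) (P : ι) {r : k} (hr : r ≠ 0) {f : Q} (hf : f ≠ 0) :
    (S.pl P).ord (r • f) = (S.pl P).ord f := by
  have h1 : algebraMap k Q r ≠ 0 := by simpa using hr
  rw [Algebra.smul_def, (S.pl P).ord_mul _ _ h1 hf, S.ord_algebraMap P r hr, zero_add]

theorem ord_ge (S : Places D ι) (P : ι) {m : ℤ} {f : Q} (hf : f ∈ D.F m) (h0 : f ≠ 0) :
    -(S.c P) * m ≤ (S.pl P).ord f := by
  rcases (S.memF m f).1 hf with h | h
  · exact absurd h h0
  · exact h P

/-- the elements of `E` of order `> -c m` at `P`, as a `k`-subspace -/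
def deep (S : Places D ι) (P : ι) (m : ℤ) (E : Submodule k Q) : Submodule k E where
  carrier := {g | (g : Q) = 0 ∨ -(S.c P) * m < (S.pl P).ord (g : Q)}
  zero_mem' := Or.inl rfl
  add_mem' := by
    rintro ⟨a, ha'⟩ ⟨b, hb'⟩ ha hb
    change a = 0 ∨ _ at ha
    change b = 0 ∨ _ at hb
    change a + b = 0 ∨ -(S.c P) * m < (S.pl P).ord (a + b)
    by_cases h : a + b = 0
    · exact Or.inl h
    right
    by_cases ha0 : a = 0
    · subst ha0
      rw [zero_add] at h ⊢
      rcases hb with hb | hb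
      · exact absurd hb h
      · exact hb
    by_cases hb0 : b = 0
    · subst hb0
      rw [add_zero] at h ⊢
      rcases ha with ha | ha
      · exact absurd ha h
      · exact ha
    have ha1 := ha.resolve_left ha0
    have hb1 := hb.resolve_left hb0
    exact lt_of_lt_of_le (lt_min ha1 hb1) ((S.pl P).ord_add a b ha0 hb0 h)
  smul_mem' := by
    rintro r ⟨a, ha'⟩ ha
    change a = 0 ∨ _ at ha
    change r • a = 0 ∨ -(S.c P) * m < (S.pl P).ord (r • a)
    by_cases hr : r = 0
    · left; rw [hr, zero_smul]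
    rcases ha with ha | ha
    · left; rw [ha, smul_zero]
    · by_cases ha0 : a = 0
      · left; rw [ha0, smul_zero]
      · right; rwa [ord_smul S P hr ha0]

theorem mem_deep (S : Places D ι) (P : ι) (m : ℤ) (E : Submodule k Q) (g : E) :
    g ∈ deep S P m E ↔ (g : Q) = 0 ∨ -(S.c P) * m < (S.pl P).ord (g : Q) := Iff.rfl

/-- linear prime avoidance: if for each of finitely many places some element of `E` has exact
order `-c m`, then one element of `E` has exact order at all of them. -/
theorem avoid (S : Places D ι) [Infinite k] (m : ℤ) (E : Submodule k Q)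
    (hE : ∀ P, ∀ g ∈ E, g ≠ 0 → -(S.c P) * m ≤ (S.pl P).ord g) (A : Set ι) (hA : A.Finite)
    (hne : ∃ g ∈ E, g ≠ 0)
    (h : ∀ P ∈ A, ∃ g ∈ E, g ≠ 0 ∧ (S.pl P).ord g = -(S.c P) * m) :
    ∃ g ∈ E, g ≠ 0 ∧ ∀ P ∈ A, (S.pl P).ord g = -(S.c P) * m := by
  classical
  haveI : Finite A := hA
  let p : Option A → Subspace k E := fun o =>
    match o with
    | none => ⊥
    | some P => deep S P.1 m E
  have hp : ∀ o, p o ≠ ⊤ := by
    intro o
    cases o with
    | none =>
      obtain ⟨g, hg, h0⟩ := hne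
      intro ht
      have : (⟨g, hg⟩ : E) ∈ (p none) := by rw [ht]; exact Submodule.mem_top
      change (⟨g, hg⟩ : E) ∈ (⊥ : Submodule k E) at this
      rw [Submodule.mem_bot] at this
      exact h0 (congrArg Subtype.val this)
    | some P =>
      obtain ⟨g, hg, h0, h1⟩ := h P.1 P.2
      intro ht
      have : (⟨g, hg⟩ : E) ∈ (p (some P)) := by rw [ht]; exact Submodule.mem_top
      change (⟨g, hg⟩ : E) ∈ deep S P.1 m E at this
      rw [mem_deep] at this
      rcases this with h2 | h2
      · exact h0 h2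
      · simp only at h2
        omega
  have hu : (⋃ o, (p o : Set E)) ≠ Set.univ := by
    intro hu
    obtain ⟨o, ho⟩ := Subspace.exists_eq_top_of_iUnion_eq_univ hu
    exact hp o ho
  obtain ⟨g, hg⟩ := (Set.ne_univ_iff_exists_notMem _).1 hu
  rw [Set.mem_iUnion, not_exists] at hg
  have g0 : (g : Q) ≠ 0 := by
    intro h0
    apply hg none
    change g ∈ (⊥ : Submodule k E)
    rw [Submodule.mem_bot]
    exact Subtype.ext h0
  refine ⟨g, g.2, g0, fun P hP => ?_⟩
  have h1 := hg (some ⟨P, hP⟩)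
  change ¬ g ∈ deep S P m E at h1
  rw [mem_deep, not_or] at h1
  have h2 := hE P g g.2 g0
  omega

/-- two homogeneous elements without common place: `cT ∩ c'T = cc'T` -/
theorem coprime_mem (S : Places D ι) {d d' m : ℤ} {c c' a b : Q} (hc : c ≠ 0)
    (hc' : c' ≠ 0)
    (hcop : ∀ P, (S.pl P).ord c = -(S.c P) * d ∨ (S.pl P).ord c' = -(S.c P) * d')
    (ha : a ∈ D.F (m - d)) (hb : b ∈ D.F (m - d')) (hab : c * a = c' * b) :
    ∃ f ∈ D.F (m - d - d'), a = c' * f := by
  by_cases ha0 : a = 0
  · exact ⟨0, Submodule.zero_mem _, by rw [ha0, mul_zero]⟩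
  have hb0 : b ≠ 0 := by
    intro h
    rw [h, mul_zero] at hab
    exact (mul_ne_zero hc ha0) hab
  refine ⟨a / c', ?_, by field_simp⟩
  rw [S.memF]
  right
  intro P
  have e1 : (S.pl P).ord (a / c') = (S.pl P).ord a - (S.pl P).ord c' := ord_div (S.pl P) ha0 hc'
  have e2 : (S.pl P).ord (a / c') = (S.pl P).ord b - (S.pl P).ord c := by
    have : a / c' = b / c := by
      field_simp
      linear_combination hab
    rw [this, ord_div (S.pl P) hb0 hc]
  have f1 := ord_ge S P ha ha0
  have f2 := ord_ge S P hb hb0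
  rcases hcop P with h | h
  · rw [e2, h]
    linarith [f2, mul_sub (-(S.c P)) m d', mul_sub (-(S.c P)) (m - d) d', mul_sub (-(S.c P)) m d]
  · rw [e1, h]
    linarith [f1, mul_sub (-(S.c P)) m d', mul_sub (-(S.c P)) (m - d) d', mul_sub (-(S.c P)) m d]

theorem finrank_map_mulLeft (E : Submodule k Q) {c : Q} (hc : c ≠ 0) :
    finrank k (E.map (LinearMap.mulLeft k c)) = finrank k E := by
  have hinj : Function.Injective (LinearMap.mulLeft k c) := by
    intro a b h
    simpa [hc] using h
  exact (LinearEquiv.finrank_eq (Submodule.equivMapOfInjective _ hinj E)).symm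

/-- `dim (cF_{m-d} + c'F_{m-d'}) = dim F_{m-d} + dim F_{m-d'} - dim F_{m-d-d'}` -/
theorem finrank_sup (S : Places D ι) {d d' : ℤ} {c c' : Q} (hc : c ≠ 0)
    (hc' : c' ≠ 0) (hcd : c ∈ D.F d) (hcd' : c' ∈ D.F d')
    (hcop : ∀ P, (S.pl P).ord c = -(S.c P) * d ∨ (S.pl P).ord c' = -(S.c P) * d') (m : ℤ) :
    finrank k ((D.F (m - d)).map (LinearMap.mulLeft k c) ⊔
      (D.F (m - d')).map (LinearMap.mulLeft k c') : Submodule k Q) + finrank k (D.F (m - d - d')) =
      finrank k (D.F (m - d)) + finrank k (D.F (m - d')) := by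
  have := D.lat.fin (m - d)
  have := D.lat.fin (m - d')
  have h1 := Submodule.finrank_sup_add_finrank_inf_eq
    ((D.F (m - d)).map (LinearMap.mulLeft k c)) ((D.F (m - d')).map (LinearMap.mulLeft k c'))
  rw [finrank_map_mulLeft _ hc, finrank_map_mulLeft _ hc'] at h1
  rw [← h1]
  congr 1
  have h2 : (D.F (m - d)).map (LinearMap.mulLeft k c) ⊓ (D.F (m - d')).map (LinearMap.mulLeft k c')
      = (D.F (m - d - d')).map (LinearMap.mulLeft k (c * c')) := by
    ext x
    constructor
    · rintro ⟨⟨a, ha, rfl⟩, ⟨b, hb, hab⟩⟩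
      simp only [LinearMap.mulLeft_apply] at hab ⊢
      obtain ⟨f, hf, rfl⟩ := coprime_mem S hc hc' hcop ha hb hab.symm
      exact ⟨f, hf, by simp only [LinearMap.mulLeft_apply]; ring⟩
    · rintro ⟨f, hf, rfl⟩
      simp only [LinearMap.mulLeft_apply]
      refine ⟨⟨c' * f, ?_, by simp only [LinearMap.mulLeft_apply]; ring⟩,
        ⟨c * f, ?_, by simp only [LinearMap.mulLeft_apply]; ring⟩⟩
      · have := D.mul_mem d' (m - d - d') c' hcd' f hf
        have e : d' + (m - d - d') = m - d := by ring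
        rwa [e] at this
      · have := D.mul_mem d (m - d - d') c hcd f hf
        have e : d + (m - d - d') = m - d' := by ring
        rwa [e] at this
  rw [h2, finrank_map_mulLeft _ (mul_ne_zero hc hc')]

theorem deg_nonneg (D : TData k Q) {d : ℤ} {c : Q} (hc : c ≠ 0) (h : c ∈ D.F d) : 0 ≤ d := by
  by_contra hd
  rw [D.F_neg d (by omega), Submodule.mem_bot] at h
  exact hc h

theorem finrank_mono_F (D : TData k Q) {m m' : ℤ} (h : m ≤ m') :
    finrank k (D.F m) ≤ finrank k (D.F m') := by
  have hle : D.F m ≤ D.F m' := by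
    obtain ⟨j, hj⟩ := Int.le.dest h
    subst hj
    clear h
    induction j with
    | zero => simp
    | succ j ih =>
      refine ih.trans ?_
      have := D.lat.mono (m + j)
      have e : m + ((j + 1 : ℕ) : ℤ) = m + j + 1 := by push_cast; ring
      rwa [e]
  have := D.lat.fin m'
  exact Submodule.finrank_mono hle

/-- coprime elements have bounded colength. -/
theorem coprime_bound (S : Places D ι) {N : ℕ} {bT cT : ℚ} (hHP : HasHP D.F N bT cT)
    {d d' : ℤ} {c c' : Q} (hc : c ≠ 0)
    (hc' : c' ≠ 0) (hcd : c ∈ D.F d) (hcd' : c' ∈ D.F d')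
    (hcop : ∀ P, (S.pl P).ord c = -(S.c P) * d ∨ (S.pl P).ord c' = -(S.c P) * d') :
    ∃ e : ℕ, ∀ m : ℤ, finrank k (D.F m) ≤
      finrank k ((D.F (m - d)).map (LinearMap.mulLeft k c) ⊔
        (D.F (m - d')).map (LinearMap.mulLeft k c') : Submodule k Q) + e := by
  obtain ⟨m₀, hm₀⟩ := hHP
  have d0 := deg_nonneg D hc hcd
  have d0' := deg_nonneg D hc' hcd'
  obtain ⟨n, rfl⟩ := Int.eq_ofNat_of_zero_le d0
  obtain ⟨n', rfl⟩ := Int.eq_ofNat_of_zero_le d0'
  refine ⟨N * n * n' + finrank k (D.F (m₀ + n + n')), fun m => ?_⟩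
  by_cases hm : m₀ + n + n' ≤ m
  · have h1 := finrank_sup S hc hc' hcd hcd' hcop m
    have a1 := hm₀ m (by omega)
    have a2 := hm₀ (m - n) (by omega)
    have a3 := hm₀ (m - n') (by omega)
    have a4 := hm₀ (m - n - n') (by omega)
    have h2 : (finrank k ((D.F (m - n)).map (LinearMap.mulLeft k c) ⊔
      (D.F (m - n')).map (LinearMap.mulLeft k c') : Submodule k Q) : ℚ) +
        finrank k (D.F (m - n - n')) = finrank k (D.F (m - n)) + finrank k (D.F (m - n')) := by
      exact_mod_cast h1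
    rw [a2, a3, a4] at h2
    have h3 : (finrank k (D.F m) : ℚ) = finrank k ((D.F (m - n)).map (LinearMap.mulLeft k c) ⊔
      (D.F (m - n')).map (LinearMap.mulLeft k c') : Submodule k Q) + N * n * n' := by
      rw [a1]
      push_cast at h2
      linear_combination (-1 : ℚ) * h2
    have h4 : finrank k (D.F m) = finrank k ((D.F (m - n)).map (LinearMap.mulLeft k c) ⊔
      (D.F (m - n')).map (LinearMap.mulLeft k c') : Submodule k Q) + N * n * n' := by
      exact_mod_cast h3
    omega
  · have := finrank_mono_F D (show m ≤ m₀ + n + n' by omega)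
    omega

/-- multiplying by powers of an element of exact order -/
theorem exact_shift (S : Places D ι) {I : ℤ → Submodule k Q} (hI : IsTLat D I) (P : ι)
    {m : ℤ} {g : Q} (hg : g ∈ I m) (g0 : g ≠ 0) (h : (S.pl P).ord g = -(S.c P) * m) (j : ℕ) :
    ∃ g' ∈ I (m + j), g' ≠ 0 ∧ (S.pl P).ord g' = -(S.c P) * (m + j) := by
  induction j with
  | zero => exact ⟨g, by simpa using hg, g0, by simpa using h⟩
  | succ j ih =>
    obtain ⟨g', hg', g0', h'⟩ := ih
    obtain ⟨t, ht, t0, hto⟩ := S.lead P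
    refine ⟨t * g', ?_, mul_ne_zero t0 g0', ?_⟩
    · have := hI.act 1 (m + j) t ht g' hg'
      have e : 1 + (m + j) = m + ((j + 1 : ℕ) : ℤ) := by push_cast; ring
      rw [e] at this
      exact this
    · rw [(S.pl P).ord_mul t g' t0 g0', hto, h']
      push_cast; ring

/-- (D1) a graded ideal contained in no place has bounded colength. -/
theorem boundedColength [Infinite k] (S : Places D ι) {N : ℕ} {bT cT : ℚ}
    (hHP : HasHP D.F N bT cT) : BoundedColengthStatement D S := by
  classical
  intro I hI hle hord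
  -- a nonzero element of `I`
  have hne : ∃ d : ℤ, ∃ c ∈ I d, c ≠ 0 := by
    by_contra hcon
    push Not at hcon
    have : spanK Q I = ⊥ := by
      unfold spanK
      rw [Submodule.span_eq_bot]
      intro x hx
      obtain ⟨m, hm⟩ := Set.mem_iUnion.1 hx
      exact hcon m x hm
    rw [hI.full] at this
    exact absurd this top_ne_bot
  obtain ⟨d, c, hc, c0⟩ := hne
  have hcF := hle d hc
  -- exact elements at every place
  have hex : ∀ P, ∃ m : ℤ, ∃ g ∈ I m, g ≠ 0 ∧ (S.pl P).ord g = -(S.c P) * m := by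
    intro P
    have hbdd : ∀ n ∈ ordSet S P I, 0 ≤ n := by
      rintro n ⟨m, g, hg, g0, rfl⟩
      have := ord_ge S P (hle m hg) g0
      linarith
    have hnonempty : (ordSet S P I).Nonempty := ⟨_, d, c, hc, c0, rfl⟩
    have hmem : sInf (ordSet S P I) ∈ ordSet S P I :=
      Int.csInf_mem hnonempty ⟨0, fun n hn => hbdd n hn⟩
    have h0 := hord P
    unfold ordL at h0
    rw [h0] at hmem
    obtain ⟨m, g, hg, g0, h⟩ := hmem
    exact ⟨m, g, hg, g0, by linarith⟩
  -- the bad places of `c`
  let A : Set ι := {P | (S.pl P).ord c ≠ -(S.c P) * d}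
  have hA : A.Finite := by
    apply ((S.fin c c0).union S.cfin).subset
    intro P hP
    by_contra hcon
    rw [Set.mem_union, not_or] at hcon
    obtain ⟨h1, h2⟩ := hcon
    simp only [Set.mem_ofPred_eq, not_not] at h1 h2
    apply hP
    rw [h1, h2]; ring
  choose mm gg hgg hgg0 hggo using hex
  obtain ⟨M, hM⟩ : ∃ M : ℤ, d ≤ M ∧ ∀ P ∈ A, mm P ≤ M := by
    obtain ⟨M, hM⟩ := (hA.image mm).bddAbove
    exact ⟨max d M, le_max_left _ _, fun P hP => (hM ⟨P, hP, rfl⟩).trans (le_max_right _ _)⟩
  have hM1 := hM.1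
  have hM2 := hM.2
  obtain ⟨c', hc', c0', hc'o⟩ : ∃ g ∈ I M, g ≠ 0 ∧ ∀ P ∈ A, (S.pl P).ord g = -(S.c P) * M := by
    refine avoid S M (I M) (fun P g hg g0 => ord_ge S P (hle M hg) g0) A hA ?_ ?_
    · -- nonzero element of `I M`
      obtain ⟨j, hj⟩ := Int.le.dest hM1
      refine ⟨c, ?_, c0⟩
      rw [← hj]
      clear hj
      induction j with
      | zero => simpa using hc
      | succ j ih =>
        have := hI.lat.mono (d + j) ih
        have e : d + ((j + 1 : ℕ) : ℤ) = d + j + 1 := by push_cast; ring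
        rwa [e]
    · intro P hP
      obtain ⟨j, hj⟩ := Int.le.dest (hM2 P hP)
      obtain ⟨g', h1, h2, h3⟩ := exact_shift S hI P (hgg P) (hgg0 P) (hggo P) j
      rw [hj] at h1 h3
      exact ⟨g', h1, h2, h3⟩
  have hcop : ∀ P, (S.pl P).ord c = -(S.c P) * d ∨ (S.pl P).ord c' = -(S.c P) * M := by
    intro P
    by_cases h : P ∈ A
    · exact Or.inr (hc'o P h)
    · left
      by_contra h'
      exact h h'
  obtain ⟨e, he⟩ := coprime_bound S hHP c0 c0' hcF (hle M hc') hcop
  refine ⟨e, fun m => (he m).trans ?_⟩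
  have := hI.lat.fin m
  have hsub : (D.F (m - d)).map (LinearMap.mulLeft k c) ⊔
        (D.F (m - M)).map (LinearMap.mulLeft k c') ≤ I m := by
    refine sup_le ?_ ?_
    · rintro _ ⟨f, hf, rfl⟩
      have := hI.act (m - d) d f hf c hc
      have e : m - d + d = m := by ring
      rw [e] at this
      simpa [mul_comm] using this
    · rintro _ ⟨f, hf, rfl⟩
      have := hI.act (m - M) M f hf c' hc'
      have e : m - M + M = m := by ring
      rw [e] at this
      simpa [mul_comm] using this
  have := Submodule.finrank_mono hsub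
  omega

end Basic

end Crest.Agent.R169.D1
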