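import Crest.Agent.R169.PlaceBasic

/-!
# Row 169: Part D2 (generic sections)
-/

set_option autoImplicit false

namespace Crest.Agent.R169.D2

open Module

section Loc

variable {k Q V : Type} [Field k] [Field Q] [AddCommGroup V] [Module k V]
  [Module Q V]

/-- `Loc P c G n = 𝔪_P^n L_P`, `L_P` the local lattice of `G` at the place `P` (with `ord X = c`)
-/
def Loc (P : Place Q) (c : ℤ) (G : ℤ → Submodule k V) (n : ℤ) : AddSubgroup V :=
  AddSubgroup.closure {w | ∃ m : ℤ, ∃ g ∈ G m, ∃ f : Q, P.ge (c * m + n) f ∧ w = f • g}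

theorem mem_Loc (P : Place Q) (c : ℤ) (G : ℤ → Submodule k V) (m : ℤ) (g : V) (hg : g ∈ G m) :
    g ∈ Loc P c G (-(c * m)) := by
  refine AddSubgroup.subset_closure ⟨m, g, hg, 1, ?_, (one_smul _ _).symm⟩
  rw [add_neg_cancel]; exact P.ge_one

theorem Loc_smul (P : Place Q) (c : ℤ) (G : ℤ → Submodule k V) {n j : ℤ} {f : Q}
    (hf : P.ge j f) {w : V} (hw : w ∈ Loc P c G n) : f • w ∈ Loc P c G (n + j) := by
  induction hw using AddSubgroup.closure_induction with
  | mem w hw =>
    obtain ⟨m, g, hg, f', hf', rfl⟩ := hw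
    refine AddSubgroup.subset_closure ⟨m, g, hg, f * f', ?_, (mul_smul _ _ _).symm⟩
    have := hf.mul hf'
    exact this.mono (by omega)
  | zero => rw [smul_zero]; exact AddSubgroup.zero_mem _
  | add x y _ _ hx hy => rw [smul_add]; exact AddSubgroup.add_mem _ hx hy
  | neg x _ hx => rw [smul_neg]; exact AddSubgroup.neg_mem _ hx

theorem Loc_mono (P : Place Q) (c : ℤ) (G : ℤ → Submodule k V) {n n' : ℤ} (h : n' ≤ n)
    {w : V} (hw : w ∈ Loc P c G n) : w ∈ Loc P c G n' := by
  have := Loc_smul P c G (j := n' - n) (f := 1) (P.ge_one.mono (by omega)) hw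
  rw [one_smul] at this
  convert this using 2
  omega

/-- if `s ∈ G a` is primitive at `P` and `f • s ∈ Loc n`, then `ord f ≥ n + c a`. -/
theorem ge_of_prim' (P : Place Q) (c : ℤ) (G : ℤ → Submodule k V) {a n : ℤ} {s : V}
    (hs : s ∉ Loc P c G (1 - c * a)) {f : Q} (hf : f • s ∈ Loc P c G n) :
    P.ge (n + c * a) f := by
  by_cases h0 : f = 0
  · exact Or.inl h0
  right
  by_contra hlt
  push Not at hlt
  apply hs
  have h2 := Loc_smul P c G (j := - P.ord f) (f := f⁻¹) (Or.inr (by rw [P.ord_inv _ h0])) hf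
  rw [smul_smul, inv_mul_cancel₀ h0, one_smul] at h2
  exact Loc_mono P c G (by omega) h2

/-- if `s ∈ G a` is primitive at `P` and `f • s ∈ G m`, then `ord f ≥ -c (m-a)`. -/
theorem ge_of_prim (P : Place Q) (c : ℤ) (G : ℤ → Submodule k V) {a m : ℤ} {s : V}
    (hs : s ∉ Loc P c G (1 - c * a)) {f : Q} (hf : f • s ∈ G m) : P.ge (-(c * (m - a))) f :=
  (ge_of_prim' P c G hs (mem_Loc P c G m _ hf)).mono (le_of_eq (by ring))

/-- from a bound on `G` to a bound on `Loc`. -/
theorem ge_Loc {P : Place Q} {c N : ℤ} {G : ℤ → Submodule k V} {ℓ : V →ₗ[Q] Q}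
    (h : ∀ m, ∀ g ∈ G m, P.ge (-(c * m) - N) (ℓ g)) {n : ℤ} {w : V} (hw : w ∈ Loc P c G n) :
    P.ge (n - N) (ℓ w) := by
  induction hw using AddSubgroup.closure_induction with
  | mem w hw =>
    obtain ⟨m, g, hg, f', hf', rfl⟩ := hw
    rw [map_smul, smul_eq_mul]
    exact (hf'.mul (h m g hg)).mono (by omega)
  | zero => rw [map_zero]; exact Place.ge_zero _ _
  | add x y _ _ hx hy => rw [map_add]; exact hx.add hy
  | neg x _ hx => rw [map_neg]; exact hx.neg

/-- one step of the Hahn-Banach argument. -/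
theorem hb_step (P : Place Q) (c : ℤ) (G : ℤ → Submodule k V)
    (hbd : ∀ ℓ : V →ₗ[Q] Q, ∃ N : ℤ, ∀ n : ℤ, ∀ w ∈ Loc P c G n, P.ge (n - N) (ℓ w))
    (U : Submodule Q V) (l : V →ₗ[Q] Q)
    (hl : ∀ u ∈ U, ∀ n : ℤ, u ∈ Loc P c G n → P.ge n (l u)) (w : V) (hw : w ∉ U) :
    ∃ l' : V →ₗ[Q] Q, (∀ u ∈ U, l' u = l u) ∧
      ∀ u ∈ U ⊔ (Submodule.span Q {w}), ∀ n : ℤ, u ∈ Loc P c G n → P.ge n (l' u) := by
  classical
  -- functional vanishing on `U`, nonzero at `w`
  obtain ⟨ψ, hψw, hψU⟩ : ∃ ψ : V →ₗ[Q] Q, ψ w ≠ 0 ∧ ∀ u ∈ U, ψ u = 0 := by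
    obtain ⟨ψ, h1, h2⟩ := Submodule.exists_dual_map_eq_bot_of_notMem hw inferInstance
    refine ⟨ψ, h1, ?_⟩
    intro u hu
    have : ψ u ∈ U.map ψ := Submodule.mem_map_of_mem hu
    rw [h2, Submodule.mem_bot] at this
    exact this
  -- normalise
  let ψ' : V →ₗ[Q] Q := (ψ w)⁻¹ • ψ
  have hψ'w : ψ' w = 1 := by simp [ψ', hψw]
  have hψ'U : ∀ u ∈ U, ψ' u = 0 := fun u hu => by simp [ψ', hψU u hu]
  obtain ⟨N, hN⟩ := hbd ψ'
  -- the set of `n` such that some `u + w ∈ Loc n`, `u ∈ U`
  have hbdd : ∀ n : ℤ, (∃ u ∈ U, u + w ∈ Loc P c G n) → n ≤ N := by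
    rintro n ⟨u, hu, hun⟩
    have h1 := hN n _ hun
    rw [map_add, hψ'U u hu, hψ'w, zero_add] at h1
    rcases h1 with h1 | h1
    · exact absurd h1 one_ne_zero
    · rw [P.ord_one] at h1; omega
  by_cases hne : ∃ n : ℤ, ∃ u ∈ U, u + w ∈ Loc P c G n
  · obtain ⟨n₀, hn₀⟩ := hne
    -- maximal such `n`
    obtain ⟨M, ⟨u₀, hu₀, huM⟩, hM⟩ : ∃ M : ℤ, (∃ u ∈ U, u + w ∈ Loc P c G M) ∧
        ∀ n, (∃ u ∈ U, u + w ∈ Loc P c G n) → n ≤ M :=
      Int.exists_greatest_of_bdd ⟨N, hbdd⟩ ⟨n₀, hn₀⟩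
    refine ⟨l - ((l u₀) + l w) • ψ', ?_, ?_⟩
    · intro u hu
      simp [hψ'U u hu]
    · intro x hx n hxn
      obtain ⟨u, hu, y, hy, rfl⟩ := Submodule.mem_sup.1 hx
      obtain ⟨f, rfl⟩ := Submodule.mem_span_singleton.1 hy
      have hval : (l - ((l u₀) + l w) • ψ') (u + f • w) = l u - f * l u₀ := by
        simp [hψ'U u hu, hψ'w]
        ring
      rw [hval]
      by_cases hf : f = 0
      · subst hf
        rw [zero_mul, sub_zero]
        rw [zero_smul, add_zero] at hxn
        exact hl u hu n hxn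
      · -- divide by f
        have h1 : f⁻¹ • (u + f • w) ∈ Loc P c G (n - P.ord f) := by
          have := Loc_smul P c G (j := - P.ord f) (f := f⁻¹)
            (Or.inr (by rw [P.ord_inv _ hf])) hxn
          rwa [← sub_eq_add_neg] at this
        rw [smul_add, smul_smul, inv_mul_cancel₀ hf, one_smul] at h1
        have h2 : n - P.ord f ≤ M := hM _ ⟨f⁻¹ • u, U.smul_mem _ hu, h1⟩
        have h3 := Loc_mono P c G h2 huM
        have h4 : f⁻¹ • u - u₀ ∈ Loc P c G (n - P.ord f) := by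
          have := AddSubgroup.sub_mem _ h1 h3
          convert this using 1
          abel
        have h5 := hl _ (U.sub_mem (U.smul_mem _ hu) hu₀) _ h4
        have h6 := (P.ge_ord f).mul h5
        rw [map_sub, map_smul, smul_eq_mul] at h6
        have h7 : f * (f⁻¹ * l u - l u₀) = l u - f * l u₀ := by
          field_simp
        rw [h7] at h6
        exact h6.mono (by omega)
  · refine ⟨l, fun u _ => rfl, ?_⟩
    intro x hx n hxn
    obtain ⟨u, hu, y, hy, rfl⟩ := Submodule.mem_sup.1 hx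
    obtain ⟨f, rfl⟩ := Submodule.mem_span_singleton.1 hy
    by_cases hf : f = 0
    · subst hf
      rw [zero_smul, add_zero] at hxn ⊢
      exact hl u hu n hxn
    · exfalso
      apply hne
      refine ⟨n - P.ord f, f⁻¹ • u, U.smul_mem _ hu, ?_⟩
      have := Loc_smul P c G (j := - P.ord f) (f := f⁻¹) (Or.inr (by rw [P.ord_inv _ hf])) hxn
      rw [smul_add, smul_smul, inv_mul_cancel₀ hf, one_smul] at this
      rwa [← sub_eq_add_neg] at this

/-- Hahn-Banach: a primitive vector is detected by a normalised functional. -/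
theorem hb_exists [Module.Finite Q V] (P : Place Q) (c : ℤ) (G : ℤ → Submodule k V)
    (hbd : ∀ ℓ : V →ₗ[Q] Q, ∃ N : ℤ, ∀ n : ℤ, ∀ w ∈ Loc P c G n, P.ge (n - N) (ℓ w))
    {s : V} {a : ℤ} (hs : s ∉ Loc P c G (1 - c * a)) :
    ∃ l : V →ₗ[Q] Q, l s ≠ 0 ∧ P.ord (l s) = -(c * a) ∧
      ∀ n : ℤ, ∀ w ∈ Loc P c G n, P.ge n (l w) := by
  classical
  have hs0 : s ≠ 0 := by
    rintro rfl
    exact hs (AddSubgroup.zero_mem _)
  obtain ⟨ρ, hρ0, hρ⟩ := P.exists_ord_eq (-(c * a))
  obtain ⟨B, hB⟩ := (Module.Finite.iff_fg.1 (inferInstance : Module.Finite Q (⊤ : Submodule Q V)))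
  -- induct over finite subsets
  have key : ∀ T : Finset V, ∃ l : V →ₗ[Q] Q, l s = ρ ∧
      ∀ u ∈ Submodule.span Q {s} ⊔ Submodule.span Q (T : Set V), ∀ n : ℤ,
        u ∈ Loc P c G n → P.ge n (l u) := by
    intro T
    induction T using Finset.induction_on with
    | empty =>
      obtain ⟨ψ, hψ⟩ := Module.Projective.exists_dual_ne_zero Q hs0
      refine ⟨(ρ * (ψ s)⁻¹) • ψ, ?_, ?_⟩
      · simp [hψ]
      · intro u hu n hun
        rw [Finset.coe_empty, Submodule.span_empty, sup_bot_eq] at hu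
        obtain ⟨f, rfl⟩ := Submodule.mem_span_singleton.1 hu
        have h1 := ge_of_prim' P c G hs hun
        have h2 := h1.mul (P.ge_ord ρ)
        have h3 : ((ρ * (ψ s)⁻¹) • ψ) (f • s) = f * ρ := by
          simp only [LinearMap.smul_apply, map_smul, smul_eq_mul]
          field_simp
        rw [h3]
        exact h2.mono (by omega)
    | insert w T _ ih =>
      obtain ⟨l, hl1, hl2⟩ := ih
      by_cases hw : w ∈ Submodule.span Q {s} ⊔ Submodule.span Q (T : Set V)
      · refine ⟨l, hl1, ?_⟩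
        intro u hu
        apply hl2
        have : Submodule.span Q {s} ⊔ Submodule.span Q ((insert w T : Finset V) : Set V) ≤
            Submodule.span Q {s} ⊔ Submodule.span Q (T : Set V) := by
          refine sup_le le_sup_left ?_
          rw [Finset.coe_insert, Submodule.span_insert]
          refine sup_le ?_ le_sup_right
          rw [Submodule.span_singleton_le_iff_mem]
          exact hw
        exact this hu
      · obtain ⟨l', h1, h2⟩ := hb_step P c G hbd _ l hl2 w hw
        refine ⟨l', ?_, ?_⟩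
        · rw [h1 s (Submodule.mem_sup_left (Submodule.mem_span_singleton_self s)), hl1]
        · intro u hu
          apply h2
          have : Submodule.span Q {s} ⊔ Submodule.span Q ((insert w T : Finset V) : Set V) =
            (Submodule.span Q {s} ⊔ Submodule.span Q (T : Set V)) ⊔ Submodule.span Q {w} := by
            rw [Finset.coe_insert, Submodule.span_insert]
            rw [sup_assoc, sup_comm (Submodule.span Q {w})]
          rwa [this] at hu
  obtain ⟨l, hl1, hl2⟩ := key B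
  refine ⟨l, by rw [hl1]; exact hρ0, by rw [hl1, hρ], ?_⟩
  intro n w hw
  refine hl2 w ?_ n hw
  rw [hB]
  exact Submodule.mem_sup_right trivial

end Loc

section Main

variable {k Q V ι : Type} [Field k] [Field Q] [Algebra k Q] [AddCommGroup V] [Module k V]
  [Module Q V] [IsScalarTower k Q V] {D : TData k Q} (Pl : Places D ι)

include Pl

omit Pl in
theorem lat_mono' {K : Type} [Field K] [Algebra k K] [Module K V] {u v : K}
    {E : ℤ → Submodule k V} (h : IsLat u v E) {m n : ℤ} (hmn : m ≤ n) :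
    E m ≤ E n := by
  obtain ⟨j, rfl⟩ := Int.le.dest hmn
  clear hmn
  induction j with
  | zero => simp
  | succ j ih =>
    have := h.mono (m + j)
    refine ih.trans ?_
    convert this using 2
    push_cast; ring

/-- Boundedness of a functional along `G` at every place, and integrality at almost all. -/
theorem _root_.Crest.Agent.R169.Places.bound_gen {G : ℤ → Submodule k V} (hG : IsTLat D G) (ℓ : V →ₗ[Q] Q) :
    ∃ (m₀ m₁ : ℤ) (B : Finset V), (∀ m ≤ m₀, G m = ⊥) ∧ m₀ ≤ m₁ ∧
      ∀ (P : ι) (N : ℤ), (∀ b ∈ B, (Pl.pl P).ge (-(Pl.c P * m₀) - N) (ℓ b)) →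
        ∀ m, ∀ g ∈ G m, (Pl.pl P).ge (-(Pl.c P * m) - N) (ℓ g) := by
  obtain ⟨m₀, hm₀⟩ := hG.lat.bot
  obtain ⟨m₁, hm₁⟩ := hG.lat.gen
  have := hG.lat.fin (max m₀ m₁)
  obtain ⟨B, hB⟩ := (Module.Finite.iff_fg.1 (hG.lat.fin (max m₀ m₁)))
  refine ⟨m₀, max m₀ m₁, B, hm₀, le_max_left _ _, ?_⟩
  intro P N hN
  have hc := Pl.c_nonneg P
  have hbase : ∀ g ∈ G (max m₀ m₁), (Pl.pl P).ge (-(Pl.c P * m₀) - N) (ℓ g) := by
    intro g hg
    rw [← hB] at hg
    induction hg using Submodule.span_induction with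
    | mem x hx => exact hN x hx
    | zero => rw [map_zero]; exact Place.ge_zero _ _
    | add x y _ _ hx hy => rw [map_add]; exact hx.add hy
    | smul a x _ hx =>
      have : a • x = (algebraMap k Q a) • x := by rw [algebraMap_smul]
      rw [this, map_smul, smul_eq_mul]
      have := (Pl.ge_algebraMap P a).mul hx
      rwa [zero_add] at this
  have hlow : ∀ m ≤ max m₀ m₁, ∀ g ∈ G m, (Pl.pl P).ge (-(Pl.c P * m) - N) (ℓ g) := by
    intro m hm g hg
    by_cases h : m ≤ m₀
    · rw [hm₀ m h, Submodule.mem_bot] at hg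
      subst hg; rw [map_zero]; exact Place.ge_zero _ _
    · push Not at h
      refine (hbase g (lat_mono' hG.lat hm hg)).mono ?_
      nlinarith
  intro m
  by_cases h : m ≤ max m₀ m₁
  · exact hlow m h
  push Not at h
  obtain ⟨j, hj⟩ := Int.le.dest h.le
  subst hj
  clear h
  induction j with
  | zero => intro g hg; exact hlow _ (by simp) g (by simpa using hg)
  | succ j ih =>
    intro g hg
    have hg' : g ∈ G ((max m₀ m₁ + (j : ℤ)) + 1) := by
      convert hg using 2
      push_cast; ring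
    obtain ⟨a, ha, b, hb, c, hcc, rfl⟩ := hm₁ _ (by omega) g hg'
    have hu := Pl.ge_of_mem D.u_mem P
    have hv := Pl.ge_of_mem D.v_mem P
    rw [map_add, map_add, map_smul, map_smul, smul_eq_mul, smul_eq_mul]
    have h1 := (ih a ha).mono (m := -(Pl.c P * (max m₀ m₁ + ((j + 1 : ℕ) : ℤ))) - N) (by
      push_cast; nlinarith)
    have h2 := (hu.mul (ih b hb)).mono (m := -(Pl.c P * (max m₀ m₁ + ((j + 1 : ℕ) : ℤ))) - N) (by
      push_cast; nlinarith)
    have h3 := (hv.mul (ih c hcc)).mono (m := -(Pl.c P * (max m₀ m₁ + ((j + 1 : ℕ) : ℤ))) - N) (by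
      push_cast; nlinarith)
    exact (h1.add h2).add h3

/-- every functional is integral on the local lattice at almost all places. -/
theorem _root_.Crest.Agent.R169.Places.good_finite {G : ℤ → Submodule k V} (hG : IsTLat D G) (ℓ : V →ₗ[Q] Q) :
    {P | ¬ (Pl.c P = 0 ∧ ∀ n : ℤ, ∀ w ∈ Loc (Pl.pl P) (Pl.c P) G n,
      (Pl.pl P).ge n (ℓ w))}.Finite := by
  obtain ⟨m₀, m₁, B, -, -, hB⟩ := Pl.bound_gen hG ℓ
  classical
  have hfin : ({P | Pl.c P ≠ 0} ∪ ⋃ b ∈ B, {P | ℓ b ≠ 0 ∧ (Pl.pl P).ord (ℓ b) ≠ 0}).Finite := by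
    refine Pl.cfin.union ?_
    refine Set.Finite.biUnion B.finite_toSet ?_
    intro b _
    by_cases hb : ℓ b = 0
    · simp [hb]
    · exact (Pl.fin _ hb).subset fun P hP => hP.2
  refine hfin.subset ?_
  intro P hP
  by_contra hcon
  apply hP
  simp only [Set.mem_union, Set.mem_ofPred_eq, Set.mem_iUnion, not_or, not_exists, not_and,
    not_not] at hcon
  obtain ⟨h1, h2⟩ := hcon
  refine ⟨h1, ?_⟩
  intro n w hw
  have h3 := hB P 0 (by
    intro b hb
    rw [h1]
    by_cases h0 : ℓ b = 0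
    · exact Or.inl h0
    · exact Or.inr (by rw [h2 b hb h0]; simp))
  have h4 := ge_Loc h3 hw
  simpa using h4

/-- at every place a functional is bounded on the local lattice. -/
theorem _root_.Crest.Agent.R169.Places.loc_bound {G : ℤ → Submodule k V} (hG : IsTLat D G) (P : ι) (ℓ : V →ₗ[Q] Q) :
    ∃ N : ℤ, ∀ n : ℤ, ∀ w ∈ Loc (Pl.pl P) (Pl.c P) G n, (Pl.pl P).ge (n - N) (ℓ w) := by
  obtain ⟨m₀, m₁, B, -, -, hB⟩ := Pl.bound_gen hG ℓ
  classical
  -- choose N with -(c m₀) - N ≤ ord (ℓ b) for all b ∈ B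
  obtain ⟨N, hN⟩ : ∃ N : ℤ, ∀ b ∈ B, -(Pl.c P * m₀) - N ≤ (Pl.pl P).ord (ℓ b) := by
    refine ⟨∑ b ∈ B, |(-(Pl.c P * m₀)) - (Pl.pl P).ord (ℓ b)|, ?_⟩
    intro b hb
    have h1 := Finset.single_le_sum (f := fun b => |(-(Pl.c P * m₀)) - (Pl.pl P).ord (ℓ b)|)
      (fun i _ => abs_nonneg _) hb
    have h2 := le_abs_self ((-(Pl.c P * m₀)) - (Pl.pl P).ord (ℓ b))
    have h3 := h2.trans h1
    omega
  refine ⟨N, ?_⟩
  intro n w hw
  exact ge_Loc (hB P N fun b hb => Or.inr (hN b hb)) hw

/-- there is a primitive vector at every place. -/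
theorem _root_.Crest.Agent.R169.Places.exists_prim {G : ℤ → Submodule k V} (hG : IsTLat D G) [Nontrivial V] (P : ι) :
    ∃ m₁ : ℤ, ∀ a ≥ m₁, ∃ g ∈ G a, g ∉ Loc (Pl.pl P) (Pl.c P) G (1 - Pl.c P * a) := by
  have hex : ∃ m : ℤ, ∃ g ∈ G m, g ∉ Loc (Pl.pl P) (Pl.c P) G (1 - Pl.c P * m) := by
    by_contra hcon
    push Not at hcon
    -- Loc n ≤ Loc (n+1)
    have hstep : ∀ n : ℤ, ∀ w ∈ Loc (Pl.pl P) (Pl.c P) G n,
        w ∈ Loc (Pl.pl P) (Pl.c P) G (n + 1) := by
      intro n w hw
      refine (AddSubgroup.closure_le (K := Loc (Pl.pl P) (Pl.c P) G (n + 1))).2 ?_ hw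
      rintro _ ⟨m, g, hg, f, hf, rfl⟩
      have := Loc_smul _ _ _ hf (hcon m g hg)
      exact Loc_mono _ _ _ (by omega) this
    -- some element of G nonzero
    have hne : ∃ m : ℤ, ∃ g ∈ G m, g ≠ 0 := by
      by_contra h
      push Not at h
      have hs : spanK Q G = ⊥ := by
        rw [spanK, Submodule.span_eq_bot]
        intro x hx
        obtain ⟨m, hm⟩ := Set.mem_iUnion.1 hx
        exact h m x hm
      rw [hG.full] at hs
      obtain ⟨x, hx⟩ := exists_ne (0 : V)
      apply hx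
      have : x ∈ (⊤ : Submodule Q V) := trivial
      rw [hs] at this
      simpa using this
    obtain ⟨m, g, hg, hg0⟩ := hne
    obtain ⟨ℓ, hℓ⟩ := Module.Projective.exists_dual_ne_zero Q hg0
    obtain ⟨N, hN⟩ := Pl.loc_bound hG P ℓ
    have hall : ∀ j : ℕ, g ∈ Loc (Pl.pl P) (Pl.c P) G (-(Pl.c P * m) + j) := by
      intro j
      induction j with
      | zero => simpa using mem_Loc _ _ G m g hg
      | succ j ih =>
        have := hstep _ _ ih
        convert this using 2
        push_cast; ring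
    have h1 := hN _ _ (hall (((Pl.pl P).ord (ℓ g) + N + Pl.c P * m + 1).toNat))
    rcases h1 with h1 | h1
    · exact hℓ h1
    · have := Int.self_le_toNat ((Pl.pl P).ord (ℓ g) + N + Pl.c P * m + 1)
      omega
  obtain ⟨m, g, hg, hg1⟩ := hex
  refine ⟨m, fun a ha => ?_⟩
  obtain ⟨j, rfl⟩ := Int.le.dest ha
  obtain ⟨h, hh, h0, hord⟩ := Pl.lead P
  refine ⟨h ^ j • g, ?_, ?_⟩
  · clear hord ha hg1
    induction j with
    | zero => simpa using hg
    | succ j ih =>
      have := hG.act 1 _ h hh _ ih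
      rw [smul_smul, ← pow_succ'] at this
      convert this using 2
      push_cast; ring
  · intro hcon
    apply hg1
    have h2 := Loc_smul (Pl.pl P) (Pl.c P) G (j := j * Pl.c P) (f := (h ^ j)⁻¹) (Or.inr (by
      rw [Place.ord_inv _ _ (pow_ne_zero _ h0), Place.ord_pow _ _ h0, hord]
      simp)) hcon
    rw [smul_smul, inv_mul_cancel₀ (pow_ne_zero _ h0), one_smul] at h2
    convert h2 using 2
    ring

omit Pl in
theorem Loc_ksmul (P : Place Q) (hP : ∀ x : k, P.ge 0 (algebraMap k Q x)) (c : ℤ)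
    (G : ℤ → Submodule k V) {n : ℤ} (x : k) {w : V} (hw : w ∈ Loc P c G n) :
    x • w ∈ Loc P c G n := by
  have h := Loc_smul P c G (hP x) hw
  rwa [add_zero, algebraMap_smul] at h

/-- there is a uniform degree in which primitive vectors exist at every place. -/
theorem _root_.Crest.Agent.R169.Places.exists_prim_unif [Module.Finite Q V] {G : ℤ → Submodule k V} (hG : IsTLat D G)
    [Nontrivial V] :
    ∃ m₁ : ℤ, ∀ a ≥ m₁, ∀ P, ∃ g ∈ G a, g ∉ Loc (Pl.pl P) (Pl.c P) G (1 - Pl.c P * a) := by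
  classical
  -- a nonzero element
  obtain ⟨m, g, hg, hg0⟩ : ∃ m : ℤ, ∃ g ∈ G m, g ≠ 0 := by
    by_contra h
    push Not at h
    have hs : spanK Q G = ⊥ := by
      rw [spanK, Submodule.span_eq_bot]
      intro x hx
      obtain ⟨m, hm⟩ := Set.mem_iUnion.1 hx
      exact h m x hm
    rw [hG.full] at hs
    obtain ⟨x, hx⟩ := exists_ne (0 : V)
    apply hx
    have : x ∈ (⊤ : Submodule Q V) := trivial
    rw [hs] at this
    simpa using this
  obtain ⟨ℓ, hℓ⟩ := Module.Projective.exists_dual_eq_one Q hg0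
  have hfin := Pl.good_finite hG ℓ
  choose M hM using fun P => Pl.exists_prim hG P
  obtain ⟨b, hb⟩ := (hfin.image M).bddAbove
  refine ⟨max m b, fun a ha P => ?_⟩
  by_cases hP : (Pl.c P = 0 ∧ ∀ n : ℤ, ∀ w ∈ Loc (Pl.pl P) (Pl.c P) G n,
      (Pl.pl P).ge n (ℓ w))
  · refine ⟨g, lat_mono' hG.lat ((le_max_left _ _).trans ha) hg, ?_⟩
    intro hcon
    have h1 := hP.2 _ _ hcon
    rw [hP.1, hℓ] at h1
    rcases h1 with h1 | h1
    · exact one_ne_zero h1
    · rw [Place.ord_one] at h1; omega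
  · have h1 : M P ≤ b := hb ⟨P, hP, rfl⟩
    exact hM P a (h1.trans ((le_max_right _ _).trans ha))

/-- **Generic sections**: in rank at least two there is a vector primitive at every place. -/
theorem _root_.Crest.Agent.R169.Places.exists_generic [Infinite k] [Module.Finite Q V] {G : ℤ → Submodule k V}
    (hG : IsTLat D G) (hR : 2 ≤ finrank Q V) :
    ∃ a : ℤ, ∃ s ∈ G a, s ≠ 0 ∧
      ∀ P, s ∉ Loc (Pl.pl P) (Pl.c P) G (1 - Pl.c P * a) := by
  classical
  have : Nontrivial V := Module.nontrivial_of_finrank_pos (R := Q) (by omega)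
  obtain ⟨m₁, hm₁⟩ := Pl.exists_prim_unif hG
  -- a nonzero element
  obtain ⟨m, g, hg, hg0⟩ : ∃ m : ℤ, ∃ g ∈ G m, g ≠ 0 := by
    by_contra h
    push Not at h
    have hs : spanK Q G = ⊥ := by
      rw [spanK, Submodule.span_eq_bot]
      intro x hx
      obtain ⟨m, hm⟩ := Set.mem_iUnion.1 hx
      exact h m x hm
    rw [hG.full] at hs
    obtain ⟨x, hx⟩ := exists_ne (0 : V)
    apply hx
    have : x ∈ (⊤ : Submodule Q V) := trivial
    rw [hs] at this
    simpa using this
  -- an element independent of `g`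
  obtain ⟨m', g', hg', hind⟩ : ∃ m' : ℤ, ∃ g' ∈ G m', g' ∉ Submodule.span Q {g} := by
    by_contra h
    push Not at h
    have hs : spanK Q G ≤ Submodule.span Q {g} := by
      rw [spanK, Submodule.span_le]
      intro x hx
      obtain ⟨m, hm⟩ := Set.mem_iUnion.1 hx
      exact h m x hm
    rw [hG.full] at hs
    have h1 := Submodule.finrank_mono hs
    rw [finrank_top, finrank_span_singleton hg0] at h1
    omega
  set a : ℤ := max m₁ (max m m') with ha
  have ham₁ : m₁ ≤ a := le_max_left _ _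
  have ham : m ≤ a := (le_max_left _ _).trans (le_max_right _ _)
  have ham' : m' ≤ a := (le_max_right _ _).trans (le_max_right _ _)
  have hga : g ∈ G a := lat_mono' hG.lat ham hg
  have hga' : g' ∈ G a := lat_mono' hG.lat ham' hg'
  -- bad places of `g`
  obtain ⟨ℓ, hℓ⟩ := Module.Projective.exists_dual_eq_one Q hg0
  have hBfin : {P | g ∈ Loc (Pl.pl P) (Pl.c P) G (1 - Pl.c P * a)}.Finite := by
    refine (Pl.good_finite hG ℓ).subset ?_
    intro P hP hgood
    have h1 := hgood.2 _ _ hP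
    rw [hgood.1, hℓ] at h1
    rcases h1 with h1 | h1
    · exact one_ne_zero h1
    · rw [Place.ord_one] at h1; omega
  have := hBfin.to_subtype
  -- choose t
  obtain ⟨t, hta, htind, htprim⟩ : ∃ t ∈ G a, t ∉ Submodule.span Q {g} ∧
      ∀ P, g ∈ Loc (Pl.pl P) (Pl.c P) G (1 - Pl.c P * a) →
        t ∉ Loc (Pl.pl P) (Pl.c P) G (1 - Pl.c P * a) := by
    by_contra hcon
    push Not at hcon
    let LK : ι → Submodule k V := fun P =>
      { carrier := Loc (Pl.pl P) (Pl.c P) G (1 - Pl.c P * a)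
        add_mem' := fun hx hy => AddSubgroup.add_mem _ hx hy
        zero_mem' := AddSubgroup.zero_mem _
        smul_mem' := fun x w hw => Loc_ksmul _ (Pl.ge_algebraMap P) _ _ x hw }
    let pp : Option {P | g ∈ Loc (Pl.pl P) (Pl.c P) G (1 - Pl.c P * a)} →
        Submodule k (G a) := fun o => match o with
      | none => ((Submodule.span Q {g}).restrictScalars k).comap (G a).subtype
      | some P => (LK P.1).comap (G a).subtype
    have hcov : ⋃ i, (pp i : Set (G a)) = Set.univ := by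
      rw [Set.eq_univ_iff_forall]
      intro x
      rw [Set.mem_iUnion]
      by_cases hx : (x : V) ∈ Submodule.span Q {g}
      · exact ⟨none, hx⟩
      · obtain ⟨P, hP1, hP2⟩ := hcon x x.2 hx
        exact ⟨some ⟨P, hP1⟩, hP2⟩
    obtain ⟨o, ho⟩ := Subspace.exists_eq_top_of_iUnion_eq_univ hcov
    match o, ho with
    | none, ho =>
      apply hind
      have : (⟨g', hga'⟩ : G a) ∈ pp none := by rw [ho]; trivial
      exact this
    | some P, ho =>
      obtain ⟨x, hx, hxp⟩ := hm₁ a ham₁ P.1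
      apply hxp
      have : (⟨x, hx⟩ : G a) ∈ pp (some P) := by rw [ho]; trivial
      exact this
  -- functional `ℓ'` with `ℓ' g = 1`, `ℓ' t = 0`
  have hgt : g ∉ Submodule.span Q {t} := by
    intro h
    obtain ⟨f, hf⟩ := Submodule.mem_span_singleton.1 h
    have hf0 : f ≠ 0 := by
      rintro rfl
      rw [zero_smul] at hf
      exact hg0 hf.symm
    apply htind
    refine Submodule.mem_span_singleton.2 ⟨f⁻¹, ?_⟩
    rw [← hf, smul_smul, inv_mul_cancel₀ hf0, one_smul]
  obtain ⟨ψ, hψ1, hψ2⟩ : ∃ ψ : V →ₗ[Q] Q, ψ g = 1 ∧ ψ t = 0 := by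
    obtain ⟨ψ, h1, h2⟩ := Submodule.exists_dual_map_eq_bot_of_notMem hgt inferInstance
    have h3 : ψ t = 0 := by
      have : ψ t ∈ (Submodule.span Q {t}).map ψ :=
        Submodule.mem_map_of_mem (Submodule.mem_span_singleton_self t)
      rw [h2, Submodule.mem_bot] at this
      exact this
    refine ⟨(ψ g)⁻¹ • ψ, ?_, ?_⟩
    · rw [LinearMap.smul_apply, smul_eq_mul, inv_mul_cancel₀ h1]
    · rw [LinearMap.smul_apply, h3, smul_zero]
  have hB2 := Pl.good_finite hG ψ
  -- bad values of `λ`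
  have hbadfin : {x : k | ∃ P, g + x • t ∈ Loc (Pl.pl P) (Pl.c P) G (1 - Pl.c P * a)}.Finite := by
    have hsub : {x : k | ∃ P, g + x • t ∈ Loc (Pl.pl P) (Pl.c P) G (1 - Pl.c P * a)} ⊆
        ⋃ P ∈ {P | ¬ (Pl.c P = 0 ∧ ∀ n : ℤ, ∀ w ∈ Loc (Pl.pl P) (Pl.c P) G n,
          (Pl.pl P).ge n (ψ w))},
          {x : k | g + x • t ∈ Loc (Pl.pl P) (Pl.c P) G (1 - Pl.c P * a)} := by
      rintro x ⟨P, hP⟩
      rw [Set.mem_iUnion₂]
      refine ⟨P, ?_, hP⟩
      intro hgood
      have h1 := hgood.2 _ _ hP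
      have h2 : ψ (g + x • t) = 1 := by
        have : x • t = (algebraMap k Q x) • t := by rw [algebraMap_smul]
        rw [map_add, this, map_smul, hψ1, hψ2, smul_zero, add_zero]
      rw [hgood.1, h2] at h1
      rcases h1 with h1 | h1
      · exact one_ne_zero h1
      · rw [Place.ord_one] at h1; omega
    refine (Set.Finite.biUnion hB2 ?_).subset hsub
    intro P _
    refine Set.Subsingleton.finite ?_
    intro x hx y hy
    by_contra hxy
    have hx' : g + x • t ∈ Loc (Pl.pl P) (Pl.c P) G (1 - Pl.c P * a) := hx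
    have hy' : g + y • t ∈ Loc (Pl.pl P) (Pl.c P) G (1 - Pl.c P * a) := hy
    have h1 := AddSubgroup.sub_mem _ hx' hy'
    have h2 : g + x • t - (g + y • t) = (x - y) • t := by rw [sub_smul]; abel
    rw [h2] at h1
    have h3 := Loc_ksmul _ (Pl.ge_algebraMap P) _ _ (x - y)⁻¹ h1
    rw [smul_smul, inv_mul_cancel₀ (sub_ne_zero.2 hxy), one_smul] at h3
    have h4 := AddSubgroup.sub_mem _ hx' (Loc_ksmul _ (Pl.ge_algebraMap P) _ _ x h3)
    rw [add_sub_cancel_right] at h4
    exact htprim P h4 h3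
  obtain ⟨x, hx⟩ := hbadfin.exists_notMem
  refine ⟨a, g + x • t, (G a).add_mem hga ((G a).smul_mem _ hta), ?_, ?_⟩
  · intro h0
    apply hgt
    refine Submodule.mem_span_singleton.2 ⟨-(algebraMap k Q x), ?_⟩
    rw [neg_smul, algebraMap_smul]
    exact (eq_neg_of_add_eq_zero_left h0).symm
  intro P hP
  exact hx ⟨P, hP⟩

end Main

section Quot

variable {k Q V : Type} [Field k] [Field Q] [Algebra k Q] [AddCommGroup V] [Module k V]
  [Module Q V] [IsScalarTower k Q V] {D : TData k Q}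

/-- the image of a `T`-lattice in a quotient is a `T`-lattice. -/
theorem tlat_quotU {G : ℤ → Submodule k V} (hG : IsTLat D G) (U : Submodule Q V) :
    IsTLat D (quotU G U) where
  lat :=
    { mono := fun m => Submodule.map_mono (hG.lat.mono m)
      umul := by
        rintro m _ ⟨e, he, rfl⟩
        refine ⟨D.u • e, hG.lat.umul m e he, ?_⟩
        simp
      vmul := by
        rintro m _ ⟨e, he, rfl⟩
        refine ⟨D.v • e, hG.lat.vmul m e he, ?_⟩
        simp
      fin := fun m => by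
        have := hG.lat.fin m
        exact (Module.Finite.iff_fg.2 ((Module.Finite.iff_fg.1 this).map _))
      bot := by
        obtain ⟨m₀, h⟩ := hG.lat.bot
        refine ⟨m₀, fun m hm => ?_⟩
        unfold Crest.Agent.R169.quotU
        rw [h m hm, Submodule.map_bot]
      gen := by
        obtain ⟨m₁, h⟩ := hG.lat.gen
        refine ⟨m₁, fun m hm => ?_⟩
        rintro _ ⟨e, he, rfl⟩
        obtain ⟨a, ha, b, hb, c, hc, rfl⟩ := h m hm e he
        refine ⟨_, ⟨a, ha, rfl⟩, _, ⟨b, hb, rfl⟩, _, ⟨c, hc, rfl⟩, ?_⟩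
        simp }
  act := by
    rintro i j f hf _ ⟨g, hg, rfl⟩
    refine ⟨f • g, hG.act i j f hf g hg, ?_⟩
    simp
  full := by
    rw [eq_top_iff]
    have h1 : (spanK Q G).map U.mkQ ≤ spanK Q (Crest.Agent.R169.quotU G U) := by
      rw [spanK, Submodule.map_span, spanK]
      apply Submodule.span_mono
      rintro _ ⟨x, hx, rfl⟩
      obtain ⟨m, hm⟩ := Set.mem_iUnion.1 hx
      exact Set.mem_iUnion.2 ⟨m, x, hm, rfl⟩
    rw [hG.full, Submodule.map_top, Submodule.range_mkQ] at h1
    exact h1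

end Quot

section Flag

/-- **D2**: generic flags, for arbitrary ambient space. -/
theorem flag_aux {k Q ι : Type} [Field k] [Field Q] [Algebra k Q] {D : TData k Q} [Infinite k]
    (Pl : Places D ι) : ∀ (r : ℕ) (V : Type) [AddCommGroup V] [Module k V] [Module Q V]
    [IsScalarTower k Q V] (G : ℤ → Submodule k V), IsTLat D G → finrank Q V = r + 1 →
    ∃ (e : Basis (Fin (r + 1)) Q V) (a : Fin r → ℤ),
      (∀ i : Fin r, e i.castSucc ∈ G (a i)) ∧
      ∀ (P : ι) (i : Fin r), ∃ l : V →ₗ[Q] Q,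
        (∀ j : Fin (r + 1), j < i.castSucc → l (e j) = 0) ∧
        (∀ m : ℤ, ∀ g ∈ G m, l g = 0 ∨ -(Pl.c P) * m ≤ (Pl.pl P).ord (l g)) ∧
        l (e i.castSucc) ≠ 0 ∧ (Pl.pl P).ord (l (e i.castSucc)) = -(Pl.c P) * a i := by
  intro r
  induction r with
  | zero =>
    intro V _ _ _ _ G hG hV
    have : Module.Finite Q V := Module.finite_of_finrank_pos (by omega)
    refine ⟨Module.finBasisOfFinrankEq Q V hV, Fin.elim0, fun i => i.elim0, fun _ i => i.elim0⟩
  | succ r ih =>
    intro V _ _ _ _ G hG hV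
    have : Module.Finite Q V := Module.finite_of_finrank_pos (by omega)
    obtain ⟨a₀, s, hs, hs0, hprim⟩ := Pl.exists_generic hG (by omega)
    let U : Submodule Q V := Submodule.span Q {s}
    have hU : finrank Q (V ⧸ U) = r + 1 := by
      have h1 := Submodule.finrank_quotient_add_finrank U
      have h2 : finrank Q U = 1 := finrank_span_singleton hs0
      omega
    obtain ⟨e', a', he', hl'⟩ := ih (V ⧸ U) (quotU G U) (tlat_quotU hG U) hU
    -- lifts
    have hlift : ∀ j : Fin (r + 1), ∃ y : V, U.mkQ y = e' j ∧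
        ∀ i : Fin r, i.castSucc = j → y ∈ G (a' i) := by
      intro j
      by_cases hj : ∃ i : Fin r, i.castSucc = j
      · obtain ⟨i, rfl⟩ := hj
        obtain ⟨y, hy, hy2⟩ := he' i
        refine ⟨y, hy2, ?_⟩
        intro i' hi'
        rw [Fin.castSucc_inj] at hi'
        subst hi'
        exact hy
      · obtain ⟨y, hy⟩ := U.mkQ_surjective (e' j)
        exact ⟨y, hy, fun i hi => absurd ⟨i, hi⟩ hj⟩
    choose y hy1 hy2 using hlift
    have hyind : LinearIndependent Q y := by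
      have : LinearIndependent Q (U.mkQ ∘ y) := by
        have h : U.mkQ ∘ y = e' := funext hy1
        rw [h]
        exact e'.linearIndependent
      exact LinearIndependent.of_comp _ this
    have hcons : LinearIndependent Q (Fin.cons s y : Fin (r + 2) → V) := by
      rw [linearIndependent_finCons]
      refine ⟨hyind, ?_⟩
      intro hmem
      obtain ⟨c, hc⟩ := (Submodule.mem_span_range_iff_exists_fun Q).1 hmem
      have h1 : ∑ i, c i • e' i = 0 := by
        have h2 := congrArg U.mkQ hc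
        rw [map_sum] at h2
        simp only [map_smul, hy1] at h2
        rw [h2, Submodule.mkQ_apply, Submodule.Quotient.mk_eq_zero]
        exact Submodule.mem_span_singleton_self s
      have h3 := Fintype.linearIndependent_iff.1 e'.linearIndependent c h1
      apply hs0
      rw [← hc]
      exact Finset.sum_eq_zero fun i _ => by rw [h3 i, zero_smul]
    let e : Basis (Fin (r + 2)) Q V :=
      basisOfLinearIndependentOfCardEqFinrank hcons (by rw [Fintype.card_fin, hV])
    have hecoe : (e : Fin (r + 2) → V) = Fin.cons s y :=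
      coe_basisOfLinearIndependentOfCardEqFinrank _ _
    have he0 : e 0 = s := by rw [hecoe]; rfl
    have hes : ∀ j : Fin (r + 1), e j.succ = y j := by
      intro j; rw [hecoe]; rfl
    refine ⟨e, Fin.cons a₀ a', ?_, ?_⟩
    · intro i
      refine Fin.cases ?_ (fun i => ?_) i
      · rw [Fin.castSucc_zero, he0, Fin.cons_zero]; exact hs
      · rw [Fin.castSucc_succ, hes, Fin.cons_succ]
        exact hy2 _ i rfl
    · intro P i
      refine Fin.cases ?_ (fun i => ?_) i
      · obtain ⟨l, h1, h2, h3⟩ := hb_exists (Pl.pl P) (Pl.c P) G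
          (fun ℓ => Pl.loc_bound hG P ℓ) (hprim P)
        refine ⟨l, ?_, ?_, ?_, ?_⟩
        · intro j hj
          rw [Fin.castSucc_zero] at hj
          exact absurd hj (Fin.not_lt_zero j)
        · intro m g hg
          have := h3 _ g (mem_Loc (Pl.pl P) (Pl.c P) G m g hg)
          rcases this with h | h
          · exact Or.inl h
          · right; rwa [neg_mul]
        · rw [Fin.castSucc_zero, he0]; exact h1
        · rw [Fin.castSucc_zero, he0, Fin.cons_zero, h2, neg_mul]
      · obtain ⟨l, h1, h2, h3, h4⟩ := hl' P i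
        refine ⟨l ∘ₗ U.mkQ, ?_, ?_, ?_, ?_⟩
        · intro j hj
          rw [Fin.castSucc_succ] at hj
          revert hj
          refine Fin.cases ?_ (fun j => ?_) j
          · intro _
            rw [LinearMap.comp_apply, he0]
            have : U.mkQ s = 0 := by
              rw [Submodule.mkQ_apply, Submodule.Quotient.mk_eq_zero]
              exact Submodule.mem_span_singleton_self s
            rw [this, map_zero]
          · intro hj
            rw [LinearMap.comp_apply, hes, hy1]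
            exact h1 j (Fin.succ_lt_succ_iff.1 hj)
        · intro m g hg
          exact h2 m (U.mkQ g) ⟨g, hg, rfl⟩
        · rw [Fin.castSucc_succ, LinearMap.comp_apply, hes, hy1]; exact h3
        · rw [Fin.castSucc_succ, LinearMap.comp_apply, hes, hy1, Fin.cons_succ]; exact h4

/-- **D2**, in the frozen form. -/
theorem flagStatement {k Q ι : Type} [Field k] [Field Q] [Algebra k Q] {D : TData k Q}
    [Infinite k] (Pl : Places D ι) : FlagStatement D Pl := by
  intro r G hG
  exact flag_aux Pl r (Fin (r + 1) → Q) G hG (by simp)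

end Flag

end Crest.Agent.R169.D2
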