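import Crest.Agent.R169.RingDomain

/-! # Row 169, part F: the good monomials are a basis, `O n k` is a domain (helper877) -/

set_option autoImplicit false

namespace Crest.R169

section

variable (n : ℕ) (k : Type*) [Field k]

open Polynomial in
/-- classes of the `Z^{e/n}` are distinct -/
theorem rk_residue (n : ℕ) [NeZero n] (e e' : Fin 5 → ℕ) (he : ∀ i, e i < n) (he' : ∀ i, e' i < n)
    (c : rkK k) (h : ∏ j, rkZ k j ^ e j = c ^ n * ∏ j, rkZ k j ^ e' j) : e = e' := by
  have hn : 0 < n := NeZero.pos n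
  obtain ⟨N, D, hD, rfl⟩ := IsFractionRing.div_surjective (A := k[X][X]) c
  have hD0 : D ≠ 0 := nonZeroDivisors.ne_zero hD
  have hDm : algebraMap k[X][X] (rkK k) D ≠ 0 := by
    intro h0
    exact hD0 (IsFractionRing.injective k[X][X] (rkK k) (by rw [h0, map_zero]))
  have h1 := rkZ_prod k e
  have h2 := rkZ_prod k e'
  have hN0 : N ≠ 0 := by
    rintro rfl
    rw [map_zero, zero_div, zero_pow hn.ne', zero_mul, Finset.prod_eq_zero_iff] at h
    obtain ⟨j, -, hj⟩ := h
    exact rkZ_ne k j (eq_zero_of_pow_eq_zero hj)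
  have key : D ^ n * ((∏ j, rkP k j ^ e j) * (rkP k 0 ^ (e' 1 + e' 4) * rkP k 2 ^ (e' 1 + e' 3)))
      = N ^ n * ((∏ j, rkP k j ^ e' j) * (rkP k 0 ^ (e 1 + e 4) * rkP k 2 ^ (e 1 + e 3))) := by
    apply IsFractionRing.injective k[X][X] (rkK k)
    rw [map_mul, map_mul, map_mul (algebraMap k[X][X] (rkK k)) (N ^ n),
      map_mul (algebraMap k[X][X] (rkK k)) (∏ j, rkP k j ^ e' j), ← h1, ← h2, h, map_pow, map_pow,
      div_pow]
    have hDn : algebraMap k[X][X] (rkK k) D ^ n ≠ 0 := pow_ne_zero _ hDm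
    generalize algebraMap k[X][X] (rkK k) D ^ n = d at *
    generalize algebraMap k[X][X] (rkK k) N ^ n = m at *
    field_simp
  have key2 : D ^ n * ∏ j, rkP k j ^ (![e 0 + (e' 1 + e' 4), e 1, e 2 + (e' 1 + e' 3), e 3, e 4] :
      Fin 5 → ℕ) j = N ^ n * ∏ j, rkP k j ^ (![e' 0 + (e 1 + e 4), e' 1, e' 2 + (e 1 + e 3), e' 3,
        e' 4] : Fin 5 → ℕ) j := by
    rw [Fin.prod_univ_five, Fin.prod_univ_five] at key
    rw [Fin.prod_univ_five, Fin.prod_univ_five]
    simp only [Matrix.cons_val, pow_add (rkP k 0) (e 0), pow_add (rkP k 2) (e 2),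
      pow_add (rkP k 0) (e' 0), pow_add (rkP k 2) (e' 2)]
    linear_combination key
  have hv := rk_val (rkP k) (rkP_prime k) (rkP_not_dvd k) n N D hN0 hD0 _ _ key2
  have hmod : ∀ a b x y : ℕ, x < n → y < n → n * a + x = n * b + y → x = y := by
    intro a b x y hx hy hxy
    have := congrArg (· % n) hxy
    simp only [Nat.mul_add_mod, Nat.mod_eq_of_lt hx, Nat.mod_eq_of_lt hy] at this
    exact this
  have v1 : e 1 = e' 1 := hmod _ _ _ _ (he 1) (he' 1) (hv 1)
  have v3 : e 3 = e' 3 := hmod _ _ _ _ (he 3) (he' 3) (hv 3)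
  have v4 : e 4 = e' 4 := hmod _ _ _ _ (he 4) (he' 4) (hv 4)
  have v0 : e 0 = e' 0 := by
    have := hv 0
    simp only [Matrix.cons_val] at this
    rw [v1, v4] at this
    exact hmod (multiplicity (rkP k 0) D) (multiplicity (rkP k 0) N) _ _ (he 0) (he' 0) (by omega)
  have v2 : e 2 = e' 2 := by
    have := hv 2
    simp only [Matrix.cons_val] at this
    rw [v1, v3] at this
    exact hmod (multiplicity (rkP k 2) D) (multiplicity (rkP k 2) N) _ _ (he 2) (he' 2) (by omega)
  funext i
  fin_cases i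
  · exact v0
  · exact v1
  · exact v2
  · exact v3
  · exact v4

/-- existence of the model field with linearly independent good monomials -/
theorem rk_model [IsAlgClosed k] [NeZero (n : k)] :
    ∃ φ : ORing n k →ₐ[k] SeparableClosure (rkK k),
      LinearIndependent k (fun β : {β : Fin 5 → ℕ // Good n β} => φ (zm n k β.1)) := by
  classical
  have hn0 : n ≠ 0 := by
    rintro rfl
    exact NeZero.ne ((0 : ℕ) : k) (by simp)
  have : NeZero n := ⟨hn0⟩
  have hnK : NeZero (n : rkK k) := by
    refine ⟨?_⟩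
    have := NeZero.ne (n : k)
    intro h
    apply this
    apply (algebraMap k (rkK k)).injective
    rw [map_natCast, h, map_zero]
  have hnL : NeZero (n : SeparableClosure (rkK k)) := by
    refine ⟨?_⟩
    have := NeZero.ne (n : rkK k)
    intro h
    apply this
    apply (algebraMap (rkK k) (SeparableClosure (rkK k))).injective
    rw [map_natCast, h, map_zero]
  have hroot : ∀ j, ∃ x : SeparableClosure (rkK k), x ^ n = algebraMap _ _ (rkZ k j) := fun j =>
    IsSepClosed.exists_pow_nat_eq _ n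
  choose r hr using hroot
  have hrel : ∀ j, r j ^ n * r (j + 1) ^ n = 1 + r (j + 3) ^ n := by
    intro j
    rw [hr, hr, hr, ← map_mul, rkZ_rel, map_add, map_one]
  have hr0 : ∀ j, r j ≠ 0 := by
    intro j h
    have := hr j
    rw [h, zero_pow hn0] at this
    exact rkZ_ne k j ((map_eq_zero _).1 this.symm)
  refine ⟨ORing.lift r hrel, ?_⟩
  have hval : ∀ β : Fin 5 → ℕ, ORing.lift (k := k) r hrel (zm n k β) = ∏ j, r j ^ β j := by
    intro β
    simp [zm]
  simp only [hval]
  obtain ⟨ζ0, hζ0⟩ := HasEnoughRootsOfUnity.exists_primitiveRoot k n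
  have hζ : IsPrimitiveRoot (algebraMap k (rkK k) ζ0) n :=
    hζ0.map_of_injective (algebraMap k (rkK k)).injective
  have hli2 : LinearIndependent (rkK k) (fun e : Fin 5 → Fin n => ∏ j, r j ^ (e j : ℕ)) := by
    apply rk_kummer_li n (algebraMap k (rkK k) ζ0) hζ
    · intro e
      exact Finset.prod_ne_zero_iff.2 fun j _ => pow_ne_zero _ (hr0 j)
    · intro e
      refine ⟨∏ j, rkZ k j ^ (e j : ℕ), ?_⟩
      rw [map_prod, ← Finset.prod_pow]
      refine Finset.prod_congr rfl fun j _ => ?_
      rw [map_pow, ← hr, ← pow_mul, ← pow_mul, mul_comm]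
    · intro e e' hne c hc
      apply hne
      have h1 : ∏ j, rkZ k j ^ (e j : ℕ) = c ^ n * ∏ j, rkZ k j ^ (e' j : ℕ) := by
        apply (algebraMap (rkK k) (SeparableClosure (rkK k))).injective
        have hh := congrArg (· ^ n) hc
        simp only [mul_pow] at hh
        rw [map_mul, map_pow, map_prod, map_prod]
        have e1 : ∀ f : Fin 5 → Fin n, ∏ j, algebraMap (rkK k) (SeparableClosure (rkK k))
            (rkZ k j ^ (f j : ℕ)) = (∏ j, r j ^ (f j : ℕ)) ^ n := by
          intro f
          rw [← Finset.prod_pow]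
          refine Finset.prod_congr rfl fun j _ => ?_
          rw [map_pow, ← hr, ← pow_mul, ← pow_mul, mul_comm]
        rw [e1, e1]
        exact hh
      have h2 := rk_residue k n (fun j => (e j : ℕ)) (fun j => (e' j : ℕ))
        (fun i => (e i).2) (fun i => (e' i).2) c h1
      funext i
      exact Fin.ext (congrFun h2 i)
  have hli := linearIndependent_smul (rk_li1 k) hli2
  have hgood : ∀ β : {β : Fin 5 → ℕ // Good n β}, Good 1 (fun j => β.1 j / n) := by
    intro β j
    rcases β.2 j with h | h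
    · left; show β.1 j / n < 1
      rw [Nat.div_eq_of_lt h]; exact Nat.zero_lt_one
    · right; show β.1 (j + 1) / n < 1
      rw [Nat.div_eq_of_lt h]; exact Nat.zero_lt_one
  have hcomp := hli.comp (fun β : {β : Fin 5 → ℕ // Good n β} =>
    ((⟨fun j => β.1 j / n, hgood β⟩ : {q : Fin 5 → ℕ // Good 1 q}),
      (fun j => (⟨β.1 j % n, Nat.mod_lt _ (NeZero.pos n)⟩ : Fin n)))) ?_
  · convert hcomp using 1
    funext β
    simp only [Function.comp, Algebra.smul_def, map_prod, map_pow, ← hr]
    rw [← Finset.prod_mul_distrib]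
    refine Finset.prod_congr rfl fun j _ => ?_
    rw [← pow_mul, ← pow_add, Nat.div_add_mod]
  · intro β β' h
    rw [Prod.mk.injEq] at h
    apply Subtype.ext
    funext j
    have h1 := congrFun (congrArg Subtype.val h.1) j
    have h2 := congrArg Fin.val (congrFun h.2 j)
    simp only at h1 h2
    rw [← Nat.div_add_mod (β.1 j) n, ← Nat.div_add_mod (β'.1 j) n, h1, h2]

/-- the basis monomials are linearly independent -/
theorem linearIndependent_zm [IsAlgClosed k] [NeZero (n : k)] :
    LinearIndependent k (fun β : {β : Fin 5 → ℕ // Good n β} => zm n k β.1) := by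
  obtain ⟨φ, hφ⟩ := rk_model n k
  exact LinearIndependent.of_comp φ.toLinearMap hφ

theorem NeZero.pos_of_cast [NeZero (n : k)] : 0 < n := by
  rcases Nat.eq_zero_or_pos n with rfl | h
  · exact absurd (by simp) (NeZero.ne ((0 : ℕ) : k))
  · exact h

/-- the monomials `z^β`, `β` good, form a `k`-basis of `O n k`. -/
noncomputable def zBasis [IsAlgClosed k] [NeZero (n : k)] :
    Module.Basis {β : Fin 5 → ℕ // Good n β} k (ORing n k) :=
  Module.Basis.mk (linearIndependent_zm n k) (span_zm_good (NeZero.pos_of_cast n k)).ge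

variable {n k}

@[simp] theorem zBasis_apply [IsAlgClosed k] [NeZero (n : k)] (β : {β : Fin 5 → ℕ // Good n β}) :
    zBasis n k β = zm n k β.1 := by
  simp [zBasis]

/-- `O n k` is a domain. -/
instance instIsDomainORing [IsAlgClosed k] [NeZero (n : k)] : IsDomain (ORing n k) := by
  obtain ⟨φ, hφ⟩ := rk_model n k
  have hinj : Function.Injective φ := by
    rw [injective_iff_map_eq_zero]
    intro x hx
    have h1 : x = ∑ β ∈ ((zBasis n k).repr x).support, (zBasis n k).repr x β • zm n k β.1 := by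
      conv_lhs => rw [← (zBasis n k).linearCombination_repr x]
      rw [Finsupp.linearCombination_apply, Finsupp.sum]
      simp
    have h2 : ∑ β ∈ ((zBasis n k).repr x).support, (zBasis n k).repr x β • φ (zm n k β.1) = 0 := by
      rw [h1, map_sum] at hx
      simpa using hx
    have h3 := linearIndependent_iff'.1 hφ _ _ h2
    have h4 : (zBasis n k).repr x = 0 := by
      ext β
      by_cases hβ : β ∈ ((zBasis n k).repr x).support
      · exact h3 β hβ
      · simpa using hβ
    simpa using h4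
  exact hinj.isDomain φ.toRingHom

/-- membership in `F_m` in terms of coordinates. -/
theorem mem_Fil_iff [IsAlgClosed k] [NeZero (n : k)] (m : ℤ) (x : ORing n k) :
    x ∈ Fil n k m ↔ ∀ β : {β : Fin 5 → ℕ // Good n β},
      (zBasis n k).repr x β ≠ 0 → ∀ i, w i β.1 ≤ m := by
  rw [Fil_eq_span_good (NeZero.pos_of_cast n k)]
  have h1 : (zm n k '' {β | Good n β ∧ ∀ i, w i β ≤ m}) =
      (zBasis n k) '' {β | ∀ i, w i β.1 ≤ m} := by
    ext y
    constructor
    · rintro ⟨β, ⟨h1, h2⟩, rfl⟩
      exact ⟨⟨β, h1⟩, h2, by simp⟩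
    · rintro ⟨β, h2, rfl⟩
      exact ⟨β.1, ⟨β.2, h2⟩, by simp⟩
  rw [h1, Module.Basis.mem_span_image]
  constructor
  · intro h β hβ
    exact h (by simpa using hβ)
  · intro h β hβ
    exact h β (by simpa using hβ)

/-- exact dimension of `F_m` as a number of lattice points -/
theorem finrank_Fil [IsAlgClosed k] [NeZero (n : k)] (m : ℤ) :
    Module.finrank k (Fil n k m) = Nat.card {β : Fin 5 → ℕ // Good n β ∧ ∀ i, w i β ≤ m} := by
  rw [Fil_eq_span_good (NeZero.pos_of_cast n k)]
  have h1 : (zm n k '' {β | Good n β ∧ ∀ i, w i β ≤ m}) =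
      Set.range (fun β : {β : Fin 5 → ℕ // Good n β ∧ ∀ i, w i β ≤ m} => zm n k β.1) := by
    ext y
    constructor
    · rintro ⟨β, h, rfl⟩
      exact ⟨⟨β, h⟩, rfl⟩
    · rintro ⟨β, rfl⟩
      exact ⟨β.1, β.2, rfl⟩
  have hfin : Finite {β : Fin 5 → ℕ // Good n β ∧ ∀ i, w i β ≤ m} := by
    apply Set.Finite.subset (finite_weight_le m)
    intro β hβ
    exact hβ.2
  have := Fintype.ofFinite {β : Fin 5 → ℕ // Good n β ∧ ∀ i, w i β ≤ m}
  have hli : LinearIndependent k
      (fun β : {β : Fin 5 → ℕ // Good n β ∧ ∀ i, w i β ≤ m} => zm n k β.1) := by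
    refine (linearIndependent_zm n k).comp
      (fun β : {β : Fin 5 → ℕ // Good n β ∧ ∀ i, w i β ≤ m} =>
        (⟨β.1, β.2.1⟩ : {β : Fin 5 → ℕ // Good n β})) ?_
    intro a b hab
    have h2 := congrArg Subtype.val hab
    exact Subtype.ext h2
  rw [h1, finrank_span_eq_card hli, Nat.card_eq_fintype_card]

end

end Crest.R169
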