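import Crest.Agent.R169.RingDefs
import Crest.Agent.R169.Count

/-!
# Row 169, F1: dimension of `F_m` from the lattice point count
-/

set_option autoImplicit false

namespace Crest.R169

open Crest.Agent.R169.Count

theorem w_eq_wt (i : Fin 5) (β : Fin 5 → ℕ) : w i β = wt β i := by
  unfold w wt
  have : i - 1 = i + 4 := by decide +revert
  rw [this]

theorem good_iff_noAdj (n : ℕ) (β : Fin 5 → ℕ) : Good n β ↔ NoAdj n β := by
  unfold Good NoAdj
  apply forall_congr'
  intro i
  omega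

theorem setOf_good_eq (n : ℕ) (m : ℤ) :
    {β : Fin 5 → ℕ | Good n β ∧ ∀ i, w i β ≤ m} = BSet n (fun _ => m) := by
  ext β
  unfold BSet
  rw [Set.mem_ofPred_eq, Set.mem_ofPred_eq, good_iff_noAdj]
  simp only [w_eq_wt]

theorem finite_setOf_w_le (m : ℤ) : {β : Fin 5 → ℕ | ∀ i, w i β ≤ m}.Finite := by
  have := finite_wt_le (fun _ => m)
  simpa only [w_eq_wt] using this

theorem finite_good (n : ℕ) (m : ℤ) : {β : Fin 5 → ℕ | Good n β ∧ ∀ i, w i β ≤ m}.Finite := by
  rw [setOf_good_eq]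
  exact finite_BSet n _

/-- the number of basis monomials of weight `≤ m`, `n = 7` -/
theorem card_good_seven (m : ℤ) (hm : 40 ≤ m) :
    2 * (Nat.card {β : Fin 5 → ℕ // Good 7 β ∧ ∀ i, w i β ≤ m} : ℤ) =
      1715 * m ^ 2 - 8575 * m + 9604 := by
  have h := ncard_BSet_seven hm
  rw [← setOf_good_eq] at h
  rw [← h]
  rfl

/-- dimension of `F_m` as a number of lattice points, from linear independence and spanning -/
theorem finrank_Fil_of {n : ℕ} {k : Type*} [Field k]
    (hli : LinearIndependent k (fun β : {β : Fin 5 → ℕ // Good n β} => zm n k β.1)) (m : ℤ)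
    (hs : Fil n k m = Submodule.span k (zm n k '' {β | Good n β ∧ ∀ i, w i β ≤ m})) :
    Module.finrank k (Fil n k m) = Nat.card {β : Fin 5 → ℕ // Good n β ∧ ∀ i, w i β ≤ m} := by
  have hfin : Finite {β : Fin 5 → ℕ // Good n β ∧ ∀ i, w i β ≤ m} :=
    (finite_good n m).to_subtype
  have := Fintype.ofFinite {β : Fin 5 → ℕ // Good n β ∧ ∀ i, w i β ≤ m}
  have hli2 : LinearIndependent k
      (fun β : {β : Fin 5 → ℕ // Good n β ∧ ∀ i, w i β ≤ m} => zm n k β.1) := by
    have := hli.comp (fun β : {β : Fin 5 → ℕ // Good n β ∧ ∀ i, w i β ≤ m} =>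
      (⟨β.1, β.2.1⟩ : {β : Fin 5 → ℕ // Good n β})) (by
        intro a b h
        exact Subtype.ext (congrArg (fun x => x.1) h))
    exact this
  have hr : zm n k '' {β | Good n β ∧ ∀ i, w i β ≤ m} = Set.range
      (fun β : {β : Fin 5 → ℕ // Good n β ∧ ∀ i, w i β ≤ m} => zm n k β.1) := by
    ext x
    simp
  rw [hs, hr, Nat.card_eq_fintype_card]
  exact finrank_span_eq_card hli2

/-- (F1), from linear independence and spanning -/
theorem finrank_Fil_seven_of {k : Type*} [Field k]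
    (hli : LinearIndependent k (fun β : {β : Fin 5 → ℕ // Good 7 β} => zm 7 k β.1)) (m : ℤ)
    (hs : Fil 7 k m = Submodule.span k (zm 7 k '' {β | Good 7 β ∧ ∀ i, w i β ≤ m}))
    (hm : 40 ≤ m) :
    2 * (Module.finrank k (Fil 7 k m) : ℤ) = 1715 * m ^ 2 - 8575 * m + 9604 := by
  rw [finrank_Fil_of hli m hs, card_good_seven m hm]

end Crest.R169
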