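import Crest.Agent.R169.RingDefs

/-! # Row 169, part F: spanning by good monomials (helper877) -/

set_option autoImplicit false

open MvPolynomial

namespace Crest.R169

section Span

variable {n : ℕ} {k : Type*} [Field k]

theorem w_single (i j : Fin 5) (m : ℕ) :
    w i (Pi.single j m) = m * w i (Pi.single j 1) := by
  unfold w
  simp only [Pi.single_apply]
  split_ifs <;> simp
  ring

theorem ne_add_one (j : Fin 5) : j ≠ j + 1 := by revert j; decide

theorem w_aux1 (i j : Fin 5) : 0 ≤ w i (Pi.single j 1) + w i (Pi.single (j + 1) 1) := by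
  revert i j; decide

theorem w_aux2 (i j : Fin 5) :
    w i (Pi.single (j + 3) 1) ≤ w i (Pi.single j 1) + w i (Pi.single (j + 1) 1) := by
  revert i j; decide

theorem w_single_rel_nonneg (i j : Fin 5) (n : ℕ) :
    0 ≤ w i (Pi.single j n + Pi.single (j + 1) n) := by
  rw [w_add, w_single i j, w_single i (j+1), ← mul_add]
  exact mul_nonneg (Nat.cast_nonneg _) (w_aux1 i j)

theorem w_single_rel_le (i j : Fin 5) (n : ℕ) :
    w i (Pi.single (j + 3) n) ≤ w i (Pi.single j n + Pi.single (j + 1) n) := by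
  rw [w_add, w_single i j, w_single i (j+1), w_single i (j+3), ← mul_add]
  exact mul_le_mul_of_nonneg_left (w_aux2 i j) (Nat.cast_nonneg _)

theorem zm_split (δ : Fin 5 → ℕ) (j : Fin 5) :
    zm n k (δ + (Pi.single j n + Pi.single (j + 1) n)) =
      zm n k δ + zm n k (δ + Pi.single (j + 3) n) := by
  rw [zm_add, zm_add, zm_add, zm_single, zm_single, zm_single, z_rel, mul_add, mul_one]

theorem sum_single (j : Fin 5) (m : ℕ) : ∑ i, (Pi.single j m : Fin 5 → ℕ) i = m := by
  simp

/-- spanning, weight-controlled: straightening never raises any weight. -/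
theorem zm_mem_span_good' (hn : 0 < n) : ∀ (N : ℕ) (γ : Fin 5 → ℕ), ∑ i, γ i = N →
    zm n k γ ∈ Submodule.span k (zm n k '' {β | Good n β ∧ ∀ i, w i β ≤ w i γ}) := by
  intro N
  induction N using Nat.strong_induction_on with
  | _ N ih =>
    intro γ hγ
    by_cases hg : Good n γ
    · exact Submodule.subset_span ⟨γ, ⟨hg, fun i => le_rfl⟩, rfl⟩
    · simp only [Good, not_forall, not_or, not_lt] at hg
      obtain ⟨j, h1, h2⟩ := hg
      have hle : (Pi.single j n + Pi.single (j + 1) n : Fin 5 → ℕ) ≤ γ := by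
        intro i
        simp only [Pi.add_apply, Pi.single_apply]
        have hj : j ≠ j + 1 := ne_add_one j
        split_ifs with h3 h4 h4
        · exact absurd (h3.symm.trans h4) hj
        · rw [h3]; simpa using h1
        · rw [h4]; simpa using h2
        · simp
      obtain ⟨δ, hδ⟩ : ∃ δ : Fin 5 → ℕ, δ + (Pi.single j n + Pi.single (j + 1) n) = γ :=
        ⟨γ - (Pi.single j n + Pi.single (j + 1) n), tsub_add_cancel_of_le hle⟩
      have hs : ∑ i, δ i + (n + n) = N := by
        rw [← hγ, ← hδ]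
        simp only [Pi.add_apply, Finset.sum_add_distrib, sum_single]
      rw [← hδ, zm_split]
      have hw : ∀ i, 0 ≤ w i (Pi.single j n + Pi.single (j + 1) n) :=
        fun i => w_single_rel_nonneg i j n
      have hw2 : ∀ i, w i (Pi.single (j + 3) n) ≤ w i (Pi.single j n + Pi.single (j + 1) n) :=
        fun i => w_single_rel_le i j n
      refine Submodule.add_mem _ ?_ ?_
      · refine Submodule.span_mono (Set.image_mono ?_) (ih (∑ i, δ i) (by omega) δ rfl)
        rintro β ⟨hβ, hβ'⟩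
        refine ⟨hβ, fun i => (hβ' i).trans ?_⟩
        rw [w_add]
        have := hw i
        omega
      · refine Submodule.span_mono (Set.image_mono ?_)
          (ih (∑ i, (δ + Pi.single (j + 3) n : Fin 5 → ℕ) i) ?_ _ rfl)
        · rintro β ⟨hβ, hβ'⟩
          refine ⟨hβ, fun i => (hβ' i).trans ?_⟩
          rw [w_add, w_add]
          have := hw2 i
          omega
        · simp only [Pi.add_apply, Finset.sum_add_distrib, sum_single]
          omega

theorem zm_mem_span_good (hn : 0 < n) (γ : Fin 5 → ℕ) :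
    zm n k γ ∈ Submodule.span k (zm n k '' {β | Good n β ∧ ∀ i, w i β ≤ w i γ}) :=
  zm_mem_span_good' hn _ γ rfl

theorem span_zm : Submodule.span k (Set.range (zm n k)) = ⊤ := by
  rw [eq_top_iff]
  rintro x -
  obtain ⟨p, rfl⟩ := toO_surjective n k x
  induction p using MvPolynomial.induction_on' with
  | monomial u a =>
    have : toO n k (monomial u a) = a • zm n k u := by
      rw [MvPolynomial.monomial_eq, ← MvPolynomial.smul_eq_C_mul, map_smul]
      congr 1
      rw [Finsupp.prod_fintype _ _ (fun i => pow_zero _), map_prod]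
      simp only [map_pow]
      rfl
    rw [this]
    exact Submodule.smul_mem _ _ (Submodule.subset_span ⟨u, rfl⟩)
  | add p q hp hq =>
    rw [map_add]
    exact Submodule.add_mem _ hp hq

theorem span_zm_good (hn : 0 < n) :
    Submodule.span k (Set.range fun β : {β : Fin 5 → ℕ // Good n β} => zm n k β.1) = ⊤ := by
  rw [eq_top_iff, ← span_zm, Submodule.span_le]
  rintro _ ⟨γ, rfl⟩
  refine Submodule.span_mono ?_ (zm_mem_span_good hn γ)
  rintro _ ⟨β, ⟨hβ, _⟩, rfl⟩
  exact ⟨⟨β, hβ⟩, rfl⟩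

theorem Fil_eq_span_good (hn : 0 < n) (m : ℤ) :
    Fil n k m = Submodule.span k (zm n k '' {β | Good n β ∧ ∀ i, w i β ≤ m}) := by
  apply le_antisymm
  · rw [Fil, Submodule.span_le]
    rintro _ ⟨γ, hγ, rfl⟩
    refine Submodule.span_mono (Set.image_mono ?_) (zm_mem_span_good hn γ)
    rintro β ⟨hβ, hβ'⟩
    exact ⟨hβ, fun i => (hβ' i).trans (hγ i)⟩
  · exact Submodule.span_mono (Set.image_mono fun β hβ => hβ.2)

theorem Fil_neg {m : ℤ} (hm : m < 0) : Fil n k m = ⊥ := by
  rw [Fil, Submodule.span_eq_bot]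
  rintro _ ⟨γ, hγ, rfl⟩
  exfalso
  have h1 := sum_w γ
  have h2 : ∑ i, w i γ ≤ ∑ i : Fin 5, m := Finset.sum_le_sum fun i _ => hγ i
  have h3 : (0 : ℤ) ≤ ∑ i, (γ i : ℤ) := Finset.sum_nonneg fun i _ => Nat.cast_nonneg _
  simp at h2
  omega

theorem sum_le_of_w_le {m : ℤ} {γ : Fin 5 → ℕ} (hγ : ∀ i, w i γ ≤ m) :
    ∑ i, (γ i : ℤ) ≤ 5 * m := by
  have h1 := sum_w γ
  have h2 : ∑ i, w i γ ≤ ∑ i : Fin 5, m := Finset.sum_le_sum fun i _ => hγ i
  simp at h2
  omega

theorem Fil_zero : Fil n k 0 = Submodule.span k {1} := by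
  apply le_antisymm
  · rw [Fil, Submodule.span_le]
    rintro _ ⟨γ, hγ, rfl⟩
    have h3 := sum_le_of_w_le hγ
    have h4 : γ = 0 := by
      funext i
      have h5 : ∑ i, (γ i : ℤ) = 0 := le_antisymm (by simpa using h3)
        (Finset.sum_nonneg fun i _ => Nat.cast_nonneg _)
      rw [Finset.sum_eq_zero_iff_of_nonneg (fun i _ => Nat.cast_nonneg _)] at h5
      exact_mod_cast h5 i (Finset.mem_univ i)
    rw [h4, zm_zero]
    exact Submodule.subset_span rfl
  · rw [Submodule.span_le]
    rintro _ rfl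
    exact one_mem_Fil_zero

theorem w_le_sum (i : Fin 5) (γ : Fin 5 → ℕ) : w i γ ≤ 2 * ∑ j, (γ j : ℤ) := by
  have h : ∀ j, (γ j : ℤ) ≤ ∑ j, (γ j : ℤ) := fun j =>
    Finset.single_le_sum (f := fun j => (γ j : ℤ)) (fun j _ => Nat.cast_nonneg _) (Finset.mem_univ j)
  unfold w
  have h1 := h (i + 4)
  have h2 := h (i + 1)
  omega

theorem exists_mem_Fil (x : ORing n k) : ∃ m : ℕ, x ∈ Fil n k m := by
  have hx : x ∈ Submodule.span k (Set.range (zm n k)) := by rw [span_zm]; trivial
  induction hx using Submodule.span_induction with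
  | mem x hx =>
    obtain ⟨γ, rfl⟩ := hx
    refine ⟨2 * ∑ j, γ j, zm_mem_Fil fun i => ?_⟩
    have := w_le_sum i γ
    push_cast
    exact this
  | zero => exact ⟨0, Submodule.zero_mem _⟩
  | add x y _ _ hx hy =>
    obtain ⟨a, ha⟩ := hx
    obtain ⟨b, hb⟩ := hy
    refine ⟨a + b, Submodule.add_mem _ (Fil_mono ?_ ha) (Fil_mono ?_ hb)⟩ <;> simp
  | smul c x _ hx =>
    obtain ⟨a, ha⟩ := hx
    exact ⟨a, Submodule.smul_mem _ _ ha⟩

theorem finite_weight_le (m : ℤ) : {γ : Fin 5 → ℕ | ∀ i, w i γ ≤ m}.Finite := by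
  refine Set.Finite.subset (Set.finite_Iic (fun _ : Fin 5 => (5 * m).toNat)) ?_
  intro γ hγ i
  have h1 := sum_le_of_w_le hγ
  have h2 : (γ i : ℤ) ≤ ∑ j, (γ j : ℤ) :=
    Finset.single_le_sum (f := fun j => (γ j : ℤ)) (fun j _ => Nat.cast_nonneg _) (Finset.mem_univ i)
  show γ i ≤ (5 * m).toNat
  omega

theorem finiteDimensional_Fil (m : ℤ) : FiniteDimensional k (Fil n k m) :=
  FiniteDimensional.span_of_finite k ((finite_weight_le m).image _)

end Span

end Crest.R169
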