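import Crest.Agent.R169.RingDefs
import Crest.Agent.R169.RingSpan
import Crest.Agent.R169.RingBasis
import Crest.Agent.R169.RingCount

/-!
# Row 169, part F0-F1: statements on the explicit ring (helper877) -- sorry-free

Everything for `k` algebraically closed with `(n : k) ≠ 0` (`[NeZero (n : k)]`).
* `RingSpan.lean`: `zm_mem_span_good`, `Fil_eq_span_good`, `Fil_neg`, `Fil_zero`, `exists_mem_Fil`,
  `finiteDimensional_Fil`, `sum_le_of_w_le`
* `RingBasis.lean`: `linearIndependent_zm`, `zBasis`, `zBasis_apply`, `instIsDomainORing`,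
  `mem_Fil_iff`, `finrank_Fil`
* F2 (`Fil_succ`) is in `GenUV.lean` (helper772), algebraic independence of `u, v` in `D7.lean`.
-/

set_option autoImplicit false

namespace Crest.R169

section Basis

/-- (F1) the Hilbert polynomial for `n = 7` :  `dim F_m = (1715 m² - 8575 m)/2 + 4802`. -/
theorem finrank_Fil_seven (k : Type*) [Field k] [IsAlgClosed k] [NeZero ((7 : ℕ) : k)] (m : ℤ)
    (hm : 40 ≤ m) :
    2 * (Module.finrank k (Fil 7 k m) : ℤ) = 1715 * m ^ 2 - 8575 * m + 9604 :=
  finrank_Fil_seven_of (linearIndependent_zm 7 k) m (Fil_eq_span_good (by norm_num) m) hm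

end Basis

section FractionField

variable (n : ℕ) (k : Type*) [Field k]

/-- The field `Q = Frac O`. -/
abbrev QField : Type _ := FractionRing (ORing n k)

/-- `F_m` as a `k`-subspace of `Q`. -/
noncomputable def FilQ (m : ℤ) : Submodule k (QField n k) :=
  (Fil n k m).map (Algebra.linearMap (ORing n k) (QField n k) |>.restrictScalars k)

end FractionField

end Crest.R169
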