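import Crest.Agent.R169.GenUV
import Crest.Agent.R169.Defs
import Crest.Agent.R169.Ring

/-!
# Row 169, part F: algebraic independence of `u, v` and the instance `D7 k : TData k (QField 7 k)`
-/

set_option autoImplicit false

open MvPolynomial Crest.R169

namespace Crest.Agent.R169

namespace D7Aux

section Indep

variable {n : ℕ} {k : Type*} [Field k]

/-- exponent of `z_0^a z_2^b` -/
def ex02 (s : Fin 2 →₀ ℕ) : Fin 5 → ℕ := ![s 0, 0, s 1, 0, 0]

lemma ex02_good (hn : 0 < n) (s : Fin 2 →₀ ℕ) : Good n (ex02 s) := by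
  intro j
  fin_cases j
  · right; exact hn
  · left; exact hn
  · right; exact hn
  · left; exact hn
  · left; exact hn

lemma ex02_injective : Function.Injective ex02 := by
  intro s t h
  ext i
  fin_cases i
  · exact congrFun h 0
  · exact congrFun h 2

lemma aeval_monomial02 (s : Fin 2 →₀ ℕ) :
    aeval ![z n k 0, z n k 2] (monomial s (1 : k)) = zm n k (ex02 s) := by
  rw [aeval_monomial, map_one, one_mul, Finsupp.prod_fintype _ _ (fun i => pow_zero _)]
  simp only [Fin.prod_univ_two, zm, Fin.prod_univ_five, ex02]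
  simp

theorem algIndep_z02 [IsAlgClosed k] [NeZero (n : k)] :
    AlgebraicIndependent k ![z n k 0, z n k 2] := by
  have hn : 0 < n := by
    rcases Nat.eq_zero_or_pos n with h | h
    · exfalso; subst h; exact (NeZero.ne ((0 : ℕ) : k)) Nat.cast_zero
    · exact h
  have hli : LinearIndependent k (fun s : Fin 2 →₀ ℕ => zm n k (ex02 s)) := by
    have h1 := linearIndependent_zm n k
    let g : (Fin 2 →₀ ℕ) → {β : Fin 5 → ℕ // Good n β} := fun s => ⟨ex02 s, ex02_good hn s⟩
    have hg : Function.Injective g := fun s t h => ex02_injective (congrArg Subtype.val h)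
    exact h1.comp g hg
  rw [algebraicIndependent_iff_injective_aeval, injective_iff_map_eq_zero]
  intro p hp
  have h2 : aeval ![z n k 0, z n k 2] p = ∑ s ∈ p.support, p.coeff s • zm n k (ex02 s) := by
    conv_lhs => rw [p.as_sum]
    rw [map_sum]
    refine Finset.sum_congr rfl fun s _ => ?_
    have : monomial s (p.coeff s) = p.coeff s • monomial s (1 : k) := by
      rw [smul_monomial, smul_eq_mul, mul_one]
    rw [this, map_smul, aeval_monomial02]
  rw [h2] at hp
  have h3 := linearIndependent_iff'.mp hli p.support (fun s => p.coeff s) hp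
  ext s
  by_cases hs : s ∈ p.support
  · rw [h3 s hs]; simp
  · rw [notMem_support_iff.mp hs]; simp

variable (n k) in
/-- `B = k[u,v]` -/
noncomputable abbrev Buv : Subalgebra k (ORing n k) :=
  Algebra.adjoin k (Set.range ![uO n k, vO n k])

lemma u_mem_B : uO n k ∈ Buv n k := Algebra.subset_adjoin ⟨0, rfl⟩
lemma v_mem_B : vO n k ∈ Buv n k := Algebra.subset_adjoin ⟨1, rfl⟩

lemma Fil_le_span (hn : 0 < n) (m : ℕ) (x : ORing n k) (hx : x ∈ Fil n k (m : ℤ)) :
    x ∈ Submodule.span (Buv n k) ((Fil n k ((100 * n : ℕ) : ℤ) : Submodule k (ORing n k)) :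
      Set (ORing n k)) := by
  induction m generalizing x with
  | zero =>
    exact Submodule.subset_span (Fil_mono (by push_cast; positivity) hx)
  | succ m ih =>
    by_cases hm : 100 * n ≤ m
    · have h1 := GenUV.Fil_succ_le (k := k) hn (m := (m : ℤ)) (by exact_mod_cast hm)
      have h2 := h1 (by exact_mod_cast hx)
      obtain ⟨a, ha, b, hb, c, hc, rfl⟩ := GenUV.mem_LF_iff.mp h2
      refine Submodule.add_mem _ (Submodule.add_mem _ (ih a ha) ?_) ?_
      · exact Submodule.smul_mem _ (⟨uO n k, u_mem_B⟩ : Buv n k) (ih b hb)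
      · exact Submodule.smul_mem _ (⟨vO n k, v_mem_B⟩ : Buv n k) (ih c hc)
    · exact Submodule.subset_span (Fil_mono (by push_cast; omega) hx)

theorem finite_B (hn : 0 < n) : Module.Finite (Buv n k) (ORing n k) := by
  have := finiteDimensional_Fil (n := n) (k := k) ((100 * n : ℕ) : ℤ)
  obtain ⟨s, hs⟩ := (Module.Finite.iff_fg (R := k) (N := Fil n k ((100 * n : ℕ) : ℤ))).mp this
  refine ⟨⟨s, ?_⟩⟩
  rw [eq_top_iff]
  rintro x -
  obtain ⟨m, hm⟩ := exists_mem_Fil x
  have h1 := Fil_le_span hn m x hm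
  refine (Submodule.span_le.mpr ?_) h1
  intro y hy
  have hy' : y ∈ Submodule.span k (s : Set (ORing n k)) := by rw [hs]; exact hy
  induction hy' using Submodule.span_induction with
  | mem y hy2 => exact Submodule.subset_span hy2
  | zero => exact Submodule.zero_mem _
  | add a b ha hb h1 h2 =>
    exact Submodule.add_mem _ (h1 (by rw [← hs]; exact ha)) (h2 (by rw [← hs]; exact hb))
  | smul c a ha h =>
    have : c • a = (algebraMap k (Buv n k) c) • a := by
      rw [Algebra.smul_def, Algebra.smul_def]; rfl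
    rw [this]
    exact Submodule.smul_mem _ _ (h (by rw [← hs]; exact ha))

theorem isAlgebraic_B [IsDomain (ORing n k)] (hn : 0 < n) :
    Algebra.IsAlgebraic (Buv n k) (ORing n k) := by
  have := finite_B (n := n) (k := k) hn
  have : Algebra.IsIntegral (Buv n k) (ORing n k) := Algebra.IsIntegral.of_finite _ _
  infer_instance

theorem algebraicIndependent_uv [IsAlgClosed k] [NeZero (n : k)] :
    AlgebraicIndependent k ![uO n k, vO n k] := by
  have hn : 0 < n := by
    rcases Nat.eq_zero_or_pos n with h | h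
    · exfalso; subst h; exact (NeZero.ne ((0 : ℕ) : k)) Nat.cast_zero
    · exact h
  have := isAlgebraic_B (n := n) (k := k) hn
  have h1 := (algIndep_z02 (n := n) (k := k)).lift_cardinalMk_le_trdeg
  exact (Algebra.IsAlgebraic.isTranscendenceBasis_of_lift_le_trdeg_of_finite k
    ![uO n k, vO n k] h1).1

end Indep

section Instance

variable {n : ℕ} {k : Type*} [Field k]

/-- `O → Q` as a `k`-algebra map -/
noncomputable def toQ (n : ℕ) (k : Type*) [Field k] : ORing n k →ₐ[k] QField n k :=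
  IsScalarTower.toAlgHom k (ORing n k) (QField n k)

lemma toQ_apply (x : ORing n k) : toQ n k x = algebraMap (ORing n k) (QField n k) x := rfl

lemma mem_FilQ {m : ℤ} {q : QField n k} : q ∈ FilQ n k m ↔ ∃ x ∈ Fil n k m,
    algebraMap (ORing n k) (QField n k) x = q := Iff.rfl

lemma toQ_injective : Function.Injective (algebraMap (ORing n k) (QField n k)) :=
  IsFractionRing.injective (ORing n k) (QField n k)

lemma FilQ_mono {a b : ℤ} (h : a ≤ b) : FilQ n k a ≤ FilQ n k b :=
  Submodule.map_mono (Fil_mono h)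

end Instance

end D7Aux

open D7Aux

section

variable (k : Type) [Field k] [IsAlgClosed k] [NeZero ((7 : ℕ) : k)]

/-- the explicit datum -/
noncomputable def D7 : TData k (QField 7 k) where
  F := FilQ 7 k
  u := algebraMap (ORing 7 k) (QField 7 k) (uO 7 k)
  v := algebraMap (ORing 7 k) (QField 7 k) (vO 7 k)
  F_zero := by
    rw [FilQ, Fil_zero, Submodule.map_span]
    congr 1
    simp
  F_neg := by
    intro m hm
    rw [FilQ, Fil_neg hm, Submodule.map_bot]
  mul_mem := by
    rintro i j f ⟨x, hx, rfl⟩ g ⟨y, hy, rfl⟩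
    exact ⟨x * y, Fil_mul_mem hx hy, by simp⟩
  one_mem := ⟨1, GenUV.one_mem_Fil (by norm_num), by simp⟩
  u_mem := ⟨uO 7 k, uO_mem, rfl⟩
  v_mem := ⟨vO 7 k, vO_mem, rfl⟩
  lat := {
    mono := fun m => FilQ_mono (by omega)
    umul := by
      rintro m e ⟨x, hx, rfl⟩
      refine ⟨uO 7 k * x, ?_, by simp⟩
      have := Fil_mul_mem uO_mem hx
      rwa [add_comm] at this
    vmul := by
      rintro m e ⟨x, hx, rfl⟩
      refine ⟨vO 7 k * x, ?_, by simp⟩
      have := Fil_mul_mem vO_mem hx
      rwa [add_comm] at this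
    fin := by
      intro m
      have := finiteDimensional_Fil (n := 7) (k := k) m
      exact Module.Finite.map _ _
    bot := ⟨-1, fun m hm => by rw [FilQ, Fil_neg (by omega), Submodule.map_bot]⟩
    gen := by
      refine ⟨700, ?_⟩
      rintro m hm e ⟨x, hx, rfl⟩
      obtain ⟨a, ha, b, hb, c, hc, rfl⟩ :=
        GenUV.mem_LF_iff.mp (GenUV.Fil_succ_le (n := 7) (by norm_num) (by push_cast; omega) hx)
      exact ⟨_, ⟨a, ha, rfl⟩, _, ⟨b, hb, rfl⟩, _, ⟨c, hc, rfl⟩, by simp⟩ }
  frac := by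
    intro q
    obtain ⟨a, b, hb, hq⟩ := IsFractionRing.div_surjective (A := ORing 7 k) q
    have hb0 : algebraMap (ORing 7 k) (QField 7 k) b ≠ 0 := by
      intro h
      exact nonZeroDivisors.ne_zero hb (toQ_injective (by rw [h, map_zero]))
    obtain ⟨m1, h1⟩ := exists_mem_Fil a
    obtain ⟨m2, h2⟩ := exists_mem_Fil b
    refine ⟨max m1 m2, algebraMap _ _ a, ⟨a, Fil_mono (le_max_left _ _) h1, rfl⟩,
      algebraMap _ _ b, ⟨b, Fil_mono (le_max_right _ _) h2, rfl⟩, hb0, ?_⟩
    rw [← hq, div_mul_cancel₀ _ hb0]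
  indep := by
    have h1 := (algebraicIndependent_uv (n := 7) (k := k)).map' (f := toQ 7 k) toQ_injective
    have h2 : (toQ 7 k : ORing 7 k → QField 7 k) ∘ ![uO 7 k, vO 7 k] =
        ![algebraMap (ORing 7 k) (QField 7 k) (uO 7 k),
          algebraMap (ORing 7 k) (QField 7 k) (vO 7 k)] := by
      funext i
      fin_cases i
      · rfl
      · rfl
    rwa [h2] at h1

theorem D7_F (m : ℤ) : (D7 k).F m = FilQ 7 k m := rfl

theorem D7_u : (D7 k).u = algebraMap (ORing 7 k) (QField 7 k) (uO 7 k) := rfl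

theorem D7_v : (D7 k).v = algebraMap (ORing 7 k) (QField 7 k) (vO 7 k) := rfl

theorem D7_gen : ∀ m : ℤ, ((700 : ℕ) : ℤ) ≤ m → ∀ e ∈ (D7 k).F (m + 1), ∃ a ∈ (D7 k).F m,
    ∃ b ∈ (D7 k).F m, ∃ c ∈ (D7 k).F m, e = a + (D7 k).u * b + (D7 k).v * c := by
  rintro m hm e ⟨x, hx, rfl⟩
  obtain ⟨a, ha, b, hb, c, hc, rfl⟩ :=
    GenUV.mem_LF_iff.mp (GenUV.Fil_succ_le (n := 7) (by norm_num) (by push_cast; omega) hx)
  exact ⟨_, ⟨a, ha, rfl⟩, _, ⟨b, hb, rfl⟩, _, ⟨c, hc, rfl⟩, by simp [D7_u, D7_v]⟩

end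

end Crest.Agent.R169
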