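import Crest.Agent.R169.Defs

/-!
# Row 169: interface between parts C, D and Main (FROZEN interface)
-/

set_option autoImplicit false

namespace Crest.Agent.R169

section

variable {k Q : Type} [Field k] [Field Q] [Algebra k Q]

/-- coordinatewise `p`-th power -/
def phi (p : ℕ) {R : ℕ} (g : Fin R → Q) : Fin R → Q := fun i => g i ^ p

/-- the Frobenius pull-back `W = T·φ(G)` of a lattice `G ⊆ Q^R`:
`W m = Σ_j F (m - p j) · φ(G j)`. -/
def frobPull (D : TData k Q) (p : ℕ) {R : ℕ} (G : ℤ → Submodule k (Fin R → Q)) :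
    ℤ → Submodule k (Fin R → Q) :=
  fun m => Submodule.span k
    {w | ∃ j : ℤ, ∃ f ∈ D.F (m - p * j), ∃ g ∈ G j, w = f • phi p g}

/-- `Q·φ(V')` -/
def frobSub (p : ℕ) {R : ℕ} (U : Submodule Q (Fin R → Q)) : Submodule Q (Fin R → Q) :=
  Submodule.span Q (phi p '' (U : Set (Fin R → Q)))

/-- Hilbert data of `T` -/
structure HilbT (D : TData k Q) (N : ℕ) (bT cT : ℚ) : Prop where
  hp : HasHP D.F N bT cT
  pos : 0 < N

/-- derivation data: two derivations of `Q/k` of degree `c0` on the filtration, with common kernel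
`Q^p`; `c1` bounds the degrees of generators of `T` over `A`. -/
structure DerData (D : TData k Q) (p c0 c1 : ℕ) where
  d : Fin 2 → Derivation k Q Q
  deg : ∀ i, ∀ m : ℤ, ∀ f ∈ D.F m, d i f ∈ D.F (m + c0)
  ker : ∀ f : Q, (∀ i, d i f = 0) → ∃ g : Q, f = g ^ p
  gen : ∀ m : ℤ, (c1 : ℤ) ≤ m → ∀ e ∈ D.F (m + 1), ∃ a ∈ D.F m, ∃ b ∈ D.F m, ∃ c ∈ D.F m,
    e = a + D.u * b + D.v * c

/-- C3: linear coefficients of the Frobenius pull back and of its intersections with Frobenius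
pull-backs of subspaces: `ζ(W∩U) - ζ_T = p (ζ(G∩V') - ζ_T)`. -/
def C3 (D : TData k Q) (p N : ℕ) (bT : ℚ) : Prop :=
  ∀ (R : ℕ) (G : ℤ → Submodule k (Fin R → Q)), IsTLat D G →
    ∀ (U : Submodule Q (Fin R → Q)) (n₁ : ℕ) (b₁ c₁ : ℚ), HasHP (interU G U) n₁ b₁ c₁ →
      ∃ c' : ℚ, HasHP (interU (frobPull D p G) (frobSub p U)) n₁
        (n₁ * (bT / N) + p * (b₁ - n₁ * (bT / N))) c'

/-- C7: the lower bound `J(W) ≥ p² (J(G) - R J(T)) + R J(T)`. -/
def C7 (D : TData k Q) (p N : ℕ) (bT cT : ℚ) : Prop :=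
  ∀ (R : ℕ) (G : ℤ → Submodule k (Fin R → Q)), 0 < R → IsTLat D G →
    ∀ (b c b' c' : ℚ), HasHP G (N * R) b c → HasHP (frobPull D p G) (N * R) b' c' →
      (p : ℚ) ^ 2 * (Jinv (N * R) b c - R * Jinv N bT cT) + R * Jinv N bT cT
        ≤ Jinv (N * R) b' c'

/-- END PRODUCT OF PART C (C1,C2,C4,C5,C6; C3 as hypothesis). -/
def UpperBound (D : TData k Q) (p N c0 c1 : ℕ) : Prop :=
  ∀ (R : ℕ) (G : ℤ → Submodule k (Fin R → Q)), 0 < R → IsTLat D G →
    ∀ (b c b' c' : ℚ), HasHP G (N * R) b c → NSS (Q := Q) G (N * R) b →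
      HasHP (frobPull D p G) (N * R) b' c' →
        Jinv (N * R) b' c' ≤ 1 / 2 * (N * R) * ((p : ℚ) / 2 + (R - 1) * c0 + c1) ^ 2

end

end Crest.Agent.R169
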