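import Crest.Agent.R169.D7
import Crest.Agent.R169.Frob

/-! # Row 169, part F: Hilbert polynomial of `D7` -/

set_option autoImplicit false

open Crest.R169

namespace Crest.Agent.R169

namespace D7Hilb

variable (k : Type) [Field k] [IsAlgClosed k] [NeZero ((7 : ℕ) : k)]

theorem finrank_F (m : ℤ) :
    Module.finrank k ((D7 k).F m) = Module.finrank k (Fil 7 k m) := by
  have hinj : Function.Injective ((Algebra.linearMap (ORing 7 k) (QField 7 k)).restrictScalars k) :=
    D7Aux.toQ_injective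
  exact (Submodule.equivMapOfInjective _ hinj (Fil 7 k m)).finrank_eq.symm

theorem finrank_F_rat {m : ℤ} (hm : 40 ≤ m) :
    (Module.finrank k ((D7 k).F m) : ℚ) = (1715 : ℕ) / 2 * (m : ℚ) ^ 2 + -(8575 / 2) * m + 4802 := by
  have h := finrank_Fil_seven k m hm
  rw [finrank_F]
  have h2 : (2 * (Module.finrank k (Fil 7 k m) : ℤ) : ℚ) = ((1715 * m ^ 2 - 8575 * m + 9604 : ℤ) : ℚ) := by
    exact_mod_cast h
  push_cast at h2 ⊢
  linarith

end D7Hilb

/-- (F1) for `D7` -/
theorem D7_hilb (k : Type) [Field k] [IsAlgClosed k] [NeZero ((7 : ℕ) : k)] :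
    HilbT (D7 k) 1715 (-(8575 / 2)) 4802 where
  hp := ⟨40, fun _ hm => D7Hilb.finrank_F_rat k hm⟩
  pos := by norm_num

/-- explicit threshold version -/
theorem D7_hilb' (k : Type) [Field k] [IsAlgClosed k] [NeZero ((7 : ℕ) : k)] {m : ℤ} (hm : 40 ≤ m) :
    (Module.finrank k ((D7 k).F m) : ℚ) = (1715 : ℕ) / 2 * (m : ℚ) ^ 2 + -(8575 / 2) * m + 4802 :=
  D7Hilb.finrank_F_rat k hm

end Crest.Agent.R169
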