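import Crest.Agent.R169.Frob

/-!
# Row 169, PART D: numerics of the shape of `G` and of its Frobenius pull-back (owner helper862)
-/

set_option autoImplicit false
set_option maxHeartbeats 400000

namespace Crest.Agent.R169.DNum

open Module

variable {k Q : Type} [Field k] [Field Q] [Algebra k Q]

/-- sum of the elements of a multiset of integers, in `ℚ` -/
def s1 (X : Multiset ℤ) : ℚ := (X.map (fun x : ℤ => (x : ℚ))).sum

/-- sum of the squares -/
def s2 (X : Multiset ℤ) : ℚ := (X.map (fun x : ℤ => (x : ℚ) ^ 2)).sum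

theorem msum_hp {D : TData k Q} {N : ℕ} {bT cT : ℚ} (hT : HasHP D.F N bT cT) (X : Multiset ℤ) :
    ∃ m₀ : ℤ, ∀ m ≥ m₀, (((X.map fun x => finrank k (D.F (m + x))).sum : ℕ) : ℚ) =
      (X.card * N / 2) * (m : ℚ) ^ 2 + (N * s1 X + X.card * bT) * m +
        (N / 2 * s2 X + bT * s1 X + X.card * cT) := by
  induction X using Multiset.induction_on with
  | empty =>
    refine ⟨0, fun m _ => ?_⟩
    simp [s1, s2]
  | cons a X ih =>
    obtain ⟨m₀, h0⟩ := ih
    obtain ⟨m₁, h1⟩ := hT
    refine ⟨max m₀ (m₁ - a), fun m hm => ?_⟩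
    have h2 := h0 m (le_trans (le_max_left _ _) hm)
    have h3 := h1 (m + a) (by have := le_trans (le_max_right _ _) hm; omega)
    rw [Multiset.map_cons, Multiset.sum_cons, Nat.cast_add, h2, h3]
    simp only [s1, s2, Multiset.map_cons, Multiset.sum_cons, Multiset.card_cons]
    push_cast
    ring

/-- dilation of a multiset of shifts -/
theorem s1_smul (p : ℤ) (X : Multiset ℤ) : s1 (X.map fun x => p * x) = p * s1 X := by
  unfold s1
  rw [Multiset.map_map, ← Multiset.sum_map_mul_left]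
  congr 1
  apply Multiset.map_congr rfl
  intro x _
  simp

theorem s2_smul (p : ℤ) (X : Multiset ℤ) : s2 (X.map fun x => p * x) = (p : ℚ) ^ 2 * s2 X := by
  unfold s2
  rw [Multiset.map_map, ← Multiset.sum_map_mul_left]
  congr 1
  apply Multiset.map_congr rfl
  intro x _
  simp [mul_pow]

/-- Common shape of a lattice and of its Frobenius pull-back. -/
def Shape (D : TData k Q) (p : ℕ) {R : ℕ} (G W : ℤ → Submodule k (Fin R → Q)) : Prop :=
  ∃ (M : ℕ) (X : Multiset ℤ) (e e' : ℕ) (m₀ : ℤ), 0 < M ∧ X.card = M * R ∧ e' ≤ p ^ 2 * e ∧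
    ∀ m ≥ m₀, M * finrank k (G m) + e = (X.map fun x => finrank k (D.F (m + x))).sum ∧
      M * finrank k (W m) + e' = (X.map fun x => finrank k (D.F (m + p * x))).sum

theorem whole_of_shape {D : TData k Q} {p N : ℕ} {bT cT : ℚ} (hT : HilbT D N bT cT) {R : ℕ}
    (hR : 0 < R) {G W : ℤ → Submodule k (Fin R → Q)} (h : Shape D p G W) :
    ∃ b c b' c' : ℚ, HasHP G (N * R) b c ∧ HasHP W (N * R) b' c' ∧
      b' = R * bT + p * (b - R * bT) ∧
      (p : ℚ) ^ 2 * (Jinv (N * R) b c - R * Jinv N bT cT) + R * Jinv N bT cT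
        ≤ Jinv (N * R) b' c' := by
  obtain ⟨M, X, e, e', m₀, hM, hX, he, hd⟩ := h
  obtain ⟨m₁, h1⟩ := msum_hp hT.hp X
  obtain ⟨m₂, h2⟩ := msum_hp hT.hp (X.map fun x => (p : ℤ) * x)
  have hMQ : (0 : ℚ) < M := by exact_mod_cast hM
  have hRQ : (0 : ℚ) < R := by exact_mod_cast hR
  have hNQ : (0 : ℚ) < N := by exact_mod_cast hT.pos
  have hXQ : (X.card : ℚ) = M * R := by rw [hX]; push_cast; ring
  refine ⟨(N * s1 X + M * R * bT) / M, (N / 2 * s2 X + bT * s1 X + M * R * cT - e) / M,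
    (N * (p * s1 X) + M * R * bT) / M,
    (N / 2 * ((p : ℚ) ^ 2 * s2 X) + bT * (p * s1 X) + M * R * cT - e') / M, ?_, ?_, ?_, ?_⟩
  · refine ⟨max m₀ m₁, fun m hm => ?_⟩
    have h3 := (hd m (le_trans (le_max_left _ _) hm)).1
    have h4 := h1 m (le_trans (le_max_right _ _) hm)
    rw [← h3, hXQ] at h4
    push_cast at h4 ⊢
    field_simp
    linear_combination 2 * h4
  · refine ⟨max m₀ m₂, fun m hm => ?_⟩
    have h3 := (hd m (le_trans (le_max_left _ _) hm)).2
    have h4 := h2 m (le_trans (le_max_right _ _) hm)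
    rw [Multiset.map_map] at h4
    have h5 : ((X.map ((fun x => finrank k (D.F (m + x))) ∘ fun x => (p : ℤ) * x)).sum) =
        M * finrank k (W m) + e' := by
      rw [h3]; rfl
    rw [h5, Multiset.card_map, hXQ, s1_smul, s2_smul] at h4
    push_cast at h4 ⊢
    field_simp
    linear_combination 2 * h4
  · field_simp
    ring
  · have heQ : (e' : ℚ) ≤ (p : ℚ) ^ 2 * e := by exact_mod_cast he
    have key : Jinv (N * R) ((N * (p * s1 X) + M * R * bT) / M)
        ((N / 2 * ((p : ℚ) ^ 2 * s2 X) + bT * (p * s1 X) + M * R * cT - e') / M) -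
        ((p : ℚ) ^ 2 * (Jinv (N * R) ((N * s1 X + M * R * bT) / M)
          ((N / 2 * s2 X + bT * s1 X + M * R * cT - e) / M) - R * Jinv N bT cT) +
          R * Jinv N bT cT) = ((p : ℚ) ^ 2 * e - e') / M := by
      unfold Jinv
      push_cast
      field_simp
      ring
    have h6 : 0 ≤ ((p : ℚ) ^ 2 * e - e') / M := div_nonneg (by linarith) hMQ.le
    linarith

end Crest.Agent.R169.DNum
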