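import Crest.Agent.R169.Places

/-!
# Row 169: basic API for places (`Place.ge`)
-/

set_option autoImplicit false

namespace Crest.Agent.R169

namespace Place

variable {Q : Type} [Field Q] (P : Place Q)

/-- `f ∈ 𝔪_P ^ n` -/
def ge (n : ℤ) (f : Q) : Prop := f = 0 ∨ n ≤ P.ord f

theorem ord_one : P.ord 1 = 0 := by
  have := P.ord_mul 1 1 one_ne_zero one_ne_zero
  rw [mul_one] at this
  omega

theorem ord_neg_one : P.ord (-1) = 0 := by
  have := P.ord_mul (-1) (-1) (by simp) (by simp)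
  rw [neg_mul_neg, mul_one, P.ord_one] at this
  omega

theorem ord_neg (a : Q) (ha : a ≠ 0) : P.ord (-a) = P.ord a := by
  have := P.ord_mul (-1) a (by simp) ha
  rw [neg_one_mul, P.ord_neg_one] at this
  omega

theorem ord_inv (a : Q) (ha : a ≠ 0) : P.ord a⁻¹ = - P.ord a := by
  have := P.ord_mul a a⁻¹ ha (inv_ne_zero ha)
  rw [mul_inv_cancel₀ ha, P.ord_one] at this
  omega

theorem ord_pow (a : Q) (ha : a ≠ 0) (n : ℕ) : P.ord (a ^ n) = n * P.ord a := by
  induction n with
  | zero => simp [P.ord_one]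
  | succ n ih =>
    rw [pow_succ, P.ord_mul _ _ (pow_ne_zero _ ha) ha, ih]
    push_cast
    ring

theorem ge_zero (n : ℤ) : P.ge n 0 := Or.inl rfl

theorem ge_one : P.ge 0 (1 : Q) := Or.inr (by rw [P.ord_one])

theorem exists_ord_eq (n : ℤ) : ∃ f : Q, f ≠ 0 ∧ P.ord f = n := by
  obtain ⟨π, h0, h1⟩ := P.unif
  rcases Int.le_total 0 n with h | h
  · refine ⟨π ^ n.toNat, pow_ne_zero _ h0, ?_⟩
    rw [P.ord_pow _ h0, h1]
    omega
  · refine ⟨(π ^ (-n).toNat)⁻¹, inv_ne_zero (pow_ne_zero _ h0), ?_⟩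
    rw [P.ord_inv _ (pow_ne_zero _ h0), P.ord_pow _ h0, h1]
    omega

variable {P}

theorem ge.mono {n m : ℤ} {f : Q} (h : P.ge n f) (hm : m ≤ n) : P.ge m f := by
  rcases h with h | h
  · exact Or.inl h
  · exact Or.inr (hm.trans h)

theorem ge.add {n : ℤ} {f g : Q} (hf : P.ge n f) (hg : P.ge n g) : P.ge n (f + g) := by
  rcases hf with rfl | hf
  · simpa using hg
  rcases hg with rfl | hg
  · rw [add_zero]; exact Or.inr hf
  by_cases h0 : f = 0
  · subst h0; rw [zero_add]; exact Or.inr hg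
  by_cases h1 : g = 0
  · subst h1; rw [add_zero]; exact Or.inr hf
  by_cases h2 : f + g = 0
  · exact Or.inl h2
  · exact Or.inr ((le_min hf hg).trans (P.ord_add _ _ h0 h1 h2))

theorem ge.mul {m n : ℤ} {f g : Q} (hf : P.ge m f) (hg : P.ge n g) : P.ge (m + n) (f * g) := by
  rcases hf with rfl | hf
  · rw [zero_mul]; exact P.ge_zero _
  rcases hg with rfl | hg
  · rw [mul_zero]; exact P.ge_zero _
  by_cases h0 : f = 0
  · subst h0; rw [zero_mul]; exact P.ge_zero _
  by_cases h1 : g = 0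
  · subst h1; rw [mul_zero]; exact P.ge_zero _
  exact Or.inr (by rw [P.ord_mul _ _ h0 h1]; omega)

theorem ge.neg {m : ℤ} {f : Q} (hf : P.ge m f) : P.ge m (-f) := by
  rcases hf with rfl | hf
  · rw [neg_zero]; exact P.ge_zero _
  by_cases h0 : f = 0
  · subst h0; rw [neg_zero]; exact P.ge_zero _
  exact Or.inr (by rw [P.ord_neg _ h0]; exact hf)

theorem ge.sub {n : ℤ} {f g : Q} (hf : P.ge n f) (hg : P.ge n g) : P.ge n (f - g) := by
  rw [sub_eq_add_neg]; exact hf.add hg.neg

theorem ge.sum {ι : Type} (s : Finset ι) {n : ℤ} {f : ι → Q} (hf : ∀ i ∈ s, P.ge n (f i)) :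
    P.ge n (∑ i ∈ s, f i) := by
  classical
  induction s using Finset.induction_on with
  | empty => simpa using P.ge_zero n
  | insert a s ha ih =>
    rw [Finset.sum_insert ha]
    exact (hf a (Finset.mem_insert_self a s)).add
      (ih fun i hi => hf i (Finset.mem_insert_of_mem hi))

theorem ge_iff {n : ℤ} {f : Q} (hf : f ≠ 0) : P.ge n f ↔ n ≤ P.ord f := by
  unfold ge; simp [hf]

theorem ge_ord (f : Q) : P.ge (P.ord f) f := Or.inr le_rfl

end Place

section

variable {k Q ι : Type} [Field k] [Field Q] [Algebra k Q] {D : TData k Q} (Pl : Places D ι)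

theorem Places.c_nonneg (P : ι) : 0 ≤ Pl.c P := by
  rcases Pl.c_eq P with h | h <;> omega

theorem Places.ge_of_mem {m : ℤ} {f : Q} (h : f ∈ D.F m) (P : ι) :
    (Pl.pl P).ge (-(Pl.c P * m)) f := by
  rcases (Pl.memF m f).1 h with h | h
  · exact Or.inl h
  · exact Or.inr (by have := h P; rwa [neg_mul] at this)

theorem Places.mem_of_ge {m : ℤ} {f : Q} (h : ∀ P, (Pl.pl P).ge (-(Pl.c P * m)) f) :
    f ∈ D.F m := by
  rw [Pl.memF]
  by_cases h0 : f = 0
  · exact Or.inl h0
  · right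
    intro P
    rcases h P with h1 | h1
    · exact absurd h1 h0
    · rwa [neg_mul]

/-- constants have order `≥ 0`. -/
theorem Places.ge_algebraMap (P : ι) (x : k) : (Pl.pl P).ge 0 (algebraMap k Q x) := by
  have h : algebraMap k Q x ∈ D.F 0 := by
    rw [D.F_zero, Algebra.algebraMap_eq_smul_one]
    exact Submodule.smul_mem _ _ (Submodule.mem_span_singleton_self 1)
  have := Pl.ge_of_mem h P
  simpa using this

theorem Places.ord_algebraMap (P : ι) (x : k) (hx : x ≠ 0) :
    (Pl.pl P).ord (algebraMap k Q x) = 0 := by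
  have hx' : algebraMap k Q x ≠ 0 := by simpa using hx
  have h1 := (Place.ge_iff hx').1 (Pl.ge_algebraMap P x)
  have h2 := Pl.ge_algebraMap P x⁻¹
  rw [map_inv₀] at h2
  have h3 := (Place.ge_iff (inv_ne_zero hx')).1 h2
  rw [Place.ord_inv _ _ hx'] at h3
  omega

end

end Crest.Agent.R169
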