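import Crest.Agent.R169.DNum
import Crest.Agent.R169.PlaceBasic
import Crest.Agent.R169.C.Frob

/-!
# Row 169, PART D: the shape of a `T`-lattice and its Frobenius pull-back (owner helper862)
-/

set_option autoImplicit false
set_option maxHeartbeats 400000

namespace Crest.Agent.R169.DShape

open Module

section Elem

theorem quad_bdd {α β γ C : ℚ} {m₀ : ℤ}
    (h : ∀ m : ℤ, m ≥ m₀ → |α * (m : ℚ) ^ 2 + β * m + γ| ≤ C) : α = 0 ∧ β = 0 := by
  have hB : ∀ m : ℤ, m ≥ max m₀ 1 → |2 * α * (m : ℚ) ^ 2| ≤ 3 * C + |γ| := by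
    intro m hm
    have hm0 : m ≥ m₀ := le_trans (le_max_left _ _) hm
    have hm1 : (1 : ℤ) ≤ m := le_trans (le_max_right _ _) hm
    have h1 := h m hm0
    have h2 := h (2 * m) (by omega)
    have e : 2 * α * (m : ℚ) ^ 2 = (α * ((2 * m : ℤ) : ℚ) ^ 2 + β * ((2 * m : ℤ) : ℚ) + γ) -
        2 * (α * (m : ℚ) ^ 2 + β * m + γ) + γ := by push_cast; ring
    rw [e]
    have h3 := abs_add_le ((α * ((2 * m : ℤ) : ℚ) ^ 2 + β * ((2 * m : ℤ) : ℚ) + γ) -
        2 * (α * (m : ℚ) ^ 2 + β * m + γ)) γ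
    have h4 := abs_sub (α * ((2 * m : ℤ) : ℚ) ^ 2 + β * ((2 * m : ℤ) : ℚ) + γ)
      (2 * (α * (m : ℚ) ^ 2 + β * m + γ))
    have h5 : |2 * (α * (m : ℚ) ^ 2 + β * m + γ)| ≤ 2 * C := by
      rw [abs_mul, abs_two]; linarith
    linarith
  have hα : α = 0 := by
    by_contra hne
    have hpos : 0 < |2 * α| := abs_pos.mpr (by positivity)
    obtain ⟨n, hn⟩ := exists_nat_gt ((3 * C + |γ|) / |2 * α|)
    set m : ℤ := max (max m₀ 1) n with hm
    have h1 := hB m (le_max_left _ _)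
    have h2 : (n : ℚ) ≤ m := by
      have : (n : ℤ) ≤ m := le_max_right _ _
      exact_mod_cast this
    have h3 : (1 : ℚ) ≤ m := by
      have : (1 : ℤ) ≤ m := le_trans (le_max_right _ _) (le_max_left _ _)
      exact_mod_cast this
    rw [abs_mul, abs_of_nonneg (by positivity : (0 : ℚ) ≤ (m : ℚ) ^ 2)] at h1
    rw [div_lt_iff₀ hpos] at hn
    have h4 : (m : ℚ) ≤ (m : ℚ) ^ 2 := by nlinarith
    have h5 : |2 * α| * n ≤ |2 * α| * (m : ℚ) ^ 2 :=
      mul_le_mul_of_nonneg_left (h2.trans h4) hpos.le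
    linarith
  refine ⟨hα, ?_⟩
  by_contra hne
  have hpos : 0 < |β| := abs_pos.mpr hne
  obtain ⟨n, hn⟩ := exists_nat_gt ((C + |γ|) / |β|)
  set m : ℤ := max (max m₀ 1) n with hm
  have h1 := h m (le_trans (le_max_left _ _) (le_max_left _ _))
  have h2 : (n : ℚ) ≤ m := by
    have : (n : ℤ) ≤ m := le_max_right _ _
    exact_mod_cast this
  rw [div_lt_iff₀ hpos] at hn
  have h3 : |β * m| ≤ C + |γ| := by
    have e : β * m = (α * (m : ℚ) ^ 2 + β * m + γ) - γ := by rw [hα]; ring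
    rw [e]
    exact (abs_sub _ _).trans (by linarith)
  rw [abs_mul] at h3
  have h4 : |β| * n ≤ |β| * |(m : ℚ)| :=
    mul_le_mul_of_nonneg_left (h2.trans (le_abs_self _)) hpos.le
  linarith

/-- two quadratic functions with bounded nonnegative difference differ by a constant -/
theorem eventually_const {f g : ℤ → ℕ} {a b c a' b' c' : ℚ} {C : ℕ} {m₀ : ℤ}
    (hf : ∀ m ≥ m₀, (f m : ℚ) = a * (m : ℚ) ^ 2 + b * m + c)
    (hg : ∀ m ≥ m₀, (g m : ℚ) = a' * (m : ℚ) ^ 2 + b' * m + c')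
    (hle : ∀ m ≥ m₀, g m ≤ f m) (hC : ∀ m ≥ m₀, f m ≤ g m + C) :
    ∃ e : ℕ, e ≤ C ∧ ∀ m ≥ m₀, f m = g m + e := by
  have h1 : ∀ m : ℤ, m ≥ m₀ → |(a - a') * (m : ℚ) ^ 2 + (b - b') * m + (c - c')| ≤ C := by
    intro m hm
    have e : (a - a') * (m : ℚ) ^ 2 + (b - b') * m + (c - c') = (f m : ℚ) - g m := by
      rw [hf m hm, hg m hm]; ring
    rw [e]
    have h2 : (g m : ℚ) ≤ f m := by exact_mod_cast hle m hm
    have h3 : (f m : ℚ) ≤ g m + C := by exact_mod_cast hC m hm
    rw [abs_of_nonneg (by linarith)]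
    linarith
  obtain ⟨h2, h3⟩ := quad_bdd h1
  have h4 : ∀ m ≥ m₀, (f m : ℚ) - g m = c - c' := by
    intro m hm
    rw [hf m hm, hg m hm]
    have e1 : a = a' := by linarith
    have e2 : b = b' := by linarith
    rw [e1, e2]; ring
  refine ⟨f m₀ - g m₀, ?_, fun m hm => ?_⟩
  · have := hC m₀ le_rfl
    omega
  · have h5 : (f m : ℚ) - g m = f m₀ - g m₀ := by rw [h4 m hm, h4 m₀ le_rfl]
    have h6 := hle m₀ le_rfl
    have h7 : ((f m + g m₀ : ℕ) : ℚ) = ((f m₀ + g m : ℕ) : ℚ) := by push_cast; linarith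
    have h8 : f m + g m₀ = f m₀ + g m := by exact_mod_cast h7
    omega

end Elem

section Twist

variable {k Q : Type} [Field k] [Field Q] [Algebra k Q] {D : TData k Q}

/-- `(f⁻¹ J)(κ)` -/
def tw (f : Q) (κ : ℤ) (J : ℤ → Submodule k Q) : ℤ → Submodule k Q :=
  fun m => (J (m + κ)).map (LinearMap.mulLeft k f⁻¹)

theorem mem_tw {f : Q} {κ : ℤ} {J : ℤ → Submodule k Q} {m : ℤ} {x : Q} :
    x ∈ tw f κ J m ↔ ∃ g ∈ J (m + κ), f⁻¹ * g = x := Iff.rfl

theorem finrank_tw {f : Q} (hf : f ≠ 0) (κ : ℤ) (J : ℤ → Submodule k Q) (m : ℤ) :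
    finrank k (tw f κ J m) = finrank k (J (m + κ)) := by
  have h : Function.Injective (LinearMap.mulLeft k f⁻¹) := by
    intro x y hxy
    have : f⁻¹ * x = f⁻¹ * y := hxy
    exact mul_left_cancel₀ (inv_ne_zero hf) this
  exact (LinearEquiv.finrank_eq (Submodule.equivMapOfInjective _ h (J (m + κ)))).symm

theorem isTLat_tw {f : Q} (hf : f ≠ 0) (κ : ℤ) {J : ℤ → Submodule k Q} (hJ : IsTLat D J) :
    IsTLat D (tw f κ J) where
  lat :=
    { mono := fun m => by
        apply Submodule.map_mono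
        have := hJ.lat.mono (m + κ)
        have e : m + κ + 1 = m + 1 + κ := by ring
        rwa [e] at this
      umul := by
        rintro m _ ⟨e, he, rfl⟩
        have := hJ.lat.umul (m + κ) e he
        have e1 : m + κ + 1 = m + 1 + κ := by ring
        rw [e1] at this
        refine ⟨D.u • e, this, ?_⟩
        simp only [LinearMap.mulLeft_apply, smul_eq_mul]; ring
      vmul := by
        rintro m _ ⟨e, he, rfl⟩
        have := hJ.lat.vmul (m + κ) e he
        have e1 : m + κ + 1 = m + 1 + κ := by ring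
        rw [e1] at this
        refine ⟨D.v • e, this, ?_⟩
        simp only [LinearMap.mulLeft_apply, smul_eq_mul]; ring
      fin := fun m => by
        have := hJ.lat.fin (m + κ)
        exact (Module.Finite.iff_fg.2 ((Module.Finite.iff_fg.1 this).map _))
      bot := by
        obtain ⟨m₀, h⟩ := hJ.lat.bot
        refine ⟨m₀ - κ, fun m hm => ?_⟩
        unfold tw
        rw [h (m + κ) (by omega), Submodule.map_bot]
      gen := by
        obtain ⟨m₁, h⟩ := hJ.lat.gen
        refine ⟨m₁ - κ, fun m hm => ?_⟩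
        rintro _ ⟨e, he, rfl⟩
        have e1 : m + 1 + κ = m + κ + 1 := by ring
        rw [e1] at he
        obtain ⟨a, ha, b, hb, c, hc, rfl⟩ := h (m + κ) (by omega) e he
        refine ⟨_, ⟨a, ha, rfl⟩, _, ⟨b, hb, rfl⟩, _, ⟨c, hc, rfl⟩, ?_⟩
        simp only [LinearMap.mulLeft_apply, smul_eq_mul]; ring }
  act := by
    rintro i j g hg _ ⟨x, hx, rfl⟩
    have := hJ.act i (j + κ) g hg x hx
    have e : i + (j + κ) = i + j + κ := by ring
    rw [e] at this
    refine ⟨g • x, this, ?_⟩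
    simp only [LinearMap.mulLeft_apply, smul_eq_mul]; ring
  full := by
    rw [eq_top_iff]
    have hne : ∃ m, ∃ x ∈ J m, x ≠ 0 := by
      by_contra hcon
      push Not at hcon
      have : spanK Q J = ⊥ := by
        unfold spanK
        rw [Submodule.span_eq_bot]
        intro x hx
        obtain ⟨m, hm⟩ := Set.mem_iUnion.1 hx
        exact hcon m x hm
      rw [hJ.full] at this
      exact absurd this top_ne_bot
    obtain ⟨m, x, hx, x0⟩ := hne
    have h1 : f⁻¹ * x ∈ spanK Q (tw f κ J) := by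
      apply Submodule.subset_span
      rw [Set.mem_iUnion]
      refine ⟨m - κ, x, ?_, rfl⟩
      have e : m - κ + κ = m := by ring
      show x ∈ J (m - κ + κ)
      rw [e]; exact hx
    intro y _
    have h2 : y = (y * (f⁻¹ * x)⁻¹) • (f⁻¹ * x) := by
      rw [smul_eq_mul, mul_assoc, inv_mul_cancel₀ (mul_ne_zero (inv_ne_zero hf) x0), mul_one]
    rw [h2]
    exact Submodule.smul_mem _ _ h1

/-- Frobenius pull-back of a twist -/
theorem frob1_tw (p : ℕ) {f : Q} (hf : f ≠ 0) (κ : ℤ) (J : ℤ → Submodule k Q) (m : ℤ) :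
    frob1 D p (tw f κ J) m = tw (f ^ p) (p * κ) (frob1 D p J) m := by
  apply le_antisymm
  · apply Submodule.span_le.mpr
    rintro w ⟨j, g, hg, _, ⟨x, hx, rfl⟩, rfl⟩
    refine ⟨g * x ^ p, Submodule.subset_span ⟨j + κ, g, ?_, x, hx, rfl⟩, ?_⟩
    · have e : m + p * κ - p * (j + κ) = m - p * j := by ring
      rw [e]; exact hg
    · simp only [LinearMap.mulLeft_apply]
      rw [mul_pow, inv_pow]; ring
  · unfold tw
    rw [Submodule.map_le_iff_le_comap]
    apply Submodule.span_le.mpr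
    rintro w ⟨j, g, hg, x, hx, rfl⟩
    apply Submodule.subset_span
    refine ⟨j - κ, g, ?_, f⁻¹ * x, ⟨x, ?_, rfl⟩, ?_⟩
    · have e : m - p * (j - κ) = m + p * κ - p * j := by ring
      rw [e]; exact hg
    · have e : j - κ + κ = j := by ring
      show x ∈ J (j - κ + κ)
      rw [e]; exact hx
    · simp only [LinearMap.mulLeft_apply]
      rw [mul_pow, inv_pow]; ring

theorem frob1_le {p : ℕ} {I : ℤ → Submodule k Q} (h : ∀ m, I m ≤ D.F m) (m : ℤ) :
    frob1 D p I m ≤ D.F m := by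
  apply Submodule.span_le.mpr
  rintro w ⟨j, g, hg, x, hx, rfl⟩
  have h1 : x ^ p ∈ D.F (p * j) := by
    have h0 := h j hx
    have : ∀ n : ℕ, x ^ n ∈ D.F (n * j) := by
      intro n
      induction n with
      | zero => simp [D.F_zero, Submodule.mem_span_singleton_self]
      | succ n ih =>
        have h2 := D.mul_mem _ _ _ ih _ h0
        rw [pow_succ]
        have e : ((n + 1 : ℕ) : ℤ) * j = n * j + j := by push_cast; ring
        rwa [e]
    exact this p
  have h2 := D.mul_mem _ _ _ hg _ h1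
  have e : m - p * j + p * j = m := by ring
  rwa [e] at h2

end Twist

section Ord

variable {k Q ι : Type} [Field k] [Field Q] [Algebra k Q] {D : TData k Q}

theorem isLeast_tw (S : Places D ι) (P : ι) {f : Q} (hf : f ≠ 0) (κ : ℤ)
    {J : ℤ → Submodule k Q} {n : ℤ} (h : IsLeast (ordSet S P J) n) :
    IsLeast (ordSet S P (tw f κ J)) (n - (S.pl P).ord f - S.c P * κ) := by
  have hinv := (S.pl P).ord_inv f hf
  constructor
  · obtain ⟨m, g, hg, g0, hn⟩ := h.1
    refine ⟨m - κ, f⁻¹ * g, ⟨g, ?_, rfl⟩, mul_ne_zero (inv_ne_zero hf) g0, ?_⟩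
    · have e : m - κ + κ = m := by ring
      show g ∈ J (m - κ + κ)
      rw [e]; exact hg
    · rw [(S.pl P).ord_mul _ _ (inv_ne_zero hf) g0, hinv, hn]; ring
  · rintro x ⟨m, _, ⟨g, hg, rfl⟩, g0, rfl⟩
    have g0' : g ≠ 0 := by
      rintro rfl
      exact g0 (by simp)
    have h1 := h.2 ⟨m + κ, g, hg, g0', rfl⟩
    have h2 : (S.pl P).ord ((LinearMap.mulLeft k f⁻¹) g) = -(S.pl P).ord f + (S.pl P).ord g := by
      show (S.pl P).ord (f⁻¹ * g) = _
      rw [(S.pl P).ord_mul _ _ (inv_ne_zero hf) g0', hinv]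
    rw [h2]
    linarith

theorem le_F_of_isLeast (S : Places D ι) {I : ℤ → Submodule k Q}
    (h : ∀ P, IsLeast (ordSet S P I) 0) (m : ℤ) : I m ≤ D.F m := by
  intro g hg
  rw [S.memF]
  by_cases g0 : g = 0
  · exact Or.inl g0
  · right
    intro P
    have := (h P).2 ⟨m, g, hg, g0, rfl⟩
    linarith

theorem ordL_eq (S : Places D ι) {P : ι} {I : ℤ → Submodule k Q} {n : ℤ}
    (h : IsLeast (ordSet S P I) n) : ordL S P I = n := h.csInf_eq

end Ord

end Crest.Agent.R169.DShape
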