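import Mathlib

/-!
Row 169, module `Depth` (F8): from a regular sequence in the maximal ideal of a Noetherian local
algebra over an infinite field to a regular sequence inside a given finite dimensional subspace
generating an ideal primary to the maximal ideal.
-/

set_option autoImplicit false

namespace Crest.Agent.R169

open RingTheory.Sequence CategoryTheory Abelian Limits Pointwise

section Gen

variable {k R : Type} [Field k] [Infinite k] [CommRing R] [IsLocalRing R] [IsNoetherianRing R]
  [Algebra k R]

/-- Prime avoidance in a `k`-subspace `W` generating an `𝔪`-primary ideal. -/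
theorem exists_smulRegular_mem (W : Submodule k R) (s : ℕ)
    (hW : IsLocalRing.maximalIdeal R ^ s ≤ Ideal.span (W : Set R))
    (M : Type) [AddCommGroup M] [Module R M] [Module.Finite R M]
    (hM : IsLocalRing.maximalIdeal R ∉ associatedPrimes R M) :
    ∃ l ∈ W, IsSMulRegular M l := by
  classical
  by_contra hcon
  push Not at hcon
  have hfin := associatedPrimes.finite R M
  let f : Ideal R → Subspace k W := fun p => (p.restrictScalars k).comap W.subtype
  let S : Finset (Subspace k W) := hfin.toFinset.image f
  have hcov : ⋃ p ∈ S, (p : Set W) = Set.univ := by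
    rw [Set.eq_univ_iff_forall]
    rintro ⟨w, hw⟩
    have h1 : w ∈ (⋃ p ∈ associatedPrimes R M, (p : Set R)) := by
      rw [biUnion_associatedPrimes_eq_compl_regular]
      exact hcon w hw
    simp only [Set.mem_iUnion] at h1 ⊢
    obtain ⟨p, hp, hwp⟩ := h1
    exact ⟨f p, Finset.mem_image_of_mem _ (hfin.mem_toFinset.mpr hp), hwp⟩
  have htop := Subspace.top_mem_of_biUnion_eq_univ hcov
  obtain ⟨p, hp, hpe⟩ := Finset.mem_image.mp htop
  have hp' := hfin.mem_toFinset.mp hp
  have hWp : (W : Set R) ⊆ p := by
    intro w hw
    have : (⟨w, hw⟩ : W) ∈ f p := by rw [hpe]; trivial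
    exact this
  have hpr : p.IsPrime := hp'.isPrime
  have h2 : IsLocalRing.maximalIdeal R ≤ p :=
    hpr.le_of_pow_le (hW.trans (Ideal.span_le.mpr hWp))
  have h3 : p = IsLocalRing.maximalIdeal R :=
    le_antisymm (IsLocalRing.le_maximalIdeal hpr.ne_top) h2
  exact hM (h3 ▸ hp')

omit [IsLocalRing R] [IsNoetherianRing R] in
theorem ext_quot (N M : ModuleCat.{0} R) (n : ℕ)
    (h : ∀ i < n + 1, Subsingleton (Ext N M i)) (x : R) (hx : IsSMulRegular M x) :
    ∀ i < n, Subsingleton (Ext N (ModuleCat.of R (QuotSMulTop x M)) i) := by
  intro i hi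
  have zero1 := AddCommGrpCat.isZero_of_iff_subsingleton.mpr (h i (by omega))
  have zero2 := AddCommGrpCat.isZero_of_iff_subsingleton.mpr (h (i + 1) (by omega))
  exact AddCommGrpCat.subsingleton_of_isZero <| ShortComplex.Exact.isZero_of_both_zeros
    ((Ext.covariant_sequence_exact₃' N hx.smulShortComplex_shortExact) i (i + 1) rfl)
    (zero1.eq_zero_of_src _) (zero2.eq_zero_of_tgt _)

theorem exists_isRegular_mem (W : Submodule k R) (s : ℕ)
    (hWm : ∀ w ∈ W, w ∈ IsLocalRing.maximalIdeal R)
    (hW : IsLocalRing.maximalIdeal R ^ s ≤ Ideal.span (W : Set R)) (n : ℕ) :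
    ∀ (M : Type) [AddCommGroup M] [Module R M] [Module.Finite R M] [Nontrivial M],
      (∀ i < n, Subsingleton (Ext (ModuleCat.of R (R ⧸ IsLocalRing.maximalIdeal R))
        (ModuleCat.of R M) i)) →
      ∃ ls : List R, ls.length = n ∧ (∀ l ∈ ls, l ∈ W) ∧ IsRegular M ls := by
  induction n with
  | zero =>
    intro M _ _ _ _ _
    exact ⟨[], rfl, by simp, IsRegular.nil R M⟩
  | succ n ih =>
    intro M _ _ _ _ h
    have hss : Subsingleton ((R ⧸ IsLocalRing.maximalIdeal R) →ₗ[R] M) := by
      have h0 : Subsingleton (ModuleCat.of R (R ⧸ IsLocalRing.maximalIdeal R) ⟶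
          ModuleCat.of R M) := Ext.addEquiv₀.subsingleton_congr.mp (h 0 n.zero_lt_succ)
      exact (ModuleCat.homAddEquiv (M := ModuleCat.of R (R ⧸ IsLocalRing.maximalIdeal R))
        (N := ModuleCat.of R M)).symm.subsingleton
    have hM : IsLocalRing.maximalIdeal R ∉ associatedPrimes R M := by
      intro hmem
      obtain ⟨r, hr, hreg⟩ := IsSMulRegular.subsingleton_linearMap_iff.mp hss
      have hr' : r ∈ IsLocalRing.maximalIdeal R := by
        rwa [Ideal.annihilator_quotient] at hr
      have : r ∈ (⋃ p ∈ associatedPrimes R M, (p : Set R)) := by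
        simp only [Set.mem_iUnion]
        exact ⟨_, hmem, hr'⟩
      rw [biUnion_associatedPrimes_eq_compl_regular] at this
      exact this hreg
    obtain ⟨l, hlW, hl⟩ := exists_smulRegular_mem W s hW M hM
    have : Nontrivial (QuotSMulTop l M) :=
      nontrivial_quotSMulTop_of_mem_maximalIdeal M (hWm l hlW)
    obtain ⟨ls, h1, h2, h3⟩ := ih (QuotSMulTop l M)
      (ext_quot _ (ModuleCat.of R M) n h l hl)
    refine ⟨l :: ls, by simp [h1], ?_, IsRegular.cons hl h3⟩
    intro l' hl'
    rcases List.mem_cons.mp hl' with rfl | hl'
    · exact hlW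
    · exact h2 l' hl'

omit [Infinite k] [IsLocalRing R] [IsNoetherianRing R] in
/-- The members of a regular sequence are linearly independent over `k`, even modulo the
annihilator of the module. -/
theorem coeff_eq_zero_of_isRegular (ls : List R) :
    ∀ (M : Type) [AddCommGroup M] [Module R M], IsRegular M ls →
      ∀ c : Fin ls.length → k, (∀ m : M, (∑ i, c i • ls.get i) • m = 0) → ∀ i, c i = 0 := by
  induction ls with
  | nil => intro M _ _ _ c _ i; exact i.elim0
  | cons r rs ih =>
    intro M _ _ h c hc
    rw [isRegular_cons_iff] at h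
    have hsum : ∀ m : M, (c 0 • r + ∑ i : Fin rs.length, c i.succ • rs.get i) • m = 0 := by
      intro m
      have e : (∑ i, c i • (r :: rs).get i) =
          c 0 • r + ∑ i : Fin rs.length, c i.succ • rs.get i :=
        Fin.sum_univ_succ (n := rs.length) (fun i => c i • (r :: rs).get i)
      rw [← e]
      exact hc m
    have h1 : ∀ i, c (Fin.succ i) = 0 := by
      apply ih (QuotSMulTop r M) h.2 (fun i => c i.succ)
      intro m
      obtain ⟨m, rfl⟩ := Submodule.mkQ_surjective _ m
      have h2 : (∑ i : Fin rs.length, c i.succ • rs.get i) • m = r • (-(algebraMap k R (c 0)) • m) := by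
        have := hsum m
        rw [add_smul, Algebra.smul_def] at this
        rw [eq_neg_of_add_eq_zero_right this, smul_smul, ← neg_smul, mul_neg, mul_comm]
      rw [← map_smul, h2, Submodule.mkQ_apply, Submodule.Quotient.mk_eq_zero]
      exact Submodule.smul_mem_pointwise_smul _ _ _ trivial
    have h0 : c 0 = 0 := by
      by_contra hne
      have hnt : Nontrivial M := by
        by_contra hn
        rw [not_nontrivial_iff_subsingleton] at hn
        have := h.2.nontrivial
        exact not_subsingleton (QuotSMulTop r M) (by
          unfold QuotSMulTop; infer_instance)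
      obtain ⟨m, hm⟩ := exists_ne (0 : M)
      apply hm
      apply h.1.right_eq_zero_of_smul
      have := hsum m
      simp only [h1, zero_smul, Finset.sum_const_zero, add_zero] at this
      have h3 : (c 0)⁻¹ • (c 0 • r) = r := by rw [smul_smul, inv_mul_cancel₀ hne, one_smul]
      rw [← h3, Algebra.smul_def, mul_smul, this, smul_zero]
    intro i
    refine Fin.cases h0 (fun j => h1 j) i

/-- **F8.** A finitely generated module over a Noetherian local algebra over an infinite field with
a regular sequence of length three in the maximal ideal has a regular sequence `l₀, l₁, l₂` which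
is a `k`-basis of the span of any three given elements generating an `𝔪`-primary ideal. -/
theorem exists_regular_triple (x : Fin 3 → R)
    (hx : ∀ i, x i ∈ IsLocalRing.maximalIdeal R) (s : ℕ)
    (hs : IsLocalRing.maximalIdeal R ^ s ≤ Ideal.span (Set.range x))
    (M : Type) [AddCommGroup M] [Module R M] [Module.Finite R M]
    (rs : List R) (hlen : rs.length = 3) (hrs : ∀ r ∈ rs, r ∈ IsLocalRing.maximalIdeal R)
    (hreg : IsRegular M rs) :
    ∃ l : Fin 3 → R, IsRegular M [l 0, l 1, l 2] ∧ LinearIndependent k l ∧
      Submodule.span k (Set.range l) = Submodule.span k (Set.range x) ∧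
      Ideal.span (Set.range l) = Ideal.span (Set.range x) := by
  have hnt : Nontrivial M := hreg.nontrivial
  set W : Submodule k R := Submodule.span k (Set.range x) with hWdef
  have hspan : ∀ y : Fin 3 → R, Submodule.span k (Set.range y) = W →
      Ideal.span (Set.range y) = Ideal.span (Set.range x) := by
    intro y hy
    have key : ∀ y z : Fin 3 → R, Submodule.span k (Set.range y) = Submodule.span k (Set.range z) →
        Ideal.span (Set.range y) ≤ Ideal.span (Set.range z) := by
      intro y z hyz
      rw [Ideal.span_le]
      intro r hr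
      have h1 : r ∈ Submodule.span k (Set.range z) := hyz ▸ Submodule.subset_span hr
      exact Submodule.span_le_restrictScalars k R (Set.range z) h1
    exact le_antisymm (key y x hy) (key x y hy.symm)
  have hWm : ∀ w ∈ W, w ∈ IsLocalRing.maximalIdeal R := by
    intro w hw
    have h1 : w ∈ Submodule.span R (Set.range x) :=
      Submodule.span_le_restrictScalars k R (Set.range x) hw
    have h2 : Submodule.span R (Set.range x) ≤ IsLocalRing.maximalIdeal R := by
      rw [Submodule.span_le]
      rintro _ ⟨i, rfl⟩
      exact hx i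
    exact h2 h1
  have hW : IsLocalRing.maximalIdeal R ^ s ≤ Ideal.span (W : Set R) :=
    hs.trans (Ideal.span_mono Submodule.subset_span)
  have hlt : IsLocalRing.maximalIdeal R • (⊤ : Submodule R (ModuleCat.of R M)) < ⊤ := by
    refine lt_top_iff_ne_top.mpr (fun h => ?_)
    have := Submodule.eq_bot_of_le_smul_of_le_jacobson_bot (IsLocalRing.maximalIdeal R)
      (⊤ : Submodule R M) Module.Finite.fg_top (le_of_eq h.symm)
      (IsLocalRing.maximalIdeal_le_jacobson _)
    exact top_ne_bot this
  have hext : ∀ i < 3, Subsingleton (Ext (ModuleCat.of R (R ⧸ IsLocalRing.maximalIdeal R))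
      (ModuleCat.of R M) i) := by
    have h := ModuleCat.subsingleton_ext_of_exists_isRegular (IsLocalRing.maximalIdeal R)
      (ModuleCat.of R (R ⧸ IsLocalRing.maximalIdeal R))
      (by
        rw [Module.support_eq_zeroLocus, Ideal.annihilator_quotient])
      (ModuleCat.of R M) hlt rs hrs hreg
    rw [hlen] at h
    exact h
  obtain ⟨ls, h1, h2, h3⟩ := exists_isRegular_mem W s hWm hW 3 M hext
  obtain ⟨a, b, c, rfl⟩ := List.length_eq_three.mp h1
  have hli : LinearIndependent k (![a, b, c] : Fin 3 → R) := by
    rw [Fintype.linearIndependent_iff]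
    intro g hg
    have h4 := coeff_eq_zero_of_isRegular (k := k) [a, b, c] M h3 g (fun m => by
      have e : (∑ i : Fin 3, g i • ([a, b, c] : List R).get i) = ∑ i, g i • ![a, b, c] i := by
        refine Finset.sum_congr rfl (fun i _ => ?_)
        fin_cases i <;> rfl
      exact (congrArg (fun t => t • m) (e.trans hg)).trans (zero_smul R m))
    exact h4
  have hsp : Submodule.span k (Set.range ![a, b, c]) = W := by
    have hle : Submodule.span k (Set.range ![a, b, c]) ≤ W := by
      rw [Submodule.span_le]
      rintro _ ⟨i, rfl⟩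
      fin_cases i
      · exact h2 a (by simp)
      · exact h2 b (by simp)
      · exact h2 c (by simp)
    have : FiniteDimensional k W := FiniteDimensional.span_of_finite k (Set.finite_range x)
    apply Submodule.eq_of_le_of_finrank_le hle
    rw [finrank_span_eq_card hli]
    exact (finrank_range_le_card (R := k) x).trans (by simp)
  exact ⟨![a, b, c], by simpa using h3, hli, hsp, hspan _ hsp⟩

end Gen

end Crest.Agent.R169
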