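import Crest.Agent.R169.Depth

/-!
Row 169, module `Depth2`: in a Noetherian local ring, if a finite module `M` has a regular sequence
of length `n` in the maximal ideal, then any `n` elements `x₁..xₙ` of the maximal ideal generating an
`𝔪`-primary ideal form themselves an `M`-regular sequence.
-/

set_option autoImplicit false

namespace Crest.Agent.R169

open RingTheory.Sequence CategoryTheory Abelian Limits Pointwise

variable {R : Type} [CommRing R] [IsLocalRing R] [IsNoetherianRing R]

/-- `dim R/P ≥ depth M` for every associated prime `P` of `M`. -/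
theorem length_le_ringKrullDim_of_mem_ass (rs : List R)
    (hrs : ∀ r ∈ rs, r ∈ IsLocalRing.maximalIdeal R) :
    ∀ (M : Type) [AddCommGroup M] [Module R M] [Module.Finite R M], IsRegular M rs →
      ∀ P ∈ associatedPrimes R M, (rs.length : WithBot ℕ∞) ≤ ringKrullDim (R ⧸ P) := by
  induction rs with
  | nil =>
    intro M _ _ _ _ P hP
    have : P.IsPrime := hP.isPrime
    have : Nontrivial (R ⧸ P) := Ideal.Quotient.nontrivial_iff.mpr (Ideal.IsPrime.ne_top this)
    simpa using ringKrullDim_nonneg_of_nontrivial (R := R ⧸ P)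
  | cons a rs ih =>
    intro M _ _ _ h P hP
    rw [isRegular_cons_iff] at h
    have ha : a ∈ IsLocalRing.maximalIdeal R := hrs a (by simp)
    have hPp : P.IsPrime := hP.isPrime
    -- `a ∉ P`
    have haP : a ∉ P := by
      intro haP
      have : a ∈ (⋃ p ∈ associatedPrimes R M, (p : Set R)) := by
        simp only [Set.mem_iUnion]
        exact ⟨P, hP, haP⟩
      rw [biUnion_associatedPrimes_eq_compl_regular] at this
      exact this h.1
    -- `N = M[P]`
    let N : Submodule R M := Submodule.torsionBySet R M (P : Set R)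
    have hNne : N ≠ ⊥ := by
      obtain ⟨_, x, hx⟩ := (isAssociatedPrime_iff.mp hP)
      intro hN
      have hxN : x ∈ N := by
        rw [Submodule.mem_torsionBySet_iff]
        intro r
        have h3 : (r : R) ∈ (⊥ : Submodule R M).colon {x} := hx ▸ r.2
        rw [Submodule.mem_colon_singleton] at h3
        simpa using h3
      rw [hN, Submodule.mem_bot] at hxN
      subst hxN
      apply hPp.ne_top
      rw [hx]
      simp
    have hNa : ¬ (N ≤ Ideal.span {a} • N) := by
      intro hle
      apply hNne
      refine Submodule.eq_bot_of_le_smul_of_le_jacobson_bot (Ideal.span {a}) N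
        (IsNoetherian.noetherian N) hle ?_
      refine le_trans ?_ (IsLocalRing.maximalIdeal_le_jacobson _)
      rw [Ideal.span_singleton_le_iff_mem]
      exact ha
    obtain ⟨n0, hn0, hn0'⟩ := Set.not_subset.mp hNa
    have hmem : n0 ∉ a • (⊤ : Submodule R M) := by
      intro hm
      rw [Submodule.mem_smul_pointwise_iff_exists] at hm
      obtain ⟨m, _, rfl⟩ := hm
      apply hn0'
      rw [SetLike.mem_coe, Submodule.ideal_span_singleton_smul]
      refine Submodule.smul_mem_pointwise_smul _ _ _ ?_
      rw [Submodule.mem_torsionBySet_iff]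
      intro r
      rw [SetLike.mem_coe, Submodule.mem_torsionBySet_iff] at hn0
      have h4 := hn0 r
      rw [smul_comm] at h4
      exact h.1.right_eq_zero_of_smul h4
    let n1 : QuotSMulTop a M := Submodule.Quotient.mk n0
    have hn1 : n1 ≠ 0 := by
      intro h0
      exact hmem ((Submodule.Quotient.mk_eq_zero _).mp h0)
    obtain ⟨P1, hP1, hle⟩ := exists_le_isAssociatedPrime_of_isNoetherianRing R n1 hn1
    have hPP1 : P ≤ P1 := by
      intro r hr
      apply hle
      rw [Submodule.mem_colon_singleton]
      rw [SetLike.mem_coe, Submodule.mem_torsionBySet_iff] at hn0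
      have h4 : r • n0 = 0 := hn0 ⟨r, hr⟩
      have : r • n1 = Submodule.Quotient.mk (r • n0) := rfl
      rw [this, h4]
      simp
    have haP1 : a ∈ P1 := by
      apply hle
      rw [Submodule.mem_colon_singleton]
      have : a • n1 = Submodule.Quotient.mk (a • n0) := rfl
      rw [this, Submodule.mem_bot, Submodule.Quotient.mk_eq_zero]
      exact Submodule.smul_mem_pointwise_smul _ _ _ trivial
    have h5 := ih (fun r hr => hrs r (by simp [hr])) (QuotSMulTop a M) h.2 P1 hP1
    have h6 : ringKrullDim (R ⧸ P1) + 1 ≤ ringKrullDim (R ⧸ P) := by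
      refine ringKrullDim_succ_le_of_surjective (Ideal.Quotient.factor hPP1)
        (Ideal.Quotient.factor_surjective hPP1) (r := Ideal.Quotient.mk P a) ?_ ?_
      · rw [mem_nonZeroDivisors_iff_ne_zero]
        intro h0
        exact haP (Ideal.Quotient.eq_zero_iff_mem.mp h0)
      · rw [Ideal.Quotient.factor_mk]
        exact Ideal.Quotient.eq_zero_iff_mem.mpr haP1
    refine le_trans ?_ h6
    rw [List.length_cons, Nat.cast_add, Nat.cast_one]
    gcongr

/-- Krull's height theorem in the form needed. -/
theorem ringKrullDim_quotient_le (P : Ideal R) [P.IsPrime] (ys : List R)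
    (hys : ∀ y ∈ ys, y ∈ IsLocalRing.maximalIdeal R) (s : ℕ)
    (h : IsLocalRing.maximalIdeal R ^ s ≤ P ⊔ Ideal.ofList ys) :
    ringKrullDim (R ⧸ P) ≤ (ys.length : WithBot ℕ∞) := by
  classical
  have hne : Nontrivial (R ⧸ P) := Ideal.Quotient.nontrivial_iff.mpr (Ideal.IsPrime.ne_top ‹_›)
  have hloc : IsLocalRing (R ⧸ P) :=
    IsLocalRing.of_surjective' (Ideal.Quotient.mk P) Ideal.Quotient.mk_surjective
  rw [← IsLocalRing.maximalIdeal_height_eq_ringKrullDim]
  have hmap : (IsLocalRing.maximalIdeal R).map (Ideal.Quotient.mk P) =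
      IsLocalRing.maximalIdeal (R ⧸ P) :=
    IsLocalRing.map_maximalIdeal_of_surjective _ Ideal.Quotient.mk_surjective
  set t : Finset (R ⧸ P) := (ys.map (Ideal.Quotient.mk P)).toFinset with ht
  have hcard : t.card ≤ ys.length := by
    refine (List.toFinset_card_le _).trans ?_
    simp
  have hspan : (Ideal.span (t : Set (R ⧸ P))) = (Ideal.ofList ys).map (Ideal.Quotient.mk P) := by
    rw [Ideal.map_ofList, Ideal.ofList, ht]
    congr 1
    ext z
    simp
  have hmin : IsLocalRing.maximalIdeal (R ⧸ P) ∈ (Ideal.span (t : Set (R ⧸ P))).minimalPrimes := by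
    refine ⟨⟨inferInstance, ?_⟩, ?_⟩
    · rw [hspan, ← hmap]
      apply Ideal.map_mono
      rw [Ideal.ofList, Ideal.span_le]
      intro y hy
      exact hys y hy
    · rintro q ⟨hq, hq2⟩ _
      have h1 : IsLocalRing.maximalIdeal (R ⧸ P) ^ s ≤ q := by
        rw [← hmap, ← Ideal.map_pow]
        refine (Ideal.map_mono h).trans ?_
        rw [Ideal.map_sup, ← hspan, Ideal.map_quotient_self, bot_sup_eq]
        exact hq2
      exact hq.le_of_pow_le h1
  have h2 := Ideal.height_le_card_of_mem_minimalPrimes_span_finset hmin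
  have h3 : (IsLocalRing.maximalIdeal (R ⧸ P)).height ≤ (ys.length : ℕ∞) :=
    h2.trans (by exact_mod_cast hcard)
  exact_mod_cast h3

theorem isRegular_of_ext (n : ℕ) : ∀ (xs : List R), xs.length = n →
    (∀ x ∈ xs, x ∈ IsLocalRing.maximalIdeal R) →
    ∀ (M : Type) [AddCommGroup M] [Module R M] [Module.Finite R M] [Nontrivial M]
      (J : Ideal R), (∀ j ∈ J, ∀ m : M, j • m = 0) → ∀ s : ℕ,
      IsLocalRing.maximalIdeal R ^ s ≤ J ⊔ Ideal.ofList xs →
      (∀ i < n, Subsingleton (Ext (ModuleCat.of R (R ⧸ IsLocalRing.maximalIdeal R))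
        (ModuleCat.of R M) i)) → IsRegular M xs := by
  induction n with
  | zero =>
    intro xs hxs _ M _ _ _ _ J _ s _ _
    rw [List.length_eq_zero_iff] at hxs
    subst hxs
    exact IsRegular.nil R M
  | succ n ih =>
    intro xs hxs hxm M _ _ _ _ J hJ s hs hext
    obtain ⟨x, ys, rfl⟩ := List.exists_cons_of_length_eq_add_one hxs
    have hlen : ys.length = n := by simpa using hxs
    have hx : x ∈ IsLocalRing.maximalIdeal R := hxm x (by simp)
    have hys : ∀ y ∈ ys, y ∈ IsLocalRing.maximalIdeal R := fun y hy => hxm y (by simp [hy])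
    have hlt : IsLocalRing.maximalIdeal R • (⊤ : Submodule R (ModuleCat.of R M)) < ⊤ := by
      refine lt_top_iff_ne_top.mpr (fun h => ?_)
      have := Submodule.eq_bot_of_le_smul_of_le_jacobson_bot (IsLocalRing.maximalIdeal R)
        (⊤ : Submodule R M) Module.Finite.fg_top (le_of_eq h.symm)
        (IsLocalRing.maximalIdeal_le_jacobson _)
      exact top_ne_bot this
    obtain ⟨rs, hrl, hrm, hrr⟩ := ModuleCat.exists_isRegular_of_exists_subsingleton_ext
      (IsLocalRing.maximalIdeal R) (n + 1) (ModuleCat.of R M) hlt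
      (ModuleCat.of R (R ⧸ IsLocalRing.maximalIdeal R))
      (by rw [Module.support_eq_zeroLocus, Ideal.annihilator_quotient]) hext
    have hxreg : IsSMulRegular M x := by
      by_contra hcon
      have : x ∈ (⋃ p ∈ associatedPrimes R M, (p : Set R)) := by
        rw [biUnion_associatedPrimes_eq_compl_regular]
        exact hcon
      simp only [Set.mem_iUnion] at this
      obtain ⟨P, hP, hxP⟩ := this
      have hPp : P.IsPrime := hP.isPrime
      have hJP : J ≤ P := by
        obtain ⟨_, y, hy⟩ := (isAssociatedPrime_iff.mp hP)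
        intro j hj
        rw [hy, Submodule.mem_colon_singleton, hJ j hj y]
        exact zero_mem _
      have h1 := length_le_ringKrullDim_of_mem_ass rs hrm M hrr P hP
      have h2 := ringKrullDim_quotient_le P ys hys s (hs.trans (by
        rw [Ideal.ofList_cons, ← sup_assoc]
        refine sup_le_sup_right (sup_le hJP ?_) _
        rwa [Ideal.span_singleton_le_iff_mem]))
      have h3 := h1.trans h2
      rw [hrl, hlen] at h3
      have h4 : n + 1 ≤ n := by exact_mod_cast h3
      omega
    have hnt : Nontrivial (QuotSMulTop x M) := nontrivial_quotSMulTop_of_mem_maximalIdeal M hx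
    refine IsRegular.cons hxreg (ih ys hlen hys (QuotSMulTop x M) (J ⊔ Ideal.span {x}) ?_ s ?_
      (ext_quot _ (ModuleCat.of R M) n hext x hxreg))
    · intro j hj m
      obtain ⟨m, rfl⟩ := Submodule.mkQ_surjective _ m
      obtain ⟨a, ha, b, hb, rfl⟩ := Submodule.mem_sup.mp hj
      obtain ⟨c, rfl⟩ := Ideal.mem_span_singleton'.mp hb
      rw [← map_smul, add_smul, hJ a ha, zero_add, Submodule.mkQ_apply,
        Submodule.Quotient.mk_eq_zero, mul_comm, mul_smul]
      exact Submodule.smul_mem_pointwise_smul _ _ _ trivial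
    · rw [sup_assoc, ← Ideal.ofList_cons]
      exact hs

/-- **F8, second form.** If the finite module `M` over the Noetherian local ring `R` has a regular
sequence in the maximal ideal whose length equals that of the list `xs`, and `xs` generates an
`𝔪`-primary ideal (contained in `𝔪`), then `xs` itself is `M`-regular. -/
theorem isRegular_of_primary (xs : List R) (hx : ∀ x ∈ xs, x ∈ IsLocalRing.maximalIdeal R)
    (s : ℕ) (hs : IsLocalRing.maximalIdeal R ^ s ≤ Ideal.ofList xs)
    (M : Type) [AddCommGroup M] [Module R M] [Module.Finite R M]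
    (rs : List R) (hlen : rs.length = xs.length)
    (hrs : ∀ r ∈ rs, r ∈ IsLocalRing.maximalIdeal R)
    (hreg : IsRegular M rs) : IsRegular M xs := by
  have hnt : Nontrivial M := hreg.nontrivial
  have hlt : IsLocalRing.maximalIdeal R • (⊤ : Submodule R (ModuleCat.of R M)) < ⊤ := by
    refine lt_top_iff_ne_top.mpr (fun h => ?_)
    have := Submodule.eq_bot_of_le_smul_of_le_jacobson_bot (IsLocalRing.maximalIdeal R)
      (⊤ : Submodule R M) Module.Finite.fg_top (le_of_eq h.symm)
      (IsLocalRing.maximalIdeal_le_jacobson _)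
    exact top_ne_bot this
  have hext : ∀ i < xs.length,
      Subsingleton (Ext (ModuleCat.of R (R ⧸ IsLocalRing.maximalIdeal R))
      (ModuleCat.of R M) i) := by
    have h := ModuleCat.subsingleton_ext_of_exists_isRegular (IsLocalRing.maximalIdeal R)
      (ModuleCat.of R (R ⧸ IsLocalRing.maximalIdeal R))
      (by
        rw [Module.support_eq_zeroLocus, Ideal.annihilator_quotient])
      (ModuleCat.of R M) hlt rs hrs hreg
    rw [hlen] at h
    exact h
  exact isRegular_of_ext xs.length xs rfl hx M ⊥ (by
    intro j hj m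
    rw [Ideal.mem_bot] at hj
    rw [hj, zero_smul]) s (by simpa using hs) hext

end Crest.Agent.R169
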