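import Mathlib

/-!
# Row 169, module F4: derivations (abstract part)

* `Crest.Agent.R169.Der.ext` : extension of a derivation `O → Q` to the fraction field `Q`;
* `Crest.Agent.R169.Der.kernel_pow` : common kernel of two diagonalisable derivations is `Q^p`.
-/

set_option autoImplicit false

namespace Crest.Agent.R169.Der

section Ext

variable {k O Q : Type*} [CommRing k] [CommRing O] [Algebra k O] [Field Q] [Algebra k Q]
  [Algebra O Q] [IsScalarTower k O Q] [IsFractionRing O Q]

open TrivSqZeroExt in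
/-- the dual-number valued ring hom attached to a derivation `O → Q` -/
noncomputable def dualHom (D : Derivation k O Q) : O →+* TrivSqZeroExt Q Q where
  toFun x := inl (algebraMap O Q x) + inr (D x)
  map_one' := by
    rw [map_one, Derivation.map_one_eq_zero, inr_zero, add_zero, inl_one]
  map_mul' x y := by
    apply TrivSqZeroExt.ext
    · simp
    · rw [TrivSqZeroExt.snd_mul]
      simp only [TrivSqZeroExt.snd_add, TrivSqZeroExt.snd_inl, TrivSqZeroExt.snd_inr, zero_add,
        TrivSqZeroExt.fst_add, TrivSqZeroExt.fst_inl, TrivSqZeroExt.fst_inr, add_zero,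
        Derivation.leibniz, op_smul_eq_smul, smul_eq_mul, Algebra.smul_def]
  map_zero' := by simp
  map_add' x y := by
    apply TrivSqZeroExt.ext
    · simp
    · simp

theorem dualHom_fst (D : Derivation k O Q) (x : O) :
    (dualHom D x).fst = algebraMap O Q x := by
  simp [dualHom]

theorem dualHom_snd (D : Derivation k O Q) (x : O) : (dualHom D x).snd = D x := by
  simp [dualHom]

theorem dualHom_isUnit (D : Derivation k O Q) (y : nonZeroDivisors O) :
    IsUnit (dualHom D y) := by
  rw [TrivSqZeroExt.isUnit_iff_isUnit_fst, dualHom_fst]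
  exact IsLocalization.map_units Q y

/-- extension of `dualHom` to the fraction field -/
noncomputable def dualHomQ (D : Derivation k O Q) : Q →+* TrivSqZeroExt Q Q :=
  IsLocalization.lift (M := nonZeroDivisors O) (dualHom_isUnit D)

theorem dualHomQ_algebraMap (D : Derivation k O Q) (x : O) :
    dualHomQ D (algebraMap O Q x) = dualHom D x :=
  IsLocalization.lift_eq _ _

theorem dualHomQ_fst (D : Derivation k O Q) (q : Q) : (dualHomQ D q).fst = q := by
  have h : (TrivSqZeroExt.fstHom ℤ Q Q).toRingHom.comp (dualHomQ D) = RingHom.id Q := by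
    apply IsLocalization.ringHom_ext (nonZeroDivisors O)
    ext x
    simp [dualHomQ_algebraMap, dualHom_fst]
  have := congrArg (fun f => f q) h
  simpa using this

/-- extension of a derivation to the fraction field -/
noncomputable def ext (D : Derivation k O Q) : Derivation k Q Q :=
  Derivation.mk'
    { toFun := fun q => (dualHomQ D q).snd
      map_add' := fun x y => by rw [map_add]; simp
      map_smul' := fun c x => by
        have h1 : algebraMap k Q c = algebraMap O Q (algebraMap k O c) :=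
          IsScalarTower.algebraMap_apply k O Q c
        rw [Algebra.smul_def, map_mul, h1, dualHomQ_algebraMap, TrivSqZeroExt.snd_mul,
          dualHom_fst, dualHom_snd, Derivation.map_algebraMap, ← h1]
        simp [Algebra.smul_def] }
    (fun a b => by
      show (dualHomQ D (a * b)).snd = a • (dualHomQ D b).snd + b • (dualHomQ D a).snd
      rw [map_mul, TrivSqZeroExt.snd_mul, dualHomQ_fst, dualHomQ_fst, op_smul_eq_smul])

theorem ext_algebraMap (D : Derivation k O Q) (x : O) : ext D (algebraMap O Q x) = D x := by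
  show (dualHomQ D (algebraMap O Q x)).snd = D x
  rw [dualHomQ_algebraMap, dualHom_snd]

end Ext


section Kernel

variable {Q : Type*} [Field Q]

/-- monomials `c^p z1^i z2^j` -/
def monos (p : ℕ) (z1 z2 : Q) : Set Q :=
  {x | ∃ (c : Q) (i j : ℕ), x = c ^ p * z1 ^ i * z2 ^ j}

theorem monos_mul (p : ℕ) (z1 z2 : Q) {x y : Q} (hx : x ∈ monos p z1 z2)
    (hy : y ∈ monos p z1 z2) : x * y ∈ monos p z1 z2 := by
  obtain ⟨c, i, j, rfl⟩ := hx
  obtain ⟨d, i', j', rfl⟩ := hy
  exact ⟨c * d, i + i', j + j', by ring⟩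

theorem monos_one (p : ℕ) (z1 z2 : Q) : (1 : Q) ∈ monos p z1 z2 :=
  ⟨1, 0, 0, by simp⟩

/-- the submonoid of monomials -/
def monosM (p : ℕ) (z1 z2 : Q) : Submonoid Q where
  carrier := monos p z1 z2
  mul_mem' := monos_mul p z1 z2
  one_mem' := monos_one p z1 z2

/-- The subring spanned by the monomials is a subfield. -/
def monosField (p : ℕ) (hp : p ≠ 0) (z1 z2 : Q) : Subfield Q :=
  { Subring.closure (monos p z1 z2) with
    inv_mem' := by
      intro x hx
      by_cases h0 : x = 0
      · subst h0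
        rw [inv_zero]
        exact Subring.zero_mem _
      · have h1 : x⁻¹ = (x⁻¹) ^ p * x ^ (p - 1) := by
          obtain ⟨n, rfl⟩ := Nat.exists_eq_succ_of_ne_zero hp
          rw [Nat.succ_sub_one, pow_succ, mul_assoc, mul_comm, mul_assoc, ← mul_pow,
            mul_inv_cancel₀ h0, one_pow, mul_one]
        rw [h1]
        refine Subring.mul_mem _ (Subring.subset_closure ⟨x⁻¹, 0, 0, by simp⟩) ?_
        exact Subring.pow_mem _ hx _ }

theorem mem_monosField {p : ℕ} {hp : p ≠ 0} {z1 z2 x : Q} :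
    x ∈ monosField p hp z1 z2 ↔ x ∈ AddSubgroup.closure (monos p z1 z2) := by
  have h : x ∈ monosField p hp z1 z2 ↔ x ∈ Subring.closure (monos p z1 z2) := Iff.rfl
  rw [h, Subring.mem_closure_iff]
  have h2 : Submonoid.closure (monos p z1 z2) = monosM p z1 z2 := by
    apply le_antisymm
    · exact Submonoid.closure_le.mpr (fun x hx => hx)
    · intro x hx
      exact Submonoid.subset_closure hx
  rw [h2]
  rfl

variable {k : Type*} [CommRing k] [Algebra k Q]

theorem natCast_pow_eq (p : ℕ) [Fact p.Prime] [CharP Q p] (i : ℕ) (hi : ¬ p ∣ i) :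
    (i : Q) ^ (p - 1) = 1 := by
  have h1 : (i : ZMod p) ≠ 0 := by
    rw [Ne, ZMod.natCast_eq_zero_iff]
    exact hi
  have h2 := ZMod.pow_card_sub_one_eq_one h1
  have h3 := congrArg (ZMod.castHom (dvd_refl p) Q) h2
  simpa using h3

theorem AddMonoid.End.mul_apply' {A : Type*} [AddCommMonoid A] (f g : AddMonoid.End A) (x : A) :
    (f * g) x = f (g x) := rfl

/-- Common kernel of two derivations is `Q^p`. -/
theorem kernel_pow (p : ℕ) [Fact p.Prime] [CharP Q p] (D1 D2 : Derivation k Q Q)
    (z1 z2 h1 h2 : Q) (hh1 : h1 ≠ 0) (hh2 : h2 ≠ 0)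
    (e11 : D1 z1 = h1 * z1) (e12 : D1 z2 = 0) (e21 : D2 z1 = 0) (e22 : D2 z2 = h2 * z2)
    (hgen : ∀ S : Subfield Q, (∀ x : Q, x ^ p ∈ S) → z1 ∈ S → z2 ∈ S → S = ⊤)
    (x : Q) (hx1 : D1 x = 0) (hx2 : D2 x = 0) : ∃ y, y ^ p = x := by
  have hp : p.Prime := Fact.out
  have hp0 : p ≠ 0 := hp.ne_zero
  have hp1 : p - 1 ≠ 0 := Nat.sub_ne_zero_of_lt hp.one_lt
  -- scaled derivations
  set δ1 : Derivation k Q Q := h1⁻¹ • D1 with hδ1
  set δ2 : Derivation k Q Q := h2⁻¹ • D2 with hδ2
  have d11 : δ1 z1 = z1 := by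
    rw [hδ1, Derivation.smul_apply, e11, smul_eq_mul, ← mul_assoc, inv_mul_cancel₀ hh1, one_mul]
  have d12 : δ1 z2 = 0 := by rw [hδ1, Derivation.smul_apply, e12, smul_zero]
  have d21 : δ2 z1 = 0 := by rw [hδ2, Derivation.smul_apply, e21, smul_zero]
  have d22 : δ2 z2 = z2 := by
    rw [hδ2, Derivation.smul_apply, e22, smul_eq_mul, ← mul_assoc, inv_mul_cancel₀ hh2, one_mul]
  have dp : ∀ (δ : Derivation k Q Q) (c : Q), δ (c ^ p) = 0 := by
    intro δ c
    rw [Derivation.leibniz_pow]
    have : (p : Q) = 0 := CharP.cast_eq_zero Q p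
    rw [nsmul_eq_mul, this, zero_mul]
  have m1 : ∀ (c : Q) (i j : ℕ), δ1 (c ^ p * z1 ^ i * z2 ^ j)
      = (i : Q) * (c ^ p * z1 ^ i * z2 ^ j) := by
    intro c i j
    rw [Derivation.leibniz, Derivation.leibniz, dp, Derivation.leibniz_pow,
      Derivation.leibniz_pow, d11, d12]
    rcases Nat.eq_zero_or_pos i with hi | hi
    · subst hi; simp
    · obtain ⟨n, rfl⟩ := Nat.exists_eq_add_of_lt hi
      simp only [zero_add] at *
      simp only [smul_eq_mul, nsmul_eq_mul, Nat.add_sub_cancel]
      push_cast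
      ring
  have m2 : ∀ (c : Q) (i j : ℕ), δ2 (c ^ p * z1 ^ i * z2 ^ j)
      = (j : Q) * (c ^ p * z1 ^ i * z2 ^ j) := by
    intro c i j
    rw [Derivation.leibniz, Derivation.leibniz, dp, Derivation.leibniz_pow,
      Derivation.leibniz_pow, d21, d22]
    rcases Nat.eq_zero_or_pos j with hj | hj
    · subst hj; simp
    · obtain ⟨n, rfl⟩ := Nat.exists_eq_add_of_lt hj
      simp only [zero_add] at *
      simp only [smul_eq_mul, nsmul_eq_mul, Nat.add_sub_cancel]
      push_cast
      ring
  -- additive endomorphisms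
  let E1 : AddMonoid.End Q := (δ1 : Q →ₗ[k] Q).toAddMonoidHom
  let E2 : AddMonoid.End Q := (δ2 : Q →ₗ[k] Q).toAddMonoidHom
  have E1a : ∀ y, E1 y = δ1 y := fun _ => rfl
  have E2a : ∀ y, E2 y = δ2 y := fun _ => rfl
  have castmul : ∀ (δ : Derivation k Q Q) (n i : ℕ) (y : Q),
      δ ((i : Q) ^ n * y) = (i : Q) ^ n * δ y := by
    intro δ n i y
    rw [Derivation.leibniz, Derivation.leibniz_pow, Derivation.map_natCast]
    simp
  have it1 : ∀ (n : ℕ) (c : Q) (i j : ℕ), (E1 ^ n) (c ^ p * z1 ^ i * z2 ^ j)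
      = (i : Q) ^ n * (c ^ p * z1 ^ i * z2 ^ j) := by
    intro n c i j
    induction n with
    | zero => simp
    | succ n ih =>
      rw [pow_succ', AddMonoid.End.mul_apply', ih, E1a, castmul, m1, pow_succ]
      ring
  have it2 : ∀ (n : ℕ) (c : Q) (i j : ℕ), (E2 ^ n) (c ^ p * z1 ^ i * z2 ^ j)
      = (j : Q) ^ n * (c ^ p * z1 ^ i * z2 ^ j) := by
    intro n c i j
    induction n with
    | zero => simp
    | succ n ih =>
      rw [pow_succ', AddMonoid.End.mul_apply', ih, E2a, castmul, m2, pow_succ]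
      ring
  let P1 : AddMonoid.End Q := 1 - E1 ^ (p - 1)
  let P2 : AddMonoid.End Q := 1 - E2 ^ (p - 1)
  have P1m : ∀ (c : Q) (i j : ℕ), P1 (c ^ p * z1 ^ i * z2 ^ j) =
      if p ∣ i then c ^ p * z1 ^ i * z2 ^ j else 0 := by
    intro c i j
    show (c ^ p * z1 ^ i * z2 ^ j) - (E1 ^ (p - 1)) (c ^ p * z1 ^ i * z2 ^ j) = _
    rw [it1]
    split_ifs with h
    · have : (i : Q) = 0 := (CharP.cast_eq_zero_iff Q p i).mpr h
      rw [this, zero_pow hp1, zero_mul, sub_zero]
    · rw [natCast_pow_eq p i h, one_mul, sub_self]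
  have P2m : ∀ (c : Q) (i j : ℕ), P2 (c ^ p * z1 ^ i * z2 ^ j) =
      if p ∣ j then c ^ p * z1 ^ i * z2 ^ j else 0 := by
    intro c i j
    show (c ^ p * z1 ^ i * z2 ^ j) - (E2 ^ (p - 1)) (c ^ p * z1 ^ i * z2 ^ j) = _
    rw [it2]
    split_ifs with h
    · have : (j : Q) = 0 := (CharP.cast_eq_zero_iff Q p j).mpr h
      rw [this, zero_pow hp1, zero_mul, sub_zero]
    · rw [natCast_pow_eq p j h, one_mul, sub_self]
  -- everything is spanned by the monomials
  have htop : monosField p hp0 z1 z2 = ⊤ := by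
    apply hgen
    · intro y
      exact Subring.subset_closure ⟨y, 0, 0, by simp⟩
    · exact Subring.subset_closure ⟨1, 1, 0, by simp⟩
    · exact Subring.subset_closure ⟨1, 0, 1, by simp⟩
  have hmem : ∀ y : Q, y ∈ AddSubgroup.closure (monos p z1 z2) := by
    intro y
    rw [← mem_monosField (hp := hp0), htop]
    trivial
  have key : ∀ y : Q, P1 (P2 y) ∈ (frobenius Q p).range := by
    intro y
    induction hmem y using AddSubgroup.closure_induction with
    | mem y hy =>
      obtain ⟨c, i, j, rfl⟩ := hy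
      rw [P2m]
      split_ifs with hj
      · rw [P1m]
        split_ifs with hi
        · obtain ⟨a, rfl⟩ := hi
          obtain ⟨b, rfl⟩ := hj
          refine ⟨c * z1 ^ a * z2 ^ b, ?_⟩
          rw [frobenius_def]
          ring
        · exact Subring.zero_mem _
      · rw [map_zero]
        exact Subring.zero_mem _
    | zero => rw [map_zero, map_zero]; exact Subring.zero_mem _
    | add a b _ _ ha hb => rw [map_add, map_add]; exact Subring.add_mem _ ha hb
    | neg a _ ha => rw [map_neg, map_neg]; exact Subring.neg_mem _ ha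
  have z1' : ∀ n : ℕ, n ≠ 0 → (E1 ^ n) x = 0 := by
    intro n hn
    obtain ⟨n, rfl⟩ := Nat.exists_eq_succ_of_ne_zero hn
    rw [pow_succ, AddMonoid.End.mul_apply', E1a, hδ1, Derivation.smul_apply, hx1, smul_zero,
      map_zero]
  have z2' : ∀ n : ℕ, n ≠ 0 → (E2 ^ n) x = 0 := by
    intro n hn
    obtain ⟨n, rfl⟩ := Nat.exists_eq_succ_of_ne_zero hn
    rw [pow_succ, AddMonoid.End.mul_apply', E2a, hδ2, Derivation.smul_apply, hx2, smul_zero,
      map_zero]
  have hP2 : P2 x = x := by
    show x - (E2 ^ (p - 1)) x = x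
    rw [z2' _ hp1, sub_zero]
  have hP1 : P1 x = x := by
    show x - (E1 ^ (p - 1)) x = x
    rw [z1' _ hp1, sub_zero]
  obtain ⟨y, hy⟩ := key x
  rw [hP2, hP1, frobenius_def] at hy
  exact ⟨y, hy⟩

end Kernel

end Crest.Agent.R169.Der
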