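import Crest.Agent.R169.Ring
import Crest.Agent.R169.Der0
import Crest.Agent.R169.Frob

/-!
# Row 169, module F4: the two derivations of the explicit ring `O n k`
-/

set_option autoImplicit false

open Crest.R169

namespace Crest.Agent.R169.Der

section DerO

variable (n : ℕ) (k : Type*) [Field k]

/-- abbreviations for `z_j ^ n` -/
noncomputable def ZZ (j : Fin 5) : ORing n k := z n k j ^ n

theorem ZZ_rel (j : Fin 5) : ZZ n k j * ZZ n k (j + 1) = 1 + ZZ n k (j + 3) := z_rel n k j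

/-- logarithmic coefficients of the two derivations -/
noncomputable def gcoef : Fin 2 → Fin 5 → ORing n k :=
  ![![ZZ n k 2 * ZZ n k 3, 0, -(ZZ n k 4 * ZZ n k 0), ZZ n k 0 * ZZ n k 1 * ZZ n k 2,
      -(ZZ n k 0 * ZZ n k 1 * ZZ n k 2)],
    ![0, -(ZZ n k 3 * ZZ n k 4), ZZ n k 4 * ZZ n k 0 * ZZ n k 1,
      -(ZZ n k 4 * ZZ n k 0 * ZZ n k 1), ZZ n k 1 * ZZ n k 2]]

theorem gcoef_rel (i : Fin 2) (j : Fin 5) :
    ZZ n k j * ZZ n k (j + 1) * (gcoef n k i j + gcoef n k i (j + 1))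
      = ZZ n k (j + 3) * gcoef n k i (j + 3) := by
  have r0 : ZZ n k 0 * ZZ n k 1 = 1 + ZZ n k 3 := ZZ_rel n k 0
  have r1 : ZZ n k 1 * ZZ n k 2 = 1 + ZZ n k 4 := ZZ_rel n k 1
  have r2 : ZZ n k 2 * ZZ n k 3 = 1 + ZZ n k 0 := ZZ_rel n k 2
  have r3 : ZZ n k 3 * ZZ n k 4 = 1 + ZZ n k 1 := ZZ_rel n k 3
  have r4 : ZZ n k 4 * ZZ n k 0 = 1 + ZZ n k 2 := ZZ_rel n k 4
  fin_cases i <;> fin_cases j
  · show ZZ n k 0 * ZZ n k 1 * (ZZ n k 2 * ZZ n k 3 + 0)
      = ZZ n k 3 * (ZZ n k 0 * ZZ n k 1 * ZZ n k 2)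
    ring
  · show ZZ n k 1 * ZZ n k 2 * (0 + -(ZZ n k 4 * ZZ n k 0))
      = ZZ n k 4 * (-(ZZ n k 0 * ZZ n k 1 * ZZ n k 2))
    ring
  · show ZZ n k 2 * ZZ n k 3 * (-(ZZ n k 4 * ZZ n k 0) + ZZ n k 0 * ZZ n k 1 * ZZ n k 2)
      = ZZ n k 0 * (ZZ n k 2 * ZZ n k 3)
    linear_combination (ZZ n k 2 * ZZ n k 3 * ZZ n k 0) * r1
  · show ZZ n k 3 * ZZ n k 4 * (ZZ n k 0 * ZZ n k 1 * ZZ n k 2 +
        -(ZZ n k 0 * ZZ n k 1 * ZZ n k 2)) = ZZ n k 1 * 0
    ring
  · show ZZ n k 4 * ZZ n k 0 * (-(ZZ n k 0 * ZZ n k 1 * ZZ n k 2) + ZZ n k 2 * ZZ n k 3)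
      = ZZ n k 2 * (-(ZZ n k 4 * ZZ n k 0))
    linear_combination (-(ZZ n k 4 * ZZ n k 0 * ZZ n k 2)) * r0
  · show ZZ n k 0 * ZZ n k 1 * (0 + -(ZZ n k 3 * ZZ n k 4))
      = ZZ n k 3 * (-(ZZ n k 4 * ZZ n k 0 * ZZ n k 1))
    ring
  · show ZZ n k 1 * ZZ n k 2 * (-(ZZ n k 3 * ZZ n k 4) + ZZ n k 4 * ZZ n k 0 * ZZ n k 1)
      = ZZ n k 4 * (ZZ n k 1 * ZZ n k 2)
    linear_combination (ZZ n k 1 * ZZ n k 2 * ZZ n k 4) * r0
  · show ZZ n k 2 * ZZ n k 3 * (ZZ n k 4 * ZZ n k 0 * ZZ n k 1 +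
        -(ZZ n k 4 * ZZ n k 0 * ZZ n k 1)) = ZZ n k 0 * 0
    ring
  · show ZZ n k 3 * ZZ n k 4 * (-(ZZ n k 4 * ZZ n k 0 * ZZ n k 1) + ZZ n k 1 * ZZ n k 2)
      = ZZ n k 1 * (-(ZZ n k 3 * ZZ n k 4))
    linear_combination (-(ZZ n k 3 * ZZ n k 4 * ZZ n k 1)) * r4
  · show ZZ n k 4 * ZZ n k 0 * (ZZ n k 1 * ZZ n k 2 + 0)
      = ZZ n k 2 * (ZZ n k 4 * ZZ n k 0 * ZZ n k 1)
    ring

variable {n k}

/-- the images of the generators in the dual numbers -/
noncomputable def dgen (i : Fin 2) (l : Fin 5) : TrivSqZeroExt (ORing n k) (ORing n k) :=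
  TrivSqZeroExt.inl (z n k l) +
    TrivSqZeroExt.inr ((n : k)⁻¹ • (z n k l * gcoef n k i l))

theorem dgen_pow (hn : (n : k) ≠ 0) (i : Fin 2) (l : Fin 5) :
    (dgen i l : TrivSqZeroExt (ORing n k) (ORing n k)) ^ n
      = TrivSqZeroExt.inl (ZZ n k l) + TrivSqZeroExt.inr (ZZ n k l * gcoef n k i l) := by
  apply TrivSqZeroExt.ext
  · simp [dgen, ZZ]
  · rw [TrivSqZeroExt.snd_pow]
    have hn0 : n ≠ 0 := by
      rintro rfl
      exact hn (by simp)
    obtain ⟨m, rfl⟩ := Nat.exists_eq_succ_of_ne_zero hn0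
    simp only [dgen, TrivSqZeroExt.fst_add, TrivSqZeroExt.fst_inl, TrivSqZeroExt.fst_inr, add_zero,
      TrivSqZeroExt.snd_add, TrivSqZeroExt.snd_inl, TrivSqZeroExt.snd_inr, zero_add, ZZ,
      Nat.pred_succ, smul_eq_mul]
    rw [Algebra.mul_smul_comm, ← mul_assoc, ← pow_succ, ← Nat.cast_smul_eq_nsmul k, smul_smul,
      mul_inv_cancel₀ hn, one_smul]

/-- the algebra hom `O → O[ε]` -/
noncomputable def dhom (hn : (n : k) ≠ 0) (i : Fin 2) :
    ORing n k →ₐ[k] TrivSqZeroExt (ORing n k) (ORing n k) :=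
  ORing.lift (dgen i) (by
    intro j
    rw [dgen_pow hn, dgen_pow hn, dgen_pow hn]
    apply TrivSqZeroExt.ext
    · simpa using ZZ_rel n k j
    · rw [TrivSqZeroExt.snd_mul]
      simp only [TrivSqZeroExt.fst_add, TrivSqZeroExt.fst_inl, TrivSqZeroExt.fst_inr, add_zero,
        TrivSqZeroExt.snd_add, TrivSqZeroExt.snd_inl, TrivSqZeroExt.snd_inr, zero_add,
        op_smul_eq_smul, smul_eq_mul, TrivSqZeroExt.snd_one]
      rw [← gcoef_rel]
      ring)

theorem dhom_fst (hn : (n : k) ≠ 0) (i : Fin 2) (x : ORing n k) : (dhom hn i x).fst = x := by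
  have h : (TrivSqZeroExt.fstHom k (ORing n k) (ORing n k)).comp (dhom hn i)
      = AlgHom.id k (ORing n k) := by
    apply ORing.algHom_ext
    intro j
    simp [dhom, dgen]
  exact DFunLike.congr_fun h x

/-- The derivations `D_0, D_1` of `O n k`. -/
noncomputable def derO (hn : (n : k) ≠ 0) (i : Fin 2) :
    Derivation k (ORing n k) (ORing n k) :=
  Derivation.mk'
    { toFun := fun q => (dhom hn i q).snd
      map_add' := fun x y => by rw [map_add]; simp
      map_smul' := fun c x => by rw [map_smul]; simp }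
    (fun a b => by
      show (dhom hn i (a * b)).snd = a • (dhom hn i b).snd + b • (dhom hn i a).snd
      rw [map_mul, TrivSqZeroExt.snd_mul, dhom_fst, dhom_fst, op_smul_eq_smul])

theorem derO_z (hn : (n : k) ≠ 0) (i : Fin 2) (l : Fin 5) :
    derO hn i (z n k l) = (n : k)⁻¹ • (z n k l * gcoef n k i l) := by
  show (dhom hn i (z n k l)).snd = _
  simp [dhom, dgen]

theorem leibniz_prod_pow {B : Type*} [CommRing B] [Algebra k B] (D : Derivation k B B)
    (x a : Fin 5 → B) (h : ∀ l, D (x l) = x l * a l) (γ : Fin 5 → ℕ) (s : Finset (Fin 5)) :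
    D (∏ l ∈ s, x l ^ γ l) = (∏ l ∈ s, x l ^ γ l) * ∑ l ∈ s, (γ l : B) * a l := by
  classical
  induction s using Finset.induction_on with
  | empty => simp
  | insert l s hl ih =>
    rw [Finset.prod_insert hl, Finset.sum_insert hl, Derivation.leibniz, ih,
      Derivation.leibniz_pow, h]
    rcases Nat.eq_zero_or_pos (γ l) with h0 | h0
    · rw [h0]; simp
    · obtain ⟨m, hm⟩ := Nat.exists_eq_add_of_lt h0
      rw [hm]
      simp only [zero_add, smul_eq_mul, nsmul_eq_mul, Nat.add_sub_cancel]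
      push_cast
      ring

theorem derO_zm (hn : (n : k) ≠ 0) (i : Fin 2) (γ : Fin 5 → ℕ) :
    derO hn i (zm n k γ) = ∑ l, ((γ l : k) * (n : k)⁻¹) • (zm n k γ * gcoef n k i l) := by
  have h := leibniz_prod_pow (derO hn i) (z n k) (fun l => (n : k)⁻¹ • gcoef n k i l)
    (fun l => by rw [derO_z, Algebra.mul_smul_comm]) γ Finset.univ
  have h2 : (∏ l, z n k l ^ γ l) = zm n k γ := rfl
  rw [h2] at h
  rw [h, Finset.mul_sum]
  refine Finset.sum_congr rfl fun l _ => ?_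
  rw [Algebra.mul_smul_comm, Algebra.mul_smul_comm, mul_smul]
  rw [smul_comm ((γ l : k)) ((n : k)⁻¹)]
  congr 1
  rw [← nsmul_eq_mul, ← Nat.cast_smul_eq_nsmul k, Algebra.mul_smul_comm]

/-- `zm (n • δ)` in terms of `ZZ` -/
theorem zm_nsmul (δ : Fin 5 → ℕ) : zm n k (n • δ) = ∏ j, ZZ n k j ^ δ j := by
  unfold zm ZZ
  refine Finset.prod_congr rfl fun j _ => ?_
  rw [Pi.smul_apply, smul_eq_mul, pow_mul]

theorem w_nsmul (i : Fin 5) (m : ℕ) (δ : Fin 5 → ℕ) : w i (m • δ) = m * w i δ := by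
  simp only [w, Pi.smul_apply, smul_eq_mul, Nat.cast_mul]
  ring

theorem zm_nsmul_mem (δ : Fin 5 → ℕ) (h : ∀ i, w i δ ≤ 1) : zm n k (n • δ) ∈ Fil n k n := by
  refine zm_mem_Fil fun i => ?_
  rw [w_nsmul]
  have := h i
  nlinarith [Int.natCast_nonneg n]

theorem gcoef_mem (i : Fin 2) (l : Fin 5) : gcoef n k i l ∈ Fil n k n := by
  have h23 : ZZ n k 2 * ZZ n k 3 ∈ Fil n k n := by
    have := zm_nsmul_mem (n := n) (k := k) ![0, 0, 1, 1, 0] (by decide)
    rw [zm_nsmul, Fin.prod_univ_five] at this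
    simpa using this
  have h40 : ZZ n k 4 * ZZ n k 0 ∈ Fil n k n := by
    have := zm_nsmul_mem (n := n) (k := k) ![1, 0, 0, 0, 1] (by decide)
    rw [zm_nsmul, Fin.prod_univ_five] at this
    rw [mul_comm]
    simpa using this
  have h012 : ZZ n k 0 * ZZ n k 1 * ZZ n k 2 ∈ Fil n k n := by
    have := zm_nsmul_mem (n := n) (k := k) ![1, 1, 1, 0, 0] (by decide)
    rw [zm_nsmul, Fin.prod_univ_five] at this
    simpa using this
  have h34 : ZZ n k 3 * ZZ n k 4 ∈ Fil n k n := by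
    have := zm_nsmul_mem (n := n) (k := k) ![0, 0, 0, 1, 1] (by decide)
    rw [zm_nsmul, Fin.prod_univ_five] at this
    simpa using this
  have h401 : ZZ n k 4 * ZZ n k 0 * ZZ n k 1 ∈ Fil n k n := by
    have := zm_nsmul_mem (n := n) (k := k) ![1, 1, 0, 0, 1] (by decide)
    rw [zm_nsmul, Fin.prod_univ_five] at this
    have h2 : ZZ n k 4 * ZZ n k 0 * ZZ n k 1 = ZZ n k 0 * ZZ n k 1 * ZZ n k 4 := by ring
    rw [h2]
    simpa using this
  have h12 : ZZ n k 1 * ZZ n k 2 ∈ Fil n k n := by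
    have := zm_nsmul_mem (n := n) (k := k) ![0, 1, 1, 0, 0] (by decide)
    rw [zm_nsmul, Fin.prod_univ_five] at this
    simpa using this
  fin_cases i <;> fin_cases l
  · exact h23
  · exact Submodule.zero_mem _
  · exact Submodule.neg_mem _ h40
  · exact h012
  · exact Submodule.neg_mem _ h012
  · exact Submodule.zero_mem _
  · exact Submodule.neg_mem _ h34
  · exact h401
  · exact Submodule.neg_mem _ h401
  · exact h12

/-- The derivations have degree `n` with respect to the filtration. -/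
theorem derO_Fil (hn : (n : k) ≠ 0) (i : Fin 2) (m : ℤ) (x : ORing n k) (hx : x ∈ Fil n k m) :
    derO hn i x ∈ Fil n k (m + n) := by
  induction hx using Submodule.span_induction with
  | mem x hx =>
    obtain ⟨γ, hγ, rfl⟩ := hx
    rw [derO_zm]
    refine Submodule.sum_mem _ fun l _ => Submodule.smul_mem _ _ ?_
    exact Fil_mul_mem (zm_mem_Fil hγ) (gcoef_mem i l)
  | zero => rw [map_zero]; exact Submodule.zero_mem _
  | add x y _ _ h1 h2 => rw [map_add]; exact Submodule.add_mem _ h1 h2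
  | smul c x _ h => rw [Derivation.map_smul]; exact Submodule.smul_mem _ _ h

end DerO

section DerQ

variable {n : ℕ} {k : Type*} [Field k] [IsDomain (ORing n k)]

/-- The derivations on the fraction field. -/
noncomputable def derQ (hn : (n : k) ≠ 0) (i : Fin 2) :
    Derivation k (QField n k) (QField n k) :=
  ext ((Algebra.linearMap (ORing n k) (QField n k)).compDer (derO hn i))

theorem derQ_algebraMap (hn : (n : k) ≠ 0) (i : Fin 2) (x : ORing n k) :
    derQ hn i (algebraMap (ORing n k) (QField n k) x)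
      = algebraMap (ORing n k) (QField n k) (derO hn i x) := by
  rw [derQ, ext_algebraMap]
  rfl

theorem derQ_FilQ (hn : (n : k) ≠ 0) (i : Fin 2) (m : ℤ) (x : QField n k)
    (hx : x ∈ FilQ n k m) : derQ hn i x ∈ FilQ n k (m + n) := by
  obtain ⟨y, hy, rfl⟩ := hx
  refine ⟨derO hn i y, derO_Fil hn i m y hy, ?_⟩
  exact (derQ_algebraMap hn i y).symm

end DerQ

section Nonzero

variable {n : ℕ} {k : Type*} [Field k]

/-- a point of `O n k` at which all coordinates are equal and nonzero. -/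
theorem exists_point [IsAlgClosed k] (hn : (n : k) ≠ 0) :
    ∃ (f : ORing n k →ₐ[k] k), ∀ j, f (z n k j) ≠ 0 := by
  have hn0 : n ≠ 0 := by
    rintro rfl
    exact hn (by simp)
  obtain ⟨t, ht⟩ := IsAlgClosed.exists_root (Polynomial.X ^ 2 - Polynomial.X - 1 : Polynomial k)
    (by
      have : (Polynomial.X ^ 2 - Polynomial.X - 1 : Polynomial k).degree = 2 := by
        compute_degree!
      rw [this]
      decide)
  have ht' : t * t = 1 + t := by
    have : t ^ 2 - t - 1 = 0 := by simpa [Polynomial.IsRoot] using ht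
    linear_combination this
  have ht0 : t ≠ 0 := by
    rintro rfl
    simp at ht'
  obtain ⟨c, hc⟩ := IsAlgClosed.exists_pow_nat_eq t (Nat.pos_of_ne_zero hn0)
  refine ⟨ORing.lift (fun _ => c) (fun j => by rw [hc, ht']), fun j => ?_⟩
  rw [ORing.lift_z]
  rintro rfl
  rw [zero_pow hn0] at hc
  exact ht0 hc.symm

theorem z_ne_zero [IsAlgClosed k] (hn : (n : k) ≠ 0) (j : Fin 5) : z n k j ≠ 0 := by
  obtain ⟨f, hf⟩ := exists_point (n := n) (k := k) hn
  intro h
  exact hf j (by rw [h, map_zero])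

end Nonzero

section Kernel

variable {n : ℕ} {k : Type*} [Field k] [IsAlgClosed k] [IsDomain (ORing n k)]

/-- Every subfield of `Q` containing all `p`-th powers, `z_0` and `z_1` is `Q`. -/
theorem subfield_top (p : ℕ) [Fact p.Prime] [CharP k p] (hn : (n : k) ≠ 0)
    (S : Subfield (QField n k)) (hS : ∀ x : QField n k, x ^ p ∈ S)
    (h0 : algebraMap (ORing n k) (QField n k) (z n k 0) ∈ S)
    (h1 : algebraMap (ORing n k) (QField n k) (z n k 1) ∈ S) : S = ⊤ := by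
  have hp : p.Prime := Fact.out
  set ι := algebraMap (ORing n k) (QField n k) with hι
  have hinj : Function.Injective ι := IsFractionRing.injective (ORing n k) (QField n k)
  have hz : ∀ j, ι (z n k j) ≠ 0 := fun j h => z_ne_zero (k := k) hn j (hinj (by rw [h, map_zero]))
  have hcop : Nat.Coprime n p := by
    rw [Nat.coprime_comm, Nat.Prime.coprime_iff_not_dvd hp]
    intro h
    exact hn ((CharP.cast_eq_zero_iff k p n).mpr h)
  have hroot : ∀ j, ι (ZZ n k j) ∈ S → ι (z n k j) ∈ S := by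
    intro j hj
    have e1 : ι (ZZ n k j) = ι (z n k j) ^ n := by rw [ZZ, map_pow]
    have e2 : ((n : ℤ) * Nat.gcdA n p + (p : ℤ) * Nat.gcdB n p) = 1 := by
      rw [← Nat.gcd_eq_gcd_ab, hcop.gcd_eq_one]
      rfl
    have e3 : ι (z n k j) = (ι (z n k j) ^ n) ^ (Nat.gcdA n p) *
        (ι (z n k j) ^ p) ^ (Nat.gcdB n p) := by
      rw [← zpow_natCast (ι (z n k j)) n, ← zpow_natCast (ι (z n k j)) p, ← zpow_mul, ← zpow_mul,
        ← zpow_add₀ (hz j), e2, zpow_one]
    rw [e3]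
    refine S.mul_mem (zpow_mem ?_ _) (zpow_mem (hS _) _)
    rw [← e1]
    exact hj
  have hZ0 : ι (ZZ n k 0) ∈ S := by rw [ZZ, map_pow]; exact S.pow_mem h0 _
  have hZ1 : ι (ZZ n k 1) ∈ S := by rw [ZZ, map_pow]; exact S.pow_mem h1 _
  have r0 : ZZ n k 0 * ZZ n k 1 = 1 + ZZ n k 3 := ZZ_rel n k 0
  have r2 : ZZ n k 2 * ZZ n k 3 = 1 + ZZ n k 0 := ZZ_rel n k 2
  have r3 : ZZ n k 3 * ZZ n k 4 = 1 + ZZ n k 1 := ZZ_rel n k 3
  have hZ3 : ι (ZZ n k 3) ∈ S := by
    have : ι (ZZ n k 3) = ι (ZZ n k 0) * ι (ZZ n k 1) - 1 := by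
      rw [← map_mul, r0, map_add, map_one]
      ring
    rw [this]
    exact S.sub_mem (S.mul_mem hZ0 hZ1) S.one_mem
  have hZ3n : ι (ZZ n k 3) ≠ 0 := by rw [ZZ, map_pow]; exact pow_ne_zero _ (hz 3)
  have hZ2 : ι (ZZ n k 2) ∈ S := by
    have : ι (ZZ n k 2) = (1 + ι (ZZ n k 0)) / ι (ZZ n k 3) := by
      rw [eq_div_iff hZ3n, ← map_mul, r2, map_add, map_one]
    rw [this]
    exact S.div_mem (S.add_mem S.one_mem hZ0) hZ3
  have hZ4 : ι (ZZ n k 4) ∈ S := by
    have : ι (ZZ n k 4) = (1 + ι (ZZ n k 1)) / ι (ZZ n k 3) := by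
      rw [eq_div_iff hZ3n, ← map_mul, mul_comm (ZZ n k 4), r3, map_add, map_one]
    rw [this]
    exact S.div_mem (S.add_mem S.one_mem hZ1) hZ3
  have hall : ∀ j, ι (z n k j) ∈ S := by
    intro j
    fin_cases j
    · exact h0
    · exact h1
    · exact hroot 2 hZ2
    · exact hroot 3 hZ3
    · exact hroot 4 hZ4
  have hk : ∀ c : k, ι (algebraMap k (ORing n k) c) ∈ S := by
    intro c
    obtain ⟨d, rfl⟩ := IsAlgClosed.exists_pow_nat_eq c hp.pos
    rw [map_pow, map_pow]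
    exact hS _
  have hO : ∀ x : ORing n k, ι x ∈ S := by
    intro x
    have hx : x ∈ Algebra.adjoin k (Set.range (z n k)) := by
      rw [ORing.adjoin_range_z]
      trivial
    induction hx using Algebra.adjoin_induction with
    | mem x hx => obtain ⟨j, rfl⟩ := hx; exact hall j
    | algebraMap c => exact hk c
    | add x y _ _ hx hy => rw [map_add]; exact S.add_mem hx hy
    | mul x y _ _ hx hy => rw [map_mul]; exact S.mul_mem hx hy
  rw [eq_top_iff]
  intro q _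
  obtain ⟨a, b, _, rfl⟩ := IsFractionRing.div_surjective (A := ORing n k) q
  exact S.div_mem (hO a) (hO b)

omit [IsAlgClosed k] in
theorem charP_QField (p : ℕ) [CharP k p] : CharP (QField n k) p :=
  charP_of_injective_algebraMap (algebraMap k (QField n k)).injective p

/-- Common kernel of the two derivations is `Q^p`. -/
theorem derQ_ker (p : ℕ) [Fact p.Prime] [CharP k p] (hn : (n : k) ≠ 0) (x : QField n k)
    (hx : ∀ i, derQ hn i x = 0) : ∃ y, x = y ^ p := by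
  have : CharP (QField n k) p := charP_QField p
  set ι := algebraMap (ORing n k) (QField n k) with hι
  have hinj : Function.Injective ι := IsFractionRing.injective (ORing n k) (QField n k)
  have hz : ∀ j, ι (z n k j) ≠ 0 := fun j h => z_ne_zero (k := k) hn j (hinj (by rw [h, map_zero]))
  have hZ : ∀ j, ι (ZZ n k j) ≠ 0 := fun j => by rw [ZZ, map_pow]; exact pow_ne_zero _ (hz j)
  have hni : (n : k)⁻¹ ≠ 0 := inv_ne_zero hn
  have hni' : algebraMap k (QField n k) (n : k)⁻¹ ≠ 0 := by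
    rw [Ne, map_eq_zero]
    exact hni
  have key : ∀ (i : Fin 2) (l : Fin 5), derQ hn i (ι (z n k l))
      = (algebraMap k (QField n k) (n : k)⁻¹ * ι (gcoef n k i l)) * ι (z n k l) := by
    intro i l
    rw [derQ_algebraMap, derO_z, Algebra.smul_def, map_mul, map_mul,
      ← IsScalarTower.algebraMap_apply k (ORing n k) (QField n k)]
    ring
  obtain ⟨y, hy⟩ := kernel_pow p (derQ hn 0) (derQ hn 1) (ι (z n k 0)) (ι (z n k 1))
    (algebraMap k (QField n k) (n : k)⁻¹ * ι (gcoef n k 0 0))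
    (algebraMap k (QField n k) (n : k)⁻¹ * ι (gcoef n k 1 1))
    (mul_ne_zero hni' (by
      show ι (ZZ n k 2 * ZZ n k 3) ≠ 0
      rw [map_mul]
      exact mul_ne_zero (hZ 2) (hZ 3)))
    (mul_ne_zero hni' (by
      show ι (-(ZZ n k 3 * ZZ n k 4)) ≠ 0
      rw [map_neg, map_mul]
      exact neg_ne_zero.mpr (mul_ne_zero (hZ 3) (hZ 4))))
    (key 0 0)
    (by
      rw [key 0 1]
      have : gcoef n k 0 1 = 0 := rfl
      rw [this, map_zero, mul_zero, zero_mul])
    (by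
      rw [key 1 0]
      have : gcoef n k 1 0 = 0 := rfl
      rw [this, map_zero, mul_zero, zero_mul])
    (key 1 1)
    (fun S hS h0 h1 => subfield_top p hn S hS h0 h1)
    x (hx 0) (hx 1)
  exact ⟨y, hy.symm⟩

end Kernel

section Data

/-- (F4) the derivation data for the explicit `T`-data `D` with `D.F = FilQ n k`. -/
noncomputable def derData {n : ℕ} {k : Type} [Field k] [IsAlgClosed k] [IsDomain (ORing n k)]
    (hn : (n : k) ≠ 0) (D : TData k (QField n k)) (hF : ∀ m, D.F m = FilQ n k m)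
    (p : ℕ) [Fact p.Prime] [CharP k p] (c1 : ℕ)
    (hgen : ∀ m : ℤ, (c1 : ℤ) ≤ m → ∀ e ∈ D.F (m + 1), ∃ a ∈ D.F m, ∃ b ∈ D.F m, ∃ c ∈ D.F m,
      e = a + D.u * b + D.v * c) : DerData D p n c1 where
  d := derQ hn
  deg := by
    intro i m f hf
    rw [hF] at hf ⊢
    exact derQ_FilQ hn i m f hf
  ker := fun f hf => derQ_ker p hn f hf
  gen := hgen

end Data

end Crest.Agent.R169.Der
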