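import Mathlib

set_option autoImplicit false
set_option linter.unusedSectionVars false

/-! Row 169, part C: degree calculus for lattices and the two slope estimates for the Frobenius
pull-back (C4, C5). -/

namespace Crest.Agent.R169.Deriv

open Module Filter

section LA

theorem finrank_map_add {F X Y : Type*} [Field F] [AddCommGroup X] [Module F X] [AddCommGroup Y]
    [Module F Y] (S : Submodule F X) [FiniteDimensional F S] (f : X →ₗ[F] Y) :
    finrank F (S.map f) + finrank F ↥(S ⊓ LinearMap.ker f) = finrank F S := by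
  have h := LinearMap.finrank_range_add_finrank_ker (f.domRestrict S)
  have h1 : LinearMap.range (f.domRestrict S) = S.map f := by
    rw [LinearMap.domRestrict, LinearMap.range_comp, Submodule.range_subtype]
  have h2 : LinearMap.ker (f.domRestrict S) = (LinearMap.ker f).comap S.subtype := by
    rw [LinearMap.domRestrict, LinearMap.ker_comp]
  have h3 : finrank F ↥((LinearMap.ker f).comap S.subtype) = finrank F ↥(S ⊓ LinearMap.ker f) := by
    rw [← Submodule.map_comap_subtype S (LinearMap.ker f)]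
    exact (Submodule.finrank_map_subtype_eq S _).symm
  rw [h1, h2, h3] at h
  exact h

end LA

section Abstract

variable {k K V : Type*} [Field k] [Field K] [Algebra k K] [AddCommGroup V] [Module k V]
  [Module K V] [IsScalarTower k K V]

/-- `d U`, `c U` are the lower Hilbert coefficients of the sublattice `W ⊓ U`. -/
structure Hilb (W : ℤ → Submodule k V) (d c : Submodule K V → ℚ) : Prop where
  fin : ∀ m, FiniteDimensional k (W m)
  h : ∀ U : Submodule K V, ∀ᶠ m : ℤ in atTop,
    (finrank k ↥(W m ⊓ U.restrictScalars k) : ℚ)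
      = (finrank K U : ℚ) / 2 * (m : ℚ) ^ 2 + d U * (m : ℚ) + c U

/-- comparison of two quadratic quasi-polynomials with the same leading coefficient. -/
theorem cmp_poly (r d1 c1 d2 c2 : ℚ) (s : ℤ)
    (h : ∀ᶠ m : ℤ in atTop, r / 2 * (m : ℚ) ^ 2 + d1 * (m : ℚ) + c1 ≤
      r / 2 * ((m + s : ℤ) : ℚ) ^ 2 + d2 * ((m + s : ℤ) : ℚ) + c2) :
    d1 ≤ d2 + r * s := by
  by_contra hlt
  push Not at hlt
  obtain ⟨m0, hm0⟩ := eventually_atTop.1 h
  set e : ℚ := d1 - (d2 + r * s) with he
  have hepos : 0 < e := by rw [he]; linarith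
  set C : ℚ := r / 2 * (s : ℚ) ^ 2 + d2 * (s : ℚ) + c2 - c1 with hC
  obtain ⟨m1, hm1⟩ := exists_nat_gt (C / e)
  have key := hm0 (max m0 (m1 : ℤ)) (le_max_left _ _)
  have h2 : (m1 : ℚ) ≤ ((max m0 (m1 : ℤ) : ℤ) : ℚ) := by
    exact_mod_cast le_max_right m0 (m1 : ℤ)
  set M : ℚ := ((max m0 (m1 : ℤ) : ℤ) : ℚ) with hM
  have h3 : C < e * M := by
    have h4 : C / e < M := lt_of_lt_of_le hm1 h2
    rw [div_lt_iff₀ hepos] at h4
    linarith
  push_cast at key
  rw [← Int.cast_natCast (R := ℚ) m1, ← Int.cast_max, ← hM] at key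
  nlinarith

/-- `θ` restricted to `B`, modulo `C`, as a `K`-linear map. -/
def thQ (θ : V →ₗ[k] V) (B C : Submodule K V)
    (hlin : ∀ (q : K) (x : V), x ∈ B → θ (q • x) - q • θ x ∈ C) : B →ₗ[K] V ⧸ C where
  toFun x := C.mkQ (θ x)
  map_add' x y := by simp
  map_smul' q x := by
    rw [RingHom.id_apply, ← map_smul, Submodule.mkQ_apply, Submodule.mkQ_apply,
      Submodule.Quotient.eq]
    exact hlin q x x.2

/-- `{y ∈ Y | θ y ∈ C}` for `Y ≤ B`. -/
def kerOn (θ : V →ₗ[k] V) (B C : Submodule K V)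
    (hlin : ∀ (q : K) (x : V), x ∈ B → θ (q • x) - q • θ x ∈ C) (Y : Submodule K V) :
    Submodule K V :=
  Y ⊓ (LinearMap.ker (thQ θ B C hlin)).map B.subtype

/-- `θ Y + C` for `Y ≤ B`. -/
def imOn (θ : V →ₗ[k] V) (B C : Submodule K V)
    (hlin : ∀ (q : K) (x : V), x ∈ B → θ (q • x) - q • θ x ∈ C) (Y : Submodule K V) :
    Submodule K V :=
  ((Y.comap B.subtype).map (thQ θ B C hlin)).comap C.mkQ

section Mor

variable {θ : V →ₗ[k] V} {B C : Submodule K V}
  {hlin : ∀ (q : K) (x : V), x ∈ B → θ (q • x) - q • θ x ∈ C} {Y : Submodule K V}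

theorem mem_kerOn (hY : Y ≤ B) {y : V} : y ∈ kerOn θ B C hlin Y ↔ y ∈ Y ∧ θ y ∈ C := by
  constructor
  · rintro ⟨h1, h2⟩
    refine ⟨h1, ?_⟩
    obtain ⟨z, hz, rfl⟩ := h2
    have hz' : C.mkQ (θ z) = 0 := hz
    simpa using hz'
  · rintro ⟨h1, h2⟩
    refine ⟨h1, ⟨⟨y, hY h1⟩, ?_, rfl⟩⟩
    change C.mkQ (θ y) = 0
    simpa using h2

theorem mem_imOn (hY : Y ≤ B) {z : V} :
    z ∈ imOn θ B C hlin Y ↔ ∃ y ∈ Y, z - θ y ∈ C := by
  constructor
  · rintro ⟨y, hy, hyz⟩
    refine ⟨y, hy, ?_⟩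
    have : C.mkQ (θ y) = C.mkQ z := hyz
    rw [Submodule.mkQ_apply, Submodule.mkQ_apply] at this
    exact (Submodule.Quotient.eq C).1 this.symm
  · rintro ⟨y, hy, hyz⟩
    refine ⟨⟨y, hY hy⟩, hy, ?_⟩
    change C.mkQ (θ y) = C.mkQ z
    rw [Submodule.mkQ_apply, Submodule.mkQ_apply]
    exact ((Submodule.Quotient.eq C).2 hyz).symm

theorem le_imOn (hY : Y ≤ B) : C ≤ imOn θ B C hlin Y := by
  intro z hz
  rw [mem_imOn hY]
  exact ⟨0, Y.zero_mem, by simpa using hz⟩

theorem rank_eq [FiniteDimensional K V] (hY : Y ≤ B) :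
    finrank K Y + finrank K C
      = finrank K (imOn θ B C hlin Y) + finrank K (kerOn θ B C hlin Y) := by
  have h1 := finrank_map_add (Y.comap B.subtype) (thQ θ B C hlin)
  have h2 : finrank K ↥(Y.comap B.subtype) = finrank K Y := by
    rw [← Submodule.finrank_map_subtype_eq B (Y.comap B.subtype), Submodule.map_comap_subtype,
      inf_eq_right.2 hY]
  have h3 : finrank K ↥(Y.comap B.subtype ⊓ LinearMap.ker (thQ θ B C hlin))
      = finrank K (kerOn θ B C hlin Y) := by
    rw [← Submodule.finrank_map_subtype_eq B, Submodule.map_inf _ B.injective_subtype,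
      Submodule.map_comap_subtype, inf_eq_right.2 hY]
    rfl
  have h4 := finrank_map_add (imOn θ B C hlin Y) C.mkQ
  rw [Submodule.ker_mkQ, inf_eq_right.2 (le_imOn hY)] at h4
  have h5 : (imOn θ B C hlin Y).map C.mkQ = (Y.comap B.subtype).map (thQ θ B C hlin) := by
    rw [imOn, Submodule.map_comap_eq_of_surjective C.mkQ_surjective]
  rw [h5] at h4
  omega

/-- (L1) the morphism inequality -/
theorem morph [FiniteDimensional K V] {W : ℤ → Submodule k V} {d c : Submodule K V → ℚ}
    (hH : Hilb W d c) (hY : Y ≤ B) (s : ℤ)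
    (hθ : ∀ m, ∀ x ∈ W m, x ∈ Y → θ x ∈ W (m + s)) :
    d Y - d (kerOn θ B C hlin Y) ≤ d (imOn θ B C hlin Y) - d C
      + s * ((finrank K Y : ℚ) - finrank K (kerOn θ B C hlin Y)) := by
  set Y' := kerOn θ B C hlin Y with hY'
  set Z' := imOn θ B C hlin Y with hZ'
  have hr := rank_eq (θ := θ) (B := B) (C := C) (hlin := hlin) (Y := Y) hY
  rw [← hY', ← hZ'] at hr
  have hrQ : (finrank K Y : ℚ) + finrank K C = finrank K Z' + finrank K Y' := by exact_mod_cast hr
  -- the dimension inequality for every m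
  have hdim : ∀ m : ℤ, finrank k ↥(W m ⊓ Y.restrictScalars k)
      + finrank k ↥(W (m + s) ⊓ C.restrictScalars k)
      ≤ finrank k ↥(W m ⊓ Y'.restrictScalars k)
        + finrank k ↥(W (m + s) ⊓ Z'.restrictScalars k) := by
    intro m
    have := hH.fin m
    have := hH.fin (m + s)
    let q : V →ₗ[k] V ⧸ C := C.mkQ.restrictScalars k
    have e1 := finrank_map_add (W m ⊓ Y.restrictScalars k) (q.comp θ)
    have e2 := finrank_map_add (W (m + s) ⊓ Z'.restrictScalars k) q
    have e3 : (W m ⊓ Y.restrictScalars k) ⊓ LinearMap.ker (q.comp θ)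
        = W m ⊓ Y'.restrictScalars k := by
      ext y
      simp only [Submodule.mem_inf, Submodule.restrictScalars_mem, LinearMap.mem_ker]
      have : (q.comp θ) y = 0 ↔ θ y ∈ C := by
        change C.mkQ (θ y) = 0 ↔ _
        simp
      rw [this, hY', mem_kerOn hY]
      tauto
    have e4 : (W (m + s) ⊓ Z'.restrictScalars k) ⊓ LinearMap.ker q
        = W (m + s) ⊓ C.restrictScalars k := by
      ext y
      simp only [Submodule.mem_inf, Submodule.restrictScalars_mem, LinearMap.mem_ker]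
      have : q y = 0 ↔ y ∈ C := by
        change C.mkQ y = 0 ↔ _
        simp
      rw [this]
      constructor
      · rintro ⟨⟨h1, _⟩, h3⟩; exact ⟨h1, h3⟩
      · rintro ⟨h1, h3⟩; exact ⟨⟨h1, le_imOn hY h3⟩, h3⟩
    have e5 : (W m ⊓ Y.restrictScalars k).map (q.comp θ)
        ≤ (W (m + s) ⊓ Z'.restrictScalars k).map q := by
      rintro _ ⟨y, ⟨hy1, hy2⟩, rfl⟩
      refine ⟨θ y, ⟨hθ m y hy1 hy2, ?_⟩, rfl⟩
      rw [SetLike.mem_coe, Submodule.restrictScalars_mem, hZ', mem_imOn hY]
      exact ⟨y, hy2, by simp⟩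
    have e6 := Submodule.finrank_mono e5
    rw [e3] at e1
    rw [e4] at e2
    omega
  have hcmp := cmp_poly ((finrank K Y : ℚ) - finrank K Y') (d Y - d Y') (c Y - c Y')
    (d Z' - d C) (c Z' - c C) s ?_
  · linarith
  have hs : Tendsto (fun m : ℤ => m + s) atTop atTop := tendsto_atTop_add_const_right _ _ tendsto_id
  filter_upwards [hH.h Y, hH.h Y', hs.eventually (hH.h C), hs.eventually (hH.h Z')]
    with m h1 h2 h3 h4
  have h5 := hdim m
  have h6 : (finrank k ↥(W m ⊓ Y.restrictScalars k) : ℚ)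
      + finrank k ↥(W (m + s) ⊓ C.restrictScalars k)
      ≤ finrank k ↥(W m ⊓ Y'.restrictScalars k)
        + finrank k ↥(W (m + s) ⊓ Z'.restrictScalars k) := by exact_mod_cast h5
  rw [h1, h2, h3, h4] at h6
  have e7 : (finrank K Y : ℚ) - finrank K Y' = (finrank K Z' : ℚ) - finrank K C := by linarith
  have e8 : ((finrank K Y : ℚ) - finrank K Y') / 2 * ((m + s : ℤ) : ℚ) ^ 2
      = ((finrank K Z' : ℚ) - finrank K C) / 2 * ((m + s : ℤ) : ℚ) ^ 2 := by rw [e7]
  rw [e8]
  nlinarith

end Mor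

/-- all quotients of `B/A` have slope at least `σ` -/
def QS (d : Submodule K V → ℚ) (A B : Submodule K V) (σ : ℚ) : Prop :=
  ∀ Y : Submodule K V, A ≤ Y → Y ≤ B →
    σ * ((finrank K B : ℚ) - finrank K Y) ≤ d B - d Y

/-- all subobjects of `B/A` have slope at most `σ` -/
def SS (d : Submodule K V → ℚ) (A B : Submodule K V) (σ : ℚ) : Prop :=
  ∀ Y : Submodule K V, A ≤ Y → Y ≤ B →
    d Y - d A ≤ σ * ((finrank K Y : ℚ) - finrank K A)

theorem QS.step [FiniteDimensional K V] {W : ℤ → Submodule k V} {d c : Submodule K V → ℚ}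
    (hH : Hilb W d c) {ι : Type*} (θ : ι → V →ₗ[k] V) (A B C E : Submodule K V) (s : ℤ) (σ : ℚ)
    (hAB : A ≤ B)
    (hlin : ∀ i, ∀ (q : K) (x : V), x ∈ B → θ i (q • x) - q • θ i x ∈ C)
    (hA : ∀ i, ∀ x ∈ A, θ i x ∈ C)
    (hE : ∀ i, ∀ x ∈ B, θ i x ∈ E)
    (hspan : ∀ Z : Submodule K V, C ≤ Z → (∀ i, ∀ x ∈ B, θ i x ∈ Z) → E ≤ Z)
    (hθ : ∀ i m, ∀ x ∈ W m, x ∈ B → θ i x ∈ W (m + s))
    (hQ : QS d A B σ) : QS d C E (σ - s) := by
  intro Z hCZ hZE
  induction hn : finrank K E - finrank K Z using Nat.strong_induction_on generalizing Z with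
  | _ n ih =>
    by_cases hall : ∀ i, ∀ x ∈ B, θ i x ∈ Z
    · have : E = Z := le_antisymm (hspan Z hCZ hall) hZE
      subst this
      simp
    · push Not at hall
      obtain ⟨i, x, hxB, hx⟩ := hall
      have hlin' : ∀ (q : K) (x : V), x ∈ B → θ i (q • x) - q • θ i x ∈ Z :=
        fun q x hx => hCZ (hlin i q x hx)
      have hm := morph (hlin := hlin') hH (le_refl B) s (fun m x h1 h2 => hθ i m x h1 h2)
      have hr := rank_eq (hlin := hlin') (le_refl B)
      set Y' := kerOn (θ i) B Z hlin' B with hY'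
      set Z' := imOn (θ i) B Z hlin' B with hZ'
      have hrQ : (finrank K B : ℚ) + finrank K Z = finrank K Z' + finrank K Y' := by
        exact_mod_cast hr
      have h1 : Z ≤ Z' := le_imOn le_rfl
      have h2 : Z < Z' := by
        refine lt_of_le_of_ne h1 ?_
        intro h
        apply hx
        rw [h, hZ', mem_imOn le_rfl]
        exact ⟨x, hxB, by simp⟩
      have h3 : Z' ≤ E := by
        intro z hz
        rw [hZ', mem_imOn le_rfl] at hz
        obtain ⟨y, hy, hyz⟩ := hz
        have := E.add_mem (hZE hyz) (hE i y hy)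
        simpa using this
      have h4 : A ≤ Y' := by
        intro a ha
        rw [hY', mem_kerOn le_rfl]
        exact ⟨hAB ha, hCZ (hA i a ha)⟩
      have h5 : Y' ≤ B := inf_le_left
      have h6 := hQ Y' h4 h5
      have h7 : finrank K Z < finrank K Z' := Submodule.finrank_lt_finrank_of_lt h2
      have h8 : finrank K Z' ≤ finrank K E := Submodule.finrank_mono h3
      have h9 := ih (finrank K E - finrank K Z') (by omega) Z' (hCZ.trans h1) h3 rfl
      have e1 : (finrank K B : ℚ) - finrank K Y' = (finrank K Z' : ℚ) - finrank K Z := by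
        linarith
      rw [e1] at hm h6
      have e2 : (σ - s) * ((finrank K E : ℚ) - finrank K Z)
          = (σ - s) * ((finrank K E : ℚ) - finrank K Z')
            + (σ * ((finrank K Z' : ℚ) - finrank K Z)
              - s * ((finrank K Z' : ℚ) - finrank K Z)) := by ring
      rw [e2]
      linarith

theorem SS.step [FiniteDimensional K V] {W : ℤ → Submodule k V} {d c : Submodule K V → ℚ}
    (hH : Hilb W d c) {ι : Type*} (θ : ι → V →ₗ[k] V) (A B C E : Submodule K V) (s : ℤ) (σ : ℚ)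
    (hCE : C ≤ E)
    (hlin : ∀ i, ∀ (q : K) (x : V), x ∈ B → θ i (q • x) - q • θ i x ∈ C)
    (hA : ∀ i, ∀ x ∈ A, θ i x ∈ C)
    (hker : ∀ x ∈ B, (∀ i, θ i x ∈ C) → x ∈ A)
    (hE : ∀ i, ∀ x ∈ B, θ i x ∈ E)
    (hθ : ∀ i m, ∀ x ∈ W m, x ∈ B → θ i x ∈ W (m + s))
    (hS : SS d C E σ) : SS d A B (σ + s) := by
  intro Y hAY hYB
  induction hn : finrank K Y using Nat.strong_induction_on generalizing Y with
  | _ n ih =>
    by_cases hall : ∀ i, ∀ x ∈ Y, θ i x ∈ C
    · have : Y = A := le_antisymm (fun x hx => hker x (hYB hx) (fun i => hall i x hx)) hAY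
      rw [← hn, this]
      simp
    · push Not at hall
      obtain ⟨i, x, hxY, hx⟩ := hall
      have hm := morph (hlin := hlin i) hH hYB s (fun m x h1 h2 => hθ i m x h1 (hYB h2))
      have hr := rank_eq (hlin := hlin i) hYB
      set Y' := kerOn (θ i) B C (hlin i) Y with hY'
      set Z' := imOn (θ i) B C (hlin i) Y with hZ'
      have hrQ : (finrank K Y : ℚ) + finrank K C = finrank K Z' + finrank K Y' := by
        exact_mod_cast hr
      have h1 : Y' ≤ Y := inf_le_left
      have h2 : Y' < Y := by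
        refine lt_of_le_of_ne h1 ?_
        intro h
        rw [← h, hY', mem_kerOn hYB] at hxY
        exact hx hxY.2
      have h3 : Z' ≤ E := by
        intro z hz
        rw [hZ', mem_imOn hYB] at hz
        obtain ⟨y, hy, hyz⟩ := hz
        have := E.add_mem (hCE hyz) (hE i y (hYB hy))
        simpa using this
      have h4 : A ≤ Y' := by
        intro a ha
        rw [hY', mem_kerOn hYB]
        exact ⟨hAY ha, hA i a ha⟩
      have h6 := hS Z' (le_imOn hYB) h3
      have h7 : finrank K Y' < finrank K Y := Submodule.finrank_lt_finrank_of_lt h2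
      have h9 := ih (finrank K Y') (by omega) Y' h4 (h1.trans hYB) rfl
      have e1 : (finrank K Z' : ℚ) - finrank K C = (finrank K Y : ℚ) - finrank K Y' := by
        linarith
      rw [e1] at h6
      have e2 : (σ + s) * ((finrank K Y : ℚ) - finrank K A)
          = (σ + s) * ((finrank K Y' : ℚ) - finrank K A)
            + (σ * ((finrank K Y : ℚ) - finrank K Y')
              + s * ((finrank K Y : ℚ) - finrank K Y')) := by ring
      rw [← hn, e2]
      linarith

end Abstract

end Crest.Agent.R169.Deriv
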