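import Mathlib

/-! Row 169 (helper506): a Noetherian local `k`-algebra whose quotients grow faster than
quadratically has Krull dimension at least three. -/

set_option autoImplicit false

namespace Crest.Agent.R169.DimGrowth

open IsLocalRing

section

variable {k S : Type} [Field k] [CommRing S] [Algebra k S]

/-- The `n`-th power of `(a,b)` is spanned by the monomials of degree `n`. -/
lemma span_pair_pow_le (a b : S) (n : ℕ) :
    Ideal.span {a, b} ^ n ≤ Ideal.span (Set.range fun i : Fin (n + 1) => a ^ (i : ℕ) * b ^ (n - i)) := by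
  induction n with
  | zero =>
    rw [pow_zero, Ideal.one_eq_top, top_le_iff, Ideal.eq_top_iff_one]
    refine Ideal.subset_span ⟨0, ?_⟩
    simp
  | succ n ih =>
    rw [pow_succ]
    refine (Ideal.mul_mono_left ih).trans ?_
    rw [Ideal.span_mul_span', Ideal.span_le]
    rintro _ ⟨_, ⟨i, rfl⟩, y, hy, rfl⟩
    simp only [Set.mem_insert_iff, Set.mem_singleton_iff] at hy
    rcases hy with rfl | rfl
    · refine Ideal.subset_span ⟨⟨i + 1, by omega⟩, ?_⟩
      simp only [Nat.add_sub_add_right]
      ring
    · refine Ideal.subset_span ⟨⟨i, by omega⟩, ?_⟩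
      simp only
      rw [Nat.sub_add_comm (by omega), pow_succ]
      ring

lemma exists_span_sup_pow (a b : S) (W : Finset S)
    (hW : (⊤ : Submodule k S) ≤ Submodule.span k (W : Set S) ⊔
      (Ideal.span {a, b}).restrictScalars k) (n : ℕ) :
    ∃ B : Finset S, B.card ≤ W.card * n ^ 2 ∧
      (⊤ : Submodule k S) ≤ Submodule.span k (B : Set S) ⊔
        (Ideal.span {a, b} ^ n).restrictScalars k := by
  classical
  induction n with
  | zero =>
    refine ⟨∅, by simp, ?_⟩
    rw [pow_zero, Ideal.one_eq_top]
    intro x _
    exact Submodule.mem_sup_right (by simp)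
  | succ n ih =>
    obtain ⟨B, hB, hB2⟩ := ih
    let B' : Finset S := (Finset.univ ×ˢ W).image
      fun p : Fin (n + 1) × S => a ^ (p.1 : ℕ) * b ^ (n - p.1) * p.2
    refine ⟨B ∪ B', ?_, ?_⟩
    · have h1 : B'.card ≤ (n + 1) * W.card := by
        refine Finset.card_image_le.trans ?_
        rw [Finset.card_product, Finset.card_univ, Fintype.card_fin]
      have h2 := Finset.card_union_le B B'
      nlinarith
    · have hJ : (Ideal.span {a, b} ^ n).restrictScalars k ≤
          Submodule.span k (B' : Set S) ⊔ (Ideal.span {a, b} ^ (n + 1)).restrictScalars k := by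
        intro x hx
        have hx' := span_pair_pow_le a b n hx
        refine Submodule.span_induction (p := fun x _ => x ∈ Submodule.span k (B' : Set S) ⊔
          (Ideal.span {a, b} ^ (n + 1)).restrictScalars k) ?_ ?_ ?_ ?_ (?_ : x ∈ Submodule.span k
            {y | ∃ (i : Fin (n + 1)) (r : S), y = a ^ (i : ℕ) * b ^ (n - i) * r})
        · rintro _ ⟨i, r, rfl⟩
          have hr := hW (Submodule.mem_top (x := r))
          obtain ⟨w, hw, y, hy, rfl⟩ := Submodule.mem_sup.mp hr
          rw [mul_add]
          refine Submodule.add_mem _ (Submodule.mem_sup_left ?_) (Submodule.mem_sup_right ?_)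
          · have : Submodule.span k (W : Set S) ≤ (Submodule.span k (B' : Set S)).comap
              (LinearMap.mulLeft k (a ^ (i : ℕ) * b ^ (n - i))) := by
              rw [Submodule.span_le]
              intro w hw
              refine Submodule.subset_span ?_
              simp only [B', Finset.coe_image, Set.mem_image, Finset.mem_coe, Finset.mem_product,
                Finset.mem_univ, true_and, Prod.exists]
              exact ⟨i, w, hw, rfl⟩
            exact this hw
          · change _ ∈ Ideal.span {a, b} ^ (n + 1)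
            rw [pow_succ]
            refine Ideal.mul_mem_mul ?_ hy
            have h3 : a ^ (i : ℕ) ∈ Ideal.span {a, b} ^ (i : ℕ) :=
              Ideal.pow_mem_pow (Ideal.subset_span (by simp)) _
            have h4 : b ^ (n - (i : ℕ)) ∈ Ideal.span {a, b} ^ (n - (i : ℕ)) :=
              Ideal.pow_mem_pow (Ideal.subset_span (by simp)) _
            have := Ideal.mul_mem_mul h3 h4
            rwa [← pow_add, Nat.add_sub_cancel' (by omega)] at this
        · exact Submodule.zero_mem _
        · intro x y _ _ hx hy; exact Submodule.add_mem _ hx hy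
        · intro c x _ hx; exact Submodule.smul_mem _ c hx
        · refine Submodule.span_induction (p := fun x _ => x ∈ Submodule.span k
            {y | ∃ (i : Fin (n + 1)) (r : S), y = a ^ (i : ℕ) * b ^ (n - i) * r})
            ?_ ?_ ?_ ?_ hx'
          · rintro _ ⟨i, rfl⟩
            exact Submodule.subset_span ⟨i, 1, by simp⟩
          · exact Submodule.zero_mem _
          · intro x y _ _ hx hy; exact Submodule.add_mem _ hx hy
          · intro c x _ hx
            refine Submodule.span_induction (p := fun x _ => c • x ∈ Submodule.span k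
              {y | ∃ (i : Fin (n + 1)) (r : S), y = a ^ (i : ℕ) * b ^ (n - i) * r})
              ?_ ?_ ?_ ?_ hx
            · rintro _ ⟨i, r, rfl⟩
              exact Submodule.subset_span ⟨i, c * r, by rw [smul_eq_mul]; ring⟩
            · rw [smul_zero]; exact Submodule.zero_mem _
            · intro x y _ _ hx hy; rw [smul_add]; exact Submodule.add_mem _ hx hy
            · intro d x _ hx; rw [smul_comm]; exact Submodule.smul_mem _ d hx
      refine hB2.trans (sup_le ?_ ?_)
      · refine le_trans (Submodule.span_mono ?_) le_sup_left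
        simp
      · refine hJ.trans (sup_le ?_ le_sup_right)
        refine le_trans (Submodule.span_mono ?_) le_sup_left
        simp

/-- **Growth criterion** for `3 ≤ dim`. -/
theorem three_le_ringKrullDim [IsNoetherianRing S] [IsLocalRing S] (L : ℕ → Submodule k S)
    (hL : ∀ n, (maximalIdeal S ^ n).restrictScalars k ≤ L n)
    (hfin : ∀ K : ℕ, ∃ W : Finset S, (⊤ : Submodule k S) ≤ Submodule.span k (W : Set S) ⊔
      (maximalIdeal S ^ K).restrictScalars k)
    (hgrow : ∀ C : ℕ, ∃ n : ℕ, ∀ B : Finset S, B.card ≤ C * n ^ 2 →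
      ¬ (⊤ : Submodule k S) ≤ Submodule.span k (B : Set S) ⊔ L n) :
    3 ≤ ringKrullDim S := by
  classical
  by_contra hlt
  obtain ⟨s, hs, hcard⟩ := (maximalIdeal S).exists_finset_card_eq_height_of_isNoetherianRing
  have hle2 : s.card ≤ 2 := by
    rw [← IsLocalRing.maximalIdeal_height_eq_ringKrullDim, ← hcard] at hlt
    by_contra h
    apply hlt
    have h3 : 3 ≤ s.card := by omega
    have h4 : (3 : ℕ∞) ≤ (s.card : ℕ∞) := by exact_mod_cast h3
    exact WithBot.coe_le_coe.mpr h4
  -- two generators
  obtain ⟨a, b, hab⟩ : ∃ a b : S, Ideal.span (s : Set S) = Ideal.span {a, b} := by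
    interval_cases hc : s.card
    · rw [Finset.card_eq_zero] at hc
      subst hc
      refine ⟨0, 0, ?_⟩
      simp
    · obtain ⟨a, rfl⟩ := Finset.card_eq_one.mp hc
      exact ⟨a, a, by simp⟩
    · obtain ⟨a, b, -, rfl⟩ := Finset.card_eq_two.mp hc
      exact ⟨a, b, by simp⟩
  rw [hab] at hs
  have hrad : maximalIdeal S ≤ (Ideal.span {a, b}).radical := by
    rw [Ideal.radical_eq_sInf]
    refine le_sInf ?_
    rintro p ⟨hp, hpp⟩
    exact hs.2 ⟨hpp, hp⟩ (IsLocalRing.le_maximalIdeal hpp.ne_top)
  obtain ⟨K, hK⟩ := Ideal.exists_pow_le_of_le_radical_of_fg hrad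
    (IsNoetherian.noetherian (maximalIdeal S))
  have hJm : Ideal.span {a, b} ≤ maximalIdeal S := hs.1.2
  obtain ⟨W, hW⟩ := hfin K
  have hW' : (⊤ : Submodule k S) ≤ Submodule.span k (W : Set S) ⊔
      (Ideal.span {a, b}).restrictScalars k :=
    hW.trans (sup_le_sup_left (fun x hx => hK hx) _)
  obtain ⟨n, hn⟩ := hgrow W.card
  obtain ⟨B, hB, hB2⟩ := exists_span_sup_pow a b W hW' n
  refine hn B hB (hB2.trans (sup_le_sup_left (le_trans ?_ (hL n)) _))
  intro x hx
  exact Ideal.pow_right_mono hJm n hx

end

end Crest.Agent.R169.DimGrowth
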