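import Crest.Agent.R169.ULim

/-!
# Row 169, Part E: interface of the transfer to characteristic `p`

* `UnifT` : the uniform facts on the family of `T`-data used by Part E (from Part F).
* `Transfer X G Gp n b c` : output of E3 (helper872).
* `E3Stmt`, `E4Stmt`, `partE_of` : the end statements and their assembly.
-/

set_option autoImplicit false

namespace Crest.Agent.R169

/-- generated (over `1, u, v`) from degree `g` on -/
def GenFrom {k K V : Type} [Field k] [Field K] [AddCommGroup V] [Module k V] [Module K V]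
    (u v : K) (E : ℤ → Submodule k V) (g : ℤ) : Prop :=
  ∀ m ≥ g, ∀ e ∈ E (m + 1), ∃ a ∈ E m, ∃ b ∈ E m, ∃ c ∈ E m, e = a + u • b + v • c

variable {Q : PP → Type} [∀ p, Field (Q p)] [∀ p, Algebra (Kp p) (Q p)]
  {Qs : Type} [Field Qs] [Algebra KStar Qs]

/-- uniformity of the family of `T`-data -/
structure UnifT (D : ∀ p, TData (Kp p) (Q p)) (Ds : TData KStar Qs) (N : ℕ) (bT cT : ℚ)
    (c1 : ℤ) : Prop where
  N_pos : 0 < N
  hp : ∀ p, HasHP (D p).F N bT cT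
  hps : HasHP Ds.F N bT cT
  gen : ∀ p, GenFrom (D p).u (D p).v (D p).F c1
  gens : GenFrom Ds.u Ds.v Ds.F c1

variable {D : ∀ p, TData (Kp p) (Q p)} {Ds : TData KStar Qs}

/-- `Gp` is a reduction of `G` with the same Hilbert polynomial -/
structure Transfer (X : UFam D Ds) {R : ℕ} (G : ℤ → Submodule KStar (Fin R → Qs))
    (Gp : ∀ p, ℤ → Submodule (Kp p) (Fin R → Q p)) (n : ℕ) (b c : ℚ) : Prop where
  lat : AE (fun p => IsTLat (D p) (Gp p))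
  hp : ∃ m₀ : ℤ, AE (fun p => ∀ m ≥ m₀,
    (Module.finrank (Kp p) (Gp p m) : ℚ) = n / 2 * (m : ℚ) ^ 2 + b * m + c)
  gen : ∃ g : ℤ, AE (fun p => GenFrom (D p).u (D p).v (Gp p) g)
  box : ∃ a : ℤ, ∀ m, AE (fun p => Gp p m ≤ (D p).box R (m + a))
  lim : ∀ m, X.ulim (fun p => Gp p m) = G m

/-- E3 (helper872) -/
def E3Stmt : Prop :=
  ∀ (Q : PP → Type) [∀ p, Field (Q p)] [∀ p, Algebra (Kp p) (Q p)]
    (Qs : Type) [Field Qs] [Algebra KStar Qs]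
    (D : ∀ p, TData (Kp p) (Q p)) (Ds : TData KStar Qs) (X : UFam D Ds)
    (N : ℕ) (bT cT : ℚ) (c1 : ℤ), UnifT D Ds N bT cT c1 →
    ∀ (R : ℕ) (G : ℤ → Submodule KStar (Fin R → Qs)) (n : ℕ) (b c : ℚ),
      IsTLat Ds G → HasHP G n b c → (∃ a : ℤ, ∀ m, G m ≤ Ds.box R (m + a)) →
      ∃ Gp : ∀ p, ℤ → Submodule (Kp p) (Fin R → Q p), Transfer X G Gp n b c

/-- E4 (helper822) -/
def E4Stmt : Prop :=
  ∀ (Q : PP → Type) [∀ p, Field (Q p)] [∀ p, Algebra (Kp p) (Q p)]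
    (Qs : Type) [Field Qs] [Algebra KStar Qs]
    (D : ∀ p, TData (Kp p) (Q p)) (Ds : TData KStar Qs) (X : UFam D Ds)
    (N : ℕ) (bT cT : ℚ) (c1 : ℤ), UnifT D Ds N bT cT c1 →
    ∀ (R : ℕ) (G : ℤ → Submodule KStar (Fin R → Qs)) (n : ℕ) (b c : ℚ)
      (Gp : ∀ p, ℤ → Submodule (Kp p) (Fin R → Q p)),
      IsTLat Ds G → HasHP G n b c → 0 < n → Transfer X G Gp n b c → NSS (Q := Qs) G n b →
      AE (fun p => NSS (Q := Q p) (Gp p) n b)

/-- scaling into a box (helper872) -/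
def EScaleStmt : Prop :=
  ∀ (k Q : Type) [Field k] [Field Q] [Algebra k Q] (D : TData k Q) (R : ℕ)
    (G : ℤ → Submodule k (Fin R → Q)) (n : ℕ) (b c : ℚ),
    IsTLat D G → HasHP G n b c → NSS (Q := Q) G n b →
    ∃ G' : ℤ → Submodule k (Fin R → Q), IsTLat D G' ∧ HasHP G' n b c ∧ NSS (Q := Q) G' n b ∧
      ∃ a : ℤ, ∀ m, G' m ≤ D.box R (m + a)

/-- the end product of Part E -/
def PartEConcl (D : ∀ p, TData (Kp p) (Q p)) (Ds : TData KStar Qs) : Prop :=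
  ∀ (R : ℕ) (G : ℤ → Submodule KStar (Fin R → Qs)) (n : ℕ) (b c : ℚ), 0 < n →
    IsTLat Ds G → HasHP G n b c → NSS (Q := Qs) G n b → ∀ M : ℕ, ∃ p : PP, M < p.val ∧
      ∃ Gp : ℤ → Submodule (Kp p) (Fin R → Q p),
        IsTLat (D p) Gp ∧ HasHP Gp n b c ∧ NSS (Q := Q p) Gp n b

theorem partE_of (h3 : E3Stmt) (h4 : E4Stmt) (hs : EScaleStmt) (X : UFam D Ds) {N : ℕ}
    {bT cT : ℚ} {c1 : ℤ} (hU : UnifT D Ds N bT cT c1) : PartEConcl D Ds := by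
  intro R G n b c hn hG hHP hN M
  obtain ⟨G', hG', hHP', hN', hbox⟩ := hs _ _ Ds R G n b c hG hHP hN
  obtain ⟨Gp, hT⟩ := h3 Q Qs D Ds X N bT cT c1 hU R G' n b c hG' hHP' hbox
  have h5 := h4 Q Qs D Ds X N bT cT c1 hU R G' n b c Gp hG' hHP' hn hT hN'
  obtain ⟨m₀, hm₀⟩ := hT.hp
  obtain ⟨p, ⟨hp1, hp2, hp3⟩, hp⟩ := ((hT.lat.and (hm₀.and h5))).large M
  exact ⟨p, hp, Gp p, hp1, ⟨m₀, hp2⟩, hp3⟩

end Crest.Agent.R169
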