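import Crest.Agent.R169.Noeth

/-!
# Row 169, P1 (part 2): a generic linear form is injective on `gr E` in large degrees
Author: helper132.
-/

set_option autoImplicit false
set_option linter.unusedSectionVars false

namespace Crest.Agent.R169.P1

variable {k K V : Type} [Field k] [Field K] [Algebra k K] [AddCommGroup V] [Module k V]
  [Module K V] [IsScalarTower k K V]

theorem mono_le {E : ℤ → Submodule k V} (h : ∀ m, E m ≤ E (m + 1)) {m m' : ℤ} (hm : m ≤ m') :
    E m ≤ E m' := by
  obtain ⟨n, rfl⟩ := Int.le.dest hm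
  induction n with
  | zero => simp
  | succ n ih =>
    refine (ih (by omega)).trans ?_
    have := h (m + n)
    push_cast
    rwa [← add_assoc]

/-- the linear form `u + t v` -/
def lf (u v : K) (t : k) : K := u + algebraMap k K t * v

theorem lf_smul (u v : K) (t : k) (w : V) : lf u v t • w = u • w + t • v • w := by
  rw [lf, add_smul, mul_smul, algebraMap_smul]

theorem Fam.lf {u v : K} {E : ℤ → Submodule k V} (h : Fam u v E) (t : k) {m : ℤ} {w : V}
    (hw : w ∈ E m) : lf u v t • w ∈ E (m + 1) := by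
  rw [lf_smul]
  exact add_mem (h.umul m w hw) (Submodule.smul_mem _ _ (h.vmul m w hw))

theorem Fam.mon {u v : K} {E : ℤ → Submodule k V} (h : Fam u v E) (i j : ℕ) {m : ℤ} {w : V}
    (hw : w ∈ E m) : (u ^ i * v ^ j) • w ∈ E (m + (i + j : ℕ)) := by
  induction i with
  | zero =>
    induction j with
    | zero => simpa using hw
    | succ j ih =>
      have := h.vmul _ _ ih
      rw [smul_smul] at this
      have e : v * (u ^ 0 * v ^ j) = u ^ 0 * v ^ (j + 1) := by ring
      rw [e] at this
      convert this using 2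
      push_cast; ring
  | succ i ih =>
    have := h.umul _ _ ih
    rw [smul_smul] at this
    have e : u * (u ^ i * v ^ j) = u ^ (i + 1) * v ^ j := by ring
    rw [e] at this
    convert this using 2
    push_cast; ring

theorem Fam.prod {u v : K} {E : ℤ → Submodule k V} (h : Fam u v E) (T : Finset k) {m : ℤ} {w : V}
    (hw : w ∈ E m) : (∏ t ∈ T, P1.lf u v t) • w ∈ E (m + T.card) := by
  classical
  induction T using Finset.induction_on with
  | empty => simpa using hw
  | insert t T ht ih =>
    rw [Finset.prod_insert ht, Finset.card_insert_of_notMem ht, mul_smul]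
    have := h.lf t ih
    convert this using 2
    push_cast; ring

/-- `{w ∈ E m | (u + t v) w ∈ E m}` -/
def KK (u v : K) (E : ℤ → Submodule k V) (t : k) (m : ℤ) : Submodule k V where
  carrier := {w | w ∈ E m ∧ lf u v t • w ∈ E m}
  zero_mem' := by simp
  add_mem' := by
    rintro a b ⟨ha, ha'⟩ ⟨hb, hb'⟩
    exact ⟨add_mem ha hb, by rw [smul_add]; exact add_mem ha' hb'⟩
  smul_mem' := by
    rintro c a ⟨ha, ha'⟩
    exact ⟨Submodule.smul_mem _ _ ha, by rw [smul_comm]; exact Submodule.smul_mem _ _ ha'⟩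

theorem mem_KK {u v : K} {E : ℤ → Submodule k V} {t : k} {m : ℤ} {w : V} :
    w ∈ KK u v E t m ↔ w ∈ E m ∧ lf u v t • w ∈ E m := Iff.rfl

theorem KK_fam {u v : K} {E : ℤ → Submodule k V} (h : Fam u v E) (t : k) :
    Fam u v (KK u v E t) := by
  refine ⟨fun m w hw => ⟨h.mono m hw.1, h.mono m hw.2⟩, fun m w hw => ⟨h.umul m w hw.1, ?_⟩,
    fun m w hw => ⟨h.vmul m w hw.1, ?_⟩⟩
  · rw [smul_comm]; exact h.umul m _ hw.2
  · rw [smul_comm]; exact h.vmul m _ hw.2

theorem iSup_fam {ι : Sort*} {u v : K} {F : ι → ℤ → Submodule k V} (h : ∀ i, Fam u v (F i)) :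
    Fam u v (fun m => ⨆ i, F i m) := by
  refine ⟨fun m => iSup_mono fun i => (h i).mono m, fun m w hw => ?_, fun m w hw => ?_⟩
  · induction hw using Submodule.iSup_induction' with
    | mem i x hx => exact Submodule.mem_iSup_of_mem i ((h i).umul m x hx)
    | zero => rw [smul_zero]; exact Submodule.zero_mem _
    | add x y _ _ hx hy => rw [smul_add]; exact add_mem hx hy
  · induction hw using Submodule.iSup_induction' with
    | mem i x hx => exact Submodule.mem_iSup_of_mem i ((h i).vmul m x hx)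
    | zero => rw [smul_zero]; exact Submodule.zero_mem _
    | add x y _ _ hx hy => rw [smul_add]; exact add_mem hx hy

/-- all bad linear forms have roots in a finite set `T`, in large degrees -/
theorem exists_finset {u v : K} {E : ℤ → Submodule k V} (hE : IsLat u v E) :
    ∃ (T : Finset k) (M : ℤ), ∀ m ≥ M, ∀ t, KK u v E t m ≤ ⨆ t' ∈ T, KK u v E t' m := by
  classical
  have hEf : Fam u v E := ⟨hE.mono, hE.umul, hE.vmul⟩
  have hS : Fam u v (fun m => ⨆ t, KK u v E t m) := iSup_fam fun t => KK_fam hEf t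
  have hSl : IsLat u v (fun m => ⨆ t, KK u v E t m) :=
    isLat_of_le hE hS fun m => iSup_le fun t w hw => (mem_KK.1 hw).1
  obtain ⟨m1, hm1⟩ := hSl.gen
  have hfg : (⨆ t, KK u v E t m1).FG := by
    have := hE.fin m1
    have h2 : Module.Finite k (⨆ t, KK u v E t m1 : Submodule k V) :=
      Submodule.finiteDimensional_of_le (iSup_le fun t w hw => (mem_KK.1 hw).1 : _ ≤ E m1)
    exact Module.Finite.iff_fg.1 h2
  obtain ⟨T, hT⟩ := CompleteLattice.IsCompactElement.exists_finset_of_le_iSup
    (Submodule k V) ((Submodule.fg_iff_compact _).1 hfg) (fun t => KK u v E t m1) le_rfl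
  refine ⟨T, m1, fun m hm t => ?_⟩
  have hT' : Fam u v (fun m => ⨆ t' ∈ T, KK u v E t' m) :=
    iSup_fam fun t => iSup_fam fun _ => KK_fam hEf t
  refine (le_iSup (fun t => KK u v E t m) t).trans ?_
  obtain ⟨n, rfl⟩ := Int.le.dest hm
  clear hm
  induction n with
  | zero => simpa using hT
  | succ n ih =>
    intro x hx
    have e : m1 + ((n + 1 : ℕ) : ℤ) = m1 + n + 1 := by push_cast; ring
    rw [e] at hx ⊢
    obtain ⟨a, ha, b, hb, c, hc, rfl⟩ := hm1 (m1 + n) (by omega) x hx
    exact add_mem (add_mem (hT'.mono _ (ih ha)) (hT'.umul _ _ (ih hb))) (hT'.vmul _ _ (ih hc))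


theorem prod_KK_of_mem {u v : K} {E : ℤ → Submodule k V} (h : Fam u v E) (T : Finset k) {t : k}
    (ht : t ∈ T) {m : ℤ} {w : V} (hw : w ∈ KK u v E t m) :
    (∏ t ∈ T, lf u v t) • w ∈ E (m + T.card - 1) := by
  classical
  rw [← Finset.prod_erase_mul _ _ ht, mul_smul]
  have := h.prod (T.erase t) hw.2
  rw [Finset.card_erase_of_mem ht] at this
  have hpos : 1 ≤ T.card := Finset.card_pos.2 ⟨t, ht⟩
  rw [Nat.cast_sub hpos] at this
  convert this using 2
  push_cast; ring

theorem prod_KK {u v : K} {E : ℤ → Submodule k V} (h : Fam u v E) (T : Finset k) (t₀ : k)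
    {m : ℤ} {w : V} (hw : w ∈ KK u v E t₀ m) :
    (∏ t ∈ T, lf u v t) • w - (∏ t ∈ T, (t - t₀)) • v ^ T.card • w ∈ E (m + T.card - 1) := by
  classical
  induction T using Finset.induction_on with
  | empty => simp
  | insert t T ht ih =>
    rw [Finset.prod_insert ht, Finset.card_insert_of_notMem ht, Finset.prod_insert ht, mul_smul]
    have h1 := h.lf t ih
    have h2 : (v ^ T.card) • lf u v t₀ • w ∈ E (m + T.card) := by
      have := h.mon 0 T.card hw.2
      simpa using this
    have h3 := Submodule.smul_mem _ (∏ t ∈ T, (t - t₀)) h2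
    have e1 : m + (T.card : ℤ) - 1 + 1 = m + T.card := by ring
    rw [e1] at h1
    have h4 := add_mem h1 h3
    have e2 : m + ((T.card + 1 : ℕ) : ℤ) - 1 = m + T.card := by push_cast; ring
    rw [e2]
    convert h4 using 1
    rw [smul_sub]
    have e3 : lf u v t • (∏ t ∈ T, (t - t₀)) • v ^ T.card • w =
        (∏ t ∈ T, (t - t₀)) • v ^ T.card • lf u v t₀ • w +
        ((t - t₀) * ∏ t ∈ T, (t - t₀)) • v ^ (T.card + 1) • w := by
      rw [smul_comm (lf u v t) (∏ t ∈ T, (t - t₀)), mul_comm (t - t₀), mul_smul, ← smul_add]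
      congr 1
      have e4 : (t - t₀) • v ^ (T.card + 1) • w = (algebraMap k K (t - t₀) * v ^ (T.card + 1)) • w := by
        rw [mul_smul, algebraMap_smul]
      rw [e4, smul_smul, smul_smul, ← add_smul]
      congr 1
      rw [lf, lf, map_sub]
      ring
    rw [e3]
    abel

/-- elements of `KK t₀` are killed by all monomials of degree `|T|` modulo `E_{m+|T|-1}` -/
theorem mon_KK {u v : K} {E : ℤ → Submodule k V} (h : Fam u v E) (T : Finset k) (t₀ : k)
    (ht₀ : t₀ ∉ T) {m : ℤ} {w : V} (hw : w ∈ KK u v E t₀ m)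
    (hT : w ∈ ⨆ t ∈ T, KK u v E t m) :
    ∀ i j : ℕ, i + j = T.card → (u ^ i * v ^ j) • w ∈ E (m + T.card - 1) := by
  classical
  -- `∏ (u+tv) w ∈ E`
  have h1 : (∏ t ∈ T, lf u v t) • w ∈ E (m + T.card - 1) := by
    have hle : (⨆ t ∈ T, KK u v E t m) ≤
        (E (m + T.card - 1)).comap (DistribSMul.toLinearMap k V (∏ t ∈ T, lf u v t)) := by
      refine iSup₂_le fun t ht x hx => ?_
      exact prod_KK_of_mem h T ht hx
    exact hle hT
  have h2 := prod_KK h T t₀ hw
  have h3 : (∏ t ∈ T, (t - t₀)) • v ^ T.card • w ∈ E (m + T.card - 1) := by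
    have := sub_mem h1 h2
    simpa using this
  have hne : (∏ t ∈ T, (t - t₀)) ≠ 0 := by
    rw [Finset.prod_ne_zero_iff]
    intro t ht h0
    rw [sub_eq_zero] at h0
    exact ht₀ (h0 ▸ ht)
  have h4 : v ^ T.card • w ∈ E (m + T.card - 1) := by
    have := Submodule.smul_mem _ (∏ t ∈ T, (t - t₀))⁻¹ h3
    rwa [smul_smul, inv_mul_cancel₀ hne, one_smul] at this
  intro i
  induction i with
  | zero =>
    intro j hj
    rw [zero_add] at hj
    subst hj
    simpa using h4
  | succ i ih =>
    intro j hj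
    have h5 := ih (j + 1) (by omega)
    have h6 := h.mon i j hw.2
    have e : m + ((i + j : ℕ) : ℤ) = m + T.card - 1 := by
      have : ((i + j : ℕ) : ℤ) = T.card - 1 := by
        rw [← hj]; push_cast; ring
      rw [this]; ring
    rw [e] at h6
    have h7 := sub_mem h6 (Submodule.smul_mem _ t₀ h5)
    convert h7 using 1
    have e4 : t₀ • (u ^ i * v ^ (j + 1)) • w = (algebraMap k K t₀ * (u ^ i * v ^ (j + 1))) • w := by
      rw [mul_smul (algebraMap k K t₀), algebraMap_smul]
    rw [e4, smul_smul, ← sub_smul]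
    congr 1
    rw [lf]
    ring

/-- elements killed by all monomials of degree `N` modulo `E_{m+N-1}` -/
def NN (u v : K) (E : ℤ → Submodule k V) (N : ℕ) (m : ℤ) : Submodule k V where
  carrier := {w | w ∈ E m ∧ ∀ i j : ℕ, i + j = N → (u ^ i * v ^ j) • w ∈ E (m + N - 1)}
  zero_mem' := by simp
  add_mem' := by
    rintro a b ⟨ha, ha'⟩ ⟨hb, hb'⟩
    exact ⟨add_mem ha hb, fun i j hij => by
      rw [smul_add]; exact add_mem (ha' i j hij) (hb' i j hij)⟩
  smul_mem' := by
    rintro c a ⟨ha, ha'⟩
    exact ⟨Submodule.smul_mem _ _ ha, fun i j hij => by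
      rw [smul_comm]; exact Submodule.smul_mem _ _ (ha' i j hij)⟩

theorem NN_fam {u v : K} {E : ℤ → Submodule k V} (h : Fam u v E) (N : ℕ) :
    Fam u v (NN u v E N) := by
  refine ⟨fun m w hw => ⟨h.mono m hw.1, fun i j hij => ?_⟩,
    fun m w hw => ⟨h.umul m w hw.1, fun i j hij => ?_⟩,
    fun m w hw => ⟨h.vmul m w hw.1, fun i j hij => ?_⟩⟩
  · have := h.mono _ (hw.2 i j hij)
    convert this using 2
    ring
  · rw [smul_comm]
    have := h.umul _ _ (hw.2 i j hij)
    convert this using 2
    ring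
  · rw [smul_comm]
    have := h.vmul _ _ (hw.2 i j hij)
    convert this using 2
    ring

/-- saturation is trivial in large degrees -/
theorem NN_le {u v : K} {E : ℤ → Submodule k V} (hE : IsLat u v E) (N : ℕ) :
    ∃ M : ℤ, ∀ m ≥ M, NN u v E N m ≤ E (m - 1) := by
  have h : Fam u v E := ⟨hE.mono, hE.umul, hE.vmul⟩
  have hN : IsLat u v (NN u v E N) := isLat_of_le hE (NN_fam h N) fun m w hw => hw.1
  obtain ⟨m2, hm2⟩ := hN.gen
  have key : ∀ r : ℕ, r ≤ N → ∀ m ≥ m2, ∀ x ∈ NN u v E N (m + r), ∀ i j : ℕ, i + j = N - r →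
      (u ^ i * v ^ j) • x ∈ E (m + N - 1) := by
    intro r
    induction r with
    | zero =>
      intro _ m _ x hx i j hij
      simp only [Nat.cast_zero, add_zero] at hx
      exact hx.2 i j (by simpa using hij)
    | succ r ih =>
      intro hr m hm x hx i j hij
      have e : m + ((r + 1 : ℕ) : ℤ) = m + r + 1 := by push_cast; ring
      rw [e] at hx
      obtain ⟨a, ha, b, hb, c, hc, rfl⟩ := hm2 (m + r) (by omega) x hx
      rw [smul_add, smul_add]
      refine add_mem (add_mem ?_ ?_) ?_
      · have := h.mon i j ha.1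
        convert this using 2
        rw [hij]
        push_cast [Nat.cast_sub hr]
        ring
      · have := ih (by omega) m hm b hb (i + 1) j (by omega)
        rw [smul_smul]
        convert this using 2
        ring
      · have := ih (by omega) m hm c hc i (j + 1) (by omega)
        rw [smul_smul]
        convert this using 2
        ring
  refine ⟨m2 + N, fun m hm x hx => ?_⟩
  have := key N le_rfl (m - N) (by omega) x (by
    have e : m - (N : ℤ) + N = m := by ring
    rwa [e]) 0 0 (by simp)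
  simp only [pow_zero, mul_one, one_smul] at this
  convert this using 2
  ring

/-- **generic linear form**: for all `t` outside a finite set, `u + t v` is injective on
`E_m / E_{m-1}` for `m ≫ 0` (uniformly in `t`). -/
theorem generic_l {u v : K} {E : ℤ → Submodule k V} (hE : IsLat u v E) :
    ∃ (T : Finset k) (M : ℤ), ∀ t ∉ T, ∀ m ≥ M, ∀ w ∈ E m,
      u • w + t • v • w ∈ E m → w ∈ E (m - 1) := by
  have h : Fam u v E := ⟨hE.mono, hE.umul, hE.vmul⟩
  obtain ⟨T, M, hT⟩ := exists_finset hE
  obtain ⟨M', hM'⟩ := NN_le hE T.card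
  refine ⟨T, max M M', fun t ht m hm w hw hw' => ?_⟩
  have hK : w ∈ KK u v E t m := ⟨hw, by rwa [lf_smul]⟩
  exact hM' m ((le_max_right _ _).trans hm)
    ⟨hw, mon_KK h T t ht hK (hT m ((le_max_left _ _).trans hm) t hK)⟩

end Crest.Agent.R169.P1
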