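import Crest.Agent.R169.E3Rank
import Crest.Agent.R169.GenL
import Crest.Agent.R169.EIface

/-!
# Row 169, part E3: transfer of a `T`-lattice with its Hilbert polynomial to characteristic `p`
-/

set_option autoImplicit false
set_option linter.unusedSectionVars false

namespace Crest.Agent.R169.E3

open Module Crest.Agent.R169.E3Win Crest.Agent.R169.E3Gen Crest.Agent.R169.E3Rank

/-! ### generalities -/

section General

variable {k K V : Type} [Field k] [Field K] [Algebra k K] [AddCommGroup V] [Module k V]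
  [Module K V] [IsScalarTower k K V] {u v : K} {E : ℤ → Submodule k V}

/-- exact dimension of `W_g` in large degrees -/
theorem finrank_WL_eq (hE : IsLat u v E) (t : k) (hl : u + t • v ≠ 0) {m : ℤ}
    (hinj : ∀ w ∈ E (m - 1), u • w + t • v • w ∈ E (m - 1) → w ∈ E (m - 2)) :
    finrank k (WL (u + t • v) E m) + finrank k (E (m - 2)) = 2 * finrank k (E (m - 1)) := by
  have := hE.fin (m - 1)
  have := hE.fin (m - 2)
  set l := u + t • v with hl'
  have h1 := Submodule.finrank_sup_add_finrank_inf_eq (E (m - 1)) ((E (m - 1)).map (mulK k l))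
  have h2 : finrank k ((E (m - 1)).map (mulK k l)) = finrank k (E (m - 1)) :=
    (LinearEquiv.finrank_eq (Submodule.equivMapOfInjective (mulK k l) (mulK_injective hl) _)).symm
  have h3 : finrank k ((E (m - 2)).map (mulK k l)) = finrank k (E (m - 2)) :=
    (LinearEquiv.finrank_eq (Submodule.equivMapOfInjective (mulK k l) (mulK_injective hl) _)).symm
  have e1 : m - 2 + 1 = m - 1 := by ring
  have h4 : (E (m - 2)).map (mulK k l) = E (m - 1) ⊓ (E (m - 1)).map (mulK k l) := by
    apply le_antisymm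
    · refine le_inf ?_ ?_
      · rw [Submodule.map_le_iff_le_comap]
        intro x hx
        have hu := hE.umul (m - 2) x hx
        have hv := hE.vmul (m - 2) x hx
        rw [e1] at hu hv
        simp only [Submodule.mem_comap, mulK_apply, hl', add_smul, smul_assoc]
        exact (E (m - 1)).add_mem hu ((E (m - 1)).smul_mem t hv)
      · apply Submodule.map_mono
        have := hE.mono (m - 2)
        rwa [e1] at this
    · rintro y ⟨hy1, w, hw, rfl⟩
      refine ⟨w, hinj w hw ?_, rfl⟩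
      have hy2 : mulK k l w ∈ E (m - 1) := hy1
      simpa only [mulK_apply, hl', add_smul, smul_assoc] using hy2
  rw [h4] at h3
  rw [WL]
  omega

theorem mulK_u0 {Q : Type} [Field Q] [Algebra k Q] (D : TData k Q) {R : ℕ}
    (G : ℤ → Submodule k (Fin R → Q)) (t : k) (m : ℤ) :
    WL (u0 D + t • v0 D) G m = WL (D.u + t • D.v) G m := by
  have : (mulK k (u0 D + t • v0 D) : (Fin R → Q) →ₗ[k] (Fin R → Q)) =
      mulK k (D.u + t • D.v) := by
    ext1 x
    rfl
  rw [WL, WL, this]

end General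

variable {Q : PP → Type} [∀ p, Field (Q p)] [∀ p, Algebra (Kp p) (Q p)]
  {Qs : Type} [Field Qs] [Algebra KStar Qs]
  {D : ∀ p, TData (Kp p) (Q p)} {Ds : TData KStar Qs} {X : UFam D Ds} {R : ℕ}

/-- Ultralimit of `l E`. -/
theorem ulim_map {m : ℤ} {E : ∀ p, Submodule (Kp p) (Fin R → Q p)}
    (hb : AE (fun p => E p ≤ (D p).box R m)) {l : ∀ p, Q p} {ls : Qs}
    (hl : X.ι ls = ucls l) :
    X.ulim (fun p => (E p).map (mulK (Kp p) (l p))) = (X.ulim E).map (mulK KStar ls) := by
  apply le_antisymm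
  · rintro y ⟨x, hx, hlim⟩
    have h1 : AE (fun p => ∃ z, z ∈ E p ∧ l p • z = x p) :=
      hx.mono (fun p hp => by
        obtain ⟨z, hz, hz'⟩ := hp
        exact ⟨z, hz, hz'⟩)
    obtain ⟨z, hz⟩ := AE.choose (α := fun p => Fin R → Q p) h1
    obtain ⟨z', hz', hlz⟩ := X.exists_lim (m := m) (x := z)
      ((hb.and hz).mono (fun p hp => hp.1 hp.2.1))
    refine ⟨z', hlz.mem_ulim (hz.mono (fun p hp => hp.1)), ?_⟩
    have h2 := hlz.qsmul hl
    exact (h2.congr (hz.mono (fun p hp => hp.2))).unique hlim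
  · rintro _ ⟨y, ⟨x, hx, hlim⟩, rfl⟩
    exact (hlim.qsmul hl).mem_ulim (hx.mono (fun p hp => ⟨x p, hp, rfl⟩))

/-- Ultralimit of the generated families. -/
theorem ulim_genL {N0 : ℕ} {d : Fin N0 → ℤ} {x : Fin N0 → ∀ p, Fin R → Q p}
    {y : Fin N0 → Fin R → Qs} (h : ∀ j, X.Lim (x j) (y j)) (m : ℤ) :
    X.ulim (fun p => genL (Kp p) (D p).u (D p).v d (fun j => x j p) m) =
      genL KStar Ds.u Ds.v d y m := by
  classical
  obtain ⟨n, ⟨e⟩⟩ := Finite.exists_equiv_fin (Idx d m)
  have h1 : ∀ j : Fin n, X.Lim (fun p => el (D p).u (D p).v (fun j => x j p) (e.symm j).1)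
      (el Ds.u Ds.v y (e.symm j).1) := by
    intro j
    refine (h (e.symm j).1.1).qsmul ?_
    rw [map_mul, map_pow, map_pow, X.ι_u, X.ι_v, ← map_pow, ← map_pow, ← map_mul]
    rfl
  have h2 := UFam.ulim_span h1
  have h3 : ∀ (k K V : Type) [Field k] [Field K] [AddCommGroup V] [Module k V] [Module K V]
      (u v : K) (z : Fin N0 → V), genL k u v d z m =
      Submodule.span k (Set.range (fun j => el u v z (e.symm j).1)) := by
    intro k K V _ _ _ _ _ u v z
    rw [genL]
    congr 1
    have : (fun j => el u v z (e.symm j).1) = (fun t : Idx d m => el u v z t.1) ∘ e.symm := rfl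
    rw [this, Set.range_comp, e.symm.surjective.range_eq, Set.image_univ]
  rw [h3 KStar Qs, ← h2]
  congr 1
  funext p
  exact h3 (Kp p) (Q p) _ _ _ _

theorem genL_le_box {k Q : Type} [Field k] [Field Q] [Algebra k Q] (D : TData k Q) {N0 : ℕ}
    {d : Fin N0 → ℤ} {x : Fin N0 → Fin R → Q} {a : ℤ} (h : ∀ j, x j ∈ D.box R (d j + a)) (m : ℤ) :
    genL k D.u D.v d x m ≤ D.box R (m + a) := by
  refine genL_le fun i s t hst => ?_
  rw [TData.mem_box]
  intro r
  have h1 := TData.mem_box.1 (h i) r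
  have h2 : D.u ^ s * D.v ^ t ∈ D.F (s + t) :=
    D.mul_mem _ _ _ (D.pow_mem D.u_mem s) _ (D.pow_mem D.v_mem t)
  have h3 := D.mul_mem _ _ _ h2 _ h1
  exact D.F_mono (by omega) h3

/-- extension of the `T`-action from low degrees -/
theorem act_of {k Q : Type} [Field k] [Field Q] [Algebra k Q] (D : TData k Q) {N0 : ℕ}
    {d : Fin N0 → ℤ} {x : Fin N0 → Fin R → Q} {c : ℕ} (hg : GenFrom D.u D.v D.F c)
    (h : ∀ i : Fin (c + 1), ∀ l, ∀ f ∈ D.F (i : ℕ), f • x l ∈ genL k D.u D.v d x ((i : ℕ) + d l)) :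
    ∀ i j : ℤ, ∀ f ∈ D.F i, ∀ g ∈ genL k D.u D.v d x j, f • g ∈ genL k D.u D.v d x (i + j) := by
  have hlat : IsLat D.u D.v (genL k D.u D.v d x) := genL_isLat
  -- generators, all degrees
  have h1 : ∀ i : ℤ, ∀ f ∈ D.F i, ∀ l, f • x l ∈ genL k D.u D.v d x (i + d l) := by
    intro i
    rcases lt_or_ge i 0 with hi | hi
    · intro f hf l
      rw [D.eq_zero_of_neg hi hf, zero_smul]
      exact Submodule.zero_mem _
    rcases le_or_gt i c with hic | hic
    · intro f hf l
      obtain ⟨i, rfl⟩ := Int.eq_ofNat_of_zero_le hi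
      have := h ⟨i, by omega⟩ l f hf
      exact this
    · have key : ∀ i : ℤ, (c : ℤ) ≤ i → ∀ f ∈ D.F i, ∀ l,
          f • x l ∈ genL k D.u D.v d x (i + d l) := by
        intro i hi
        induction i, hi using Int.leInduction with
        | base =>
          intro f hf l
          exact h ⟨c, by omega⟩ l f hf
        | succ j hj ih =>
          intro f hf l
          obtain ⟨p, hp, q, hq, r, hr, rfl⟩ := hg j hj f hf
          have e1 : (p + D.u • q + D.v • r) • x l = p • x l + D.u • (q • x l) + D.v • (r • x l) := by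
            simp only [add_smul, smul_assoc]
          rw [e1]
          have e2 : j + 1 + d l = j + d l + 1 := by ring
          rw [e2]
          exact Submodule.add_mem _ (Submodule.add_mem _ (genL_mono (by omega) (ih p hp l))
            (genL_umul _ _ (ih q hq l))) (genL_vmul _ _ (ih r hr l))
      exact key i hic.le
  intro i j f hf g hgj
  have hle : genL k D.u D.v d x j ≤ (genL k D.u D.v d x (i + j)).comap (mulK k f) := by
    refine genL_le fun l s t hst => ?_
    simp only [Submodule.mem_comap, mulK_apply]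
    rw [smul_comm]
    exact mon_mem hlat (h1 i f hf l) s t (by omega)
  exact hle hgj

/-- fullness from finitely many vectors -/
theorem exists_basis_sub {N0 : ℕ} {d : Fin N0 → ℤ} {y : Fin N0 → Fin R → Qs}
    {G : ℤ → Submodule KStar (Fin R → Qs)} (hG : IsTLat Ds G)
    (h : ∀ m, G m = genL KStar Ds.u Ds.v d y m) :
    ∃ σ : Fin R → Fin N0, LinearIndependent Qs (fun j => y (σ j)) := by
  have hspan : Submodule.span Qs (Set.range y) = ⊤ := by
    rw [eq_top_iff, ← hG.full, spanK, Submodule.span_le]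
    intro g hg
    obtain ⟨m, hm⟩ := Set.mem_iUnion.1 hg
    have hm' : g ∈ genL KStar Ds.u Ds.v d y m := by rw [← h m]; exact hm
    have : genL KStar Ds.u Ds.v d y m ≤
        (Submodule.span Qs (Set.range y)).restrictScalars KStar := by
      refine genL_le fun i a b _ => ?_
      have h1 : y i ∈ Submodule.span Qs (Set.range y) := Submodule.subset_span ⟨i, rfl⟩
      exact (Submodule.span Qs (Set.range y)).smul_mem (Ds.u ^ a * Ds.v ^ b) h1
    exact this hm'
  obtain ⟨f, hf, -, hlin⟩ := Submodule.exists_fun_fin_finrank_span_eq Qs (Set.range y)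
  have hr : finrank Qs (Submodule.span Qs (Set.range y)) = R := by
    rw [hspan, finrank_top, Module.finrank_fin_fun]
  choose σ hσ using hf
  refine ⟨fun j => σ (Fin.cast hr.symm j), ?_⟩
  have : (fun j => y (σ (Fin.cast hr.symm j))) = f ∘ (Fin.cast hr.symm) := by
    funext j
    exact hσ _
  rw [this]
  exact hlin.comp _ (Fin.cast_injective _)

/-- **E3** -/
theorem e3_of (hP6 : ∀ (s : ℕ) (b : ℚ) (g : ℤ), ∃ C : ℚ, P6Stmt s b g C) : E3Stmt := by
  classical
  intro Q _ _ Qs _ _ D Ds X N bT cT c1 hU R G n b c hG hHP hbox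
  obtain ⟨a, hbox⟩ := hbox
  have hinfK : Infinite KStar := inferInstance
  -- rank and integrality
  obtain ⟨b2, c2, hHP2, hbz⟩ := hasHP_G Ds hU.hps hG
  obtain ⟨hn, hb2, hc2⟩ := hasHP_unique hHP hHP2
  subst hn; subst hb2; subst hc2
  -- generic `t`
  obtain ⟨T, M, hT⟩ := P1.generic_l hG.lat
  obtain ⟨t, ht⟩ := Infinite.exists_notMem_finset (insert 0 T)
  have htT : t ∉ T := fun h => ht (Finset.mem_insert_of_mem h)
  have hl : Ds.u + t • Ds.v ≠ 0 := by
    intro h0
    have hind := Ds.indep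
    rw [algebraicIndependent_iff] at hind
    have h1 := hind (MvPolynomial.X 0 + MvPolynomial.C t * MvPolynomial.X 1) (by
      simp only [map_add, map_mul, MvPolynomial.aeval_X, MvPolynomial.algHom_C]
      simpa [Algebra.smul_def] using h0)
    have h2 := congrArg (MvPolynomial.coeff (Finsupp.single (0 : Fin 2) 1)) h1
    have h3 : (Finsupp.single (1 : Fin 2) 1 : Fin 2 →₀ ℕ) ≠ Finsupp.single (0 : Fin 2) 1 := by
      intro h4
      have h5 := DFunLike.congr_fun h4 (0 : Fin 2)
      simp at h5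
    rw [MvPolynomial.coeff_add, MvPolynomial.coeff_C_mul, MvPolynomial.coeff_X,
      MvPolynomial.coeff_X (1 : Fin 2), if_neg h3, MvPolynomial.coeff_zero] at h2
    simp at h2
  -- the threshold
  obtain ⟨g1, hg1⟩ := hG.lat.gen
  obtain ⟨m0, hm0⟩ := hHP
  set g : ℤ := max g1 (max (M + 2) (m0 + 2)) with hgdef
  have hgg1 : g1 ≤ g := le_max_left _ _
  have hgM : M + 2 ≤ g := (le_max_left _ _).trans (le_max_right _ _)
  have hgm : m0 + 2 ≤ g := (le_max_right _ _).trans (le_max_right _ _)
  have hgen : GenFrom Ds.u Ds.v G g := fun m hm => hg1 m (hgg1.trans hm)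
  -- generators
  obtain ⟨N0, d, y, hy, hdg, hGm⟩ := exists_genL hG.lat hgen
  have hy' : ∀ l, y l ∈ Ds.box R (d l + a) := fun l => hbox _ (hy l)
  choose x hx hlim using fun l => X.exists_rep (hy' l)
  let Gp : ∀ p, ℤ → Submodule (Kp p) (Fin R → Q p) := fun p =>
    genL (Kp p) (D p).u (D p).v d (fun j => x j p)
  have hGpbox : ∀ p m, Gp p m ≤ (D p).box R (m + a) := fun p m =>
    genL_le_box (D p) (fun j => hx j p) m
  have hlimG : ∀ m, X.ulim (fun p => Gp p m) = G m := by
    intro m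
    rw [hGm m]
    exact ulim_genL hlim m
  have hdim : ∀ m, AE (fun p => finrank (Kp p) (Gp p m) = finrank KStar (G m)) := by
    intro m
    have h1 := UFam.ae_finrank_eq (X := X) (m := m + a) (AE.of_forall (fun p => hGpbox p m))
    rw [hlimG m] at h1
    exact h1
  have hlatp : ∀ p, IsLat (D p).u (D p).v (Gp p) := fun p => genL_isLat
  have hgenp : ∀ p, GenFrom (D p).u (D p).v (Gp p) g := fun p => genL_genFrom hdg
  -- the linear forms
  let tp : ∀ p, Kp p := rep t
  have hlp : X.ι (Ds.u + t • Ds.v) = ucls (fun p => (D p).u + tp p • (D p).v) := by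
    have e1 : (fun p => (D p).u + tp p • (D p).v) =
        (fun p => (D p).u) + (fun p => algebraMap (Kp p) (Q p) (tp p)) * (fun p => (D p).v) := by
      funext p
      simp [Algebra.smul_def]
    have e2 : X.ι (t • Ds.v) = X.ι (algebraMap KStar Qs (cls tp)) * X.ι Ds.v := by
      rw [Algebra.smul_def, map_mul, cls_rep]
    rw [e1, map_add, e2, X.ι_u, X.ι_v, X.ι_alg tp, ← map_mul, ← map_add]
  have hlne : AE (fun p => (D p).u + tp p • (D p).v ≠ 0) := by
    rw [AE.not_iff, ← ucls_eq_zero, ← hlp]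
    exact fun h => hl (X.ι_injective (by rw [h, map_zero]))
  -- the dimension of `W`
  have hWdim : AE (fun p => finrank (Kp p) (WL ((D p).u + tp p • (D p).v) (Gp p) g) =
      finrank KStar (WL (Ds.u + t • Ds.v) G g)) := by
    have hb1 : AE (fun p => Gp p (g - 1) ≤ (D p).box R (g - 1 + a)) :=
      AE.of_forall (fun p => hGpbox p _)
    have h1 : X.ulim (fun p => WL ((D p).u + tp p • (D p).v) (Gp p) g) =
        WL (Ds.u + t • Ds.v) G g := by
      simp only [WL]
      rw [UFam.ulim_sup hb1, ulim_map hb1 hlp, hlimG]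
    have hb : AE (fun p => WL ((D p).u + tp p • (D p).v) (Gp p) g ≤ (D p).box R (g + a)) :=
      AE.of_forall (fun p => (WL_le (hlatp p) (tp p) g).trans (hGpbox p g))
    have h2 := UFam.ae_finrank_eq (X := X) hb
    rw [h1] at h2
    exact h2
  have hWs : finrank KStar (G g) ≤ finrank KStar (WL (Ds.u + t • Ds.v) G g) + R * N := by
    have h1 := finrank_WL_eq hG.lat t hl (m := g) (by
      intro w hw hw'
      have := hT t htT (g - 1) (by omega) w hw hw'
      have e1 : g - 1 - 1 = g - 2 := by ring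
      rwa [e1] at this)
    have h2 := hm0 g (by omega)
    have h3 := hm0 (g - 1) (by omega)
    have h4 := hm0 (g - 2) (by omega)
    have h5 : (finrank KStar (WL (Ds.u + t • Ds.v) G g) : ℚ) + finrank KStar (G (g - 2)) =
        2 * finrank KStar (G (g - 1)) := by exact_mod_cast h1
    have h6 : (finrank KStar (G g) : ℚ) =
        finrank KStar (WL (Ds.u + t • Ds.v) G g) + (R * N : ℕ) := by
      have h7 : (finrank KStar (WL (Ds.u + t • Ds.v) G g) : ℚ) =
        2 * finrank KStar (G (g - 1)) - finrank KStar (G (g - 2)) := by linarith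
      rw [h7, h2, h3, h4]
      push_cast
      ring
    have h8 : finrank KStar (G g) = finrank KStar (WL (Ds.u + t • Ds.v) G g) + R * N := by
      exact_mod_cast h6
    exact h8.le
  -- window constant
  obtain ⟨C, hC⟩ := hP6 (R * N) b g
  obtain ⟨m1, hgm1, hwin⟩ := window_hp (R * N) b c g C hC
  -- `T`-lattices
  set cN : ℕ := (max c1 0).toNat with hcN
  have hcN' : ((cN : ℕ) : ℤ) = max c1 0 := Int.toNat_of_nonneg (le_max_right _ _)
  have hact : AE (fun p => ∀ i : Fin (cN + 1), ∀ l, ∀ f ∈ (D p).F (i : ℕ),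
      f • x l p ∈ Gp p ((i : ℕ) + d l)) := by
    refine AE.all_finite (fun i => AE.all_finite (fun l => ?_))
    have h1 := UFam.ae_qsmul_mem (X := X) (i := ((i : ℕ) : ℤ)) (m := d l + a)
      (E := fun p => Gp p (d l)) (E' := fun p => Gp p ((i : ℕ) + d l))
      (AE.of_forall (fun p => hGpbox p (d l))) (by
        intro f hf z hz
        rw [hlimG] at hz ⊢
        exact hG.act _ _ f hf z hz)
    exact h1.mono (fun p hp f hf => hp f hf _ (gen_mem l))
  obtain ⟨σ, hσ⟩ := exists_basis_sub hG hGm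
  have hfull : AE (fun p => spanK (Q p) (Gp p) = ⊤) := by
    have h1 := UFam.Lim.linInd_Q (X := X) (fun j => hlim (σ j)) hσ
    refine h1.mono (fun p hp => ?_)
    have h2 := hp.span_eq_top_of_card_eq_finrank' (by simp)
    rw [eq_top_iff, ← h2, Submodule.span_le]
    rintro _ ⟨j, rfl⟩
    exact Submodule.subset_span (Set.mem_iUnion.2 ⟨d (σ j), gen_mem (σ j)⟩)
  have hTlat : AE (fun p => IsTLat (D p) (Gp p)) := by
    refine (hact.and hfull).mono (fun p hp => ⟨hlatp p, ?_, hp.2⟩)
    refine act_of (D p) (c := cN) ?_ hp.1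
    intro m hm
    exact hU.gen p m (by omega)
  -- conclusion
  refine ⟨Gp, hTlat, ⟨g - 1, ?_⟩, ⟨g, AE.of_forall hgenp⟩, ⟨a, fun m => AE.of_forall (fun p =>
    hGpbox p m)⟩, hlimG⟩
  have hP : ∀ m ≥ g - 1, (finrank KStar (G m) : ℚ) = (R * N : ℕ) / 2 * (m : ℚ) ^ 2 + b * m + c :=
    fun m hm => hm0 m (by omega)
  refine (hTlat.and ((hdim g).and ((hdim (g - 1)).and ((hdim m1).and (hWdim.and hlne))))).mono ?_
  rintro p ⟨h1, h2, h3, h4, h5, h6⟩
  have hrat := TData.isRat (D p)
  have hlat0 : IsLat (u0 (D p)) (v0 (D p)) (Gp p) := G_lat0 (D p) (hlatp p)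
  have hl0 : u0 (D p) + tp p • v0 (D p) ≠ 0 := by
    intro h0
    apply h6
    exact congrArg (fun z : (D p).K0 => (z : Q p)) h0
  have hp2 : (finrank (Kp p) (Gp p g) : ℚ) = (R * N : ℕ) / 2 * (g : ℚ) ^ 2 + b * g + c := by
    rw [h2]; exact hP g (by omega)
  have hp3 : (finrank (Kp p) (Gp p (g - 1)) : ℚ) =
      (R * N : ℕ) / 2 * ((g - 1 : ℤ) : ℚ) ^ 2 + b * ((g - 1 : ℤ) : ℚ) + c := by
    rw [h3]; exact hP (g - 1) le_rfl
  have hp4 : (finrank (Kp p) (Gp p m1) : ℚ) = (R * N : ℕ) / 2 * (m1 : ℚ) ^ 2 + b * m1 + c := by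
    rw [h4]; exact hP m1 (by omega)
  have hp5 : finrank (Kp p) (Gp p g) ≤
      finrank (Kp p) (WL (u0 (D p) + tp p • v0 (D p)) (Gp p) g) + R * N := by
    rw [mulK_u0, h2, h5]
    exact hWs
  exact hwin (Kp p) (D p).K0 (Fin R → Q p) (u0 (D p)) (v0 (D p)) (Gp p) hrat hlat0
    (fun m hm e he => hgenp p m hm e he) (tp p) hl0 (hasHP_G (D p) (hU.hp p) h1) hbz hp2 hp3 hp4 hp5

end Crest.Agent.R169.E3
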