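import Crest.Agent.R169.E4Num
import Crest.Agent.R169.GenL
import Crest.Agent.R169.P2

/-!
# Row 169, P6: uniform upper bound for the Hilbert function (helper822)

For a lattice `E` of rank `s`, generated from degree `g` on, with linear coefficient `b' ≤ b`:
`dim E m ≤ s/2 m² + b' m + C(s, b, g)` for all `m ≥ g`.
-/

set_option autoImplicit false

namespace Crest.Agent.R169.P6

open Module

/-! ### numerical part -/

theorem numeric (s : ℕ) (b : ℚ) (g : ℤ) (h : ℤ → ℚ) (hmono : ∀ m, h (m - 1) ≤ h m)
    (hconv : ∀ m, 0 ≤ h m - 2 * h (m - 1) + h (m - 2))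
    (hs : ∀ m ≥ g, (s : ℚ) ≤ h m - 2 * h (m - 1) + h (m - 2))
    {b' c' : ℚ} (hHP : ∃ m₀ : ℤ, ∀ m ≥ m₀, h m = s / 2 * (m : ℚ) ^ 2 + b' * m + c')
    (hbot : ∃ m₁ : ℤ, ∀ m ≤ m₁, h m = 0)
    (hstart : ∀ j : ℕ, h (g - j) ≠ 0 → ((j : ℚ) + 1) * (j + 2) / 2 ≤ h g) (hb : b' ≤ b) :
    ∀ m ≥ g, h m ≤ s / 2 * (m : ℚ) ^ 2 + b' * m +
      (2 * (s * g + b - s / 2) ^ 2 + (|b| + |(s : ℚ) / 2 - s * g|) * |(g : ℚ)|) := by
  obtain ⟨m₀, hm₀⟩ := hHP
  -- Step A
  have hA : ∀ m ≥ g - 1, h m - h (m - 1) ≤ s * m + b' - s / 2 := by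
    intro m hm
    have h1 : ∀ j : ℕ, h m - h (m - 1) + s * j ≤ h (m + j) - h (m + j - 1) := by
      intro j
      induction j with
      | zero => simp
      | succ j ih =>
        have h2 := hs (m + j + 1) (by omega)
        have e1 : m + j + 1 - 1 = m + j := by ring
        have e2 : m + j + 1 - 2 = m + j - 1 := by ring
        rw [e1, e2] at h2
        have e3 : m + ((j + 1 : ℕ) : ℤ) = m + j + 1 := by push_cast; ring
        rw [e3, e1]
        push_cast
        linarith
    obtain ⟨j, hj⟩ : ∃ j : ℕ, m₀ ≤ m + j - 1 := ⟨(m₀ - m + 1).toNat, by omega⟩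
    have h2 := h1 j
    rw [hm₀ _ (by omega : m + (j : ℤ) ≥ m₀), hm₀ _ hj] at h2
    push_cast at h2
    linarith
  -- Step B
  have hB : ∀ j : ℕ, h (g + j) ≤ h g + s / 2 * (((g + j : ℤ) : ℚ) ^ 2 - (g : ℚ) ^ 2) + b' * j := by
    intro j
    induction j with
    | zero => simp
    | succ j ih =>
      have h1 := hA (g + (j + 1 : ℕ)) (by omega)
      have e1 : g + ((j + 1 : ℕ) : ℤ) - 1 = g + j := by push_cast; ring
      rw [e1] at h1
      push_cast at h1 ih ⊢
      linarith
  -- Step C
  have hC1 : ∀ j : ℕ, h (g - j) - h (g - j - 1) ≤ h g - h (g - 1) := by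
    intro j
    induction j with
    | zero => simp
    | succ j ih =>
      have h2 := hconv (g - j)
      have e1 : g - ((j + 1 : ℕ) : ℤ) = g - j - 1 := by push_cast; ring
      have e2 : g - (j : ℤ) - 2 = g - j - 1 - 1 := by ring
      rw [e1]
      rw [e2] at h2
      linarith
  have hG' := hA g (by omega)
  set G' : ℚ := s * g + b' - s / 2 with hG'def
  have hG'0 : 0 ≤ G' := le_trans (by linarith [hmono g]) hG'
  have hC2 : ∀ j : ℕ, h g ≤ j * G' + h (g - j) := by
    intro j
    induction j with
    | zero => simp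
    | succ j ih =>
      have h1 := hC1 j
      have e1 : g - ((j + 1 : ℕ) : ℤ) = g - j - 1 := by push_cast; ring
      rw [e1]
      push_cast
      linarith
  have hex : ∃ j : ℕ, h (g - j) = 0 := by
    obtain ⟨m₁, hm₁⟩ := hbot
    exact ⟨(g - m₁).toNat, hm₁ _ (by omega)⟩
  have hC : h g ≤ 2 * G' ^ 2 := by
    classical
    have hJ := Nat.find_spec hex
    have hJm := fun i (hi : i < Nat.find hex) => Nat.find_min hex hi
    set J := Nat.find hex with hJdef
    have h1 := hC2 J
    rw [hJ, add_zero] at h1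
    rcases Nat.eq_zero_or_pos J with h2 | h2
    · rw [h2] at h1
      simp only [Nat.cast_zero, zero_mul] at h1
      have := sq_nonneg G'
      linarith
    · have h3 := hstart (J - 1) (hJm _ (by omega))
      have e1 : ((J - 1 : ℕ) : ℚ) = (J : ℚ) - 1 := by
        push_cast [h2]; ring
      rw [e1] at h3
      have hJ0 : (0 : ℚ) < J := by exact_mod_cast h2
      have h4 : (J : ℚ) * ((J : ℚ) + 1) / 2 ≤ J * G' := by
        have : (J : ℚ) * ((J : ℚ) + 1) / 2 = ((J : ℚ) - 1 + 1) * ((J : ℚ) - 1 + 2) / 2 := by ring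
        linarith
      have h5 : ((J : ℚ) + 1) / 2 ≤ G' := by
        by_contra hcon
        push Not at hcon
        nlinarith
      nlinarith
  intro m hm
  obtain ⟨j, rfl⟩ : ∃ j : ℕ, m = g + j := ⟨(m - g).toNat, by omega⟩
  have h1 := hB j
  have hlow : (s : ℚ) / 2 - s * g ≤ b' := by linarith
  have habs : |b'| ≤ |b| + |(s : ℚ) / 2 - s * g| := by
    rw [abs_le]
    constructor
    · have h2 := neg_abs_le ((s : ℚ) / 2 - s * g)
      have h3 := abs_nonneg b
      linarith
    · have h2 := le_abs_self b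
      have h3 := abs_nonneg ((s : ℚ) / 2 - s * g)
      linarith
  have h4 : -(b' * g) ≤ (|b| + |(s : ℚ) / 2 - s * g|) * |(g : ℚ)| := by
    calc -(b' * g) ≤ |b' * g| := neg_le_abs _
      _ = |b'| * |(g : ℚ)| := abs_mul _ _
      _ ≤ _ := mul_le_mul_of_nonneg_right habs (abs_nonneg _)
  have h5 : G' ≤ s * g + b - s / 2 := by linarith
  have h6 : G' ^ 2 ≤ (s * g + b - s / 2) ^ 2 := by
    exact pow_le_pow_left₀ hG'0 h5 2
  have hs0 : (0 : ℚ) ≤ s := Nat.cast_nonneg s
  have hg2 := sq_nonneg (g : ℚ)
  push_cast at h1 ⊢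
  nlinarith

/-! ### lattice part -/

section

variable {k K V : Type} [Field k] [Field K] [Algebra k K] [AddCommGroup V] [Module k V]
  [Module K V] [IsScalarTower k K V]

/-- a generic linear form is injective on `gr` in all degrees, for a saturated lattice -/
theorem exists_inj [Infinite k] {u v : K} {E : ℤ → Submodule k V} (hE : IsLat u v E)
    (hs : SAT u v E) :
    ∃ t : k, ∀ m, ∀ w ∈ E m, u • w + t • v • w ∈ E m → w ∈ E (m - 1) := by
  obtain ⟨T, M, h⟩ := P1.generic_l hE
  obtain ⟨t, ht⟩ := Infinite.exists_notMem_finset T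
  refine ⟨t, ?_⟩
  have key : ∀ j : ℕ, ∀ m, M ≤ m + j → ∀ w ∈ E m, u • w + t • v • w ∈ E m → w ∈ E (m - 1) := by
    intro j
    induction j with
    | zero =>
      intro m hm w hw hlw
      exact h t ht m (by simpa using hm) w hw hlw
    | succ j ih =>
      intro m hm w hw hlw
      have h1 : v • w ∈ E (m + 1) := hE.vmul m w hw
      have h2 : u • (v • w) + t • v • (v • w) ∈ E (m + 1) := by
        have := hE.vmul m _ hlw
        rw [smul_add, smul_comm v t, smul_comm v u] at this
        exact this
      have h3 := ih (m + 1) (by push_cast at hm; omega) _ h1 h2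
      rw [add_sub_cancel_right] at h3
      have h4 : u • w ∈ E m := by
        have := (E m).sub_mem hlw ((E m).smul_mem t h3)
        simpa using this
      exact hs m w hw h4 h3
  intro m
  exact key (M - m).toNat m (by omega)

/-- multiplication by an element of `K` -/
noncomputable def mul (k : Type) {K V : Type} [Field k] [Field K] [Algebra k K] [AddCommGroup V]
    [Module k V] [Module K V] [IsScalarTower k K V] (l : K) : V →ₗ[k] V :=
  (LinearMap.lsmul K V l).restrictScalars k

@[simp] theorem mul_apply (l : K) (x : V) : mul k l x = l • x := rfl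

theorem mul_inj {l : K} (hl : l ≠ 0) : Function.Injective (mul k l : V →ₗ[k] V) := by
  intro x y h
  simp only [mul_apply] at h
  exact smul_right_injective V hl h

theorem finrank_map {l : K} (hl : l ≠ 0) (S : Submodule k V) :
    finrank k (S.map (mul k l)) = finrank k S :=
  (LinearEquiv.finrank_eq (Submodule.equivMapOfInjective (mul k l) (mul_inj hl) S)).symm

theorem lform_ne {u v : K} (h : AlgebraicIndependent k ![u, v]) (t : k) :
    u + algebraMap k K t * v ≠ 0 := by
  intro h0
  have h1 := E4.linearIndependent_monomials h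
  have h2 : LinearIndependent k (fun x : Fin 2 => u ^ (![1, 0] x) * v ^ (![0, 1] x)) := by
    have := h1.comp (fun x : Fin 2 => ((![1, 0] x, ![0, 1] x) : ℕ × ℕ)) (by
      intro x y hxy
      fin_cases x <;> fin_cases y <;> simp_all)
    exact this
  rw [Fintype.linearIndependent_iff] at h2
  have h3 := h2 ![1, t] (by
    simp [Fin.sum_univ_two, Algebra.smul_def]
    exact h0) 0
  simp at h3

theorem bound_of_sat [Infinite k] {u v : K} (hu : AlgebraicIndependent k ![u, v])
    {E E' : ℤ → Submodule k V} (_hE : IsLat u v E) (hE' : IsLat u v E')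
    (hle : ∀ m, E m ≤ E' m) (heq : ∃ m₀ : ℤ, ∀ m ≥ m₀, E' m = E m) (hsat : SAT u v E') {g : ℤ}
    (hgen : ∀ m ≥ g, ∀ e ∈ E (m + 1), ∃ x ∈ E m, ∃ y ∈ E m, ∃ z ∈ E m, e = x + u • y + v • z)
    {s : ℕ} {b b' c' : ℚ} (hHP : HasHP E s b' c') (hb : b' ≤ b) :
    ∀ m ≥ g, (finrank k (E m) : ℚ) ≤ s / 2 * (m : ℚ) ^ 2 + b' * m +
      (2 * (s * g + b - s / 2) ^ 2 + (|b| + |(s : ℚ) / 2 - s * g|) * |(g : ℚ)|) := by
  obtain ⟨t, ht⟩ := exists_inj hE' hsat
  set l : K := u + algebraMap k K t * v with hl
  have hlne : l ≠ 0 := lform_ne hu t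
  have hvne : v ≠ 0 := by
    intro h0
    have h1 := E4.linearIndependent_monomials hu
    have := h1.ne_zero (0, 1)
    simp [h0] at this
  have hlw : ∀ w : V, l • w = u • w + t • v • w := by
    intro w
    rw [hl, add_smul, mul_smul, algebraMap_smul]
  have hfin : ∀ m, Module.Finite k (E' m) := hE'.fin
  obtain ⟨m₀, hm₀⟩ := heq
  -- one step
  have hmono1 : ∀ m, E' (m - 1) ≤ E' m := by
    intro m
    have := hE'.mono (m - 1)
    rwa [sub_add_cancel] at this
  have hlmem : ∀ m, ∀ w ∈ E' (m - 1), l • w ∈ E' m := by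
    intro m w hw
    rw [hlw]
    have h1 := hE'.umul _ _ hw
    have h2 := hE'.vmul _ _ hw
    rw [sub_add_cancel] at h1 h2
    exact (E' m).add_mem h1 ((E' m).smul_mem t h2)
  let W : ℤ → Submodule k V := fun m => E' (m - 1) ⊔ (E' (m - 1)).map (mul k l)
  have hWle : ∀ m, W m ≤ E' m := by
    intro m
    refine sup_le (hmono1 m) ?_
    rw [Submodule.map_le_iff_le_comap]
    intro w hw
    exact hlmem m w hw
  have hWfin : ∀ m, Module.Finite k (W m) := fun m =>
    Submodule.finiteDimensional_of_le (hWle m)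
  have hWrank : ∀ m, finrank k (W m) + finrank k (E' (m - 2)) = 2 * finrank k (E' (m - 1)) := by
    intro m
    have h1 : finrank k (W m) + finrank k
        ((E' (m - 1) ⊓ (E' (m - 1)).map (mul k l) : Submodule k V)) =
        finrank k (E' (m - 1)) + finrank k ((E' (m - 1)).map (mul k l)) :=
      Submodule.finrank_sup_add_finrank_inf_eq (E' (m - 1)) ((E' (m - 1)).map (mul k l))
    have h2 : E' (m - 1) ⊓ (E' (m - 1)).map (mul k l) = (E' (m - 2)).map (mul k l) := by
      apply le_antisymm
      · rintro x ⟨hx1, w, hw, rfl⟩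
        refine ⟨w, ?_, rfl⟩
        have hx1' : l • w ∈ E' (m - 1) := hx1
        rw [hlw] at hx1'
        have := ht (m - 1) w hw hx1'
        have e : m - 1 - 1 = m - 2 := by ring
        rwa [e] at this
      · rintro x ⟨w, hw, rfl⟩
        have e : m - 1 - 1 = m - 2 := by ring
        have hw' : w ∈ E' (m - 1 - 1) := by rwa [e]
        exact ⟨hlmem (m - 1) w hw', w, hmono1 (m - 1) hw', rfl⟩
    rw [h2, finrank_map hlne, finrank_map hlne] at h1
    omega
  -- generation modulo W
  have hvW : ∀ m, ∀ w ∈ W m, v • w ∈ W (m + 1) := by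
    intro m w hw
    obtain ⟨a, ha, c, ⟨d, hd, rfl⟩, rfl⟩ := Submodule.mem_sup.1 hw
    rw [smul_add]
    have e : m + 1 - 1 = m - 1 + 1 := by ring
    refine (W (m + 1)).add_mem ?_ ?_
    · apply Submodule.mem_sup_left
      rw [e]
      exact hE'.vmul _ _ ha
    · apply Submodule.mem_sup_right
      refine ⟨v • d, ?_, ?_⟩
      · rw [e]
        exact hE'.vmul _ _ hd
      · simp only [mul_apply]
        rw [smul_comm]
  have hgenW : ∀ m ≥ g, ∀ j : ℕ, ∀ e ∈ E (m + j), ∃ w ∈ W (m + j), ∃ a ∈ E m,
      e = w + v ^ j • a := by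
    intro m hm j
    induction j with
    | zero =>
      intro e he
      exact ⟨0, zero_mem _, e, by simpa using he, by simp⟩
    | succ j ih =>
      intro e he
      have he' : e ∈ E (m + j + 1) := by
        have e1 : m + ((j + 1 : ℕ) : ℤ) = m + j + 1 := by push_cast; ring
        rwa [e1] at he
      obtain ⟨x, hx, y, hy, z, hz, rfl⟩ := hgen (m + j) (by omega) e he'
      obtain ⟨w, hw, a, ha, hwa⟩ := ih (z - t • y) ((E _).sub_mem hz ((E _).smul_mem t hy))
      have e1 : m + ((j + 1 : ℕ) : ℤ) = m + j + 1 := by push_cast; ring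
      refine ⟨x + l • y + v • w, ?_, a, ha, ?_⟩
      · rw [e1]
        refine (W _).add_mem ((W _).add_mem ?_ ?_) (hvW _ _ hw)
        · apply Submodule.mem_sup_left
          rw [add_sub_cancel_right]
          exact hle _ hx
        · apply Submodule.mem_sup_right
          refine ⟨y, ?_, rfl⟩
          rw [add_sub_cancel_right]
          exact hle _ hy
      · have h1 : v • z = v • (w + v ^ j • a) + t • v • y := by
          rw [← hwa, smul_sub, smul_comm v t]
          abel
        rw [h1, hlw, smul_add, smul_smul, ← pow_succ']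
        abel
  -- second difference decreases
  have hD : ∀ m ≥ g, ∀ j : ℕ, m₀ ≤ m + j →
      finrank k (E' (m + j)) + finrank k (W m) ≤ finrank k (W (m + j)) + finrank k (E' m) := by
    intro m hm j hj
    have h1 : E' (m + j) ≤ W (m + j) ⊔ (E' m).map (mul k (v ^ j)) := by
      intro e he
      rw [hm₀ _ hj] at he
      obtain ⟨w, hw, a, ha, rfl⟩ := hgenW m hm j e he
      exact Submodule.add_mem_sup hw ⟨a, hle _ ha, rfl⟩
    have h2 : (W m).map (mul k (v ^ j)) ≤ W (m + j) ⊓ (E' m).map (mul k (v ^ j)) := by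
      refine le_inf ?_ (Submodule.map_mono (hWle m))
      rw [Submodule.map_le_iff_le_comap]
      intro w hw
      rw [Submodule.mem_comap, mul_apply]
      have h3 : ∀ j : ℕ, v ^ j • w ∈ W (m + j) := by
        intro j
        induction j with
        | zero => simpa using hw
        | succ j ih =>
          have := hvW _ _ ih
          rw [smul_smul, ← pow_succ'] at this
          have e1 : m + ((j + 1 : ℕ) : ℤ) = m + j + 1 := by push_cast; ring
          rwa [e1]
      exact h3 j
    have h4 := Submodule.finrank_sup_add_finrank_inf_eq (W (m + j)) ((E' m).map (mul k (v ^ j)))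
    rw [finrank_map (pow_ne_zero j hvne)] at h4
    have h5 : finrank k (E' (m + j)) ≤
        finrank k ((W (m + j) ⊔ (E' m).map (mul k (v ^ j)) : Submodule k V)) :=
      Submodule.finrank_mono h1
    have h6 : finrank k ((W m).map (mul k (v ^ j))) ≤
        finrank k ((W (m + j) ⊓ (E' m).map (mul k (v ^ j)) : Submodule k V)) :=
      Submodule.finrank_mono h2
    rw [finrank_map (pow_ne_zero j hvne)] at h6
    omega
  obtain ⟨m₁, hm₁⟩ := hHP
  have hHP' : ∀ m ≥ max m₀ m₁, (finrank k (E' m) : ℚ) = s / 2 * (m : ℚ) ^ 2 + b' * m + c' := by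
    intro m hm
    rw [hm₀ m ((le_max_left _ _).trans hm)]
    exact hm₁ m ((le_max_right _ _).trans hm)
  have hmain := numeric s b g (fun m => (finrank k (E' m) : ℚ))
    (fun m => by exact_mod_cast Submodule.finrank_mono (hmono1 m))
    (fun m => by
      have h1 := hWrank m
      have h2 := Submodule.finrank_mono (hWle m)
      have h1' : (finrank k (W m) : ℚ) + finrank k (E' (m - 2)) = 2 * finrank k (E' (m - 1)) := by
        exact_mod_cast h1
      have h2' : (finrank k (W m) : ℚ) ≤ finrank k (E' m) := by exact_mod_cast h2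
      linarith)
    (fun m hm => by
      obtain ⟨j, hj⟩ : ∃ j : ℕ, max m₀ m₁ ≤ m + j - 2 :=
        ⟨(max m₀ m₁ - m + 2).toNat, by omega⟩
      have hj1 : m₀ ≤ m + j := by have := le_max_left m₀ m₁; omega
      have h1 := hD m hm j hj1
      have h2 := hWrank m
      have h3 := hWrank (m + j)
      have h1' : (finrank k (E' (m + j)) : ℚ) + finrank k (W m) ≤
        finrank k (W (m + j)) + finrank k (E' m) := by exact_mod_cast h1
      have h2' : (finrank k (W m) : ℚ) + finrank k (E' (m - 2)) = 2 * finrank k (E' (m - 1)) := by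
        exact_mod_cast h2
      have h3' : (finrank k (W (m + j)) : ℚ) + finrank k (E' (m + j - 2)) =
        2 * finrank k (E' (m + j - 1)) := by exact_mod_cast h3
      rw [hHP' (m + j) (by omega)] at h1'
      rw [hHP' (m + j - 2) hj, hHP' (m + j - 1) (by omega)] at h3'
      push_cast at h1' h3'
      linarith)
    ⟨_, hHP'⟩
    (by
      obtain ⟨m₂, hm₂⟩ := hE'.bot
      exact ⟨m₂, fun m hm => by simp [hm₂ m hm]⟩)
    (fun j hj => by
      -- a nonzero element in degree `g - j`
      have hne : E' (g - j) ≠ ⊥ := by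
        intro h0
        apply hj
        simp [h0]
      obtain ⟨e, he, he0⟩ := Submodule.exists_mem_ne_zero_of_ne_bot hne
      have hmonoj : ∀ i : ℤ, ∀ j : ℕ, E' i ≤ E' (i + j) := by
        intro i j
        induction j with
        | zero => simp
        | succ j ih =>
          refine ih.trans ?_
          have := hE'.mono (i + j)
          rw [add_assoc] at this
          exact_mod_cast this
      obtain ⟨T, hT, hTc⟩ := E4.exists_tri j
      have hli : LinearIndependent k (fun x : T => (u ^ x.1.1 * v ^ x.1.2) • e) := by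
        have h1 : LinearIndependent k (fun x : T => u ^ x.1.1 * v ^ x.1.2) :=
          (E4.linearIndependent_monomials hu).comp (fun x : T => x.1) Subtype.val_injective
        have h2 : LinearMap.ker ((LinearMap.toSpanSingleton K V e).restrictScalars k) = ⊥ := by
          rw [LinearMap.ker_eq_bot]
          intro x y hxy
          simp only [LinearMap.coe_restrictScalars, LinearMap.toSpanSingleton_apply] at hxy
          exact smul_left_injective K he0 hxy
        have h3 := h1.map' _ h2
        exact h3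
      have hmem : ∀ x : T, (u ^ x.1.1 * v ^ x.1.2) • e ∈ E' g := by
        rintro ⟨⟨a, d⟩, hx⟩
        have had : a + d ≤ j := hT _ hx
        have h1 : ∀ a : ℕ, ∀ i : ℤ, ∀ e ∈ E' i, u ^ a • e ∈ E' (i + a) := by
          intro a
          induction a with
          | zero => intro i e he; simpa using he
          | succ a ih =>
            intro i e he
            have := hE'.umul _ _ (ih i e he)
            rw [smul_smul, ← pow_succ'] at this
            rw [add_assoc] at this
            exact_mod_cast this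
        have h2 : ∀ b : ℕ, ∀ i : ℤ, ∀ e ∈ E' i, v ^ b • e ∈ E' (i + b) := by
          intro b
          induction b with
          | zero => intro i e he; simpa using he
          | succ b ih =>
            intro i e he
            have := hE'.vmul _ _ (ih i e he)
            rw [smul_smul, ← pow_succ'] at this
            rw [add_assoc] at this
            exact_mod_cast this
        have h3 := h1 a _ _ (h2 d _ e he)
        rw [smul_smul] at h3
        obtain ⟨c, hc⟩ := Nat.exists_eq_add_of_le had
        have h4 := hmonoj _ c h3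
        have h5 : g - (j : ℤ) + (d : ℤ) + a + c = g := by rw [hc]; push_cast; ring
        rw [h5] at h4
        exact h4
      have hli' : LinearIndependent k (fun x : T =>
          (⟨(u ^ x.1.1 * v ^ x.1.2) • e, hmem x⟩ : E' g)) :=
        LinearIndependent.of_comp (E' g).subtype hli
      have hcard := hli'.fintype_card_le_finrank
      rw [Fintype.card_coe, hTc] at hcard
      have h7 : (dimA j : ℚ) ≤ finrank k (E' g) := by exact_mod_cast hcard
      rw [E4.dimA_cast (by omega)] at h7
      push_cast at h7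
      exact h7) hb
  intro m hm
  refine le_trans ?_ (hmain m hm)
  exact_mod_cast Submodule.finrank_mono (hle m)

end

/-- P6, uniform form -/
theorem p6_bound (s : ℕ) (b : ℚ) (g : ℤ) : ∃ C : ℚ, ∀ (k K V : Type) [Field k] [Infinite k]
    [Field K] [Algebra k K] [AddCommGroup V] [Module k V] [Module K V] [IsScalarTower k K V]
    (u v : K) (E : ℤ → Submodule k V), IsRat k u v → IsLat u v E →
    (∀ m ≥ g, ∀ e ∈ E (m + 1), ∃ x ∈ E m, ∃ y ∈ E m, ∃ z ∈ E m, e = x + u • y + v • z) →
    ∀ b' c' : ℚ, HasHP E s b' c' → b' ≤ b →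
      ∀ m ≥ g, (finrank k (E m) : ℚ) ≤ s / 2 * (m : ℚ) ^ 2 + b' * m + C := by
  refine ⟨2 * (s * g + b - s / 2) ^ 2 + (|b| + |(s : ℚ) / 2 - s * g|) * |(g : ℚ)|, ?_⟩
  intro k K V _ _ _ _ _ _ _ _ u v E hK hE hgen b' c' hHP hb
  obtain ⟨E', -, hE', hle, heq, hsat⟩ := exists_sat hK hE
  exact bound_of_sat hK.indep hE hE' hle heq hsat hgen hHP hb

end Crest.Agent.R169.P6
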