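import Crest.Agent.R169.E3
import Crest.Agent.R169.P6

/-!
# Row 169, part E3: final form
-/

set_option autoImplicit false

namespace Crest.Agent.R169.E3

open Crest.Agent.R169.E3Win

theorem p6Stmt (s : ℕ) (b : ℚ) (g : ℤ) : ∃ C : ℚ, P6Stmt s b g C := by
  obtain ⟨C, hC⟩ := P6.p6_bound s b g
  refine ⟨C, ?_⟩
  intro k K V _ _ _ _ _ _ _ _ u v E hK hE hgen b' c' hHP hb m hm
  exact hC k K V u v E hK hE hgen b' c' hHP hb m hm

/-- **E3** -/
theorem e3 : E3Stmt := e3_of p6Stmt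

end Crest.Agent.R169.E3
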