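import Crest.Agent.R169.E3Win

/-!
# Row 169, part E3: lattices given by finitely many generators
-/

set_option autoImplicit false
set_option linter.unusedSectionVars false

namespace Crest.Agent.R169.E3Gen

open Module Crest.Agent.R169.E3Win

section Gen

variable {k K V : Type} [Field k] [Field K] [Algebra k K] [AddCommGroup V] [Module k V]
  [Module K V] [IsScalarTower k K V]

/-- index set of the monomial multiples of the generators in degree `m` -/
abbrev Idx {ι : Type} (d : ι → ℤ) (m : ℤ) : Type :=
  {t : ι × ℕ × ℕ // (t.2.1 : ℤ) + t.2.2 ≤ m - d t.1}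

instance {ι : Type} [Finite ι] (d : ι → ℤ) (m : ℤ) : Finite (Idx d m) := by
  classical
  have := Fintype.ofFinite ι
  let N : ℕ := ∑ i, (m - d i).toNat + 1
  have : Set.Finite {t : ι × ℕ × ℕ | (t.2.1 : ℤ) + t.2.2 ≤ m - d t.1} := by
    refine Set.Finite.subset (Set.Finite.prod (Set.finite_univ (α := ι))
      (Set.Finite.prod (Set.finite_Iic N) (Set.finite_Iic N))) ?_
    rintro ⟨i, a, b⟩ h
    simp only [Set.mem_ofPred_eq] at h
    have h1 : (m - d i).toNat ≤ ∑ i, (m - d i).toNat :=
      Finset.single_le_sum (f := fun i => (m - d i).toNat) (fun _ _ => Nat.zero_le _)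
        (Finset.mem_univ i)
    simp only [Set.mem_prod, Set.mem_univ, Set.mem_Iic, true_and, N]
    omega
  exact this

/-- the element of `V` attached to an index -/
def el {ι : Type} (u v : K) (x : ι → V) (t : ι × ℕ × ℕ) : V := (u ^ t.2.1 * v ^ t.2.2) • x t.1

/-- the family generated by `x i` in degree `d i` -/
def genL (k : Type) {K V : Type} [Field k] [Field K] [AddCommGroup V] [Module k V]
    [Module K V] {ι : Type} (u v : K) (d : ι → ℤ) (x : ι → V) (m : ℤ) : Submodule k V :=
  Submodule.span k (Set.range (fun t : Idx d m => el u v x t.1))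

variable {ι : Type} {u v : K} {d : ι → ℤ} {x : ι → V}

theorem el_mem {m : ℤ} {i : ι} {a b : ℕ} (h : (a : ℤ) + b ≤ m - d i) :
    (u ^ a * v ^ b) • x i ∈ genL k u v d x m :=
  Submodule.subset_span ⟨⟨(i, a, b), h⟩, rfl⟩

theorem gen_mem (i : ι) : x i ∈ genL k u v d x (d i) := by
  have := el_mem (k := k) (u := u) (v := v) (d := d) (x := x) (m := d i) (i := i) (a := 0)
    (b := 0) (by simp)
  simpa using this

theorem genL_le {E : Submodule k V} {m : ℤ}
    (h : ∀ i (a b : ℕ), (a : ℤ) + b ≤ m - d i → (u ^ a * v ^ b) • x i ∈ E) :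
    genL k u v d x m ≤ E := by
  rw [genL, Submodule.span_le]
  rintro _ ⟨⟨⟨i, a, b⟩, ht⟩, rfl⟩
  exact h i a b ht

theorem genL_mono {m m' : ℤ} (h : m ≤ m') : genL k u v d x m ≤ genL k u v d x m' :=
  genL_le fun i a b hab => el_mem (by omega)

theorem genL_umul (m : ℤ) : ∀ e ∈ genL k u v d x m, u • e ∈ genL k u v d x (m + 1) := by
  intro e he
  have : genL k u v d x m ≤ (genL k u v d x (m + 1)).comap (mulK k u) := by
    refine genL_le fun i a b hab => ?_
    simp only [Submodule.mem_comap, mulK_apply, smul_smul]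
    have e1 : u * (u ^ a * v ^ b) = u ^ (a + 1) * v ^ b := by ring
    rw [e1]
    exact el_mem (by push_cast; omega)
  exact this he

theorem genL_vmul (m : ℤ) : ∀ e ∈ genL k u v d x m, v • e ∈ genL k u v d x (m + 1) := by
  intro e he
  have : genL k u v d x m ≤ (genL k u v d x (m + 1)).comap (mulK k v) := by
    refine genL_le fun i a b hab => ?_
    simp only [Submodule.mem_comap, mulK_apply, smul_smul]
    have e1 : v * (u ^ a * v ^ b) = u ^ a * v ^ (b + 1) := by ring
    rw [e1]
    exact el_mem (by push_cast; omega)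
  exact this he

theorem genL_genFrom {g : ℤ} (hg : ∀ i, d i ≤ g) : GenFrom u v (genL k u v d x) g := by
  intro m hm e he
  have key : genL k u v d x (m + 1) ≤ genL k u v d x m ⊔
      ((genL k u v d x m).map (mulK k u) ⊔ (genL k u v d x m).map (mulK k v)) := by
    refine genL_le fun i a b hab => ?_
    have hi := hg i
    by_cases h0 : (a : ℤ) + b ≤ m - d i
    · exact Submodule.mem_sup_left (el_mem h0)
    · have h1 : (a : ℤ) + b = m + 1 - d i := by omega
      rcases Nat.eq_zero_or_pos a with ha | ha
      · subst ha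
        have hb : 0 < b := by
          by_contra hb
          have : b = 0 := by omega
          subst this
          simp at h1
          omega
        obtain ⟨b, rfl⟩ := Nat.exists_eq_succ_of_ne_zero hb.ne'
        refine Submodule.mem_sup_right (Submodule.mem_sup_right ?_)
        refine ⟨(u ^ 0 * v ^ b) • x i, el_mem (by push_cast at h1 ⊢; omega), ?_⟩
        simp only [mulK_apply, smul_smul]
        congr 1
        rw [Nat.succ_eq_add_one]; ring
      · obtain ⟨a, rfl⟩ := Nat.exists_eq_succ_of_ne_zero ha.ne'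
        refine Submodule.mem_sup_right (Submodule.mem_sup_left ?_)
        refine ⟨(u ^ a * v ^ b) • x i, el_mem (by push_cast at h1 ⊢; omega), ?_⟩
        simp only [mulK_apply, smul_smul]
        congr 1
        rw [Nat.succ_eq_add_one]; ring
  obtain ⟨a, ha, y, hy, rfl⟩ := Submodule.mem_sup.1 (key he)
  obtain ⟨b, hb, c, hc, rfl⟩ := Submodule.mem_sup.1 hy
  obtain ⟨b, hb, rfl⟩ := hb
  obtain ⟨c, hc, rfl⟩ := hc
  exact ⟨a, ha, b, hb, c, hc, by simp only [mulK_apply]; abel⟩

theorem genL_isLat [Finite ι] : IsLat u v (genL k u v d x) where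
  mono m := genL_mono (by omega)
  umul := genL_umul
  vmul := genL_vmul
  fin m := by
    rw [genL]
    exact Module.Finite.span_of_finite k (Set.finite_range _)
  bot := by
    classical
    have := Fintype.ofFinite ι
    refine ⟨-(∑ i, |d i|) - 1, fun m hm => ?_⟩
    rw [eq_bot_iff]
    refine genL_le fun i a b hab => ?_
    exfalso
    have h1 : |d i| ≤ ∑ i, |d i| :=
      Finset.single_le_sum (f := fun i => |d i|) (fun _ _ => abs_nonneg _) (Finset.mem_univ i)
    have h2 := neg_abs_le (d i)
    omega
  gen := by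
    classical
    have := Fintype.ofFinite ι
    refine ⟨∑ i, |d i|, genL_genFrom fun i => ?_⟩
    have h1 : |d i| ≤ ∑ i, |d i| :=
      Finset.single_le_sum (f := fun i => |d i|) (fun _ _ => abs_nonneg _) (Finset.mem_univ i)
    have h2 := le_abs_self (d i)
    omega

/-- closure of a lattice under monomials -/
theorem mon_mem {E : ℤ → Submodule k V} (hE : IsLat u v E) {m m' : ℤ} {e : V} (he : e ∈ E m)
    (a b : ℕ) (h : m + a + b ≤ m') : (u ^ a * v ^ b) • e ∈ E m' := by
  have h1 : ∀ b : ℕ, ∀ m e, e ∈ E m → v ^ b • e ∈ E (m + b) := by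
    intro b
    induction b with
    | zero => intro m e he; simpa using he
    | succ b ih =>
      intro m e he
      have := hE.vmul _ _ (ih m e he)
      rw [smul_smul, ← pow_succ'] at this
      have e1 : m + (b : ℤ) + 1 = m + ((b + 1 : ℕ) : ℤ) := by push_cast; ring
      rwa [e1] at this
  have h2 : ∀ a : ℕ, ∀ m e, e ∈ E m → u ^ a • e ∈ E (m + a) := by
    intro a
    induction a with
    | zero => intro m e he; simpa using he
    | succ a ih =>
      intro m e he
      have := hE.umul _ _ (ih m e he)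
      rw [smul_smul, ← pow_succ'] at this
      have e1 : m + (a : ℤ) + 1 = m + ((a + 1 : ℕ) : ℤ) := by push_cast; ring
      rwa [e1] at this
  have h3 : ∀ i j : ℤ, i ≤ j → E i ≤ E j := by
    intro i j hij
    obtain ⟨n, rfl⟩ := Int.le.dest hij
    clear hij
    induction n with
    | zero => simp
    | succ n ih =>
      refine ih.trans ?_
      have := hE.mono (i + n)
      rwa [add_assoc] at this
  have h4 := h2 a _ _ (h1 b _ _ he)
  rw [smul_smul] at h4
  exact h3 _ _ (by omega) h4

/-- every lattice is generated by finitely many elements of degree `≤ g`. -/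
theorem exists_genL {E : ℤ → Submodule k V} (hE : IsLat u v E) {g : ℤ}
    (hg : GenFrom u v E g) :
    ∃ (N : ℕ) (d : Fin N → ℤ) (x : Fin N → V), (∀ l, x l ∈ E (d l)) ∧ (∀ l, d l ≤ g) ∧
      ∀ m, E m = genL k u v d x m := by
  classical
  obtain ⟨m₀, hm₀⟩ := hE.bot
  have hS : ∀ m, ∃ S : Finset V, Submodule.span k (S : Set V) = E m := fun m =>
    Module.Finite.iff_fg.1 (hE.fin m)
  choose S hS using hS
  let ι' : Type := Σ m : Finset.Icc m₀ g, (S m.1 : Finset V)
  have : Fintype ι' := inferInstanceAs (Fintype (Σ m : Finset.Icc m₀ g, (S m.1 : Finset V)))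
  let eq : Fin (Fintype.card ι') ≃ ι' := (Fintype.equivFin ι').symm
  let d : Fin (Fintype.card ι') → ℤ := fun l => ((eq l).1 : ℤ)
  let x : Fin (Fintype.card ι') → V := fun l => ((eq l).2 : V)
  have hx : ∀ l, x l ∈ E (d l) := by
    intro l
    simp only [x, d]
    rw [← hS]
    exact Submodule.subset_span (eq l).2.2
  refine ⟨Fintype.card ι', d, x, hx, fun l => (Finset.mem_Icc.1 (eq l).1.2).2, ?_⟩
  have hle : ∀ m, genL k u v d x m ≤ E m := fun m =>
    genL_le fun i a b hab => mon_mem hE (hx i) a b (by omega)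
  have hmem : ∀ m, m₀ ≤ m → m ≤ g → E m ≤ genL k u v d x m := by
    intro m h1 h2
    rw [← hS m, Submodule.span_le]
    intro y hy
    let l := eq.symm ⟨⟨m, Finset.mem_Icc.2 ⟨h1, h2⟩⟩, ⟨y, hy⟩⟩
    have hl : eq l = ⟨⟨m, Finset.mem_Icc.2 ⟨h1, h2⟩⟩, ⟨y, hy⟩⟩ := eq.apply_symm_apply _
    have e1 : d l = m := congrArg (fun t : ι' => (t.1 : ℤ)) hl
    have e2 : x l = y := congrArg (fun t : ι' => (t.2 : V)) hl
    have := gen_mem (k := k) (u := u) (v := v) (d := d) (x := x) l
    rw [e1, e2] at this
    exact this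
  intro m
  refine le_antisymm ?_ (hle m)
  rcases lt_or_ge m m₀ with h | h
  · rw [hm₀ m h.le]; exact bot_le
  rcases le_or_gt m g with h2 | h2
  · exact hmem m h h2
  -- `m > g`
  have key : ∀ m, g ≤ m → E m ≤ genL k u v d x m := by
    intro m hm
    induction m, hm using Int.leInduction with
    | base =>
      rcases lt_or_ge g m₀ with h | h
      · rw [hm₀ g h.le]; exact bot_le
      · exact hmem g h le_rfl
    | succ j hj ih =>
      intro e he
      obtain ⟨a, ha, b, hb, c, hc, rfl⟩ := hg j hj e he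
      exact Submodule.add_mem _ (Submodule.add_mem _ (genL_mono (by omega) (ih ha))
        (genL_umul _ _ (ih hb))) (genL_vmul _ _ (ih hc))
  exact key m h2.le

theorem isLat_of_eq {E E' : ℤ → Submodule k V} (hE : IsLat u v E) (h : ∀ m, E m = E' m) :
    IsLat u v E' := by
  have : E = E' := funext h
  rwa [← this]

end Gen

end Crest.Agent.R169.E3Gen
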