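import Crest.Agent.R169.E3Gen
import Crest.Agent.R169.Bridge
import Crest.Agent.R169.TBasic
import Crest.Agent.R169.Hilb

/-!
# Row 169, part E3: rank of `T`-lattices over `K0 = k(u,v)`
-/

set_option autoImplicit false
set_option linter.unusedSectionVars false

namespace Crest.Agent.R169.E3Rank

open Module Crest.Agent.R169.E3Win Crest.Agent.R169.E3Gen

variable {k Q : Type} [Field k] [Field Q] [Algebra k Q]

/-- `u` as an element of `K0` -/
def u0 (D : TData k Q) : D.K0 := ⟨D.u, IntermediateField.subset_adjoin _ _ (by simp)⟩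

/-- `v` as an element of `K0` -/
def v0 (D : TData k Q) : D.K0 := ⟨D.v, IntermediateField.subset_adjoin _ _ (by simp)⟩

theorem F_lat0 (D : TData k Q) : IsLat (u0 D) (v0 D) D.F :=
  IsLat.restrict (L := D.K0) (Q := Q) (V := Q) D.lat

/-- the `K0`-span of `F` is everything, and `Q` is finite over `K0`. -/
theorem span_F (D : TData k Q) :
    spanK D.K0 D.F = ⊤ ∧ Module.Finite D.K0 Q := by
  classical
  obtain ⟨g, hg⟩ := (F_lat0 D).gen
  obtain ⟨N, d, x, hx, -, hF⟩ := exists_genL (F_lat0 D) (g := g) hg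
  set S : Submodule D.K0 Q := spanK D.K0 D.F with hS
  have hFS : ∀ m, ∀ f ∈ D.F m, f ∈ S := fun m f hf =>
    Submodule.subset_span (Set.mem_iUnion.2 ⟨m, hf⟩)
  have hSle : S ≤ Submodule.span D.K0 (Set.range x) := by
    rw [hS, spanK, Submodule.span_le]
    intro f hf
    obtain ⟨m, hm⟩ := Set.mem_iUnion.1 hf
    have hm' : f ∈ genL k (u0 D) (v0 D) d x m := by rw [← hF m]; exact hm
    have : genL k (u0 D) (v0 D) d x m ≤
        (Submodule.span D.K0 (Set.range x)).restrictScalars k := by
      refine genL_le fun i a b _ => ?_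
      have h1 : x i ∈ Submodule.span D.K0 (Set.range x) := Submodule.subset_span ⟨i, rfl⟩
      exact (Submodule.span D.K0 (Set.range x)).smul_mem (u0 D ^ a * v0 D ^ b) h1
    exact this hm'
  have hfin0 : Module.Finite D.K0 (Submodule.span D.K0 (Set.range x)) :=
    Module.Finite.span_of_finite _ (Set.finite_range _)
  have hfin : Module.Finite D.K0 S := Submodule.finiteDimensional_of_le hSle
  -- multiplication by `g ∈ F m` preserves `S`
  have hmul : ∀ m, ∀ g ∈ D.F m, ∀ s ∈ S, g * s ∈ S := by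
    intro m g hg s hs
    rw [hS, spanK] at hs
    induction hs using Submodule.span_induction with
    | mem y hy =>
      obtain ⟨j, hj⟩ := Set.mem_iUnion.1 hy
      exact hFS _ _ (D.mul_mem m j g hg y hj)
    | zero => rw [mul_zero]; exact S.zero_mem
    | add y z _ _ h1 h2 => rw [mul_add]; exact S.add_mem h1 h2
    | smul a y _ h1 => rw [mul_smul_comm]; exact S.smul_mem a h1
  have htop : S = ⊤ := by
    rw [eq_top_iff]
    intro q _
    obtain ⟨m, f, hf, g, hg, hg0, hq⟩ := D.frac q
    let φ : S →ₗ[D.K0] S := (LinearMap.mulLeft D.K0 g).restrict (fun s hs => hmul m g hg s hs)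
    have hinj : Function.Injective φ := by
      intro s t hst
      have h1 : g * (s : Q) = g * (t : Q) := congrArg Subtype.val hst
      exact Subtype.ext (mul_left_cancel₀ hg0 h1)
    have hsurj := (LinearMap.injective_iff_surjective (f := φ)).1 hinj
    obtain ⟨s, hs⟩ := hsurj ⟨f, hFS m f hf⟩
    have h1 : g * (s : Q) = f := congrArg Subtype.val hs
    have h2 : q = s := by
      apply mul_left_cancel₀ hg0
      rw [h1, ← hq, mul_comm]
    rw [h2]
    exact s.2
  refine ⟨htop, ?_⟩
  rw [htop] at hfin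
  exact Module.Finite.equiv (Submodule.topEquiv (R := D.K0) (M := Q))

/-- `[Q : K0] = N` -/
theorem finrank_Q [Infinite k] (D : TData k Q) {N : ℕ} {bT cT : ℚ} (h : HasHP D.F N bT cT) :
    finrank D.K0 Q = N := by
  obtain ⟨b, c, hHP, -, -⟩ := IsLat.exists_hasHP (TData.isRat D) (F_lat0 D)
  have h1 := (hasHP_unique h hHP).1
  rw [h1, rk, (span_F D).1, finrank_top]

variable {R : ℕ}

theorem G_lat0 (D : TData k Q) {G : ℤ → Submodule k (Fin R → Q)}
    (hG : IsLat D.u D.v G) : IsLat (u0 D) (v0 D) G :=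
  IsLat.restrict (L := D.K0) (Q := Q) (V := Fin R → Q) hG

/-- a `T`-lattice spans over `K0` -/
theorem span_G (D : TData k Q) {G : ℤ → Submodule k (Fin R → Q)} (hG : IsTLat D G) :
    spanK D.K0 G = ⊤ := by
  rw [eq_top_iff]
  intro w _
  have hw : w ∈ spanK Q G := by rw [hG.full]; trivial
  rw [spanK] at hw
  have key : ∀ q : Q, ∀ j, ∀ g ∈ G j, q • g ∈ spanK D.K0 G := by
    intro q
    have hq : q ∈ spanK D.K0 D.F := by rw [(span_F D).1]; trivial
    rw [spanK] at hq
    induction hq using Submodule.span_induction with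
    | mem f hf =>
      obtain ⟨i, hi⟩ := Set.mem_iUnion.1 hf
      intro j g hg
      exact Submodule.subset_span (Set.mem_iUnion.2 ⟨_, hG.act i j f hi g hg⟩)
    | zero => intro j g _; rw [zero_smul]; exact Submodule.zero_mem _
    | add y z _ _ h1 h2 =>
      intro j g hg
      rw [add_smul]; exact Submodule.add_mem _ (h1 j g hg) (h2 j g hg)
    | smul a y _ h1 =>
      intro j g hg
      rw [smul_assoc]; exact Submodule.smul_mem _ a (h1 j g hg)
  have key2 : ∀ q : Q, ∀ w ∈ spanK D.K0 G, q • w ∈ spanK D.K0 G := by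
    intro q w hw
    rw [spanK] at hw
    induction hw using Submodule.span_induction with
    | mem g hg =>
      obtain ⟨j, hj⟩ := Set.mem_iUnion.1 hg
      exact key q j g hj
    | zero => rw [smul_zero]; exact Submodule.zero_mem _
    | add y z _ _ h1 h2 => rw [smul_add]; exact Submodule.add_mem _ h1 h2
    | smul a y _ h1 => rw [smul_comm]; exact Submodule.smul_mem _ a h1
  induction hw using Submodule.span_induction with
  | mem g hg =>
    obtain ⟨j, hj⟩ := Set.mem_iUnion.1 hg
    exact Submodule.subset_span (Set.mem_iUnion.2 ⟨j, hj⟩)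
  | zero => exact Submodule.zero_mem _
  | add y z _ _ h1 h2 => exact Submodule.add_mem _ (h1 trivial) (h2 trivial)
  | smul a y _ h1 => exact key2 a _ (h1 trivial)

theorem rk_G [Infinite k] (D : TData k Q) {N : ℕ} {bT cT : ℚ} (h : HasHP D.F N bT cT)
    {G : ℤ → Submodule k (Fin R → Q)} (hG : IsTLat D G) : rk D.K0 G = R * N := by
  have := (span_F D).2
  rw [rk, span_G D hG, finrank_top, Module.finrank_pi_fintype]
  simp [finrank_Q D h]

/-- HP of a `T`-lattice: exists, with leading coefficient `R N` and `2b ∈ ℤ`. -/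
theorem hasHP_G [Infinite k] (D : TData k Q) {N : ℕ} {bT cT : ℚ} (h : HasHP D.F N bT cT)
    {G : ℤ → Submodule k (Fin R → Q)} (hG : IsTLat D G) :
    ∃ b c : ℚ, HasHP G (R * N) b c ∧ (∃ z : ℤ, 2 * b = z) := by
  obtain ⟨b, c, hHP, hb, -⟩ := IsLat.exists_hasHP (TData.isRat D) (G_lat0 D hG.lat)
  rw [rk_G D h hG] at hHP
  exact ⟨b, c, hHP, hb⟩

end Crest.Agent.R169.E3Rank
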