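import Crest.Agent.R169.Lat
import Crest.Agent.R169.EIface

/-!
# Row 169, part E3: the window lemma (pure lattice theory)

A lattice generated in degrees `≤ g` whose Hilbert function agrees with `P` in the degrees
`g-1, g, m₁`, and with `dim E_g / (E_(g-1) + l E_(g-1)) ≤ n`, has Hilbert function `P` in all degrees
`≥ g - 1`.
-/

set_option autoImplicit false

namespace Crest.Agent.R169.E3Win

open Module

section Win

variable {k K V : Type} [Field k] [Field K] [Algebra k K] [AddCommGroup V] [Module k V]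
  [Module K V] [IsScalarTower k K V]

/-- multiplication by `l ∈ K` as a `k`-linear map -/
noncomputable def mulK (k : Type) {K V : Type} [Field k] [Field K] [Algebra k K] [AddCommGroup V]
    [Module k V] [Module K V] [IsScalarTower k K V] (l : K) : V →ₗ[k] V :=
  (LinearMap.lsmul K V l).restrictScalars k

@[simp] theorem mulK_apply (l : K) (x : V) : mulK k l x = l • x := rfl

theorem mulK_injective {l : K} (hl : l ≠ 0) : Function.Injective (mulK k l : V →ₗ[k] V) := by
  intro x y h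
  simp only [mulK_apply] at h
  exact smul_right_injective V hl h

/-- `E_(m-1) + l E_(m-1)` -/
noncomputable def WL (l : K) (E : ℤ → Submodule k V) (m : ℤ) : Submodule k V :=
  E (m - 1) ⊔ (E (m - 1)).map (mulK k l)

variable {u v : K} {E : ℤ → Submodule k V}

theorem WL_le (hE : IsLat u v E) (t : k) (m : ℤ) :
    WL (u + t • v) E m ≤ E m := by
  have h1 : ∀ x ∈ E (m - 1), x ∈ E m := by
    intro x hx
    have := hE.mono (m - 1) hx
    rwa [sub_add_cancel] at this
  refine sup_le h1 ?_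
  rw [Submodule.map_le_iff_le_comap]
  intro x hx
  have hu := hE.umul (m - 1) x hx
  have hv := hE.vmul (m - 1) x hx
  rw [sub_add_cancel] at hu hv
  simp only [Submodule.mem_comap, mulK_apply, add_smul, smul_assoc]
  exact (E m).add_mem hu ((E m).smul_mem t hv)

/-- Lemma A: `dim E_(m+1)/W_(m+1) ≤ dim E_m/W_m`. -/
theorem gamma_le (hE : IsLat u v E) {g : ℤ} (hg : GenFrom u v E g) (t : k) {m : ℤ} (hm : g ≤ m) :
    finrank k (E (m + 1)) + finrank k (WL (u + t • v) E m) ≤
      finrank k (WL (u + t • v) E (m + 1)) + finrank k (E m) := by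
  classical
  have := hE.fin m
  have := hE.fin (m + 1)
  set l := u + t • v with hl
  have hW1 : WL l E (m + 1) ≤ E (m + 1) := WL_le hE t (m + 1)
  have hW0 : WL l E m ≤ E m := WL_le hE t m
  -- the map `E m → E (m+1) / W (m+1)`
  let W1 : Submodule k (E (m + 1)) := (WL l E (m + 1)).comap (E (m + 1)).subtype
  let W0 : Submodule k (E m) := (WL l E m).comap (E m).subtype
  let φ0 : E m →ₗ[k] E (m + 1) :=
    (mulK k v).restrict (fun x hx => by simpa using hE.vmul m x hx)
  let φ : E m →ₗ[k] (E (m + 1) ⧸ W1) := W1.mkQ.comp φ0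
  have hker : W0 ≤ LinearMap.ker φ := by
    rintro ⟨x, hx⟩ hx0
    rw [LinearMap.mem_ker]
    simp only [φ, LinearMap.comp_apply, Submodule.mkQ_apply, Submodule.Quotient.mk_eq_zero]
    change (v • x) ∈ WL l E (m + 1)
    have hx0' : x ∈ WL l E m := hx0
    rw [WL, Submodule.mem_sup] at hx0'
    obtain ⟨a, ha, b, hb, rfl⟩ := hx0'
    obtain ⟨b, hb, rfl⟩ := hb
    rw [smul_add]
    have ha' := hE.vmul (m - 1) a ha
    have hb' := hE.vmul (m - 1) b hb
    rw [sub_add_cancel] at ha' hb'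
    rw [WL]
    have e1 : m + 1 - 1 = m := by ring
    rw [e1]
    refine Submodule.add_mem_sup ha' ?_
    refine ⟨v • b, hb', ?_⟩
    simp only [mulK_apply]
    rw [smul_comm]
  have hsurj : Function.Surjective φ := by
    intro y
    obtain ⟨⟨e, he⟩, rfl⟩ := W1.mkQ_surjective y
    obtain ⟨a, ha, b, hb, c, hc, rfl⟩ := hg m hm e he
    refine ⟨⟨c - t • b, (E m).sub_mem hc ((E m).smul_mem t hb)⟩, ?_⟩
    simp only [φ, LinearMap.comp_apply, Submodule.mkQ_apply]
    rw [Submodule.Quotient.eq]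
    change v • (c - t • b) - (a + u • b + v • c) ∈ WL l E (m + 1)
    have e1 : v • (c - t • b) - (a + u • b + v • c) = -(a + l • b) := by
      rw [hl, add_smul, smul_assoc, smul_sub, smul_comm v t b]; abel
    rw [e1]
    apply Submodule.neg_mem
    rw [WL]
    have e2 : m + 1 - 1 = m := by ring
    rw [e2]
    exact Submodule.add_mem_sup ha ⟨b, hb, rfl⟩
  have h1 : finrank k (LinearMap.range φ) + finrank k (LinearMap.ker φ) = finrank k (E m) :=
    LinearMap.finrank_range_add_finrank_ker φ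
  have h2 : finrank k (LinearMap.range φ) = finrank k (E (m + 1) ⧸ W1) := by
    rw [LinearMap.range_eq_top.2 hsurj, finrank_top]
  have h3 : finrank k (E (m + 1) ⧸ W1) + finrank k W1 = finrank k (E (m + 1)) :=
    W1.finrank_quotient_add_finrank
  have h4 : finrank k W0 ≤ finrank k (LinearMap.ker φ) := Submodule.finrank_mono hker
  have h5 : finrank k W1 = finrank k (WL l E (m + 1)) :=
    LinearEquiv.finrank_eq (Submodule.comapSubtypeEquivOfLe hW1)
  have h6 : finrank k W0 = finrank k (WL l E m) :=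
    LinearEquiv.finrank_eq (Submodule.comapSubtypeEquivOfLe hW0)
  omega

/-- Lemma B. -/
theorem finrank_WL_le (hE : IsLat u v E) (t : k) (hl : u + t • v ≠ 0) (m : ℤ) :
    finrank k (WL (u + t • v) E m) + finrank k (E (m - 2)) ≤ 2 * finrank k (E (m - 1)) := by
  have := hE.fin (m - 1)
  have := hE.fin (m - 2)
  set l := u + t • v with hl'
  have h1 := Submodule.finrank_sup_add_finrank_inf_eq (E (m - 1)) ((E (m - 1)).map (mulK k l))
  have h2 : finrank k ((E (m - 1)).map (mulK k l)) = finrank k (E (m - 1)) :=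
    (LinearEquiv.finrank_eq (Submodule.equivMapOfInjective (mulK k l) (mulK_injective hl) _)).symm
  have h3 : finrank k ((E (m - 2)).map (mulK k l)) = finrank k (E (m - 2)) :=
    (LinearEquiv.finrank_eq (Submodule.equivMapOfInjective (mulK k l) (mulK_injective hl) _)).symm
  have e1 : m - 2 + 1 = m - 1 := by ring
  have h4 : (E (m - 2)).map (mulK k l) ≤ E (m - 1) ⊓ (E (m - 1)).map (mulK k l) := by
    refine le_inf ?_ ?_
    · rw [Submodule.map_le_iff_le_comap]
      intro x hx
      have hu := hE.umul (m - 2) x hx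
      have hv := hE.vmul (m - 2) x hx
      rw [e1] at hu hv
      simp only [Submodule.mem_comap, mulK_apply, hl', add_smul, smul_assoc]
      exact (E (m - 1)).add_mem hu ((E (m - 1)).smul_mem t hv)
    · apply Submodule.map_mono
      have := hE.mono (m - 2)
      rwa [e1] at this
  have h5 := Submodule.finrank_mono h4
  rw [WL]
  omega

/-- second difference bound -/
theorem second_diff_le (hE : IsLat u v E) {g : ℤ} (hg : GenFrom u v E g) (t : k)
    (hl : u + t • v ≠ 0) {n : ℕ}
    (hn : finrank k (E g) ≤ finrank k (WL (u + t • v) E g) + n) :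
    ∀ m ≥ g, finrank k (E m) + finrank k (E (m - 2)) ≤ 2 * finrank k (E (m - 1)) + n := by
  have key : ∀ m ≥ g, finrank k (E m) ≤ finrank k (WL (u + t • v) E m) + n := by
    intro m hm
    induction m, hm using Int.leInduction with
    | base => exact hn
    | succ m hm ih =>
      have := gamma_le hE hg t hm
      omega
  intro m hm
  have h1 := key m hm
  have h2 := finrank_WL_le hE t hl m
  omega

end Win

/-- numeric lemma -/
theorem window_numeric (h : ℤ → ℕ) (n : ℕ) (b c b' c' : ℚ) (g : ℤ)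
    (h2 : ∀ m ≥ g, h m + h (m - 2) ≤ 2 * h (m - 1) + n)
    (hg : (h g : ℚ) = n / 2 * (g : ℚ) ^ 2 + b * g + c)
    (hg1 : (h (g - 1) : ℚ) = n / 2 * ((g - 1 : ℤ) : ℚ) ^ 2 + b * ((g - 1 : ℤ) : ℚ) + c)
    (hP : ∃ m₀ : ℤ, ∀ m ≥ m₀, (h m : ℚ) = n / 2 * (m : ℚ) ^ 2 + b' * m + c') :
    b' ≤ b ∧ (b ≤ b' → ∀ m ≥ g - 1, (h m : ℚ) = n / 2 * (m : ℚ) ^ 2 + b * m + c) := by
  set D : ℤ → ℚ := fun m => (h m : ℚ) - h (m - 1) -
    (n / 2 * (m : ℚ) ^ 2 + b * m + c - (n / 2 * ((m - 1 : ℤ) : ℚ) ^ 2 + b * ((m - 1 : ℤ) : ℚ) + c))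
    with hD
  have hDg : D g = 0 := by
    simp only [hD]; rw [hg, hg1]; ring
  have hstep : ∀ m ≥ g, D (m + 1) ≤ D m := by
    intro m hm
    have := h2 (m + 1) (by omega)
    have e1 : m + 1 - 2 = m - 1 := by ring
    have e2 : m + 1 - 1 = m := by ring
    rw [e1, e2] at this
    have hq : (h (m + 1) : ℚ) + h (m - 1) ≤ 2 * h m + n := by exact_mod_cast this
    simp only [hD]
    rw [e2]
    push_cast
    nlinarith [hq]
  have hanti : ∀ m ≥ g, ∀ m' ≥ m, D m' ≤ D m := by
    intro m hm m' hm'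
    induction m', hm' using Int.leInduction with
    | base => exact le_rfl
    | succ j hj ih => exact (hstep j (by omega)).trans ih
  obtain ⟨m₀, hm₀⟩ := hP
  have hev : ∀ m ≥ m₀ + 1, D m = b' - b := by
    intro m hm
    simp only [hD]
    rw [hm₀ m (by omega), hm₀ (m - 1) (by omega)]
    push_cast
    ring
  have hle : b' ≤ b := by
    have h1 := hev (max (m₀ + 1) g) (le_max_left _ _)
    have h3 := hanti g le_rfl (max (m₀ + 1) g) (le_max_right _ _)
    rw [h1, hDg] at h3
    linarith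
  refine ⟨hle, fun hb => ?_⟩
  have hbb : b' = b := le_antisymm hle hb
  have hD0 : ∀ m ≥ g, D m = 0 := by
    intro m hm
    have h1 := hev (max (m₀ + 1) m) (le_max_left _ _)
    have h3 := hanti m hm (max (m₀ + 1) m) (le_max_right _ _)
    have h4 := hanti g le_rfl m hm
    rw [h1, hbb, sub_self] at h3
    rw [hDg] at h4
    exact le_antisymm h4 h3
  intro m hm
  induction m, hm using Int.leInduction with
  | base => exact hg1
  | succ j hj ih =>
    have := hD0 (j + 1) (by omega)
    simp only [hD] at this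
    have e2 : j + 1 - 1 = j := by ring
    rw [e2, ih] at this
    linarith

/-- The uniform upper bound (P6), as a statement. -/
def P6Stmt (s : ℕ) (b : ℚ) (g : ℤ) (C : ℚ) : Prop :=
  ∀ (k K V : Type) [Field k] [Field K] [Algebra k K] [AddCommGroup V] [Module k V]
    [Module K V] [IsScalarTower k K V] [IsAlgClosed k] (u v : K) (E : ℤ → Submodule k V),
    IsRat k u v → IsLat u v E → GenFrom u v E g → ∀ b' c' : ℚ, HasHP E s b' c' → b' ≤ b →
      ∀ m ≥ g, (finrank k (E m) : ℚ) ≤ s / 2 * (m : ℚ) ^ 2 + b' * m + C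

/-- The window theorem. -/
theorem window_hp (n : ℕ) (b c : ℚ) (g : ℤ) (C : ℚ) (hC : P6Stmt n b g C) :
    ∃ m₁ : ℤ, g ≤ m₁ ∧ ∀ (k K V : Type) [Field k] [Field K] [Algebra k K] [AddCommGroup V]
      [Module k V] [Module K V] [IsScalarTower k K V] [IsAlgClosed k] (u v : K)
      (E : ℤ → Submodule k V), IsRat k u v → IsLat u v E → GenFrom u v E g →
      ∀ (t : k), u + t • v ≠ 0 →
      (∃ b' c' : ℚ, HasHP E n b' c' ∧ (∃ z : ℤ, 2 * b' = z)) → (∃ z : ℤ, 2 * b = z) →
      (finrank k (E g) : ℚ) = n / 2 * (g : ℚ) ^ 2 + b * g + c →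
      (finrank k (E (g - 1)) : ℚ) = n / 2 * ((g - 1 : ℤ) : ℚ) ^ 2 + b * ((g - 1 : ℤ) : ℚ) + c →
      (finrank k (E m₁) : ℚ) = n / 2 * (m₁ : ℚ) ^ 2 + b * m₁ + c →
      finrank k (E g) ≤ finrank k (WL (u + t • v) E g) + n →
      ∀ m ≥ g - 1, (finrank k (E m) : ℚ) = n / 2 * (m : ℚ) ^ 2 + b * m + c := by
  obtain ⟨N, hN⟩ := exists_nat_gt (2 * (C - c))
  refine ⟨max g N, le_max_left _ _, ?_⟩
  intro k K V _ _ _ _ _ _ _ _ u v E hK hE hgen t hl hHP hbz hg hg1 hm1 hW
  obtain ⟨b', c', hHP', z', hz'⟩ := hHP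
  obtain ⟨z, hz⟩ := hbz
  obtain ⟨hle, hmain⟩ := window_numeric (fun m => finrank k (E m)) n b c b' c' g
    (second_diff_le hE hgen t hl hW) hg hg1 hHP'
  apply hmain
  by_contra hlt
  push Not at hlt
  have h1 : (finrank k (E (max g N)) : ℚ) ≤ n / 2 * ((max g N : ℤ) : ℚ) ^ 2
      + b' * ((max g N : ℤ) : ℚ) + C :=
    hC k K V u v E hK hE hgen b' c' hHP' hle _ (le_max_left _ _)
  rw [hm1] at h1
  have hzz : z' < z := by
    have : (z' : ℚ) < z := by rw [← hz, ← hz']; linarith
    exact_mod_cast this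
  have h3 : b' ≤ b - 1 / 2 := by
    have : (z' : ℚ) + 1 ≤ z := by exact_mod_cast hzz
    rw [← hz, ← hz'] at this
    linarith
  have h4 : (N : ℚ) ≤ ((max g N : ℤ) : ℚ) := by
    have : (N : ℤ) ≤ max g N := le_max_right _ _
    exact_mod_cast this
  have h5 : (0 : ℚ) ≤ N := Nat.cast_nonneg N
  nlinarith

end Crest.Agent.R169.E3Win
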