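import Crest.Agent.R169.E4Core
import Crest.Agent.R169.EIface

/-!
# Row 169, Part E4: transfer of near-semistability, end statement (helper822)
-/

set_option autoImplicit false

namespace Crest.Agent.R169.E4

open Module

section

variable {Q : PP → Type} [∀ p, Field (Q p)] [∀ p, Algebra (Kp p) (Q p)]
  {Qs : Type} [Field Qs] [Algebra KStar Qs]
  {D : ∀ p, TData (Kp p) (Q p)} {Ds : TData KStar Qs}

/-- ultralimit of `Q`-subspaces -/
def ulimQ (X : UFam D Ds) {R : ℕ} (Up : ∀ p, Submodule (Q p) (Fin R → Q p)) :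
    Submodule Qs (Fin R → Qs) where
  carrier := {y | ∃ x : ∀ p, Fin R → Q p, AE (fun p => x p ∈ Up p) ∧ X.Lim x y}
  add_mem' := by
    rintro y y' ⟨x, hx, hl⟩ ⟨x', hx', hl'⟩
    exact ⟨_, (hx.and hx').mono (fun p hp => (Up p).add_mem hp.1 hp.2), hl.add hl'⟩
  zero_mem' := ⟨_, AE.of_forall (fun p => (Up p).zero_mem), UFam.Lim.zero⟩
  smul_mem' := by
    rintro q y ⟨x, hx, hl⟩
    obtain ⟨f, hf⟩ := ucls_surjective (Q := Q) (X.ι q)
    exact ⟨_, hx.mono (fun p hp => (Up p).smul_mem (f p) hp), hl.qsmul hf.symm⟩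

theorem ulimQ_restrict (X : UFam D Ds) {R : ℕ} (Up : ∀ p, Submodule (Q p) (Fin R → Q p)) :
    (ulimQ X Up).restrictScalars KStar = X.ulim (fun p => (Up p).restrictScalars (Kp p)) := by
  ext y
  exact Iff.rfl

end

theorem main : E4Stmt := by
  intro Q _ _ Qs _ _ D Ds X N bT cT c1 _ R G n b c Gp hG hHP hn hT hNSS
  have : ∀ p, Infinite (Kp p) := fun p => IsAlgClosed.instInfinite
  have : Infinite KStar := IsAlgClosed.instInfinite
  obtain ⟨g, hg⟩ := hT.gen
  obtain ⟨a, ha⟩ := hT.box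
  obtain ⟨m₀, hm₀⟩ := hT.hp
  refine nss_transfer_core (P := PP) UU D Ds G Gp hn hG.lat hHP hNSS
    (AE.mono hT.lat (fun p hp => hp.lat)) (AE.mono hm₀ (fun p hp => ⟨m₀, hp⟩)) g hg ?_ ?_
  · intro m
    have h1 := UFam.ae_finrank_eq (X := X) (m := m + a) (E := fun p => Gp p m) (ha m)
    rw [hT.lim m] at h1
    exact h1
  · intro Up
    refine ⟨ulimQ X Up, fun m => ?_⟩
    have hb : AE (fun p => interU (Gp p) (Up p) m ≤ (D p).box R (m + a)) :=
      (ha m).mono (fun p hp => inf_le_left.trans hp)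
    have h1 := UFam.ae_finrank_eq (X := X) (m := m + a) (E := fun p => interU (Gp p) (Up p) m) hb
    have h2 : X.ulim (fun p => interU (Gp p) (Up p) m) = interU G (ulimQ X Up) m := by
      have h3 := UFam.ulim_inf (X := X) (fun p => Gp p m)
        (fun p => (Up p).restrictScalars (Kp p))
      rw [hT.lim m, ← ulimQ_restrict] at h3
      exact h3
    rw [h2] at h1
    exact h1

end Crest.Agent.R169.E4
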