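import Crest.Agent.R169.E4Num
import Crest.Agent.R169.Hilb
import Crest.Agent.R169.P6
import Crest.Agent.R169.Bridge

/-!
# Row 169, Part E4: transfer of near-semistability (helper822)
-/

set_option autoImplicit false

namespace Crest.Agent.R169.E4

open Module

section

variable {P : Type} (𝒰 : Ultrafilter P)

theorem exists_of_le (𝒰 : Ultrafilter P) {f : P → ℕ} {n : ℕ}
    (h : ∀ᶠ p in (𝒰 : Filter P), f p ≤ n) : ∃ a ≤ n, ∀ᶠ p in (𝒰 : Filter P), f p = a := by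
  induction n with
  | zero => exact ⟨0, le_rfl, h.mono fun p hp => Nat.le_zero.1 hp⟩
  | succ n ih =>
    have h1 : ∀ᶠ p in (𝒰 : Filter P), f p ≤ n ∨ f p = n + 1 := h.mono fun p hp => by omega
    rcases Ultrafilter.eventually_or.1 h1 with h2 | h2
    · obtain ⟨a, ha, h3⟩ := ih h2
      exact ⟨a, by omega, h3⟩
    · exact ⟨n + 1, le_rfl, h2⟩

theorem nss_transfer_core {k : P → Type} {Q : P → Type} [∀ p, Field (k p)]
    [∀ p, Infinite (k p)] [∀ p, Field (Q p)] [∀ p, Algebra (k p) (Q p)]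
    (D : ∀ p, TData (k p) (Q p)) {K QK : Type} [Field K] [Infinite K] [Field QK] [Algebra K QK]
    (Di : TData K QK) {R : ℕ} (G : ℤ → Submodule K (Fin R → QK))
    (Gp : ∀ p, ℤ → Submodule (k p) (Fin R → Q p)) {n : ℕ} {b c : ℚ} (hn : 0 < n)
    (hG : IsLat Di.u Di.v G) (hHP : HasHP G n b c) (hNSS : NSS (Q := QK) G n b)
    (hGp : ∀ᶠ p in (𝒰 : Filter P), IsLat (D p).u (D p).v (Gp p))
    (hHPp : ∀ᶠ p in (𝒰 : Filter P), HasHP (Gp p) n b c)
    (g : ℤ) (hgen : ∀ᶠ p in (𝒰 : Filter P), ∀ m ≥ g, ∀ e ∈ Gp p (m + 1),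
      ∃ x ∈ Gp p m, ∃ y ∈ Gp p m, ∃ z ∈ Gp p m, e = x + (D p).u • y + (D p).v • z)
    (hfin : ∀ m, ∀ᶠ p in (𝒰 : Filter P), finrank (k p) (Gp p m) = finrank K (G m))
    (hinter : ∀ Up : ∀ p, Submodule (Q p) (Fin R → Q p), ∃ Uinf : Submodule QK (Fin R → QK),
      ∀ m, ∀ᶠ p in (𝒰 : Filter P),
        finrank (k p) (interU (Gp p) (Up p) m) = finrank K (interU G Uinf m)) :
    ∀ᶠ p in (𝒰 : Filter P), NSS (Q := Q p) (Gp p) n b := by
  classical
  by_contra hcon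
  have hcon1 : ∀ᶠ p in (𝒰 : Filter P), ¬ NSS (Q := Q p) (Gp p) n b :=
    Ultrafilter.eventually_not.2 hcon
  have hcon2 : ∀ᶠ p in (𝒰 : Filter P), ∃ U : Submodule (Q p) (Fin R → Q p),
      ∃ (n₁ : ℕ) (b₁ c₁ : ℚ), HasHP (interU (Gp p) U) n₁ b₁ c₁ ∧
        (n₁ : ℚ) * (n - n₁) / 2 < b₁ * n - n₁ * b := by
    refine hcon1.mono fun p hp => ?_
    unfold NSS at hp
    push Not at hp
    obtain ⟨U, n₁, b₁, c₁, h1, h2⟩ := hp
    exact ⟨U, n₁, b₁, c₁, h1, h2⟩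
  -- choose
  let Up : ∀ p, Submodule (Q p) (Fin R → Q p) := fun p =>
    if h : ∃ U : Submodule (Q p) (Fin R → Q p),
      ∃ (n₁ : ℕ) (b₁ c₁ : ℚ), HasHP (interU (Gp p) U) n₁ b₁ c₁ ∧
        (n₁ : ℚ) * (n - n₁) / 2 < b₁ * n - n₁ * b then h.choose else ⊥
  have hUp : ∀ᶠ p in (𝒰 : Filter P), ∃ (n₁ : ℕ) (b₁ c₁ : ℚ),
      HasHP (interU (Gp p) (Up p)) n₁ b₁ c₁ ∧
        (n₁ : ℚ) * (n - n₁) / 2 < b₁ * n - n₁ * b := by
    refine hcon2.mono fun p hp => ?_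
    have : Up p = hp.choose := dif_pos hp
    rw [this]
    exact hp.choose_spec
  clear_value Up
  let n₁ : P → ℕ := fun p => if h : ∃ (n₁ : ℕ) (b₁ c₁ : ℚ),
      HasHP (interU (Gp p) (Up p)) n₁ b₁ c₁ ∧
        (n₁ : ℚ) * (n - n₁) / 2 < b₁ * n - n₁ * b then h.choose else 0
  have hn₁ : ∀ᶠ p in (𝒰 : Filter P), ∃ (b₁ c₁ : ℚ),
      HasHP (interU (Gp p) (Up p)) (n₁ p) b₁ c₁ ∧
        (n₁ p : ℚ) * (n - n₁ p) / 2 < b₁ * n - n₁ p * b := by
    refine hUp.mono fun p hp => ?_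
    have : n₁ p = hp.choose := dif_pos hp
    rw [this]
    exact hp.choose_spec
  clear_value n₁
  -- n₁ ≤ n
  have hle : ∀ᶠ p in (𝒰 : Filter P), n₁ p ≤ n := by
    filter_upwards [hn₁, hGp, hHPp] with p h1 h2 h3
    obtain ⟨b₁, c₁, ⟨m₁, hm₁⟩, _⟩ := h1
    obtain ⟨m₂, hm₂⟩ := h3
    have h4 := quad_le (a₁ := (n₁ p : ℚ) / 2) (a₂ := (n : ℚ) / 2) (b₁ := b₁) (b₂ := b)
      (c₁ := c₁) (c₂ := c) (m₀ := max m₁ m₂) (fun m hm => by
        rw [← hm₁ m ((le_max_left _ _).trans hm), ← hm₂ m ((le_max_right _ _).trans hm)]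
        have : Module.Finite (k p) (Gp p m) := h2.fin m
        exact_mod_cast Submodule.finrank_mono (inf_le_left : Gp p m ⊓ _ ≤ Gp p m))
    have h5 : (n₁ p : ℚ) ≤ n := by linarith [h4.1]
    exact_mod_cast h5
  obtain ⟨n₀, hn₀, hn₀p⟩ := exists_of_le 𝒰 hle
  have hn₀b : ∀ᶠ p in (𝒰 : Filter P), ∃ (b₁ c₁ : ℚ),
      HasHP (interU (Gp p) (Up p)) n₀ b₁ c₁ ∧
        (n₀ : ℚ) * (n - n₀) / 2 < b₁ * n - n₀ * b := by
    filter_upwards [hn₁, hn₀p] with p h1 h2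
    rwa [h2] at h1
  obtain ⟨Uinf, hUinf⟩ := hinter Up
  -- the critical slope bound
  have hn' : (0 : ℚ) < n := by exact_mod_cast hn
  set β : ℚ := (n₀ * b + (n₀ : ℚ) * (n - n₀) / 2 + 1 / 4) / n with hβ
  have hβn : β * n = n₀ * b + (n₀ : ℚ) * (n - n₀) / 2 + 1 / 4 := by
    rw [hβ]; field_simp
  obtain ⟨tb, htb⟩ := (two_mul_b hHP)
  have hbound : ∀ᶠ p in (𝒰 : Filter P), ∃ (b₁ c₁ : ℚ),
      HasHP (interU (Gp p) (Up p)) n₀ b₁ c₁ ∧ β ≤ b₁ := by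
    refine hn₀b.mono fun p hp => ?_
    obtain ⟨b₁, c₁, h1, h2⟩ := hp
    refine ⟨b₁, c₁, h1, ?_⟩
    obtain ⟨t, ht⟩ := (two_mul_b h1)
    have h3 : (0 : ℚ) < ((t * n - n₀ * tb - n₀ * (n - n₀) : ℤ) : ℚ) := by
      push_cast
      rw [← ht, ← htb]
      linarith
    have h4 : (1 : ℚ) ≤ ((t * n - n₀ * tb - n₀ * (n - n₀) : ℤ) : ℚ) := by
      have : (0 : ℤ) < (t * n - n₀ * tb - n₀ * (n - n₀) : ℤ) := by exact_mod_cast h3
      exact_mod_cast this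
    push_cast at h4
    rw [← ht, ← htb] at h4
    rw [hβ, div_le_iff₀ hn']
    linarith
  obtain ⟨C, hC⟩ := P6.p6_bound (n - n₀) (b - β) g
  have hcastn : ((n - n₀ : ℕ) : ℚ) = (n : ℚ) - n₀ := by push_cast [hn₀]; ring
  -- the two sided estimate for the dimensions in the limit
  have hest : ∀ m : ℤ, max g 0 ≤ m →
      (finrank K (G m) : ℚ) - (((n : ℚ) - n₀) / 2 * (m : ℚ) ^ 2 + (b - β) * m + C)
        ≤ finrank K (interU G Uinf m) ∧
      (finrank K (interU G Uinf m) : ℚ) + ((n : ℚ) - n₀) * dimA (m - g) ≤ finrank K (G m) := by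
    intro m hm
    have hmg : g ≤ m := (le_max_left _ _).trans hm
    have hm0 : 0 ≤ m := (le_max_right _ _).trans hm
    have hall := (((hbound.and hGp).and (hHPp.and hgen)).and ((hfin m).and (hUinf m)))
    obtain ⟨p, ⟨⟨⟨b₁, c₁, h1, h2⟩, h3⟩, ⟨h4, h5⟩⟩, ⟨h6, h7⟩⟩ := hall.exists
    -- quotient lattice over k(u,v)
    have hq : IsLat (D p).u (D p).v (quotU (Gp p) (Up p)) := h3.quotU (Up p)
    have hqK : IsLat (⟨(D p).u, IntermediateField.subset_adjoin _ _ (by simp)⟩ : (D p).K0)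
      (⟨(D p).v, IntermediateField.subset_adjoin _ _ (by simp)⟩ : (D p).K0)
      (quotU (Gp p) (Up p)) := IsLat.restrict (L := (D p).K0) (Q := Q p) hq
    have hqHP := h4.quotU h3 (Up p) h1 hn₀
    have hgenq : ∀ m ≥ g, ∀ e ∈ quotU (Gp p) (Up p) (m + 1),
        ∃ x ∈ quotU (Gp p) (Up p) m, ∃ y ∈ quotU (Gp p) (Up p) m,
        ∃ z ∈ quotU (Gp p) (Up p) m, e = x + (D p).u • y + (D p).v • z := by
      rintro m hm _ ⟨e, he, rfl⟩
      obtain ⟨x, hx, y, hy, z, hz, rfl⟩ := h5 m hm e he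
      exact ⟨_, ⟨x, hx, rfl⟩, _, ⟨y, hy, rfl⟩, _, ⟨z, hz, rfl⟩, by simp⟩
    have hadd := finrank_add h3 (Up p) m
    rw [h6, h7] at hadd
    have hadd' : (finrank K (G m) : ℚ) = finrank K (interU G Uinf m)
        + finrank (k p) (quotU (Gp p) (Up p) m) := by exact_mod_cast hadd
    constructor
    · have hP6 := hC (k p) (D p).K0 _ _ _ (quotU (Gp p) (Up p)) (D p).isRat hqK hgenq
        _ _ hqHP (by linarith) m hmg
      rw [hcastn] at hP6
      have hm0' : (0 : ℚ) ≤ m := by exact_mod_cast hm0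
      nlinarith
    · obtain ⟨b₂, c₂, h8, -, -⟩ := hqK.exists_hasHP (D p).isRat
      have hrk := (hasHP_unique hqHP h8).1
      have hlow := le_finrank_of_gen (K := (D p).K0) (D p).isRat.indep hqK (g := g) hgenq m
      rw [← hrk] at hlow
      have hlow' : (((n - n₀ : ℕ) : ℚ)) * dimA (m - g)
          ≤ finrank (k p) (quotU (Gp p) (Up p) m) := by exact_mod_cast hlow
      rw [hcastn] at hlow'
      linarith
  -- Hilbert polynomial of the limit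
  have hGU : IsLat Di.u Di.v (interU G Uinf) := hG.interU Uinf
  have hGUK : IsLat (⟨Di.u, IntermediateField.subset_adjoin _ _ (by simp)⟩ : Di.K0)
      (⟨Di.v, IntermediateField.subset_adjoin _ _ (by simp)⟩ : Di.K0)
      (interU G Uinf) := IsLat.restrict (L := Di.K0) (Q := QK) hGU
  obtain ⟨b', c', hHP', -, -⟩ := hGUK.exists_hasHP Di.isRat
  set n' := rk Di.K0 (interU G Uinf) with hn'def
  have hHP'' := hHP'
  obtain ⟨m₁, hm₁⟩ := hHP'
  have hHPG := hHP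
  obtain ⟨m₂, hm₂⟩ := hHPG
  have e1 := quad_le (a₁ := (n₀ : ℚ) / 2) (a₂ := (n' : ℚ) / 2) (b₁ := β) (b₂ := b')
    (c₁ := c - C) (c₂ := c') (m₀ := max (max g 0) (max m₁ m₂)) (fun m hm => by
      have h1 := (hest m ((le_max_left _ _).trans hm)).1
      rw [hm₁ m ((le_max_left _ _).trans ((le_max_right _ _).trans hm)),
        hm₂ m ((le_max_right _ _).trans ((le_max_right _ _).trans hm))] at h1
      linarith)
  have e2 := quad_le (a₁ := (n' : ℚ) / 2) (a₂ := (n₀ : ℚ) / 2) (b₁ := b')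
    (b₂ := b - ((n : ℚ) - n₀) * (3 / 2 - g))
    (c₁ := c') (c₂ := c - ((n : ℚ) - n₀) * ((1 - g) * (2 - g) / 2))
    (m₀ := max (max g 0) (max m₁ m₂)) (fun m hm => by
      have h0 : max g 0 ≤ m := (le_max_left _ _).trans hm
      have h1 := (hest m h0).2
      rw [hm₁ m ((le_max_left _ _).trans ((le_max_right _ _).trans hm)),
        hm₂ m ((le_max_right _ _).trans ((le_max_right _ _).trans hm)),
        dimA_cast (by have := (le_max_left g 0).trans h0; omega)] at h1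
      push_cast at h1
      linarith)
  have hnn : n' = n₀ := by
    have h1 : (n' : ℚ) = n₀ := by linarith [e1.1, e2.1]
    exact_mod_cast h1
  have hb' : β ≤ b' := e1.2 (by rw [hnn])
  have hfinal := hNSS Uinf n' b' c' hHP''
  rw [hnn] at hfinal
  nlinarith

end

end Crest.Agent.R169.E4
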