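import Crest.Agent.R169.EIface
import Crest.Agent.R169.D7Hilb

/-!
# Row 169, Part E5: the explicit data `D7 (Kp p)` form a uniform family with ultralimit `D7 KStar`

* `E5.X7 : UFam (fun p => D7 (Kp p)) (D7 KStar)`
* `E5.unifT7 : UnifT (fun p => D7 (Kp p)) (D7 KStar) 1715 (-(8575 / 2)) 4802 700`
-/

set_option autoImplicit false

noncomputable section

namespace Crest.Agent.R169

open Crest.R169

instance neZeroKp (p : PP) : NeZero ((7 : ℕ) : Kp p) := by
  refine ⟨fun h => ?_⟩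
  have h1 := (CharP.cast_eq_zero_iff (Kp p) p.val 7).1 h
  have h2 := Nat.le_of_dvd (by norm_num) h1
  have h3 := p.seven_lt
  omega

instance neZeroKStar : NeZero ((7 : ℕ) : KStar) := ⟨by exact_mod_cast (by norm_num : (7 : ℕ) ≠ 0)⟩

namespace E5

/-- the fields `Q_p` -/
abbrev QQ (p : PP) : Type := QField 7 (Kp p)

/-- the field `Q_*` -/
abbrev QS : Type := QField 7 KStar

/-- the structure map `K_* → ∏ Q_p / U` -/
def kap : KStar →+* UProd QQ :=
  Ideal.Quotient.lift nullIdeal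
    (ucls.comp (RingHom.pi fun p => (algebraMap (Kp p) (QQ p)).comp (Pi.evalRingHom _ p)))
    (by
      intro a ha
      have h1 : AE (fun p => a p = 0) := ha
      rw [RingHom.comp_apply, ucls_eq_zero]
      refine h1.mono ?_
      intro p hp
      change algebraMap (Kp p) (QQ p) (a p) = 0
      rw [hp, map_zero])

theorem kap_cls (c : ∀ p, Kp p) : kap (cls c) = ucls (fun p => algebraMap (Kp p) (QQ p) (c p)) :=
  rfl

local instance algU : Algebra KStar (UProd QQ) := kap.toAlgebra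

theorem algU_cls (c : ∀ p, Kp p) :
    algebraMap KStar (UProd QQ) (cls c) = ucls (fun p => algebraMap (Kp p) (QQ p) (c p)) := rfl

theorem cls_smul (c : ∀ p, Kp p) (f : ∀ p, QQ p) :
    cls c • ucls f = ucls (fun p => c p • f p) := by
  rw [Algebra.smul_def, algU_cls, ← map_mul]
  congr 1
  funext p
  rw [Pi.mul_apply, Algebra.smul_def]

/-- images of the generators -/
def zU (j : Fin 5) : UProd QQ := ucls (fun p => algebraMap (ORing 7 (Kp p)) (QQ p) (z 7 (Kp p) j))

theorem zU_rel (j : Fin 5) : zU j ^ 7 * zU (j + 1) ^ 7 = 1 + zU (j + 3) ^ 7 := by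
  unfold zU
  rw [← map_pow, ← map_pow, ← map_pow, ← map_mul, ← map_one (ucls (Q := QQ)), ← map_add]
  congr 1
  funext p
  simp only [Pi.mul_apply, Pi.pow_apply, Pi.add_apply, Pi.one_apply]
  rw [← map_pow, ← map_pow, ← map_pow, ← map_mul, z_rel, map_add, map_one]

/-- the map on the ring `O` -/
def io : ORing 7 KStar →ₐ[KStar] UProd QQ := ORing.lift zU zU_rel

theorem io_z (j : Fin 5) : io (z 7 KStar j) =
    ucls (fun p => algebraMap (ORing 7 (Kp p)) (QQ p) (z 7 (Kp p) j)) :=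
  ORing.lift_z _ _ j

theorem io_zm (β : Fin 5 → ℕ) : io (zm 7 KStar β) =
    ucls (fun p => algebraMap (ORing 7 (Kp p)) (QQ p) (zm 7 (Kp p) β)) := by
  unfold zm
  rw [map_prod]
  simp only [map_pow, io_z]
  simp only [← map_pow ucls]
  rw [← map_prod ucls]
  congr 1
  funext p
  rw [Finset.prod_apply, map_prod]
  simp only [Pi.pow_apply, map_pow]

theorem io_sum {ι : Type} (S : Finset ι) (g : ι → Fin 5 → ℕ) (d : ι → ∀ p, Kp p) :
    io (∑ β ∈ S, cls (d β) • zm 7 KStar (g β)) =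
      ucls (fun p => algebraMap (ORing 7 (Kp p)) (QQ p)
        (∑ β ∈ S, d β p • zm 7 (Kp p) (g β))) := by
  rw [map_sum]
  simp only [map_smul, io_zm, cls_smul]
  rw [← map_sum]
  congr 1
  funext p
  rw [Finset.sum_apply, map_sum]
  refine Finset.sum_congr rfl fun β _ => ?_
  rw [Algebra.smul_def, Algebra.smul_def, map_mul]
  rfl

theorem io_injective : Function.Injective io := by
  rw [injective_iff_map_eq_zero]
  intro x hx
  have h1 : x = ∑ β ∈ ((zBasis 7 KStar).repr x).support,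
      cls (rep ((zBasis 7 KStar).repr x β)) • zm 7 KStar β.1 := by
    conv_lhs => rw [← (zBasis 7 KStar).linearCombination_repr x]
    rw [Finsupp.linearCombination_apply, Finsupp.sum]
    simp
  rw [h1, io_sum, ucls_eq_zero] at hx
  have h2 : ∀ β ∈ ((zBasis 7 KStar).repr x).support, (zBasis 7 KStar).repr x β = 0 := by
    intro β hβ
    rw [← cls_rep ((zBasis 7 KStar).repr x β), cls_eq_zero]
    refine hx.mono ?_
    intro p hp
    have h3 := D7Aux.toQ_injective (n := 7) (k := Kp p) (hp.trans (map_zero _).symm)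
    have h4 := linearIndependent_iff'.1 (linearIndependent_zm 7 (Kp p))
    exact h4 _ _ h3 β hβ
  rw [h1]
  exact Finset.sum_eq_zero fun β hβ => by rw [cls_rep, h2 β hβ, zero_smul]

/-- the embedding `Q_* → ∏ Q_p / U` -/
def iQ : QS →+* UProd QQ := IsFractionRing.lift (A := ORing 7 KStar) (g := io.toRingHom) io_injective

theorem iQ_algebraMap (x : ORing 7 KStar) : iQ (algebraMap (ORing 7 KStar) QS x) = io x :=
  IsFractionRing.lift_algebraMap io_injective x

/-- finite set of exponents -/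
def expo (m : ℤ) : Finset (Fin 5 → ℕ) := (finite_weight_le m).toFinset

theorem mem_Fil_iff_sum (k : Type) [Field k] (m : ℤ) (x : ORing 7 k) :
    x ∈ Fil 7 k m ↔ ∃ d : (Fin 5 → ℕ) → k, x = ∑ β ∈ expo m, d β • zm 7 k β := by
  have h1 : {γ : Fin 5 → ℕ | ∀ i, w i γ ≤ m} = (expo m : Set (Fin 5 → ℕ)) := by
    simp [expo]
  constructor
  · intro hx
    rw [Fil, h1] at hx
    rw [Submodule.mem_span_image_finset_iff_exists_fun] at hx
    obtain ⟨d, hd⟩ := hx
    classical
    refine ⟨fun β => if h : β ∈ expo m then d ⟨β, h⟩ else 0, ?_⟩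
    rw [← hd, ← Finset.sum_attach (expo m), Finset.univ_eq_attach]
    refine Finset.sum_congr rfl fun β _ => ?_
    dsimp only
    rw [dif_pos β.2]
  · rintro ⟨d, rfl⟩
    refine Submodule.sum_mem _ fun β hβ => Submodule.smul_mem _ _ (zm_mem_Fil ?_)
    have : β ∈ (expo m : Set (Fin 5 → ℕ)) := hβ
    rw [← h1] at this
    exact this

/-- **the uniform family** -/
def X7 : UFam (fun p => D7 (Kp p)) (D7 KStar) where
  ι := iQ
  ι_alg := by
    intro c
    rw [IsScalarTower.algebraMap_apply KStar (ORing 7 KStar) QS, iQ_algebraMap, AlgHom.commutes]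
    exact algU_cls c
  ι_u := by
    rw [D7_u, iQ_algebraMap]
    unfold uO
    rw [map_add, map_add, io_z, io_z, io_z, ← map_add, ← map_add]
    congr 1
    funext p
    rw [D7_u, uO, map_add, map_add]
    rfl
  ι_v := by
    rw [D7_v, iQ_algebraMap]
    unfold vO
    rw [map_add, map_add, io_z, io_z, io_z, ← map_add, ← map_add]
    congr 1
    funext p
    rw [D7_v, vO, map_add, map_add]
    rfl
  lim_ex := by
    intro m x hx
    have h1 : AE (fun p => ∃ d : (Fin 5 → ℕ) → Kp p,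
        x p = algebraMap (ORing 7 (Kp p)) (QQ p) (∑ β ∈ expo m, d β • zm 7 (Kp p) β)) := by
      refine hx.mono ?_
      rintro p ⟨y, hy, hyx⟩
      obtain ⟨d, hd⟩ := (mem_Fil_iff_sum (Kp p) m y).1 hy
      exact ⟨d, by rw [← hd]; exact hyx.symm⟩
    obtain ⟨d, hd⟩ := AE.choose (α := fun p => (Fin 5 → ℕ) → Kp p) h1
    refine ⟨algebraMap (ORing 7 KStar) QS (∑ β ∈ expo m, cls (fun p => d p β) • zm 7 KStar β),
      ⟨_, (mem_Fil_iff_sum KStar m _).2 ⟨_, rfl⟩, rfl⟩, ?_⟩
    rw [iQ_algebraMap, io_sum, ucls_eq_iff]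
    exact hd.mono (fun p hp => hp.symm)
  rep_ex := by
    rintro m y ⟨y', hy', rfl⟩
    obtain ⟨d, hd⟩ := (mem_Fil_iff_sum KStar m y').1 hy'
    refine ⟨fun p => algebraMap (ORing 7 (Kp p)) (QQ p)
      (∑ β ∈ expo m, rep (d β) p • zm 7 (Kp p) β), fun p => ⟨_,
        (mem_Fil_iff_sum (Kp p) m _).2 ⟨_, rfl⟩, rfl⟩, ?_⟩
    have h1 : y' = ∑ β ∈ expo m, cls (rep (d β)) • zm 7 KStar β := by simp [hd]
    rw [h1, ← io_sum]
    exact iQ_algebraMap _

theorem unifT7 : UnifT (fun p => D7 (Kp p)) (D7 KStar) 1715 (-(8575 / 2)) 4802 700 where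
  N_pos := by norm_num
  hp := fun p => (D7_hilb (Kp p)).hp
  hps := (D7_hilb KStar).hp
  gen := fun p => fun m hm e he => D7_gen (Kp p) m (by exact_mod_cast hm) e he
  gens := fun m hm e he => D7_gen KStar m (by exact_mod_cast hm) e he

/-- Part E modulo E3 and E4 -/
theorem partE_of' (h3 : E3Stmt) (h4 : E4Stmt) (hs : EScaleStmt) :
    ∀ {R : ℕ} (G : ℤ → Submodule KStar (Fin R → QField 7 KStar))
    (_ : IsTLat (D7 KStar) G) {n : ℕ} {b c : ℚ} (_ : 0 < n) (_ : HasHP G n b c)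
    (_ : NSS (Q := QField 7 KStar) G n b) (p0 : ℕ),
    ∃ p : PP, p0 ≤ p.val ∧ ∃ G' : ℤ → Submodule (Kp p) (Fin R → QField 7 (Kp p)),
      IsTLat (D7 (Kp p)) G' ∧ HasHP G' n b c ∧ NSS (Q := QField 7 (Kp p)) G' n b := by
  intro R G hG n b c hn hHP hN p0
  obtain ⟨p, hp, G', h⟩ := partE_of h3 h4 hs X7 unifT7 R G n b c hn hG hHP hN p0
  exact ⟨p, hp.le, G', h⟩

end E5

end Crest.Agent.R169
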