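import Crest.Agent.R169.EIface
import Crest.Agent.R169.TBasic

/-!
# Row 169, Part E: scaling a `T`-lattice into a box (`EScaleStmt`)
-/

set_option autoImplicit false

namespace Crest.Agent.R169.EScale

open Crest.Agent.R169

variable {k Q : Type} [Field k] [Field Q] [Algebra k Q] (D : TData k Q)

/-- common denominators of finitely many elements -/
theorem exists_denom {ι : Type} (s : Finset ι) (q : ι → Q) :
    ∃ (l : ℤ), 0 ≤ l ∧ ∃ g ∈ D.F l, g ≠ 0 ∧ ∀ i ∈ s, g * q i ∈ D.F l := by
  classical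
  induction s using Finset.induction_on with
  | empty => exact ⟨0, le_rfl, 1, D.one_mem_zero, one_ne_zero, by simp⟩
  | insert a s ha ih =>
    obtain ⟨l, hl, g, hg, hg0, h⟩ := ih
    obtain ⟨m, f, hf, g', hg', hg'0, hq⟩ := D.frac (q a)
    have hm : 0 ≤ m := by
      by_contra hm
      push Not at hm
      rw [D.F_neg m hm, Submodule.mem_bot] at hg'
      exact hg'0 hg'
    refine ⟨l + m, by omega, g * g', D.mul_mem _ _ _ hg _ hg', mul_ne_zero hg0 hg'0, ?_⟩
    intro i hi
    rw [Finset.mem_insert] at hi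
    rcases hi with rfl | hi
    · have : g * g' * q i = g * f := by rw [← hq]; ring
      rw [this]
      exact D.mul_mem _ _ _ hg _ hf
    · have : g * g' * q i = (g * q i) * g' := by ring
      rw [this]
      exact D.mul_mem _ _ _ (h i hi) _ hg'

theorem mono_of_le {V : Type} [AddCommGroup V] [Module k V] {E : ℤ → Submodule k V}
    (h : ∀ m, E m ≤ E (m + 1)) {i j : ℤ} (hij : i ≤ j) : E i ≤ E j := by
  obtain ⟨n, rfl⟩ := Int.le.dest hij
  clear hij
  induction n with
  | zero => simp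
  | succ n ih =>
    refine ih.trans ?_
    have := h (i + n)
    rwa [add_assoc] at this

variable {D} {R : ℕ}

theorem exists_box {G : ℤ → Submodule k (Fin R → Q)} (hG : IsTLat D G) :
    ∃ f : Q, f ≠ 0 ∧ ∃ a : ℤ, ∀ m, ∀ x ∈ G m, f • x ∈ D.box R (m + a) := by
  classical
  obtain ⟨m₁, hm₁⟩ := hG.lat.gen
  obtain ⟨m₀, hm₀⟩ := hG.lat.bot
  have := hG.lat.fin m₁
  let b := Module.finBasis k (G m₁)
  obtain ⟨l, hl, g, hg, hg0, h⟩ := exists_denom D
    (Finset.univ : Finset (Fin (Module.finrank k (G m₁)) × Fin R))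
    (fun ij => (b ij.1 : Fin R → Q) ij.2)
  have h1 : ∀ x ∈ G m₁, g • x ∈ D.box R l := by
    intro x hx
    have hx' : x = ∑ i, b.repr ⟨x, hx⟩ i • (b i : Fin R → Q) := by
      have h2 := b.sum_repr ⟨x, hx⟩
      have h3 := congrArg Subtype.val h2
      simp only [Submodule.coe_sum, Submodule.coe_smul] at h3
      exact h3.symm
    rw [hx', Finset.smul_sum]
    refine Submodule.sum_mem _ (fun i _ => ?_)
    rw [smul_comm]
    refine Submodule.smul_mem _ _ ?_
    rw [TData.mem_box]
    intro j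
    exact h (i, j) (Finset.mem_univ _)
  have h2 : ∀ n : ℕ, ∀ x ∈ G (m₁ + n), g • x ∈ D.box R (l + n) := by
    intro n
    induction n with
    | zero => simpa using h1
    | succ n ih =>
      intro x hx
      have hx' : x ∈ G (m₁ + n + 1) := by
        have : m₁ + ((n + 1 : ℕ) : ℤ) = m₁ + n + 1 := by push_cast; ring
        rwa [this] at hx
      obtain ⟨a, ha, b', hb', c, hc, rfl⟩ := hm₁ (m₁ + n) (by omega) x hx'
      have e1 : l + ((n + 1 : ℕ) : ℤ) = 1 + (l + n) := by push_cast; ring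
      rw [e1, TData.mem_box]
      intro i
      have ha' := TData.mem_box.1 (ih a ha) i
      have hb'' := TData.mem_box.1 (ih b' hb') i
      have hc' := TData.mem_box.1 (ih c hc) i
      have t1 := D.mul_mem 1 _ _ D.one_mem _ ha'
      have t2 := D.mul_mem 1 _ _ D.u_mem _ hb''
      have t3 := D.mul_mem 1 _ _ D.v_mem _ hc'
      have e2 : (g • (a + D.u • b' + D.v • c)) i =
          1 * (g • a) i + D.u * (g • b') i + D.v * (g • c) i := by
        simp only [Pi.smul_apply, Pi.add_apply, smul_eq_mul]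
        ring
      rw [e2]
      exact Submodule.add_mem _ (Submodule.add_mem _ t1 t2) t3
  refine ⟨g, hg0, l + |m₁| + |m₀|, ?_⟩
  intro m x hx
  by_cases hm : m ≤ m₀
  · rw [hm₀ m hm, Submodule.mem_bot] at hx
    rw [hx, smul_zero]
    exact Submodule.zero_mem _
  · push Not at hm
    rw [TData.mem_box]
    intro i
    by_cases hm' : m₁ ≤ m
    · have h3 := h2 (m - m₁).toNat x (by rw [Int.toNat_of_nonneg (by omega)]; convert hx using 2; ring)
      have h4 := TData.mem_box.1 h3 i
      refine D.F_mono ?_ h4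
      rw [Int.toNat_of_nonneg (by omega)]
      have := neg_abs_le m₁
      have := abs_nonneg m₀
      omega
    · push Not at hm'
      have h3 := h1 x (mono_of_le hG.lat.mono hm'.le hx)
      have h4 := TData.mem_box.1 h3 i
      refine D.F_mono ?_ h4
      have := neg_abs_le m₀
      have := abs_nonneg m₁
      omega

/-- scaled family -/
def scl (f : Q) (G : ℤ → Submodule k (Fin R → Q)) : ℤ → Submodule k (Fin R → Q) :=
  fun m => (G m).map (Algebra.lsmul k k (Fin R → Q) f)

theorem mem_scl {f : Q} {G : ℤ → Submodule k (Fin R → Q)} {m : ℤ} {x : Fin R → Q} :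
    x ∈ scl f G m ↔ ∃ y ∈ G m, f • y = x := by
  simp [scl, Submodule.mem_map]

theorem lsmul_inj {f : Q} (hf : f ≠ 0) :
    Function.Injective (Algebra.lsmul k k (Fin R → Q) f) := by
  intro x y hxy
  have : f • x = f • y := hxy
  exact smul_right_injective _ hf this

theorem finrank_scl {f : Q} (hf : f ≠ 0) (G : ℤ → Submodule k (Fin R → Q)) (m : ℤ) :
    Module.finrank k (scl f G m) = Module.finrank k (G m) :=
  (Submodule.equivMapOfInjective _ (lsmul_inj hf) (G m)).finrank_eq.symm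

theorem isTLat_scl {f : Q} (hf : f ≠ 0) {G : ℤ → Submodule k (Fin R → Q)} (hG : IsTLat D G) :
    IsTLat D (scl f G) where
  lat :=
    { mono := fun m => Submodule.map_mono (hG.lat.mono m)
      umul := by
        intro m e he
        obtain ⟨y, hy, rfl⟩ := mem_scl.1 he
        exact mem_scl.2 ⟨D.u • y, hG.lat.umul m y hy, smul_comm _ _ _⟩
      vmul := by
        intro m e he
        obtain ⟨y, hy, rfl⟩ := mem_scl.1 he
        exact mem_scl.2 ⟨D.v • y, hG.lat.vmul m y hy, smul_comm _ _ _⟩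
      fin := by
        intro m
        have := hG.lat.fin m
        exact Module.Finite.equiv (Submodule.equivMapOfInjective _ (lsmul_inj hf) (G m))
      bot := by
        obtain ⟨m₀, h⟩ := hG.lat.bot
        exact ⟨m₀, fun m hm => by rw [scl, h m hm, Submodule.map_bot]⟩
      gen := by
        obtain ⟨m₁, h⟩ := hG.lat.gen
        refine ⟨m₁, fun m hm e he => ?_⟩
        obtain ⟨y, hy, rfl⟩ := mem_scl.1 he
        obtain ⟨a, ha, b, hb, c, hc, rfl⟩ := h m hm y hy
        refine ⟨f • a, mem_scl.2 ⟨a, ha, rfl⟩, f • b, mem_scl.2 ⟨b, hb, rfl⟩,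
          f • c, mem_scl.2 ⟨c, hc, rfl⟩, ?_⟩
        rw [smul_add, smul_add, smul_comm f D.u b, smul_comm f D.v c] }
  act := by
    intro i j g hg e he
    obtain ⟨y, hy, rfl⟩ := mem_scl.1 he
    exact mem_scl.2 ⟨g • y, hG.act i j g hg y hy, smul_comm _ _ _⟩
  full := by
    rw [eq_top_iff, ← hG.full, spanK, Submodule.span_le]
    intro x hx
    obtain ⟨m, hm⟩ := Set.mem_iUnion.1 hx
    have h1 : f • x ∈ spanK Q (scl f G) :=
      Submodule.subset_span (Set.mem_iUnion.2 ⟨m, mem_scl.2 ⟨x, hm, rfl⟩⟩)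
    have h2 := (spanK Q (scl f G)).smul_mem f⁻¹ h1
    rwa [inv_smul_smul₀ hf] at h2

theorem interU_scl {f : Q} (hf : f ≠ 0) (G : ℤ → Submodule k (Fin R → Q))
    (U : Submodule Q (Fin R → Q)) : interU (scl f G) U = scl f (interU G U) := by
  funext m
  ext x
  simp only [interU, Submodule.mem_inf, mem_scl, Submodule.restrictScalars_mem]
  constructor
  · rintro ⟨⟨y, hy, rfl⟩, hU⟩
    refine ⟨y, ⟨hy, ?_⟩, rfl⟩
    have h2 := U.smul_mem f⁻¹ hU
    rwa [inv_smul_smul₀ hf] at h2
  · rintro ⟨y, ⟨hy, hU⟩, rfl⟩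
    exact ⟨⟨y, hy, rfl⟩, U.smul_mem f hU⟩

theorem hasHP_scl {f : Q} (hf : f ≠ 0) {G : ℤ → Submodule k (Fin R → Q)} {n : ℕ} {b c : ℚ} :
    HasHP (scl f G) n b c ↔ HasHP G n b c := by
  simp only [HasHP, finrank_scl hf]

theorem main : EScaleStmt := by
  intro k Q _ _ _ D R G n b c hG hHP hN
  obtain ⟨f, hf, a, h⟩ := exists_box hG
  refine ⟨scl f G, isTLat_scl hf hG, (hasHP_scl hf).2 hHP, ?_, a, ?_⟩
  · intro U n₁ b₁ c₁ hU
    rw [interU_scl hf, hasHP_scl hf] at hU
    exact hN U n₁ b₁ c₁ hU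
  · intro m x hx
    obtain ⟨y, hy, rfl⟩ := mem_scl.1 hx
    exact h m y hy

end Crest.Agent.R169.EScale
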