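import Crest.Agent.R169.Averaging

/-!
# Row 169, F3: normality of `T` in filtration form (helper789)

`filQ_normal` : if `c q^{N j} ∈ F_{l + j m}` for all `j` (with `c ≠ 0`, `N > 0`), then
`q ∈ F_{⌊m / N⌋}`, provided `O n k` is integrally closed.
-/

set_option autoImplicit false

open Crest.R169 Crest.Agent.R169.OnOverO1 Crest.Agent.R169.Val HahnSeries

namespace Crest.Agent.R169.Avg

variable {n : ℕ} {k : Type*} [Field k]

theorem incl_zm (α : Fin 5 → ℕ) : incl n k (zm 1 k α) = zm n k (n • α) := by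
  unfold zm
  rw [map_prod]
  refine Finset.prod_congr rfl fun j _ => ?_
  rw [map_pow, incl_z, ← pow_mul]
  rfl

theorem good_smul (hn : 0 < n) {α : Fin 5 → ℕ} (h : Good 1 α) : Good n (n • α) := by
  intro j
  simp only [Pi.smul_apply, smul_eq_mul]
  rcases h j with h | h
  · left
    rw [Nat.lt_one_iff.1 h, mul_zero]
    exact hn
  · right
    rw [Nat.lt_one_iff.1 h, mul_zero]
    exact hn

theorem w_smul (i : Fin 5) (α : Fin 5 → ℕ) : w i (n • α) = n * w i α := by
  simp only [w, Pi.smul_apply, smul_eq_mul]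
  push_cast
  ring

theorem incl_mem_Fil [IsAlgClosed k] [NeZero (n : k)] {t : ℤ} {g : ORing 1 k}
    (h : incl n k g ∈ Fil n k t) : g ∈ Fil 1 k (t / n) := by
  classical
  have hn : 0 < n := NeZero.pos_of_cast n k
  obtain ⟨s, c, h1, h2, rfl⟩ := exists_good_sum one_pos g
  refine Submodule.sum_mem _ fun α hα => Submodule.smul_mem _ _ (zm_mem_Fil fun i => ?_)
  rw [Int.le_ediv_iff_mul_le (by exact_mod_cast hn), mul_comm, ← w_smul]
  have h3 : (zBasis n k).repr (incl n k (∑ β ∈ s, c β • zm 1 k β))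
      ⟨n • α, good_smul hn (h1 α hα)⟩ = c α := by
    rw [map_sum, map_sum, Finset.sum_apply']
    rw [Finset.sum_eq_single_of_mem α hα]
    · rw [map_smul, incl_zm, map_smul]
      have h4 : zm n k (n • α) = zBasis n k ⟨n • α, good_smul hn (h1 α hα)⟩ := by simp
      rw [h4, Module.Basis.repr_self]
      simp
    · intro β hβ hne
      rw [map_smul, incl_zm, map_smul]
      have h4 : zm n k (n • β) = zBasis n k ⟨n • β, good_smul hn (h1 β hβ)⟩ := by simp
      rw [h4, Module.Basis.repr_self, Finsupp.smul_apply, Finsupp.single_apply, if_neg, smul_zero]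
      intro h5
      apply hne
      have h6 := congrArg Subtype.val h5
      funext j
      have h7 := congrFun h6 j
      simp only [Pi.smul_apply, smul_eq_mul] at h7
      exact Nat.eq_of_mul_eq_mul_left hn h7
  exact (mem_Fil_iff t _).1 h ⟨n • α, good_smul hn (h1 α hα)⟩ (by rw [h3]; exact h2 α hα) i

theorem orderTop_eq_coe {x : HS k} (hx : x ≠ 0) : ∃ e : ℤ, x.orderTop = (e : WithTop ℤ) := by
  exact ⟨x.order, (order_eq_orderTop_of_ne_zero hx).symm⟩

/-- the arithmetic step -/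
theorem arith {n N : ℕ} (hn : 0 < n) (hN : 0 < N) (A H L m : ℤ)
    (h : ∀ j : ℕ, -(((L + (n * j : ℕ) * m) / N) / n) ≤ A + j * H) : -H ≤ m / N := by
  have hn' : (0 : ℤ) < n := by exact_mod_cast hn
  have hN' : (0 : ℤ) < N := by exact_mod_cast hN
  rw [Int.le_ediv_iff_mul_le hN']
  by_contra hcon
  push Not at hcon
  -- `N H + m ≤ -1`
  have h1 : ∀ j : ℕ, (n : ℤ) * j ≤ L + N * n * A := by
    intro j
    have h2 := h j
    have h3 := Int.ediv_mul_le (L + (n * j : ℕ) * m) hN'.ne'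
    have h4 := Int.ediv_mul_le ((L + (n * j : ℕ) * m) / N) hn'.ne'
    set a := (L + (n * j : ℕ) * m) / N
    set b := a / n
    push_cast at h3
    have h5 : b * n * N ≤ L + n * j * m := (mul_le_mul_of_nonneg_right h4 hN'.le).trans h3
    have h6 : -b * (n * N) ≤ (A + j * H) * (n * N) :=
      mul_le_mul_of_nonneg_right h2 (by positivity)
    have h7 : (n : ℤ) * j * (N * H + m) ≤ (n : ℤ) * j * (-1) :=
      mul_le_mul_of_nonneg_left (by linarith) (by positivity)
    nlinarith
  have h8 := h1 (L + N * n * A + 1).toNat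
  have h9 : (L + N * n * A + 1) ≤ ((L + N * n * A + 1).toNat : ℤ) := Int.self_le_toNat _
  have h10 : (1 : ℤ) ≤ n := by exact_mod_cast hn
  have h11 : (0 : ℤ) ≤ ((L + N * n * A + 1).toNat : ℤ) := Int.natCast_nonneg _
  nlinarith

/-- isotypic case -/
theorem isotypic_mem [IsAlgClosed k] [NeZero (n : k)] {N : ℕ} {hN : 0 < N} {m : ℤ} (f : ORing 1 k)
    (χ : Fin 5 → ℕ) (hχ : ∀ j, χ j < n)
    (h : incl n k f * zm n k χ ∈ AI n k N hN m) : incl n k f * zm n k χ ∈ Fil n k (m / N) := by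
  have hn : 0 < n := NeZero.pos_of_cast n k
  by_cases hf : f = 0
  · rw [hf, map_zero, zero_mul]
    exact Submodule.zero_mem _
  obtain ⟨c, hc, L, hj⟩ := h
  set g : ORing 1 k := f ^ n * zm 1 k χ with hg
  have hz : zm 1 k χ ≠ 0 := by
    intro h0
    have := hs_zm_orderTop k 0 χ
    rw [h0, map_zero, orderTop_zero] at this
    exact WithTop.top_ne_coe this
  have hpow : ∀ j : ℕ, incl n k c * (incl n k f * zm n k χ) ^ (n * j) = incl n k (c * g ^ j) := by
    intro j
    rw [hg, map_mul, map_pow, map_mul, map_pow, incl_zm, pow_mul]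
    congr 2
    rw [mul_pow]
    congr 1
    unfold zm
    rw [← Finset.prod_pow]
    refine Finset.prod_congr rfl fun i _ => ?_
    rw [← pow_mul, mul_comm]
    rfl
  have key : ∀ i : Fin 5, ∃ F : ℤ, (hs k i f).orderTop = (F : WithTop ℤ) ∧ n * (-F) + w i χ ≤ m / N := by
    intro i
    have hinj := hs_injective k i
    obtain ⟨A, hA⟩ := orderTop_eq_coe (x := hs k i c) (by rwa [Ne, map_eq_zero_iff _ hinj])
    obtain ⟨F, hF⟩ := orderTop_eq_coe (x := hs k i f) (by rwa [Ne, map_eq_zero_iff _ hinj])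
    refine ⟨F, hF, ?_⟩
    have hG : (hs k i g).orderTop = ((n * F - w i χ : ℤ) : WithTop ℤ) := by
      rw [hg, map_mul, orderTop_mul, map_pow, orderTop_pow' k _ F hF, hs_zm_orderTop]
      norm_cast
    have h1 := arith hn hN A (n * F - w i χ) L m (fun j => by
      have h2 := hj (n * j)
      rw [hpow] at h2
      have h3 := (mem_Fil_one_iff _ _).1 (incl_mem_Fil h2) i
      rw [map_mul, orderTop_mul, map_pow, hA, orderTop_pow' k _ _ hG] at h3
      exact_mod_cast h3)
    linarith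
  obtain ⟨s, c', h1, h2, rfl⟩ := exists_good_sum one_pos f
  rw [map_sum, Finset.sum_mul]
  refine Submodule.sum_mem _ fun α hα => ?_
  rw [map_smul, smul_mul_assoc, incl_zm, ← zm_add]
  refine Submodule.smul_mem _ _ (zm_mem_Fil fun i => ?_)
  obtain ⟨F, hF, hle⟩ := key i
  have h3 : w i α ≤ -F := by
    refine (le_orderTop_sum_iff k i s c' h1 h2 (-F)).1 ?_ α hα
    rw [neg_neg, hF]
  rw [w_add, w_smul]
  have hn' : (0 : ℤ) ≤ n := by positivity
  nlinarith [mul_le_mul_of_nonneg_left h3 hn']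

/-- every element is the sum of its isotypic components -/
theorem exists_isotypic (hn : 0 < n) (x : ORing n k) :
    ∃ f : (Fin 5 → Fin n) → ORing 1 k,
      x = ∑ χ, incl n k (f χ) * zm n k (fun j => (χ j : ℕ)) := by
  letI := algO n k
  have hx : x ∈ Submodule.span (ORing 1 k)
      (Set.range (Kummer.zmon (z n k) : (Fin 5 → Fin n) → ORing n k)) := by
    rw [span_zmon n k hn]; exact Submodule.mem_top
  rw [Submodule.mem_span_range_iff_exists_fun] at hx
  obtain ⟨f, hf⟩ := hx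
  refine ⟨f, ?_⟩
  rw [← hf]
  exact Finset.sum_congr rfl fun χ _ => by rw [Algebra.smul_def]; rfl

theorem AI_le_Fil [IsAlgClosed k] [NeZero (n : k)] {N : ℕ} {hN : 0 < N} {m : ℤ} {x : ORing n k}
    (hx : x ∈ AI n k N hN m) : x ∈ Fil n k (m / N) := by
  have hn : 0 < n := NeZero.pos_of_cast n k
  haveI : NeZero n := ⟨hn.ne'⟩
  obtain ⟨ζ, hζ⟩ := HasEnoughRootsOfUnity.exists_primitiveRoot k n
  obtain ⟨f, rfl⟩ := exists_isotypic hn x
  have h1 := comp_mem hζ (AI n k N hN m) (fun j x hx => sig_mem_AI hζ.pow_eq_one j hx) Finset.univ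
    (fun χ => incl n k (f χ) * zm n k (fun j => (χ j : ℕ))) (by
      intro χ _ j
      show sig hζ.pow_eq_one j (incl n k (f χ) * zm n k (fun j => (χ j : ℕ))) = _
      rw [map_mul, sig_incl, sig_zm, mul_smul_comm]) hx
  exact Submodule.sum_mem _ fun χ hχ => isotypic_mem (f χ) _ (fun j => (χ j).2) (h1 χ hχ)

/-- **Normality, strong form** (inside `O n k`). -/
theorem fil_normal_O [IsAlgClosed k] [NeZero (n : k)] {N : ℕ} (hN : 0 < N) {m l : ℤ}
    {c q : ORing n k} (hc : c ≠ 0) (h : ∀ j : ℕ, c * q ^ (N * j) ∈ Fil n k (l + j * m)) :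
    q ∈ Fil n k (m / N) :=
  AI_le_Fil (mem_AI (NeZero.pos_of_cast n k) hN hc h)

theorem mem_FilQ_iff (m : ℤ) (q : QField n k) :
    q ∈ FilQ n k m ↔ ∃ x ∈ Fil n k m, algebraMap (ORing n k) (QField n k) x = q := by
  unfold FilQ
  rw [Submodule.mem_map]
  rfl

/-- **Normality, strong form.** -/
theorem filQ_normal [IsAlgClosed k] [NeZero (n : k)] [IsIntegrallyClosed (ORing n k)] {N : ℕ}
    (hN : 0 < N) {m l : ℤ} {c q : QField n k} (hc : c ≠ 0)
    (h : ∀ j : ℕ, c * q ^ (N * j) ∈ FilQ n k (l + j * m)) : q ∈ FilQ n k (m / N) := by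
  have := isNoetherianRing_ORing (n := n) (k := k)
  set φ := algebraMap (ORing n k) (QField n k) with hφ
  have hinj : Function.Injective φ := IsFractionRing.injective _ _
  -- `c ∈ O`
  obtain ⟨c', -, hc'⟩ := (mem_FilQ_iff _ _).1 (h 0)
  rw [mul_zero, pow_zero, mul_one] at hc'
  have hc'0 : c' ≠ 0 := by
    rintro rfl
    rw [map_zero] at hc'
    exact hc hc'.symm
  -- `q ^ N` is almost integral
  have h1 : IsAlmostIntegral (ORing n k) (q ^ N) := by
    refine ⟨c', mem_nonZeroDivisors_of_ne_zero hc'0, fun j => ?_⟩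
    obtain ⟨x, -, hx⟩ := (mem_FilQ_iff _ _).1 (h j)
    refine ⟨x, ?_⟩
    rw [Algebra.smul_def, ← pow_mul]
    change φ x = φ c' * q ^ (N * j)
    rw [hx, hc']
  have h2 : IsIntegral (ORing n k) (q ^ N) := h1.isIntegral
  have h3 : IsIntegral (ORing n k) q := IsIntegral.of_pow hN h2
  obtain ⟨q', hq'⟩ := IsIntegrallyClosed.isIntegral_iff.1 h3
  rw [mem_FilQ_iff]
  refine ⟨q', fil_normal_O hN (l := l) hc'0 (fun j => ?_), hq'⟩
  obtain ⟨x, hx1, hx2⟩ := (mem_FilQ_iff _ _).1 (h j)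
  have h4 : c' * q' ^ (N * j) = x := by
    apply hinj
    rw [map_mul, map_pow, hx2, hc']
    congr 2
  rw [h4]
  exact hx1

end Crest.Agent.R169.Avg
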