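import Crest.Agent.R169.Defs
import Crest.Agent.R169.Frob
import Crest.Agent.R169.PackDefs
import Crest.Agent.R169.ADefs
import Crest.Agent.R169.Places
import Crest.Agent.R169.PtDefs

/-!
# Row 169: interface definitions between the parts and the final assembly
(helper169, integrator).  FROZEN.  No `sorry` in this file.
-/

set_option autoImplicit false

noncomputable section

namespace Crest.Agent.R169

variable {k Q : Type} [Field k] [Field Q] [Algebra k Q]

/-- the bridge from `TData` (indexed by `ℤ`) to helper751's `Fil` (indexed by `ℕ`). -/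
def TData.toFil (D : TData k Q) : Fil k Q where
  F := fun m => D.F (m : ℤ)
  zero_eq := by
    rw [Submodule.one_eq_span]
    exact_mod_cast D.F_zero
  mul_le := by
    intro i j
    rw [Submodule.mul_le]
    intro f hf g hg
    have := D.mul_mem i j f hf g hg
    simpa using this

/-- the two models of the total ring agree definitionally -/
theorem TData.toFil_T (D : TData k Q) : D.toFil.T = D.Ttot := rfl

/-- END PRODUCT of A + E + C + D (for `D = D7 KStar`) and input of the packaging:
there is no `T`-module `M` with `gr_𝔪 M ≅ A^n` (`𝔪 = (X, uX, vX)`, `n > 0`) in dimension form. -/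
def NoMCM (D : TData k Q) : Prop :=
  ∀ (M : Type) [AddCommGroup M] [Module D.Ttot M] [Module k M] [IsScalarTower k D.Ttot M] (n : ℕ),
    ¬ GrFree D M n

/-- The end product of Part A for the datum `D` with `HilbT D N bT cT` (rank already identified). -/
def PartA (D : TData k Q) (N : ℕ) : Prop :=
  ∀ (M : Type) [AddCommGroup M] [Module D.Ttot M] [Module k M] [IsScalarTower k D.Ttot M] (n : ℕ),
    GrFree D M n →
      ∃ (R : ℕ) (G : ℤ → Submodule k (Fin R → Q)) (b c : ℚ), 0 < R ∧ IsTLat D G ∧
        HasHP G (N * R) b c ∧ 0 ≤ Jinv (N * R) b c ∧ NSS (Q := Q) G (N * R) b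

end Crest.Agent.R169
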