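import Crest.Agent.R169.Val

/-!
# Row 169, part F: `O_1 = k[z_0..z_4]/(z_j z_{j+1} = 1 + z_{j+3})` is a UFD, the `z_j` are
pairwise non-associated primes (any field `k`).
-/

set_option autoImplicit false
set_option linter.unusedSimpArgs false

noncomputable section

namespace Crest.Agent.R169.O1Ufd

open Crest.R169 Crest.Agent.R169.Val

section general

variable {n : ℕ} {k : Type*} [Field k]

/-- induction principle for `ORing n k` -/
theorem oring_induction {P : ORing n k → Prop} (hC : ∀ c : k, P (algebraMap k _ c))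
    (hz : ∀ j, P (z n k j)) (ha : ∀ x y, P x → P y → P (x + y))
    (hm : ∀ x y, P x → P y → P (x * y)) (x : ORing n k) : P x := by
  obtain ⟨p, rfl⟩ := toO_surjective n k x
  induction p using MvPolynomial.induction_on with
  | C c =>
    have : toO n k (MvPolynomial.C c) = algebraMap k _ c := (toO n k).commutes c
    rw [this]
    exact hC c
  | add p q hp hq => rw [map_add]; exact ha _ _ hp hq
  | mul_X p j hp => rw [map_mul]; exact hm _ _ hp (hz j)

variable (n k) in
/-- the rotation `z_j ↦ z_{j+i}` -/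
def rot (i : Fin 5) : ORing n k →ₐ[k] ORing n k :=
  ORing.lift (fun j => z n k (j + i)) (by
    intro j
    have h := z_rel n k (j + i)
    rw [show j + 1 + i = j + i + 1 by clear h; revert i j; decide,
      show j + 3 + i = j + i + 3 by clear h; revert i j; decide]
    exact h)

@[simp] theorem rot_z (i j : Fin 5) : rot n k i (z n k j) = z n k (j + i) := by simp [rot]

theorem rot_rot (i i' : Fin 5) (h : i + i' = 0) (x : ORing n k) : rot n k i' (rot n k i x) = x := by
  have : (rot n k i').comp (rot n k i) = AlgHom.id k _ := by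
    apply ORing.algHom_ext
    intro j
    rw [AlgHom.comp_apply, rot_z, rot_z, AlgHom.id_apply, show j + i + i' = j by
      rw [add_assoc, h, add_zero]]
  exact DFunLike.congr_fun this x

variable (n k) in
/-- the rotation as an equivalence -/
def rotE (i : Fin 5) : ORing n k ≃ₐ[k] ORing n k :=
  AlgEquiv.ofAlgHom (rot n k i) (rot n k (-i))
    (by
      apply AlgHom.ext
      intro x
      exact rot_rot (-i) i (by simp) x)
    (by
      apply AlgHom.ext
      intro x
      exact rot_rot i (-i) (by simp) x)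

@[simp] theorem rotE_z (i j : Fin 5) : rotE n k i (z n k j) = z n k (j + i) := rot_z i j

end general

variable (k : Type*) [Field k]

theorem z1_rel (j : Fin 5) : z 1 k j * z 1 k (j + 1) = 1 + z 1 k (j + 3) := by
  simpa using z_rel 1 k j

theorem rel0 : z 1 k 0 * z 1 k 1 = 1 + z 1 k 3 := z1_rel k 0
theorem rel1 : z 1 k 1 * z 1 k 2 = 1 + z 1 k 4 := z1_rel k 1
theorem rel2 : z 1 k 2 * z 1 k 3 = 1 + z 1 k 0 := z1_rel k 2
theorem rel3 : z 1 k 3 * z 1 k 4 = 1 + z 1 k 1 := z1_rel k 3
theorem rel4 : z 1 k 4 * z 1 k 0 = 1 + z 1 k 2 := z1_rel k 4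

theorem z_ne_zero (j : Fin 5) : z 1 k j ≠ 0 := by
  have hg : Good 1 (Pi.single j 1 : Fin 5 → ℕ) := by revert j; decide
  have h := (linearIndependent_zm_one k).ne_zero ⟨Pi.single j 1, hg⟩
  simpa [zm_single] using h

open Polynomial in
/-- `O_1 → k[X]`, `z_3 ↦ 0` -/
def pi3 : ORing 1 k →ₐ[k] k[X] :=
  ORing.lift (![-1, -1, X, 0, -1 - X] : Fin 5 → k[X]) (by
    intro j
    fin_cases j <;> simp <;> ring)

open Polynomial in
theorem pi3_z (j : Fin 5) : pi3 k (z 1 k j) = (![-1, -1, X, 0, -1 - X] : Fin 5 → k[X]) j := by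
  simp [pi3]

open Polynomial in
theorem dvd_sub_pi3 (x : ORing 1 k) : z 1 k 3 ∣ x - Polynomial.aeval (z 1 k 2) (pi3 k x) := by
  induction x using oring_induction with
  | hC c => simp
  | hz j =>
    rw [pi3_z]
    fin_cases j
    · simp only [Fin.zero_eta, Fin.isValue, Matrix.cons_val_zero, map_neg, map_one, sub_neg_eq_add]
      exact ⟨z 1 k 2, by linear_combination -rel2 k⟩
    · simp only [Fin.mk_one, Fin.isValue, Matrix.cons_val_one, Matrix.cons_val_zero, map_neg, map_one, sub_neg_eq_add]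
      exact ⟨z 1 k 4, by linear_combination -rel3 k⟩
    · simp
    · simp
    · simp only [Fin.reduceFinMk, Fin.isValue, Matrix.cons_val, map_sub, map_neg, map_one, aeval_X]
      exact ⟨z 1 k 4 * z 1 k 2, by linear_combination (-rel4 k) - z 1 k 4 * rel2 k⟩
  | ha x y hx hy =>
    have := dvd_add hx hy
    rw [map_add, map_add]
    convert this using 1
    ring
  | hm x y hx hy =>
    have : x * y - Polynomial.aeval (z 1 k 2) (pi3 k (x * y)) =
        (x - Polynomial.aeval (z 1 k 2) (pi3 k x)) * y +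
        Polynomial.aeval (z 1 k 2) (pi3 k x) * (y - Polynomial.aeval (z 1 k 2) (pi3 k y)) := by
      rw [map_mul, map_mul]
      ring
    rw [this]
    exact dvd_add (hx.mul_right _) (hy.mul_left _)

theorem pi3_eq_zero_iff (x : ORing 1 k) : pi3 k x = 0 ↔ z 1 k 3 ∣ x := by
  constructor
  · intro h
    have := dvd_sub_pi3 k x
    rwa [h, map_zero, sub_zero] at this
  · rintro ⟨y, rfl⟩
    rw [map_mul, pi3_z]
    simp

theorem prime_z3 : Prime (z 1 k 3) := by
  refine ⟨z_ne_zero k 3, ?_, ?_⟩
  · intro h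
    have h2 := h.map (pi3 k)
    rw [pi3_z] at h2
    simp at h2
  · intro a b hab
    rw [← pi3_eq_zero_iff, map_mul, mul_eq_zero] at hab
    rw [← pi3_eq_zero_iff, ← pi3_eq_zero_iff]
    exact hab

theorem prime_z (j : Fin 5) : Prime (z 1 k j) := by
  have h := (MulEquiv.prime_iff (rotE 1 k (j - 3) : ORing 1 k ≃* ORing 1 k)).2 (prime_z3 k)
  have h2 : (rotE 1 k (j - 3) : ORing 1 k ≃* ORing 1 k) (z 1 k 3) = z 1 k j := by
    change rotE 1 k (j - 3) (z 1 k 3) = _
    rw [rotE_z]
    congr 1
    clear h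
    revert j
    decide
  rwa [h2] at h

theorem not_dvd_z {i j : Fin 5} (hij : i ≠ j) : ¬ z 1 k j ∣ z 1 k i := by
  intro h
  have h2 := map_dvd (rot 1 k (3 - j)) h
  rw [rot_z, rot_z, show j + (3 - j) = 3 by simp, ← pi3_eq_zero_iff, pi3_z] at h2
  have h3 : i + (3 - j) ≠ 3 := by
    intro h4
    apply hij
    have : i + (3 - j) = i - j + 3 := by clear h2 h hij h4; revert i j; decide
    rw [this] at h4
    have h5 : i - j = 0 := by simpa using h4
    exact sub_eq_zero.1 h5
  generalize i + (3 - j) = l at h2 h3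
  fin_cases l
  · simp at h2
  · simp at h2
  · simp at h2
  · simp at h3
  · simp only [Fin.reduceFinMk, Fin.isValue, Matrix.cons_val] at h2
    have := congrArg (Polynomial.coeff · 1) h2
    simp [Polynomial.coeff_one] at this

theorem not_associated_z (i j : Fin 5) (hij : i ≠ j) : ¬ Associated (z 1 k i) (z 1 k j) :=
  fun h => not_dvd_z k hij.symm h.dvd

/-! ### UFD -/

instance instIsNoetherianRing (n : ℕ) : IsNoetherianRing (ORing n k) :=
  isNoetherianRing_of_surjective _ _ (toO n k).toRingHom (toO_surjective n k)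

/-- `k[a,b]` -/
abbrev P2 : Type _ := MvPolynomial (Fin 2) k

/-- `q = ab - 1` -/
def qq : P2 k := MvPolynomial.X 0 * MvPolynomial.X 1 - 1

/-- `k[a,b] → O_1`, `a ↦ z_0`, `b ↦ z_1` -/
def al : P2 k →ₐ[k] ORing 1 k := MvPolynomial.aeval ![z 1 k 0, z 1 k 1]

@[simp] theorem al_X0 : al k (MvPolynomial.X 0) = z 1 k 0 := by simp [al]
@[simp] theorem al_X1 : al k (MvPolynomial.X 1) = z 1 k 1 := by simp [al]

theorem al_qq : al k (qq k) = z 1 k 3 := by
  rw [qq, map_sub, map_mul, al_X0, al_X1, map_one]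
  linear_combination rel0 k

theorem qq_ne : qq k ≠ 0 := by
  intro h
  have := congrArg (MvPolynomial.eval (fun _ => (0 : k))) h
  simp [qq] at this

/-- the fraction field of `k[a,b]` -/
abbrev L2 : Type _ := FractionRing (P2 k)

/-- `O_1 → k(a,b)` -/
def psi : ORing 1 k →ₐ[k] L2 k :=
  ORing.lift
    (![algebraMap (P2 k) (L2 k) (MvPolynomial.X 0), algebraMap (P2 k) (L2 k) (MvPolynomial.X 1),
      (1 + algebraMap (P2 k) (L2 k) (MvPolynomial.X 0)) / algebraMap (P2 k) (L2 k) (qq k),
      algebraMap (P2 k) (L2 k) (qq k),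
      (1 + algebraMap (P2 k) (L2 k) (MvPolynomial.X 1)) / algebraMap (P2 k) (L2 k) (qq k)] :
      Fin 5 → L2 k) (by
    have h0 : algebraMap (P2 k) (L2 k) (qq k) ≠ 0 := by
      rw [Ne, IsFractionRing.to_map_eq_zero_iff]
      exact qq_ne k
    have h1 : algebraMap (P2 k) (L2 k) (qq k) =
      algebraMap (P2 k) (L2 k) (MvPolynomial.X 0) * algebraMap (P2 k) (L2 k) (MvPolynomial.X 1) - 1 := by
      rw [qq, map_sub, map_mul, map_one]
    generalize algebraMap (P2 k) (L2 k) (qq k) = q at *
    generalize algebraMap (P2 k) (L2 k) (MvPolynomial.X 0) = a at *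
    generalize algebraMap (P2 k) (L2 k) (MvPolynomial.X 1) = b at *
    intro j
    fin_cases j
    · simp only [Fin.zero_eta, Fin.isValue, zero_add, Matrix.cons_val_zero, Matrix.cons_val_one,
        Matrix.cons_val, pow_one]
      rw [h1]; ring
    · simp only [Fin.mk_one, Fin.isValue, Fin.reduceAdd, Matrix.cons_val_zero, Matrix.cons_val_one,
        Matrix.cons_val, pow_one]
      field_simp
      rw [h1]; ring
    · simp only [Fin.reduceFinMk, Fin.isValue, Fin.reduceAdd, Matrix.cons_val_zero, Matrix.cons_val_one,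
        Matrix.cons_val, pow_one]
      field_simp
    · simp only [Fin.reduceFinMk, Fin.isValue, Fin.reduceAdd, Matrix.cons_val_zero, Matrix.cons_val_one,
        Matrix.cons_val, pow_one]
      field_simp
    · simp only [Fin.reduceFinMk, Fin.isValue, Fin.reduceAdd, Matrix.cons_val_zero, Matrix.cons_val_one,
        Matrix.cons_val, pow_one]
      field_simp
      rw [h1]; ring)

theorem psi_al (p : P2 k) : psi k (al k p) = algebraMap (P2 k) (L2 k) p := by
  have : (psi k).comp (al k) = IsScalarTower.toAlgHom k (P2 k) (L2 k) := by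
    apply MvPolynomial.algHom_ext
    intro j
    fin_cases j <;> simp [psi]
  exact DFunLike.congr_fun this p

theorem al_injective : Function.Injective (al k) := by
  intro p p' h
  apply IsFractionRing.injective (P2 k) (L2 k)
  rw [← psi_al, h, psi_al]

theorem exists_pow_mul (x : ORing 1 k) : ∃ (n : ℕ) (p : P2 k), z 1 k 3 ^ n * x = al k p := by
  induction x using oring_induction with
  | hC c => exact ⟨0, algebraMap k _ c, by simp⟩
  | hz j =>
    fin_cases j
    · exact ⟨0, MvPolynomial.X 0, by simp⟩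
    · exact ⟨0, MvPolynomial.X 1, by simp⟩
    · refine ⟨1, 1 + MvPolynomial.X 0, ?_⟩
      rw [map_add, map_one, al_X0]
      change z 1 k 3 ^ 1 * z 1 k 2 = _
      linear_combination rel2 k
    · exact ⟨0, qq k, by rw [al_qq]; simp⟩
    · refine ⟨1, 1 + MvPolynomial.X 1, ?_⟩
      rw [map_add, map_one, al_X1]
      change z 1 k 3 ^ 1 * z 1 k 4 = _
      linear_combination rel3 k
  | ha x y hx hy =>
    obtain ⟨n, p, hp⟩ := hx
    obtain ⟨m, p', hp'⟩ := hy
    refine ⟨n + m, qq k ^ m * p + qq k ^ n * p', ?_⟩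
    rw [map_add, map_mul, map_mul, map_pow, map_pow, al_qq, ← hp, ← hp', pow_add]
    ring
  | hm x y hx hy =>
    obtain ⟨n, p, hp⟩ := hx
    obtain ⟨m, p', hp'⟩ := hy
    refine ⟨n + m, p * p', ?_⟩
    rw [map_mul, ← hp, ← hp', pow_add]
    ring

/-- `O_1[1/z_3]` -/
abbrev S3 : Type _ := Localization.Away (z 1 k 3)

/-- `O_1[1/z_3]` as an algebra over `k[a,b]` -/
abbrev algS3 : Algebra (P2 k) (S3 k) :=
  ((algebraMap (ORing 1 k) (S3 k)).comp (al k).toRingHom).toAlgebra

attribute [local instance] algS3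

theorem algebraMap_S3 (p : P2 k) :
    algebraMap (P2 k) (S3 k) p = algebraMap (ORing 1 k) (S3 k) (al k p) := rfl

theorem inj_S3 : Function.Injective (algebraMap (ORing 1 k) (S3 k)) :=
  IsLocalization.injective (S3 k) (powers_le_nonZeroDivisors_of_noZeroDivisors (z_ne_zero k 3))

instance isLocalization_S3 : IsLocalization.Away (qq k) (S3 k) where
  map_units := by
    rintro ⟨_, n, rfl⟩
    simp only [map_pow]
    rw [algebraMap_S3, al_qq]
    exact (IsLocalization.Away.algebraMap_isUnit (z 1 k 3)).pow n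
  surj := by
    intro y
    obtain ⟨⟨x, ⟨_, n, rfl⟩⟩, hx⟩ := IsLocalization.surj (Submonoid.powers (z 1 k 3)) y
    obtain ⟨m, p, hp⟩ := exists_pow_mul k x
    refine ⟨⟨p, ⟨qq k ^ (n + m), n + m, rfl⟩⟩, ?_⟩
    simp only at hx ⊢
    rw [algebraMap_S3, algebraMap_S3, map_pow, al_qq, ← hp, map_mul, ← hx, pow_add, map_mul]
    ring
  exists_of_eq := by
    intro p p' h
    rw [algebraMap_S3, algebraMap_S3] at h
    have h2 := al_injective k (inj_S3 k h)
    exact ⟨1, by rw [h2]⟩

instance : IsDomain (S3 k) :=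
  IsLocalization.isDomain_localization
    (powers_le_nonZeroDivisors_of_noZeroDivisors (z_ne_zero k 3))

theorem ufd_S3 : UniqueFactorizationMonoid (S3 k) :=
  UniqueFactorizationMonoid.of_isLocalization (Submonoid.powers (qq k)) (S3 k)

/-- `O_1` is a UFD. -/
instance ufd : UniqueFactorizationMonoid (ORing 1 k) :=
  (UniqueFactorizationMonoid.iff_localizationAway_of_prime (prime_z3 k)).2 (ufd_S3 k)

end Crest.Agent.R169.O1Ufd
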