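import Crest.Agent.R169.FilNormal
import Crest.Agent.R169.O1Ufd
import Crest.Agent.R169.D7
import Crest.Agent.R169.Iface

/-!
# Row 169, F3: `D7_normal : FilNormal (D7 k).toFil` (helper789)
-/

set_option autoImplicit false

open Crest.R169

namespace Crest.Agent.R169

/-- `O n k` is integrally closed. -/
theorem isIntegrallyClosed_ORing (n : ℕ) (k : Type*) [Field k] [IsAlgClosed k] [NeZero (n : k)] :
    IsIntegrallyClosed (ORing n k) := by
  have hn : 0 < n := NeZero.pos_of_cast n k
  have : NeZero n := ⟨hn.ne'⟩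
  obtain ⟨ζ, hζ⟩ := HasEnoughRootsOfUnity.exists_primitiveRoot k n
  exact OnOverO1.isIntegrallyClosed hn hζ (O1Ufd.prime_z k) (O1Ufd.not_associated_z k)

/-- strong normality of the filtration, for all `n`. -/
theorem filQ_normal (n : ℕ) (k : Type*) [Field k] [IsAlgClosed k] [NeZero (n : k)] {N : ℕ}
    (hN : 0 < N) {m l : ℤ} {c q : QField n k} (hc : c ≠ 0)
    (h : ∀ j : ℕ, c * q ^ (N * j) ∈ FilQ n k (l + j * m)) : q ∈ FilQ n k (m / N) := by
  have := isIntegrallyClosed_ORing n k
  exact Avg.filQ_normal hN hc h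

section D7

variable (k : Type) [Field k] [IsAlgClosed k] [NeZero ((7 : ℕ) : k)]

/-- strong normality of `D7 k` -/
theorem D7_normal_strong {N : ℕ} (hN : 0 < N) {m l : ℤ} {c q : QField 7 k} (hc : c ≠ 0)
    (h : ∀ j : ℕ, c * q ^ (N * j) ∈ (D7 k).F (l + j * m)) : q ∈ (D7 k).F (m / N) :=
  filQ_normal 7 k hN hc h

/-- F3 -/
theorem D7_normal : FilNormal (D7 k).toFil := by
  intro q m l c hc _ h
  have h1 := D7_normal_strong k (N := 1) one_pos (m := m) (l := l) (c := c) (q := q) hc (fun j => by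
    have h2 := h j
    rw [one_mul]
    change c * q ^ j ∈ (D7 k).F (((l + j * m : ℕ)) : ℤ) at h2
    push_cast at h2
    exact h2)
  rw [Nat.cast_one, Int.ediv_one] at h1
  exact h1

end D7

end Crest.Agent.R169
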