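import Crest.Agent.R169.RingSpan

/-!
# Row 169, part F2: `F_{m+1} = F_m + u F_m + v F_m` for `m ≥ 100 n`, uniformly in `k`.
-/

set_option autoImplicit false

open MvPolynomial

namespace Crest.R169

namespace GenUV

variable {n : ℕ} {k : Type*} [Field k]

/-! ### Combinatorics of good exponents -/

lemma w_vals (β : Fin 5 → ℕ) :
    w 0 β = β 4 + β 1 - β 0 ∧ w 1 β = β 0 + β 2 - β 1 ∧ w 2 β = β 1 + β 3 - β 2 ∧
    w 3 β = β 2 + β 4 - β 3 ∧ w 4 β = β 3 + β 0 - β 4 := by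
  refine ⟨rfl, rfl, rfl, rfl, rfl⟩

lemma forall_w (β : Fin 5 → ℕ) (m : ℤ) : (∀ i, w i β ≤ m) ↔
    ((β 4 : ℤ) + β 1 - β 0 ≤ m ∧ (β 0 : ℤ) + β 2 - β 1 ≤ m ∧ (β 1 : ℤ) + β 3 - β 2 ≤ m ∧
    (β 2 : ℤ) + β 4 - β 3 ≤ m ∧ (β 3 : ℤ) + β 0 - β 4 ≤ m) := by
  obtain ⟨h0, h1, h2, h3, h4⟩ := w_vals β
  constructor
  · intro h
    refine ⟨?_, ?_, ?_, ?_, ?_⟩
    · rw [← h0]; exact h 0
    · rw [← h1]; exact h 1
    · rw [← h2]; exact h 2
    · rw [← h3]; exact h 3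
    · rw [← h4]; exact h 4
  · rintro ⟨a, b, c, d, e⟩ i
    fin_cases i
    · show w 0 β ≤ m; rw [h0]; exact a
    · show w 1 β ≤ m; rw [h1]; exact b
    · show w 2 β ≤ m; rw [h2]; exact c
    · show w 3 β ≤ m; rw [h3]; exact d
    · show w 4 β ≤ m; rw [h4]; exact e

lemma good_vals {β : Fin 5 → ℕ} (h : Good n β) :
    (β 0 < n ∨ β 1 < n) ∧ (β 1 < n ∨ β 2 < n) ∧ (β 2 < n ∨ β 3 < n) ∧ (β 3 < n ∨ β 4 < n) ∧
    (β 4 < n ∨ β 0 < n) :=
  ⟨h 0, h 1, h 2, h 3, h 4⟩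

lemma sub_single_vals (β : Fin 5 → ℕ) (j i : Fin 5) :
    (β - Pi.single j 1 : Fin 5 → ℕ) i = if i = j then β i - 1 else β i := by
  by_cases h : i = j
  · subst h; simp
  · simp [h]

lemma good_step {m : ℤ} (hm : 2 * (n : ℤ) ≤ m) {β : Fin 5 → ℕ} (hg : Good n β)
    (hw : ∀ i, w i β ≤ m + 1) :
    (∀ i, w i β ≤ m) ∨ ∃ j, 1 ≤ β j ∧ ∀ i, w i (β - Pi.single j 1) ≤ m := by
  rw [forall_w] at hw
  obtain ⟨g0, g1, g2, g3, g4⟩ := good_vals hg
  obtain ⟨h0, h1, h2, h3, h4⟩ := hw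
  have key : ((β 4 : ℤ) + β 1 - β 0 ≤ m ∧ (β 0 : ℤ) + β 2 - β 1 ≤ m ∧ (β 1 : ℤ) + β 3 - β 2 ≤ m ∧
    (β 2 : ℤ) + β 4 - β 3 ≤ m ∧ (β 3 : ℤ) + β 0 - β 4 ≤ m) ∨
    (1 ≤ β 0 ∧ (β 4 : ℤ) + β 1 - β 0 + 1 ≤ m ∧ (β 1 : ℤ) + β 3 - β 2 ≤ m ∧ (β 2 : ℤ) + β 4 - β 3 ≤ m) ∨
    (1 ≤ β 1 ∧ (β 0 : ℤ) + β 2 - β 1 + 1 ≤ m ∧ (β 2 : ℤ) + β 4 - β 3 ≤ m ∧ (β 3 : ℤ) + β 0 - β 4 ≤ m) ∨
    (1 ≤ β 2 ∧ (β 1 : ℤ) + β 3 - β 2 + 1 ≤ m ∧ (β 3 : ℤ) + β 0 - β 4 ≤ m ∧ (β 4 : ℤ) + β 1 - β 0 ≤ m) ∨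
    (1 ≤ β 3 ∧ (β 2 : ℤ) + β 4 - β 3 + 1 ≤ m ∧ (β 4 : ℤ) + β 1 - β 0 ≤ m ∧ (β 0 : ℤ) + β 2 - β 1 ≤ m) ∨
    (1 ≤ β 4 ∧ (β 3 : ℤ) + β 0 - β 4 + 1 ≤ m ∧ (β 0 : ℤ) + β 2 - β 1 ≤ m ∧ (β 1 : ℤ) + β 3 - β 2 ≤ m) := by
    generalize β 0 = x0 at *
    generalize β 1 = x1 at *
    generalize β 2 = x2 at *
    generalize β 3 = x3 at *
    generalize β 4 = x4 at *
    have cases : (x1 < n ∧ x3 < n ∧ x4 < n) ∨ (x2 < n ∧ x4 < n ∧ x0 < n) ∨
      (x3 < n ∧ x0 < n ∧ x1 < n) ∨ (x4 < n ∧ x1 < n ∧ x2 < n) ∨ (x0 < n ∧ x2 < n ∧ x3 < n) := by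
      omega
    rcases cases with ⟨c1, c2, c3⟩ | ⟨c1, c2, c3⟩ | ⟨c1, c2, c3⟩ | ⟨c1, c2, c3⟩ | ⟨c1, c2, c3⟩
    · clear g0 g1 g2 g3 g4; omega
    · clear g0 g1 g2 g3 g4; omega
    · clear g0 g1 g2 g3 g4; omega
    · clear g0 g1 g2 g3 g4; omega
    · clear g0 g1 g2 g3 g4; omega
  rcases key with h | ⟨a, b, c, d⟩ | ⟨a, b, c, d⟩ | ⟨a, b, c, d⟩ | ⟨a, b, c, d⟩ | ⟨a, b, c, d⟩
  · left; rw [forall_w]; exact h
  · right; refine ⟨0, a, ?_⟩
    rw [forall_w]
    have e0 : (β - Pi.single 0 1 : Fin 5 → ℕ) 0 = β 0 - 1 := by simp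
    have e1 : (β - Pi.single 0 1 : Fin 5 → ℕ) 1 = β 1 := by simp
    have e2 : (β - Pi.single 0 1 : Fin 5 → ℕ) 2 = β 2 := by simp
    have e3 : (β - Pi.single 0 1 : Fin 5 → ℕ) 3 = β 3 := by simp
    have e4 : (β - Pi.single 0 1 : Fin 5 → ℕ) 4 = β 4 := by simp
    rw [e0, e1, e2, e3, e4]; omega
  · right; refine ⟨1, a, ?_⟩
    rw [forall_w]
    have e0 : (β - Pi.single 1 1 : Fin 5 → ℕ) 0 = β 0 := by simp
    have e1 : (β - Pi.single 1 1 : Fin 5 → ℕ) 1 = β 1 - 1 := by simp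
    have e2 : (β - Pi.single 1 1 : Fin 5 → ℕ) 2 = β 2 := by simp
    have e3 : (β - Pi.single 1 1 : Fin 5 → ℕ) 3 = β 3 := by simp
    have e4 : (β - Pi.single 1 1 : Fin 5 → ℕ) 4 = β 4 := by simp
    rw [e0, e1, e2, e3, e4]; omega
  · right; refine ⟨2, a, ?_⟩
    rw [forall_w]
    have e0 : (β - Pi.single 2 1 : Fin 5 → ℕ) 0 = β 0 := by simp
    have e1 : (β - Pi.single 2 1 : Fin 5 → ℕ) 1 = β 1 := by simp
    have e2 : (β - Pi.single 2 1 : Fin 5 → ℕ) 2 = β 2 - 1 := by simp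
    have e3 : (β - Pi.single 2 1 : Fin 5 → ℕ) 3 = β 3 := by simp
    have e4 : (β - Pi.single 2 1 : Fin 5 → ℕ) 4 = β 4 := by simp
    rw [e0, e1, e2, e3, e4]; omega
  · right; refine ⟨3, a, ?_⟩
    rw [forall_w]
    have e0 : (β - Pi.single 3 1 : Fin 5 → ℕ) 0 = β 0 := by simp
    have e1 : (β - Pi.single 3 1 : Fin 5 → ℕ) 1 = β 1 := by simp
    have e2 : (β - Pi.single 3 1 : Fin 5 → ℕ) 2 = β 2 := by simp
    have e3 : (β - Pi.single 3 1 : Fin 5 → ℕ) 3 = β 3 - 1 := by simp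
    have e4 : (β - Pi.single 3 1 : Fin 5 → ℕ) 4 = β 4 := by simp
    rw [e0, e1, e2, e3, e4]; omega
  · right; refine ⟨4, a, ?_⟩
    rw [forall_w]
    have e0 : (β - Pi.single 4 1 : Fin 5 → ℕ) 0 = β 0 := by simp
    have e1 : (β - Pi.single 4 1 : Fin 5 → ℕ) 1 = β 1 := by simp
    have e2 : (β - Pi.single 4 1 : Fin 5 → ℕ) 2 = β 2 := by simp
    have e3 : (β - Pi.single 4 1 : Fin 5 → ℕ) 3 = β 3 := by simp
    have e4 : (β - Pi.single 4 1 : Fin 5 → ℕ) 4 = β 4 - 1 := by simp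
    rw [e0, e1, e2, e3, e4]; omega

/-! ### The Rees ring and nilpotency modulo `(X, uX, vX)` -/

variable (n k) in
/-- the Rees ring `⊕ F_m X^m` inside `O[X]` -/
noncomputable def ReesO : Subalgebra k (Polynomial (ORing n k)) where
  carrier := {f | ∀ m : ℕ, f.coeff m ∈ Fil n k m}
  mul_mem' := by
    intro f g hf hg m
    rw [Polynomial.coeff_mul]
    refine Submodule.sum_mem _ fun x hx => ?_
    have := Fil_mul_mem (hf x.1) (hg x.2)
    have hx' := Finset.HasAntidiagonal.mem_antidiagonal.mp hx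
    have h2 : ((x.1 : ℤ) + (x.2 : ℤ)) = (m : ℤ) := by exact_mod_cast hx'
    rwa [h2] at this
  add_mem' := by
    intro f g hf hg m
    rw [Polynomial.coeff_add]
    exact Submodule.add_mem _ (hf m) (hg m)
  algebraMap_mem' := by
    intro r m
    rw [Polynomial.algebraMap_apply, Polynomial.coeff_C]
    split_ifs with h
    · subst h
      have : algebraMap k (ORing n k) r = r • (1 : ORing n k) := Algebra.algebraMap_eq_smul_one r
      rw [this]
      exact Submodule.smul_mem _ _ one_mem_Fil_zero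
    · exact Submodule.zero_mem _

/-- the element `x X^m` -/
noncomputable def mon (m : ℕ) (x : ORing n k) (hx : x ∈ Fil n k m) : ReesO n k :=
  ⟨Polynomial.monomial m x, by
    intro j
    rw [Polynomial.coeff_monomial]
    split_ifs with h
    · subst h; exact hx
    · exact Submodule.zero_mem _⟩

lemma one_mem_Fil {m : ℤ} (hm : 0 ≤ m) : (1 : ORing n k) ∈ Fil n k m :=
  Fil_mono hm one_mem_Fil_zero

variable (n k) in
noncomputable def eX : ReesO n k := mon 1 1 (one_mem_Fil (by norm_num))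
variable (n k) in
noncomputable def eU : ReesO n k := mon 1 (uO n k) (by exact_mod_cast uO_mem)
variable (n k) in
noncomputable def eV : ReesO n k := mon 1 (vO n k) (by exact_mod_cast vO_mem)
variable (n k) in
noncomputable def eZ (j : Fin 5) : ReesO n k := mon 1 (z n k j) (by exact_mod_cast z_mem_Fil_one j)

variable (n k) in
/-- the ideal `(X, uX, vX)` -/
noncomputable def IX : Ideal (ReesO n k) := Ideal.span {eX n k, eU n k, eV n k}

variable (n k) in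
/-- `L_m = F_m + u F_m + v F_m` -/
noncomputable def LF (m : ℤ) : Submodule k (ORing n k) :=
  Fil n k m ⊔ (Fil n k m).map (LinearMap.mulLeft k (uO n k))
      ⊔ (Fil n k m).map (LinearMap.mulLeft k (vO n k))

lemma LF_of_Fil {m : ℤ} {x : ORing n k} (hx : x ∈ Fil n k m) : x ∈ LF n k m :=
  Submodule.mem_sup_left (Submodule.mem_sup_left hx)

lemma LF_of_u {m : ℤ} {x : ORing n k} (hx : x ∈ Fil n k m) : uO n k * x ∈ LF n k m :=
  Submodule.mem_sup_left (Submodule.mem_sup_right ⟨x, hx, rfl⟩)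

lemma LF_of_v {m : ℤ} {x : ORing n k} (hx : x ∈ Fil n k m) : vO n k * x ∈ LF n k m :=
  Submodule.mem_sup_right ⟨x, hx, rfl⟩

lemma mem_LF_iff {m : ℤ} {x : ORing n k} : x ∈ LF n k m ↔
    ∃ a ∈ Fil n k m, ∃ b ∈ Fil n k m, ∃ c ∈ Fil n k m, x = a + uO n k * b + vO n k * c := by
  constructor
  · intro hx
    obtain ⟨y, hy, w, hw, rfl⟩ := Submodule.mem_sup.mp hx
    obtain ⟨a, ha, b, hb, rfl⟩ := Submodule.mem_sup.mp hy
    obtain ⟨b', hb', rfl⟩ := hb
    obtain ⟨c', hc', rfl⟩ := hw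
    exact ⟨a, ha, b', hb', c', hc', rfl⟩
  · rintro ⟨a, ha, b, hb, c, hc, rfl⟩
    exact Submodule.add_mem _ (Submodule.add_mem _ (LF_of_Fil ha) (LF_of_u hb)) (LF_of_v hc)

lemma coeff_mul_mon (f : ReesO n k) (x : ORing n k) (hx : x ∈ Fil n k ((1 : ℕ) : ℤ)) (d : ℕ) :
    ((f * mon 1 x hx : ReesO n k) : Polynomial (ORing n k)).coeff (d + 1) =
      (f : Polynomial (ORing n k)).coeff d * x := by
  show ((f : Polynomial (ORing n k)) * Polynomial.monomial 1 x).coeff (d + 1) = _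
  rw [Polynomial.coeff_mul_monomial]

lemma coeff_mul_mon_zero (f : ReesO n k) (x : ORing n k) (hx : x ∈ Fil n k ((1 : ℕ) : ℤ)) :
    ((f * mon 1 x hx : ReesO n k) : Polynomial (ORing n k)).coeff 0 = 0 := by
  show ((f : Polynomial (ORing n k)) * Polynomial.monomial 1 x).coeff 0 = _
  rw [Polynomial.mul_coeff_zero, Polynomial.coeff_monomial]
  simp

lemma coeff_mem_LF {f : ReesO n k} (hf : f ∈ IX n k) (d : ℕ) :
    (f : Polynomial (ORing n k)).coeff (d + 1) ∈ LF n k d := by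
  rw [IX, Ideal.mem_span_insert] at hf
  obtain ⟨a, g, hg, rfl⟩ := hf
  rw [Ideal.mem_span_pair] at hg
  obtain ⟨b, c, rfl⟩ := hg
  have h1 : (((a * eX n k + (b * eU n k + c * eV n k) : ReesO n k)) :
      Polynomial (ORing n k)).coeff (d + 1) =
      (a * eX n k : ReesO n k).1.coeff (d + 1) + ((b * eU n k : ReesO n k).1.coeff (d + 1) +
        (c * eV n k : ReesO n k).1.coeff (d + 1)) := by
    rw [← Polynomial.coeff_add, ← Polynomial.coeff_add]; rfl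
  rw [h1]
  have e1 := coeff_mul_mon a 1 (one_mem_Fil (by norm_num)) d
  have e2 := coeff_mul_mon b (uO n k) (by exact_mod_cast uO_mem) d
  have e3 := coeff_mul_mon c (vO n k) (by exact_mod_cast vO_mem) d
  have f1 : (a * eX n k : ReesO n k).1.coeff (d + 1) = (a : Polynomial (ORing n k)).coeff d * 1 := e1
  have f2 : (b * eU n k : ReesO n k).1.coeff (d + 1) =
      (b : Polynomial (ORing n k)).coeff d * uO n k := e2
  have f3 : (c * eV n k : ReesO n k).1.coeff (d + 1) =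
      (c : Polynomial (ORing n k)).coeff d * vO n k := e3
  rw [f1, f2, f3, mul_one, mul_comm _ (uO n k), mul_comm _ (vO n k)]
  refine Submodule.add_mem _ (LF_of_Fil (a.2 d)) (Submodule.add_mem _ (LF_of_u (b.2 d))
    (LF_of_v (c.2 d)))

variable (n k) in
/-- the quotient `B = Rees/(X,uX,vX)` -/
abbrev BX : Type _ := ReesO n k ⧸ IX n k

variable (n k) in
noncomputable def ε (j : Fin 5) : BX n k := Ideal.Quotient.mk (IX n k) (eZ n k j)

lemma eX_mem : eX n k ∈ IX n k := Ideal.subset_span (by simp)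
lemma eU_mem : eU n k ∈ IX n k := Ideal.subset_span (by simp)
lemma eV_mem : eV n k ∈ IX n k := Ideal.subset_span (by simp)

lemma ε_u : ε n k 0 + ε n k 3 + ε n k 4 = 0 := by
  unfold ε
  rw [← map_add, ← map_add, Ideal.Quotient.eq_zero_iff_mem]
  have : eZ n k 0 + eZ n k 3 + eZ n k 4 = eU n k := by
    apply Subtype.ext
    show Polynomial.monomial 1 (z n k 0) + Polynomial.monomial 1 (z n k 3)
      + Polynomial.monomial 1 (z n k 4) = Polynomial.monomial 1 (uO n k)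
    rw [← map_add, ← map_add]; rfl
  rw [this]; exact eU_mem

lemma ε_v : ε n k 1 + ε n k 2 + ε n k 3 = 0 := by
  unfold ε
  rw [← map_add, ← map_add, Ideal.Quotient.eq_zero_iff_mem]
  have : eZ n k 1 + eZ n k 2 + eZ n k 3 = eV n k := by
    apply Subtype.ext
    show Polynomial.monomial 1 (z n k 1) + Polynomial.monomial 1 (z n k 2)
      + Polynomial.monomial 1 (z n k 3) = Polynomial.monomial 1 (vO n k)
    rw [← map_add, ← map_add]; rfl
  rw [this]; exact eV_mem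

lemma ε_rel (hn : 0 < n) (j : Fin 5) : (ε n k j * ε n k (j + 1)) ^ n = 0 := by
  unfold ε
  rw [← map_mul, ← map_pow, Ideal.Quotient.eq_zero_iff_mem]
  have : (eZ n k j * eZ n k (j + 1)) ^ n = (eX n k) ^ n * ((eX n k) ^ n + (eZ n k (j + 3)) ^ n) := by
    apply Subtype.ext
    show (Polynomial.monomial 1 (z n k j) * Polynomial.monomial 1 (z n k (j + 1))) ^ n =
      (Polynomial.monomial 1 (1 : ORing n k)) ^ n * ((Polynomial.monomial 1 (1 : ORing n k)) ^ n +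
        (Polynomial.monomial 1 (z n k (j + 3))) ^ n)
    rw [Polynomial.monomial_mul_monomial, Polynomial.monomial_pow, Polynomial.monomial_pow,
      Polynomial.monomial_pow, ← map_add, Polynomial.monomial_mul_monomial, mul_pow, z_rel,
      one_pow, one_mul, one_mul]
    rw [show (1 + 1) * n = n + n by ring]
  rw [this]
  refine Ideal.mul_mem_right _ _ ?_
  exact Ideal.pow_mem_of_mem _ eX_mem n hn

lemma nil_generic {B : Type*} [CommRing B] (e : Fin 5 → B) {n : ℕ} (hn : 0 < n)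
    (hu : e 0 + e 3 + e 4 = 0) (hv : e 1 + e 2 + e 3 = 0)
    (h01 : (e 0 * e 1) ^ n = 0) (h12 : (e 1 * e 2) ^ n = 0) (h23 : (e 2 * e 3) ^ n = 0)
    (h34 : (e 3 * e 4) ^ n = 0) (h40 : (e 4 * e 0) ^ n = 0) (j : Fin 5) : e j ^ (18 * n) = 0 := by
  have neg0 : ∀ (x : B) (m : ℕ), x ^ m = 0 → (-x) ^ m = 0 := by
    intro x m h
    rw [neg_pow, h, mul_zero]
  have addp : ∀ (x y : B) (a b c : ℕ), a + b ≤ c + 1 → x ^ a = 0 → y ^ b = 0 → (x + y) ^ c = 0 := by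
    intro x y a b c h hx hy
    exact (Commute.all x y).add_pow_eq_zero_of_add_le_succ_of_pow_eq_zero hx hy h
  have h4 : e 4 ^ (4 * n - 2) = 0 := by
    have h : e 4 ^ 2 = -(e 4 * e 0) + -(e 3 * e 4) := by
      linear_combination (e 4) * hu
    have h3 : (e 4 ^ 2) ^ (2 * n - 1) = 0 := by
      rw [h]
      exact addp _ _ n n _ (by omega) (neg0 _ _ h40) (neg0 _ _ h34)
    rw [← pow_mul] at h3
    rwa [show 2 * (2 * n - 1) = 4 * n - 2 by omega] at h3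
  have h2 : e 2 ^ (4 * n - 2) = 0 := by
    have h : e 2 ^ 2 = -(e 1 * e 2) + -(e 2 * e 3) := by
      linear_combination (e 2) * hv
    have h3 : (e 2 ^ 2) ^ (2 * n - 1) = 0 := by
      rw [h]
      exact addp _ _ n n _ (by omega) (neg0 _ _ h12) (neg0 _ _ h23)
    rw [← pow_mul] at h3
    rwa [show 2 * (2 * n - 1) = 4 * n - 2 by omega] at h3
  have h3 : e 3 ^ (14 * n - 10) = 0 := by
    have h : e 3 ^ 2 = (e 0 * e 1 + -(e 2 * e 3)) + (-(e 3 * e 4) + -(e 4 * e 2)) := by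
      linear_combination (e 3 + e 4) * hv - (e 1) * hu
    have h5 : (e 0 * e 1 + -(e 2 * e 3)) ^ (2 * n - 1) = 0 :=
      addp _ _ n n _ (by omega) h01 (neg0 _ _ h23)
    have h42 : (e 4 * e 2) ^ (4 * n - 2) = 0 := by rw [mul_pow, h4, zero_mul]
    have h6 : (-(e 3 * e 4) + -(e 4 * e 2)) ^ (5 * n - 3) = 0 :=
      addp _ _ n (4 * n - 2) _ (by omega) (neg0 _ _ h34) (neg0 _ _ h42)
    have h7 : (e 3 ^ 2) ^ (7 * n - 5) = 0 := by
      rw [h]
      exact addp _ _ _ _ _ (by omega) h5 h6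
    rw [← pow_mul] at h7
    rwa [show 2 * (7 * n - 5) = 14 * n - 10 by omega] at h7
  have h0 : e 0 ^ (18 * n - 13) = 0 := by
    have : e 0 = -(e 3) + -(e 4) := by linear_combination hu
    rw [this]
    exact addp _ _ _ _ _ (by omega) (neg0 _ _ h3) (neg0 _ _ h4)
  have h1 : e 1 ^ (18 * n - 13) = 0 := by
    have : e 1 = -(e 3) + -(e 2) := by linear_combination hv
    rw [this]
    exact addp _ _ _ _ _ (by omega) (neg0 _ _ h3) (neg0 _ _ h2)
  fin_cases j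
  · exact pow_eq_zero_of_le (by omega) h0
  · exact pow_eq_zero_of_le (by omega) h1
  · exact pow_eq_zero_of_le (by omega) h2
  · exact pow_eq_zero_of_le (by omega) h3
  · exact pow_eq_zero_of_le (by omega) h4

lemma ε_nil (hn : 0 < n) (j : Fin 5) : ε n k j ^ (18 * n) = 0 :=
  nil_generic (ε n k) hn ε_u ε_v (ε_rel hn 0) (ε_rel hn 1) (ε_rel hn 2) (ε_rel hn 3) (ε_rel hn 4) j

/-- `z^γ X^K` as an element of the Rees ring -/
lemma zm_mem_Fil_sum (γ : Fin 5 → ℕ) : zm n k γ ∈ Fil n k ((∑ i, γ i : ℕ) : ℤ) := by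
  apply zm_mem_Fil
  rw [forall_w]
  simp only [Fin.sum_univ_five]
  omega

lemma mon_zm (γ : Fin 5 → ℕ) :
    (∏ j, eZ n k j ^ γ j : ReesO n k) = mon (∑ i, γ i) (zm n k γ) (zm_mem_Fil_sum γ) := by
  apply Subtype.ext
  have h1 : ((∏ j, eZ n k j ^ γ j : ReesO n k) : Polynomial (ORing n k)) =
      ∏ j, (Polynomial.monomial 1 (z n k j)) ^ γ j := by
    rw [SubmonoidClass.coe_finsetProd]
    rfl
  rw [h1]
  show _ = Polynomial.monomial (∑ i, γ i) (zm n k γ)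
  simp only [Polynomial.monomial_pow, one_mul, Fin.prod_univ_five,
    Polynomial.monomial_mul_monomial, Fin.sum_univ_five, zm]

/-- every monomial of degree `≥ 90 n` lies in `L` -/
lemma zm_mem_LF (hn : 0 < n) (γ : Fin 5 → ℕ) {d : ℕ} (hd : ∑ i, γ i = d + 1) (h90 : 90 * n ≤ d + 1) :
    zm n k γ ∈ LF n k d := by
  have hex : ∃ j, 18 * n ≤ γ j := by
    by_contra hcon
    push Not at hcon
    have h : ∑ i, γ i ≤ ∑ _i : Fin 5, (18 * n - 1) :=
      Finset.sum_le_sum fun i _ => by have := hcon i; omega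
    simp only [Finset.sum_const, Finset.card_univ, Fintype.card_fin, smul_eq_mul] at h
    omega
  obtain ⟨j, hj⟩ := hex
  have hmem : mon (∑ i, γ i) (zm n k γ) (zm_mem_Fil_sum γ) ∈ IX n k := by
    rw [← mon_zm]
    refine Ideal.prod_mem _ (Finset.mem_univ j) ?_
    have h18 : eZ n k j ^ (18 * n) ∈ IX n k := by
      rw [← Ideal.Quotient.eq_zero_iff_mem, map_pow]
      exact ε_nil hn j
    exact Ideal.pow_mem_of_pow_mem _ h18 hj
  have := coeff_mem_LF hmem d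
  have h2 : ((mon (∑ i, γ i) (zm n k γ) (zm_mem_Fil_sum γ) : ReesO n k) :
      Polynomial (ORing n k)).coeff (d + 1) = zm n k γ := by
    show (Polynomial.monomial (∑ i, γ i) (zm n k γ)).coeff (d + 1) = _
    rw [Polynomial.coeff_monomial, if_pos hd]
  rwa [h2] at this

lemma LF_mul_mem {a b : ℤ} {x y : ORing n k} (hx : x ∈ LF n k a) (hy : y ∈ Fil n k b) :
    x * y ∈ LF n k (a + b) := by
  rw [mem_LF_iff] at hx ⊢
  obtain ⟨p, hp, q, hq, r, hr, rfl⟩ := hx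
  refine ⟨p * y, Fil_mul_mem hp hy, q * y, Fil_mul_mem hq hy, r * y, Fil_mul_mem hr hy, ?_⟩
  ring

variable (n k) in
/-- the span of `z^γ f` with `|γ| = K`, `f ∈ F_m` -/
noncomputable def MK (K : ℕ) (m : ℤ) : Submodule k (ORing n k) :=
  Submodule.span k {x | ∃ γ : Fin 5 → ℕ, ∑ i, γ i = K ∧ ∃ f ∈ Fil n k m, x = zm n k γ * f}

lemma Fil_step (hn : 0 < n) {m : ℤ} (hm : 2 * (n : ℤ) ≤ m) :
    Fil n k (m + 1) ≤ Fil n k m ⊔ MK n k 1 m := by
  rw [Fil_eq_span_good hn, Submodule.span_le]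
  rintro x ⟨β, ⟨hg, hw⟩, rfl⟩
  rcases good_step hm hg hw with h | ⟨j, hj, h⟩
  · exact Submodule.mem_sup_left (zm_mem_Fil h)
  · apply Submodule.mem_sup_right
    apply Submodule.subset_span
    refine ⟨Pi.single j 1, ?_, zm n k (β - Pi.single j 1), zm_mem_Fil h, ?_⟩
    · rw [Finset.sum_pi_single']; simp
    · rw [← zm_add]
      congr 1
      funext i
      simp only [Pi.add_apply, Pi.sub_apply]
      by_cases hi : i = j
      · subst hi; simp only [Pi.single_eq_same]; omega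
      · rw [Pi.single_eq_of_ne hi]; omega

lemma Fil_steps (hn : 0 < n) (K : ℕ) {m : ℤ} (hm : 2 * (n : ℤ) + K ≤ m + 1) :
    Fil n k (m + 1) ≤ Fil n k m ⊔ MK n k K (m + 1 - K) := by
  induction K with
  | zero =>
    intro x hx
    apply Submodule.mem_sup_right
    apply Submodule.subset_span
    refine ⟨0, by simp, x, ?_, by rw [zm_zero, one_mul]⟩
    simpa using hx
  | succ K ih =>
    refine (ih (by push_cast at hm ⊢; omega)).trans ?_
    refine sup_le le_sup_left ?_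
    rw [MK, Submodule.span_le]
    rintro x ⟨γ, hγ, f, hf, rfl⟩
    have hf' : f ∈ Fil n k ((m - K) + 1) := by
      rw [show m - (K : ℤ) + 1 = m + 1 - K by ring]; exact hf
    have h1 := Fil_step hn (by push_cast at hm; omega) hf'
    obtain ⟨a, ha, b, hb, rfl⟩ := Submodule.mem_sup.mp h1
    rw [mul_add]
    refine Submodule.add_mem _ (Submodule.mem_sup_left ?_) (Submodule.mem_sup_right ?_)
    · have h2 := zm_mem_Fil_sum (n := n) (k := k) γ
      have := Fil_mul_mem h2 ha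
      rw [hγ] at this
      rwa [show (K : ℤ) + (m - K) = m by ring] at this
    · have hlin : ∀ b ∈ MK n k 1 (m - K), zm n k γ * b ∈ MK n k (K + 1) (m + 1 - ((K + 1 : ℕ) : ℤ)) := by
        intro b hb
        induction hb using Submodule.span_induction with
        | mem b hb =>
          obtain ⟨δ, hδ, g, hg, rfl⟩ := hb
          apply Submodule.subset_span
          refine ⟨γ + δ, ?_, g, ?_, ?_⟩
          · simp only [Pi.add_apply, Finset.sum_add_distrib, hγ, hδ]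
          · rw [show m + 1 - ((K + 1 : ℕ) : ℤ) = m - K by push_cast; ring]; exact hg
          · rw [zm_add, mul_assoc]
        | zero => rw [mul_zero]; exact Submodule.zero_mem _
        | add x y _ _ h1 h2 => rw [mul_add]; exact Submodule.add_mem _ h1 h2
        | smul c x _ h => rw [mul_smul_comm]; exact Submodule.smul_mem _ _ h
      exact hlin b hb

/-- (F2) -/
theorem Fil_succ_le (hn : 0 < n) {m : ℤ} (hm : 100 * (n : ℤ) ≤ m) :
    Fil n k (m + 1) ≤ LF n k m := by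
  refine (Fil_steps hn (90 * n) (by push_cast; omega)).trans ?_
  refine sup_le (fun x hx => LF_of_Fil hx) ?_
  rw [MK, Submodule.span_le]
  rintro x ⟨γ, hγ, f, hf, rfl⟩
  have h1 := zm_mem_LF (n := n) (k := k) hn γ (d := 90 * n - 1) (by omega) (by omega)
  have := LF_mul_mem h1 hf
  rwa [show ((90 * n - 1 : ℕ) : ℤ) + (m + 1 - ((90 * n : ℕ) : ℤ)) = m by omega] at this

theorem Fil_succ (hn : 0 < n) (m : ℤ) (hm : 100 * n ≤ m) :
    Fil n k (m + 1) = Fil n k m ⊔ (Fil n k m).map (LinearMap.mulLeft k (uO n k))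
      ⊔ (Fil n k m).map (LinearMap.mulLeft k (vO n k)) := by
  apply le_antisymm (Fil_succ_le hn hm)
  refine sup_le (sup_le (Fil_mono (by omega)) ?_) ?_
  · rintro x ⟨y, hy, rfl⟩
    have := Fil_mul_mem uO_mem hy
    rwa [add_comm] at this
  · rintro x ⟨y, hy, rfl⟩
    have := Fil_mul_mem vO_mem hy
    rwa [add_comm] at this

end GenUV

end Crest.R169
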