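import Mathlib

/-!
Row 169, module `QReg`: regular sequences are quasi-regular (for modules), proved by an elementary
induction; final form for a regular sequence of length three.
-/

set_option autoImplicit false

namespace Crest.Agent.R169

open RingTheory.Sequence

section General

variable {R M : Type*} [CommRing R] [AddCommGroup M] [Module R M]

/-- `gr_I M` is free on the "monomials" `e j a` over `M / I M`. -/
structure QR (M : Type*) {R : Type*} [CommRing R] [AddCommGroup M] [Module R M]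
    (I : Ideal R) (ι : ℕ → Type) [∀ j, Fintype (ι j)] (e : ∀ j, ι j → R) : Prop where
  mem : ∀ j a, e j a ∈ I ^ j
  span : ∀ j, ∀ m ∈ I ^ j • (⊤ : Submodule R M), ∃ w : ι j → M, m = ∑ a, e j a • w a
  inj : ∀ j (w : ι j → M), ∑ a, e j a • w a ∈ I ^ (j + 1) • (⊤ : Submodule R M) →
    ∀ a, w a ∈ I • (⊤ : Submodule R M)

theorem qr_decomp (I : Ideal R) (c : R) (ν : ℕ) :
    ∀ m ∈ (I ⊔ Ideal.span {c}) ^ ν • (⊤ : Submodule R M), ∃ f : ℕ → M,
      (∀ j, f j ∈ I ^ j • (⊤ : Submodule R M)) ∧ (∀ j, ν < j → f j = 0) ∧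
      m = ∑ j ∈ Finset.range (ν + 1), c ^ (ν - j) • f j := by
  induction ν with
  | zero =>
    intro m _
    refine ⟨fun j => if j = 0 then m else 0, ?_, ?_, ?_⟩
    · intro j
      by_cases hj : j = 0
      · subst hj; simp
      · simp [hj]
    · intro j hj
      simp [Nat.pos_iff_ne_zero.mp hj]
    · simp
  | succ ν ih =>
    intro m hm
    rw [pow_succ', Submodule.mul_smul] at hm
    refine Submodule.smul_induction_on hm ?_ ?_
    · intro a ha n hn
      obtain ⟨f, hf1, hf2, hf3⟩ := ih n hn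
      obtain ⟨i, hi, b, hb, rfl⟩ := Submodule.mem_sup.mp ha
      obtain ⟨r, rfl⟩ := Ideal.mem_span_singleton'.mp hb
      refine ⟨fun j => r • f j + (if j = 0 then 0 else i • f (j - 1)), ?_, ?_, ?_⟩
      · intro j
        refine Submodule.add_mem _ (Submodule.smul_mem _ _ (hf1 j)) ?_
        by_cases hj : j = 0
        · simp [hj]
        · obtain ⟨j, rfl⟩ := Nat.exists_eq_succ_of_ne_zero hj
          simp only [Nat.succ_eq_add_one, Nat.add_eq_zero_iff, one_ne_zero, and_false, if_false,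
            Nat.add_sub_cancel]
          rw [pow_succ', Submodule.mul_smul]
          exact Submodule.smul_mem_smul hi (hf1 j)
      · intro j hj
        have h1 : f j = 0 := hf2 j (by omega)
        have h2 : f (j - 1) = 0 := hf2 (j - 1) (by omega)
        simp [h1, h2]
      · simp only [smul_add]
        rw [Finset.sum_add_distrib, Finset.sum_range_succ, hf2 (ν + 1) (by omega), smul_zero,
          smul_zero, add_zero, Finset.sum_range_succ' (fun j => c ^ (ν + 1 - j) •
            (if j = 0 then (0 : M) else i • f (j - 1)))]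
        simp only [if_true, smul_zero, add_zero, Nat.add_eq_zero_iff, one_ne_zero, and_false,
          if_false, Nat.add_sub_cancel, Nat.add_sub_add_right]
        rw [hf3, add_smul, add_comm, Finset.smul_sum, Finset.smul_sum]
        congr 1
        · refine Finset.sum_congr rfl fun j hj => ?_
          have hj' : j ≤ ν := by simpa [Nat.lt_succ_iff] using hj
          rw [smul_smul, smul_smul, Nat.succ_sub hj', pow_succ]
          congr 1
          ring
        · refine Finset.sum_congr rfl fun j hj => ?_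
          rw [smul_smul, smul_smul, mul_comm]
    · intro x y hx hy
      obtain ⟨f, hf1, hf2, hf3⟩ := hx
      obtain ⟨g, hg1, hg2, hg3⟩ := hy
      refine ⟨fun j => f j + g j, fun j => Submodule.add_mem _ (hf1 j) (hg1 j), ?_, ?_⟩
      · intro j hj
        simp only [hf2 j hj, hg2 j hj, add_zero]
      · rw [hf3, hg3, ← Finset.sum_add_distrib]
        simp only [smul_add]

/-- cancellation of `c` in the filtration. -/
theorem QR.cancel {I : Ideal R} {ι : ℕ → Type} [∀ j, Fintype (ι j)] {e : ∀ j, ι j → R}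
    (h : QR M I ι e) (c : R)
    (hc : ∀ m : M, c • m ∈ I • (⊤ : Submodule R M) → m ∈ I • (⊤ : Submodule R M)) (ν : ℕ) :
    ∀ y : M, c • y ∈ I ^ ν • (⊤ : Submodule R M) → y ∈ I ^ ν • (⊤ : Submodule R M) := by
  induction ν with
  | zero => intro y _; simp
  | succ ν ih =>
    intro y hy
    have h1 : y ∈ I ^ ν • (⊤ : Submodule R M) := by
      apply ih
      exact Submodule.smul_mono_left (Ideal.pow_le_pow_right (Nat.le_succ ν)) hy
    obtain ⟨w, rfl⟩ := h.span ν y h1
    have h2 : ∑ a, e ν a • (c • w a) ∈ I ^ (ν + 1) • (⊤ : Submodule R M) := by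
      convert hy using 1
      rw [Finset.smul_sum]
      exact Finset.sum_congr rfl fun a _ => smul_comm _ _ _
    have h3 := h.inj ν _ h2
    rw [pow_succ, Submodule.mul_smul]
    exact Submodule.sum_mem _ fun a _ => Submodule.smul_mem_smul (h.mem ν a) (hc _ (h3 a))

theorem qr_core (I : Ideal R) (c : R)
    (hS : ∀ ν : ℕ, ∀ y : M, c • y ∈ I ^ ν • (⊤ : Submodule R M) →
      y ∈ I ^ ν • (⊤ : Submodule R M)) (ν : ℕ) :
    ∀ f : ℕ → M, (∀ j, f j ∈ I ^ j • (⊤ : Submodule R M)) →
      ∑ j ∈ Finset.range (ν + 1), c ^ (ν - j) • f j ∈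
        (I ⊔ Ideal.span {c}) ^ (ν + 1) • (⊤ : Submodule R M) →
      ∀ j ≤ ν, ∃ g ∈ I ^ j • (⊤ : Submodule R M),
        f j - c • g ∈ I ^ (j + 1) • (⊤ : Submodule R M) := by
  induction ν with
  | zero =>
    intro f hf h j hj
    obtain rfl : j = 0 := by omega
    obtain ⟨g, hg1, _, hg3⟩ := qr_decomp I c (0 + 1) _ h
    refine ⟨g 0, hg1 0, ?_⟩
    have h1 : f 0 = c • g 0 + g 1 := by
      simpa [Finset.sum_range_succ] using hg3
    rw [h1, add_sub_cancel_left]
    exact hg1 1
  | succ ν ih =>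
    intro f hf h
    obtain ⟨g, hg1, _, hg3⟩ := qr_decomp I c (ν + 1 + 1) _ h
    set hh : ℕ → M := fun j => f j - c • g j with hhdef
    set Y : M := ∑ j ∈ Finset.range (ν + 1), c ^ (ν - j) • hh j with hY
    have hhm : ∀ j, hh j ∈ I ^ j • (⊤ : Submodule R M) := fun j =>
      Submodule.sub_mem _ (hf j) (Submodule.smul_mem _ _ (hg1 j))
    -- `c • Y + hh (ν+1) = g (ν+2)`
    have key : c • Y + hh (ν + 1) = g (ν + 1 + 1) := by
      have e1 : ∑ j ∈ Finset.range (ν + 1 + 1), c ^ (ν + 1 - j) • hh j = g (ν + 1 + 1) := by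
        simp only [hhdef, smul_sub]
        rw [Finset.sum_sub_distrib, hg3, Finset.sum_range_succ _ (ν + 1 + 1)]
        simp only [Nat.sub_self, pow_zero, one_smul]
        rw [add_comm, add_sub_assoc, ← Finset.sum_sub_distrib]
        rw [Finset.sum_eq_zero, add_zero]
        intro j hj
        have hj' : j ≤ ν + 1 := by simpa [Nat.lt_succ_iff] using hj
        rw [smul_smul, Nat.succ_sub hj', pow_succ, sub_self]
      rw [← e1, Finset.sum_range_succ, Nat.sub_self, pow_zero, one_smul, hY, Finset.smul_sum]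
      congr 1
      refine Finset.sum_congr rfl fun j hj => ?_
      have hj' : j ≤ ν := by simpa [Nat.lt_succ_iff] using hj
      rw [smul_smul, Nat.succ_sub hj', pow_succ']
    have hYm : Y ∈ I ^ (ν + 1) • (⊤ : Submodule R M) := by
      apply hS
      rw [eq_sub_of_add_eq key]
      refine Submodule.sub_mem _ ?_ (hhm _)
      exact Submodule.smul_mono_left (Ideal.pow_le_pow_right (Nat.le_succ _)) (hg1 _)
    intro j hj
    rcases Nat.lt_or_ge ν j with hj' | hj'
    · obtain rfl : j = ν + 1 := by omega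
      refine ⟨g (ν + 1) - Y, Submodule.sub_mem _ (hg1 _) hYm, ?_⟩
      have : f (ν + 1) - c • (g (ν + 1) - Y) = g (ν + 1 + 1) := by
        rw [← key, smul_sub]
        simp only [hhdef]
        abel
      rw [this]
      exact hg1 _
    · obtain ⟨g', hg', hg''⟩ := ih hh hhm (by
        refine Submodule.smul_mono_left ?_ hYm
        exact Ideal.pow_right_mono le_sup_left _) j hj'
      refine ⟨g j + g', Submodule.add_mem _ (hg1 j) hg', ?_⟩
      have : f j - c • (g j + g') = hh j - c • g' := by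
        rw [smul_add]
        simp only [hhdef]
        abel
      rw [this]
      exact hg''

/-- the index types of the next step -/
@[reducible] def qrι (ι : ℕ → Type) (ν : ℕ) : Type := Σ j : Fin (ν + 1), ι j

/-- Adding one more element at the END of a regular sequence. -/
theorem QR.step {I : Ideal R} {ι : ℕ → Type} [∀ j, Fintype (ι j)] {e : ∀ j, ι j → R}
    (h : QR M I ι e) (c : R)
    (hc : ∀ m : M, c • m ∈ I • (⊤ : Submodule R M) → m ∈ I • (⊤ : Submodule R M)) :
    QR M (I ⊔ Ideal.span {c}) (qrι ι) (fun ν p => c ^ (ν - (p.1 : ℕ)) * e p.1 p.2) where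
  mem := by
    intro ν ⟨j, a⟩
    have hj : (j : ℕ) ≤ ν := Nat.lt_succ_iff.mp j.2
    have h1 : (I ⊔ Ideal.span {c}) ^ ν =
        (I ⊔ Ideal.span {c}) ^ (ν - (j : ℕ)) * (I ⊔ Ideal.span {c}) ^ (j : ℕ) := by
      rw [← pow_add, Nat.sub_add_cancel hj]
    rw [h1]
    refine Ideal.mul_mem_mul ?_ (Ideal.pow_right_mono le_sup_left _ (h.mem j a))
    exact Ideal.pow_mem_pow (Ideal.mem_sup_right (Ideal.mem_span_singleton_self c)) _
  span := by
    intro ν m hm
    obtain ⟨f, hf1, _, hf3⟩ := qr_decomp I c ν m hm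
    choose w hw using fun j => h.span j (f j) (hf1 j)
    refine ⟨fun p => w p.1 p.2, ?_⟩
    rw [Fintype.sum_sigma, hf3, ← Fin.sum_univ_eq_sum_range (fun j => c ^ (ν - j) • f j)]
    refine Finset.sum_congr rfl fun j _ => ?_
    rw [hw (j : ℕ), Finset.smul_sum]
    refine Finset.sum_congr rfl fun a _ => ?_
    rw [smul_smul]
  inj := by
    intro ν w hw
    let f : ℕ → M := fun j => if hj : j < ν + 1 then ∑ a, e j a • w ⟨⟨j, hj⟩, a⟩ else 0
    have hf : ∀ j, f j ∈ I ^ j • (⊤ : Submodule R M) := by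
      intro j
      by_cases hj : j < ν + 1
      · simp only [f, dif_pos hj]
        exact Submodule.sum_mem _ fun a _ => Submodule.smul_mem_smul (h.mem j a) trivial
      · simp only [f, dif_neg hj]
        exact zero_mem _
    have hsum : ∑ j ∈ Finset.range (ν + 1), c ^ (ν - j) • f j ∈
        (I ⊔ Ideal.span {c}) ^ (ν + 1) • (⊤ : Submodule R M) := by
      convert hw using 1
      rw [Fintype.sum_sigma, ← Fin.sum_univ_eq_sum_range (fun j => c ^ (ν - j) • f j)]
      refine Finset.sum_congr rfl fun j _ => ?_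
      have : f j = ∑ a, e j a • w ⟨j, a⟩ := by
        simp only [f, dif_pos j.2]
      rw [this, Finset.smul_sum]
      refine Finset.sum_congr rfl fun a _ => ?_
      rw [smul_smul]
    rintro ⟨j, a⟩
    obtain ⟨g, hg1, hg2⟩ := qr_core I c (h.cancel c hc) ν f hf hsum j (Nat.lt_succ_iff.mp j.2)
    obtain ⟨g', rfl⟩ := h.span j g hg1
    have h1 : ∑ a, e j a • (w ⟨j, a⟩ - c • g' a) ∈ I ^ ((j : ℕ) + 1) • (⊤ : Submodule R M) := by
      convert hg2 using 1
      simp only [f, dif_pos j.2, smul_sub]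
      rw [Finset.sum_sub_distrib, Finset.smul_sum]
      congr 1
      exact Finset.sum_congr rfl fun a _ => smul_comm _ _ _
    have h2 := h.inj j _ h1 a
    have h3 : w ⟨j, a⟩ = (w ⟨j, a⟩ - c • g' a) + c • g' a := by abel
    rw [h3]
    refine Submodule.add_mem _ (Submodule.smul_mono_left le_sup_left h2) ?_
    exact Submodule.smul_mem_smul (Ideal.mem_sup_right (Ideal.mem_span_singleton_self c)) trivial

/-- The first step. -/
theorem QR.single (x : R) (hx : IsSMulRegular M x) :
    QR M (Ideal.span {x}) (fun _ => Unit) (fun j _ => x ^ j) where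
  mem := fun j _ => Ideal.pow_mem_pow (Ideal.mem_span_singleton_self x) _
  span := by
    intro j m hm
    rw [Ideal.span_singleton_pow, Submodule.ideal_span_singleton_smul,
      Submodule.mem_smul_pointwise_iff_exists] at hm
    obtain ⟨m', _, rfl⟩ := hm
    exact ⟨fun _ => m', by simp⟩
  inj := by
    intro j w hw a
    rw [Ideal.span_singleton_pow, Submodule.ideal_span_singleton_smul,
      Submodule.mem_smul_pointwise_iff_exists] at hw
    obtain ⟨m', _, hm'⟩ := hw
    have h1 : x ^ j • (x • m') = x ^ j • w a := by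
      rw [smul_smul, ← pow_succ, hm']
      simp
    have h2 : x • m' = w a := (hx.pow j) h1
    rw [← h2]
    exact Submodule.smul_mem_smul (Ideal.mem_span_singleton_self x) trivial

/-- exponents `(b, c)` with `b + c ≤ j` -/
def tri (j : ℕ) : Finset (ℕ × ℕ) :=
  (Finset.range (j + 1) ×ˢ Finset.range (j + 1)).filter fun p => p.1 + p.2 ≤ j

theorem mem_tri {j : ℕ} {p : ℕ × ℕ} : p ∈ tri j ↔ p.1 + p.2 ≤ j := by
  simp only [tri, Finset.mem_filter, Finset.mem_product, Finset.mem_range]
  omega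

/-- the sum over the iterated index set -/
theorem sum_qrι_qrι {α : Type*} [AddCommMonoid α] (ν : ℕ) (F : ℕ → ℕ → ℕ → α) :
    ∑ p : qrι (qrι fun _ => Unit) ν, F p.1 (p.2.1) ν =
      ∑ p ∈ tri ν, F (ν - p.2) (ν - p.1 - p.2) ν := by
  rw [Fintype.sum_sigma]
  simp_rw [Fintype.sum_sigma]
  simp only [Finset.univ_unique, Finset.sum_const, Finset.card_singleton, one_smul]
  rw [Fin.sum_univ_eq_sum_range (fun j => ∑ i : Fin (j + 1), F j i ν)]
  have : ∀ j, ∑ i : Fin (j + 1), F j i ν = ∑ i ∈ Finset.range (j + 1), F j i ν := fun j =>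
    Fin.sum_univ_eq_sum_range (fun i => F j i ν) (j + 1)
  simp_rw [this]
  rw [Finset.sum_sigma']
  refine Finset.sum_nbij' (fun p => (p.1 - p.2, ν - p.1)) (fun p => ⟨ν - p.2, ν - p.1 - p.2⟩)
    ?_ ?_ ?_ ?_ ?_
  · rintro ⟨j, i⟩ h
    simp only [Finset.mem_sigma, Finset.mem_range] at h
    rw [mem_tri]
    dsimp only
    omega
  · rintro ⟨b, c⟩ h
    rw [mem_tri] at h
    simp only [Finset.mem_sigma, Finset.mem_range]
    dsimp only at h
    omega
  · rintro ⟨j, i⟩ h
    simp only [Finset.mem_sigma, Finset.mem_range] at h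
    have h1 : ν - (ν - j) = j := by omega
    have h2 : ν - (j - i) - (ν - j) = i := by omega
    simp only [h1, h2]
  · rintro ⟨b, c⟩ h
    rw [mem_tri] at h
    dsimp only at h ⊢
    rw [Prod.mk.injEq]
    omega
  · rintro ⟨j, i⟩ h
    simp only [Finset.mem_sigma, Finset.mem_range] at h
    have h1 : ν - (ν - j) = j := by omega
    have h2 : ν - (j - i) - (ν - j) = i := by omega
    simp only [h1, h2]

/-- The ideal `(x₀, x₁, x₂)`. -/
def ideal3 (x : Fin 3 → R) : Ideal R := Ideal.span (Set.range x)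

theorem ideal3_eq (x : Fin 3 → R) :
    Ideal.span (Set.range x) = (Ideal.span {x 0} ⊔ Ideal.span {x 1}) ⊔ Ideal.span {x 2} := by
  rw [← Ideal.span_union, ← Ideal.span_union]
  congr 1
  ext z
  simp only [Set.mem_range, Set.union_singleton, Set.mem_insert_iff, Set.mem_singleton_iff]
  constructor
  · rintro ⟨i, rfl⟩
    fin_cases i <;> simp
  · rintro (rfl | rfl | rfl)
    exacts [⟨2, rfl⟩, ⟨1, rfl⟩, ⟨0, rfl⟩]

theorem qr_triple (x : Fin 3 → R) (hx : IsWeaklyRegular M [x 0, x 1, x 2]) :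
    QR M (Ideal.span (Set.range x)) (qrι (qrι fun _ => Unit))
      (fun ν p => x 2 ^ (ν - (p.1 : ℕ)) * (x 1 ^ ((p.1 : ℕ) - (p.2.1 : ℕ)) * x 0 ^ (p.2.1 : ℕ))) := by
  rw [ideal3_eq]
  rw [isWeaklyRegular_iff] at hx
  have h0 : IsSMulRegular M (x 0) := by
    have := hx 0 (by simp)
    have e : (Ideal.ofList (List.take 0 [x 0, x 1, x 2]) • (⊤ : Submodule R M)) = ⊥ := by simp
    intro m m' h
    have h1 := this (a₁ := Submodule.Quotient.mk m) (a₂ := Submodule.Quotient.mk m')
      (by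
        change Submodule.Quotient.mk (x 0 • m) = Submodule.Quotient.mk (x 0 • m')
        exact congrArg _ h)
    rw [Submodule.Quotient.eq, e, Submodule.mem_bot, sub_eq_zero] at h1
    exact h1
  have gen : ∀ (N : Submodule R M) (c : R), IsSMulRegular (M ⧸ N) c →
      ∀ m : M, c • m ∈ N → m ∈ N := by
    intro N c hc m hm
    rw [← Submodule.Quotient.mk_eq_zero] at hm ⊢
    rw [Submodule.Quotient.mk_smul] at hm
    exact hc.right_eq_zero_of_smul hm
  have h1 := gen _ _ (hx 1 (by simp))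
  have h2 := gen _ _ (hx 2 (by simp))
  have e1 : Ideal.ofList (List.take 1 [x 0, x 1, x 2]) = Ideal.span {x 0} := by
    simp
  have e2 : Ideal.ofList (List.take 2 [x 0, x 1, x 2]) = Ideal.span {x 0} ⊔ Ideal.span {x 1} := by
    simp
  rw [e1] at h1
  rw [e2] at h2
  exact ((QR.single (x 0) h0).step (x 1) h1).step (x 2) h2

/-- **Spanning**. -/
theorem qreg_span (x : Fin 3 → R) (hx : IsWeaklyRegular M [x 0, x 1, x 2]) (j : ℕ) (m : M)
    (hm : m ∈ Ideal.span (Set.range x) ^ j • (⊤ : Submodule R M)) :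
    ∃ w : ℕ × ℕ → M, m = ∑ p ∈ tri j, (x 0 ^ (j - p.1 - p.2) * x 1 ^ p.1 * x 2 ^ p.2) • w p := by
  obtain ⟨w, hw⟩ := (qr_triple x hx).span j m hm
  let W : ℕ → ℕ → M := fun a b => if h : ∃ (ha : a < j + 1), b < a + 1 then
    w ⟨⟨a, h.1⟩, ⟨⟨b, h.2⟩, ()⟩⟩ else 0
  refine ⟨fun p => W (j - p.2) (j - p.1 - p.2), ?_⟩
  rw [hw]
  have h1 := sum_qrι_qrι j (fun a b ν => (x 2 ^ (ν - a) * (x 1 ^ (a - b) * x 0 ^ b)) • W a b)
  refine Eq.trans ?_ (h1.trans ?_)
  · refine Finset.sum_congr rfl ?_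
    rintro ⟨a, b, u⟩ _
    have : W a b = w ⟨a, b, u⟩ := by
      simp only [W]
      rw [dif_pos ⟨a.2, b.2⟩]
    simp only [this]
  · refine Finset.sum_congr rfl ?_
    rintro ⟨b, c⟩ hp
    rw [mem_tri] at hp
    dsimp only at hp ⊢
    have h2 : j - (j - c) = c := by omega
    have h3 : j - c - (j - b - c) = b := by omega
    rw [h2, h3]
    congr 1
    ring

/-- **Quasi-regularity**. -/
theorem qreg_inj (x : Fin 3 → R) (hx : IsWeaklyRegular M [x 0, x 1, x 2]) (j : ℕ)
    (w : ℕ × ℕ → M)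
    (hw : ∑ p ∈ tri j, (x 0 ^ (j - p.1 - p.2) * x 1 ^ p.1 * x 2 ^ p.2) • w p ∈
      Ideal.span (Set.range x) ^ (j + 1) • (⊤ : Submodule R M)) :
    ∀ p ∈ tri j, w p ∈ Ideal.span (Set.range x) • (⊤ : Submodule R M) := by
  have h1 := sum_qrι_qrι j (fun a b ν => (x 2 ^ (ν - a) * (x 1 ^ (a - b) * x 0 ^ b)) •
    w (a - b, ν - a))
  have h2 : ∑ p ∈ tri j, (x 0 ^ (j - p.1 - p.2) * x 1 ^ p.1 * x 2 ^ p.2) • w p =
      ∑ p ∈ tri j, (x 2 ^ (j - (j - p.2)) * (x 1 ^ ((j - p.2) - (j - p.1 - p.2)) *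
        x 0 ^ (j - p.1 - p.2))) • w ((j - p.2) - (j - p.1 - p.2), j - (j - p.2)) := by
    refine Finset.sum_congr rfl ?_
    rintro ⟨b, c⟩ hp
    rw [mem_tri] at hp
    dsimp only at hp ⊢
    have h2 : j - (j - c) = c := by omega
    have h3 : j - c - (j - b - c) = b := by omega
    rw [h2, h3]
    congr 1
    ring
  rw [h2, ← h1] at hw
  rintro ⟨b, c⟩ hp
  rw [mem_tri] at hp
  dsimp only at hp
  have h3 := (qr_triple x hx).inj j (fun p => w ((p.1 : ℕ) - (p.2.1 : ℕ), j - (p.1 : ℕ))) hw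
    ⟨⟨j - c, by omega⟩, ⟨⟨j - b - c, by simp only; omega⟩, ()⟩⟩
  have h4 : j - c - (j - b - c) = b := by omega
  have h5 : j - (j - c) = c := by omega
  simpa only [h4, h5] using h3

end General

end Crest.Agent.R169
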