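import Crest.Agent.R169.ADefs
import Crest.Agent.R169.QReg

/-!
Row 169: `GrFree D M n` from the weak regularity of `X, Xu, Xv` on `M`.
-/

set_option autoImplicit false

namespace Crest.Agent.R169

open RingTheory.Sequence

theorem card_tri (j : ℕ) : (tri j).card = dimA j := by
  have h1 := sum_qrι_qrι (α := ℕ) j (fun _ _ _ => 1)
  have h0 : (tri j).card = ∑ p : qrι (qrι fun _ => Unit) j, 1 := by
    rw [Finset.card_eq_sum_ones]
    exact h1.symm
  rw [h0, Fintype.sum_sigma]
  simp only [Finset.sum_const, Finset.card_univ, smul_eq_mul, mul_one, Fintype.card_sigma,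
    Fintype.card_unit, Fintype.card_fin]
  rw [Fin.sum_univ_eq_sum_range (fun j => j + 1)]
  unfold dimA
  have h2 : (((j : ℤ) + 1).toNat) = j + 1 := by omega
  have h3 : (((j : ℤ) + 2).toNat) = j + 2 := by omega
  rw [h2, h3]
  have h4 := Finset.sum_range_id_mul_two (j + 2)
  have h5 : ∑ i ∈ Finset.range (j + 2), i = ∑ i ∈ Finset.range (j + 1), (i + 1) := by
    rw [Finset.sum_range_succ']
    simp
  rw [h5] at h4
  have h6 : j + 2 - 1 = j + 1 := by omega
  rw [h6, mul_comm (j + 2)] at h4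
  rw [← h4, Nat.mul_div_cancel _ (by norm_num)]

section

variable {k Q : Type} [Field k] [Field Q] [Algebra k Q] (D : TData k Q)
variable (M : Type) [AddCommGroup M] [Module D.Ttot M] [Module k M] [IsScalarTower k D.Ttot M]

/-- the triple `X, Xu, Xv` -/
noncomputable def TData.xs : Fin 3 → D.Ttot := ![D.x0, D.x1, D.x2]

theorem TData.mI_eq : D.mI = Ideal.span (Set.range D.xs) := by
  unfold TData.mI TData.xs
  congr 1
  ext z
  simp only [Set.mem_insert_iff, Set.mem_singleton_iff, Set.mem_range]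
  constructor
  · rintro (rfl | rfl | rfl)
    exacts [⟨0, rfl⟩, ⟨1, rfl⟩, ⟨2, rfl⟩]
  · rintro ⟨i, rfl⟩
    fin_cases i <;> simp

/-- `w ↦ ∑ x^p w_p` -/
noncomputable def evT (j : ℕ) : (tri j → M) →ₗ[k] M where
  toFun w := ∑ p : tri j, (D.x0 ^ (j - p.1.1 - p.1.2) * D.x1 ^ p.1.1 * D.x2 ^ p.1.2) • w p
  map_add' w w' := by
    simp only [Pi.add_apply, smul_add]
    rw [Finset.sum_add_distrib]
  map_smul' c w := by
    simp only [Pi.smul_apply, RingHom.id_apply, Finset.smul_sum]
    exact Finset.sum_congr rfl fun p _ => smul_comm _ _ _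

theorem evT_mem (j : ℕ) (w : tri j → M) : evT D M j w ∈ D.mp M j := by
  have hj : ((j : ℤ).toNat) = j := Int.toNat_natCast j
  unfold TData.mp
  rw [Submodule.restrictScalars_mem, hj]
  unfold evT
  refine Submodule.sum_mem _ fun p _ => Submodule.smul_mem_smul ?_ trivial
  have hp := mem_tri.mp p.2
  have h1 : j = (j - p.1.1 - p.1.2) + p.1.1 + p.1.2 := by omega
  have h0 : D.mI ^ j = D.mI ^ (j - p.1.1 - p.1.2) * D.mI ^ p.1.1 * D.mI ^ p.1.2 := by
    rw [← pow_add, ← pow_add, ← h1]
  rw [h0]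
  refine Ideal.mul_mem_mul (Ideal.mul_mem_mul ?_ ?_) ?_ <;> refine Ideal.pow_mem_pow ?_ _ <;>
    refine Ideal.subset_span ?_ <;> simp

/-- **Interface with Part A.** If `X, Xu, Xv` is weakly regular on `M` and `M/(X,Xu,Xv)M` is
finite dimensional and nonzero, then `GrFree`. -/
theorem grFree_of_isWeaklyRegular (h : IsWeaklyRegular M [D.x0, D.x1, D.x2])
    [Module.Finite k (M ⧸ (D.mI • (⊤ : Submodule D.Ttot M)))]
    [Nontrivial (M ⧸ (D.mI • (⊤ : Submodule D.Ttot M)))] :
    GrFree D M (Module.finrank k (M ⧸ (D.mI • (⊤ : Submodule D.Ttot M)))) := by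
  refine ⟨Module.finrank_pos, fun j => ?_⟩
  have hj : ((j : ℤ).toNat) = j := Int.toNat_natCast j
  have hj1 : (((j : ℤ) + 1).toNat) = j + 1 := by omega
  -- the two surjections
  let Φ : (tri j → M) →ₗ[k] ↥(D.mp M j) ⧸ (D.mp M (j + 1)).submoduleOf (D.mp M j) :=
    (Submodule.mkQ _).comp ((evT D M j).codRestrict (D.mp M j) (evT_mem D M j))
  let Ψ : (tri j → M) →ₗ[k] (tri j → (M ⧸ (D.mI • (⊤ : Submodule D.Ttot M)))) :=
    LinearMap.pi fun p => ((Submodule.mkQ (D.mI • (⊤ : Submodule D.Ttot M))).restrictScalars k).comp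
      (LinearMap.proj p)
  have hΦs : Function.Surjective Φ := by
    intro y
    obtain ⟨⟨m, hm⟩, rfl⟩ := Submodule.mkQ_surjective _ y
    have hm' : m ∈ Ideal.span (Set.range D.xs) ^ j • (⊤ : Submodule D.Ttot M) := by
      unfold TData.mp at hm
      rwa [Submodule.restrictScalars_mem, hj, D.mI_eq] at hm
    obtain ⟨w, hw⟩ := qreg_span D.xs h j m hm'
    refine ⟨fun p => w p, ?_⟩
    have : (evT D M j).codRestrict (D.mp M j) (evT_mem D M j) (fun p => w p) = ⟨m, hm⟩ := by
      apply Subtype.ext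
      rw [LinearMap.codRestrict_apply]
      refine Eq.trans ?_ hw.symm
      exact Finset.sum_coe_sort (tri j) (fun p => (D.x0 ^ (j - p.1 - p.2) * D.x1 ^ p.1 *
        D.x2 ^ p.2) • w p)
    simp only [Φ, LinearMap.comp_apply, this]
  have hΨs : Function.Surjective Ψ := by
    intro y
    choose w hw using fun p => Submodule.mkQ_surjective _ (y p)
    refine ⟨w, ?_⟩
    funext p
    exact hw p
  have hker : LinearMap.ker Φ = LinearMap.ker Ψ := by
    ext w
    rw [LinearMap.mem_ker, LinearMap.mem_ker]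
    have h1 : Φ w = 0 ↔ evT D M j w ∈ Ideal.span (Set.range D.xs) ^ (j + 1) •
        (⊤ : Submodule D.Ttot M) := by
      simp only [Φ, LinearMap.comp_apply, Submodule.mkQ_apply, Submodule.Quotient.mk_eq_zero]
      rw [Submodule.submoduleOf, Submodule.mem_comap, Submodule.subtype_apply,
        LinearMap.codRestrict_apply]
      unfold TData.mp
      rw [Submodule.restrictScalars_mem, hj1, D.mI_eq]
    have h2 : Ψ w = 0 ↔ ∀ p, w p ∈ (D.mI • (⊤ : Submodule D.Ttot M)) := by
      rw [funext_iff]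
      refine forall_congr' fun p => ?_
      exact Submodule.Quotient.mk_eq_zero _
    rw [h1, h2]
    constructor
    · intro h3 p
      have h4 : ∑ p ∈ tri j, (D.xs 0 ^ (j - p.1 - p.2) * D.xs 1 ^ p.1 * D.xs 2 ^ p.2) •
          (if hp : p ∈ tri j then w ⟨p, hp⟩ else 0) ∈
          Ideal.span (Set.range D.xs) ^ (j + 1) • (⊤ : Submodule D.Ttot M) := by
        convert h3 using 1
        rw [← Finset.sum_coe_sort]
        refine Finset.sum_congr rfl fun p _ => ?_
        rw [dif_pos p.2]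
        rfl
      have h5 := qreg_inj D.xs h j _ h4 p p.2
      rw [dif_pos p.2] at h5
      rw [D.mI_eq]
      exact h5
    · intro h3
      unfold evT
      refine Submodule.sum_mem _ fun p _ => ?_
      rw [pow_succ, Submodule.mul_smul]
      refine Submodule.smul_mem_smul ?_ (by rw [← D.mI_eq]; exact h3 p)
      rw [← D.mI_eq]
      have hp := mem_tri.mp p.2
      have h1 : j = (j - p.1.1 - p.1.2) + p.1.1 + p.1.2 := by omega
      have h0 : D.mI ^ j = D.mI ^ (j - p.1.1 - p.1.2) * D.mI ^ p.1.1 * D.mI ^ p.1.2 := by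
        rw [← pow_add, ← pow_add, ← h1]
      rw [h0]
      refine Ideal.mul_mem_mul (Ideal.mul_mem_mul ?_ ?_) ?_ <;> refine Ideal.pow_mem_pow ?_ _ <;>
        refine Ideal.subset_span ?_ <;> simp
  let e1 := Φ.quotKerEquivOfSurjective hΦs
  let e2 := Ψ.quotKerEquivOfSurjective hΨs
  have e3 : ((tri j → M) ⧸ LinearMap.ker Φ) ≃ₗ[k] ((tri j → M) ⧸ LinearMap.ker Ψ) :=
    Submodule.quotEquivOfEq _ _ hker
  have h6 : grdim (D.mp M) (j : ℤ) =
      Module.finrank k (tri j → (M ⧸ (D.mI • (⊤ : Submodule D.Ttot M)))) := by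
    unfold grdim
    exact ((e1.symm.trans e3).trans e2).finrank_eq
  have : Module.Free k (M ⧸ (D.mI • (⊤ : Submodule D.Ttot M))) := Module.Free.of_divisionRing k _
  rw [h6, Module.finrank_pi_fintype, Finset.sum_const, Finset.card_univ, Fintype.card_coe,
    card_tri, smul_eq_mul, mul_comm]

end

end Crest.Agent.R169
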