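import Crest.Agent.R169.GenL
import Crest.Agent.R169.Lat

/-!
# Row 169, P1 (part 3): eventually polynomial growth of `dim E_m`
Author: helper132.
-/

set_option autoImplicit false
set_option linter.unusedSectionVars false

namespace Crest.Agent.R169.P1

open Module

variable {k K V : Type} [Field k] [Field K] [Algebra k K] [AddCommGroup V] [Module k V]
  [Module K V] [IsScalarTower k K V]

/-- multiplication by `a : K` as a `k`-linear map -/
noncomputable def mulBy (k : Type) {K V : Type} [Field k] [Field K] [Algebra k K]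
    [AddCommGroup V] [Module k V] [Module K V] [IsScalarTower k K V] (a : K) : V →ₗ[k] V :=
  DistribSMul.toLinearMap k V a

@[simp] theorem mulBy_apply (a : K) (w : V) : mulBy k a w = a • w := rfl

theorem mulBy_inj {a : K} (ha : a ≠ 0) : Function.Injective (mulBy k a : V →ₗ[k] V) := by
  intro x y hxy
  simpa using (smul_right_injective V ha) hxy

theorem finrank_map_mulBy {a : K} (ha : a ≠ 0) (W : Submodule k V) :
    finrank k (W.map (mulBy k a)) = finrank k W :=
  (LinearEquiv.finrank_eq (Submodule.equivMapOfInjective _ (mulBy_inj ha) W)).symm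

theorem finrank_sup_map_le {W E W' : Submodule k V} [Module.Finite k E] [Module.Finite k W']
    (f : V →ₗ[k] V) (hWE : W ≤ E) (hf : W.map f ≤ W') :
    finrank k (W' ⊔ E.map f : Submodule k V) + finrank k W ≤ finrank k W' + finrank k E := by
  obtain ⟨D, hD⟩ := Submodule.exists_isCompl W
  have hC : W ⊔ (D ⊓ E) = E := by
    rw [← sup_inf_assoc_of_le D hWE, hD.sup_eq_top, top_inf_eq]
  have hCi : W ⊓ (D ⊓ E) = ⊥ := by
    rw [← inf_assoc, hD.inf_eq_bot, bot_inf_eq]
  have : Module.Finite k W := Submodule.finiteDimensional_of_le hWE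
  have : Module.Finite k (D ⊓ E : Submodule k V) := Submodule.finiteDimensional_of_le inf_le_right
  have h1 := Submodule.finrank_sup_add_finrank_inf_eq W (D ⊓ E)
  rw [hC, hCi, finrank_bot, add_zero] at h1
  have h2 : W' ⊔ E.map f = W' ⊔ (D ⊓ E).map f := by
    conv_lhs => rw [← hC, Submodule.map_sup, ← sup_assoc, sup_eq_left.2 hf]
  have h3 := Submodule.finrank_add_le_finrank_add_finrank W' ((D ⊓ E).map f)
  have h4 := Submodule.finrank_map_le f (D ⊓ E)
  rw [h2]
  omega

/-- second difference -/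
theorem second_diff {u v : K} {E : ℤ → Submodule k V} (hE : IsLat u v E) {t : k}
    (ht0 : lf u v t ≠ 0) {M : ℤ}
    (hM : ∀ m ≥ M, ∀ w ∈ E m, u • w + t • v • w ∈ E m → w ∈ E (m - 1)) :
    ∀ m ≥ M, finrank k (E m ⊔ (E m).map (mulBy k (lf u v t)) : Submodule k V)
      + finrank k (E (m - 1)) = 2 * finrank k (E m) := by
  intro m hm
  have h : Fam u v E := ⟨hE.mono, hE.umul, hE.vmul⟩
  have := hE.fin m
  have h1 := Submodule.finrank_sup_add_finrank_inf_eq (E m) ((E m).map (mulBy k (lf u v t)))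
  have h2 : E m ⊓ (E m).map (mulBy k (lf u v t)) = (E (m - 1)).map (mulBy k (lf u v t)) := by
    ext x
    constructor
    · rintro ⟨hx, w, hw, rfl⟩
      refine ⟨w, hM m hm w hw ?_, rfl⟩
      rw [← lf_smul]; exact hx
    · rintro ⟨w, hw, rfl⟩
      refine ⟨?_, w, mono_le hE.mono (by omega) hw, rfl⟩
      have := h.lf t hw
      rwa [sub_add_cancel] at this
  rw [h2, finrank_map_mulBy ht0, finrank_map_mulBy ht0] at h1
  omega

/-- the second difference is eventually nonincreasing -/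
theorem second_diff_anti {u v : K} {E : ℤ → Submodule k V} (hE : IsLat u v E) {t : k}
    (ht0 : lf u v t ≠ 0) {M : ℤ}
    (hM : ∀ m ≥ M, ∀ w ∈ E m, u • w + t • v • w ∈ E m → w ∈ E (m - 1)) :
    ∃ M' ≥ M, ∀ m ≥ M',
      (finrank k (E (m + 2)) : ℤ) - 2 * finrank k (E (m + 1)) + finrank k (E m) ≤
        (finrank k (E (m + 1)) : ℤ) - 2 * finrank k (E m) + finrank k (E (m - 1)) := by
  have h : Fam u v E := ⟨hE.mono, hE.umul, hE.vmul⟩
  obtain ⟨m1, hm1⟩ := hE.gen
  refine ⟨max M m1, le_max_left _ _, fun m hm => ?_⟩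
  have hmM : m ≥ M := (le_max_left _ _).trans hm
  have hm1' : m ≥ m1 := (le_max_right _ _).trans hm
  have h0 := second_diff hE ht0 hM m hmM
  have h1 := second_diff hE ht0 hM (m + 1) (by omega)
  rw [add_sub_cancel_right] at h1
  set L := mulBy (V := V) k (lf u v t) with hL
  have := hE.fin m
  have := hE.fin (m + 1)
  have hW : E m ⊔ (E m).map L ≤ E (m + 1) := by
    refine sup_le (hE.mono m) ?_
    rintro _ ⟨w, hw, rfl⟩
    exact h.lf t hw
  have hv : (E m ⊔ (E m).map L).map (mulBy k v) ≤ E (m + 1) ⊔ (E (m + 1)).map L := by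
    rw [Submodule.map_sup]
    refine sup_le ?_ ?_
    · rintro _ ⟨w, hw, rfl⟩
      exact Submodule.mem_sup_left (h.vmul m w hw)
    · rintro _ ⟨_, ⟨w, hw, rfl⟩, rfl⟩
      refine Submodule.mem_sup_right ⟨v • w, h.vmul m w hw, ?_⟩
      simp only [hL, mulBy_apply]
      rw [smul_comm]
  have h2 := finrank_sup_map_le (mulBy k v) hW hv
  have h3 : E (m + 2) ≤ (E (m + 1) ⊔ (E (m + 1)).map L) ⊔ (E (m + 1)).map (mulBy k v) := by
    intro x hx
    have e : m + 2 = m + 1 + 1 := by ring
    rw [e] at hx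
    obtain ⟨a, ha, b, hb, c, hc, rfl⟩ := hm1 (m + 1) (by omega) x hx
    have e2 : a + u • b + v • c = (a + L b) + mulBy k v (c - t • b) := by
      simp only [hL, mulBy_apply, lf_smul, smul_sub]
      rw [smul_comm v t b]
      abel
    rw [e2]
    refine Submodule.add_mem_sup (Submodule.add_mem_sup ha ⟨b, hb, rfl⟩)
      ⟨_, sub_mem hc (Submodule.smul_mem _ _ hb), rfl⟩
  have h4 := Submodule.finrank_mono h3
  omega

theorem eventually_const (e : ℤ → ℤ) (M : ℤ) (h0 : ∀ m ≥ M, 0 ≤ e m)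
    (h1 : ∀ m ≥ M, e (m + 1) ≤ e m) : ∃ M' ≥ M, ∀ m ≥ M', e m = e M' := by
  classical
  have hne : ∃ n : ℕ, ∃ m ≥ M, e m = n := ⟨(e M).toNat, M, le_rfl, by
    rw [Int.toNat_of_nonneg (h0 M le_rfl)]⟩
  obtain ⟨m0, hm0, hm0'⟩ := Nat.find_spec hne
  refine ⟨m0, hm0, fun m hm => ?_⟩
  have hle : ∀ n : ℕ, e (m0 + n) ≤ e m0 := by
    intro n
    induction n with
    | zero => simp
    | succ n ih =>
      have := h1 (m0 + n) (by omega)
      push_cast
      rw [← add_assoc]
      omega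
  have h2 : e m ≤ e m0 := by
    obtain ⟨n, rfl⟩ := Int.le.dest hm
    exact hle n
  have h3 : ((Nat.find hne : ℕ) : ℤ) ≤ e m := by
    have := Nat.find_min' hne ⟨m, by omega, (Int.toNat_of_nonneg (h0 m (by omega))).symm⟩
    have h4 := Int.toNat_of_nonneg (h0 m (by omega))
    omega
  omega

theorem poly_of_second_diff (h : ℤ → ℤ) (s : ℤ) (M : ℤ)
    (hs : ∀ m ≥ M, h (m + 1) - 2 * h m + h (m - 1) = s) :
    ∃ b c : ℚ, ∀ m ≥ M, (h m : ℚ) = s / 2 * (m : ℚ) ^ 2 + b * m + c := by
  set b : ℚ := h (M + 1) - h M - s / 2 * (2 * M + 1) with hb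
  set c : ℚ := h M - s / 2 * M ^ 2 - b * M with hc
  refine ⟨b, c, fun m hm => ?_⟩
  obtain ⟨n, rfl⟩ := Int.le.dest hm
  have key : ∀ n : ℕ, ((h (M + n) : ℤ) : ℚ) = s / 2 * ((M + n : ℤ) : ℚ) ^ 2 + b * (M + n : ℤ) + c ∧
      ((h (M + n + 1) : ℤ) : ℚ) = s / 2 * ((M + n + 1 : ℤ) : ℚ) ^ 2 + b * (M + n + 1 : ℤ) + c := by
    intro n
    induction n with
    | zero =>
      constructor
      · simp only [Nat.cast_zero, add_zero]
        rw [hc]; ring
      · simp only [Nat.cast_zero, add_zero]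
        rw [hc, hb]; push_cast; ring
    | succ n ih =>
      have e : M + ((n + 1 : ℕ) : ℤ) = M + n + 1 := by push_cast; ring
      rw [e]
      refine ⟨ih.2, ?_⟩
      have h2 := hs (M + n + 1) (by omega)
      rw [add_sub_cancel_right] at h2
      have h3 : ((h (M + n + 1 + 1) : ℤ) : ℚ) - 2 * h (M + n + 1) + h (M + n) = s := by
        exact_mod_cast h2
      have h4 : ((h (M + n + 1 + 1) : ℤ) : ℚ) = s + 2 * h (M + n + 1) - h (M + n) := by linarith
      rw [h4, ih.1, ih.2]
      push_cast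
      ring
  exact (key n).1

theorem second_diff_nonneg {u v : K} {E : ℤ → Submodule k V} (hE : IsLat u v E) {t : k}
    (ht0 : lf u v t ≠ 0) {M : ℤ}
    (hM : ∀ m ≥ M, ∀ w ∈ E m, u • w + t • v • w ∈ E m → w ∈ E (m - 1)) :
    ∀ m ≥ M, 0 ≤ (finrank k (E (m + 1)) : ℤ) - 2 * finrank k (E m) + finrank k (E (m - 1)) := by
  intro m hm
  have h : Fam u v E := ⟨hE.mono, hE.umul, hE.vmul⟩
  have h0 := second_diff hE ht0 hM m hm
  have := hE.fin (m + 1)
  have hW : E m ⊔ (E m).map (mulBy k (lf u v t)) ≤ E (m + 1) := by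
    refine sup_le (hE.mono m) ?_
    rintro _ ⟨w, hw, rfl⟩
    exact h.lf t hw
  have := Submodule.finrank_mono hW
  omega

theorem lf_ne_zero {u v : K} (hK : AlgebraicIndependent k ![u, v]) (t : k) : lf u v t ≠ 0 := by
  intro h
  have h1 : MvPolynomial.aeval ![u, v] (MvPolynomial.X 0 + MvPolynomial.C t * MvPolynomial.X 1 :
      MvPolynomial (Fin 2) k) = 0 := by
    simpa [lf] using h
  have h2 := (injective_iff_map_eq_zero _).1 hK _ h1
  have h3 := congrArg (MvPolynomial.coeff (Finsupp.single 0 1)) h2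
  simp [MvPolynomial.coeff_C_mul, MvPolynomial.coeff_X, Finsupp.single_left_inj] at h3

/-- growth of a lattice is eventually polynomial (with some leading coefficient) -/
theorem exists_poly [Infinite k] {u v : K} (hK : AlgebraicIndependent k ![u, v])
    {E : ℤ → Submodule k V} (hE : IsLat u v E) :
    ∃ (s : ℕ) (b c : ℚ), HasHP E s b c := by
  obtain ⟨T, M, hT⟩ := generic_l hE
  obtain ⟨t, ht⟩ := Infinite.exists_notMem_finset T
  have ht0 : lf u v t ≠ 0 := lf_ne_zero hK t
  obtain ⟨M', hM', hanti⟩ := second_diff_anti hE ht0 (hT t ht)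
  have hnn := second_diff_nonneg hE ht0 (hT t ht)
  obtain ⟨M2, hM2, hconst⟩ := eventually_const
    (fun m => (finrank k (E (m + 1)) : ℤ) - 2 * finrank k (E m) + finrank k (E (m - 1))) M'
    (fun m hm => hnn m (by omega)) (fun m hm => by
      have := hanti m hm
      beta_reduce
      have e : m + 1 + 1 = m + 2 := by ring
      have e' : m + 1 - 1 = m := by ring
      rw [e, e']; exact this)
  set s := (finrank k (E (M2 + 1)) : ℤ) - 2 * finrank k (E M2) + finrank k (E (M2 - 1)) with hs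
  have hs0 : 0 ≤ s := hnn M2 (by omega)
  obtain ⟨b, c, hbc⟩ := poly_of_second_diff (fun m => (finrank k (E m) : ℤ)) s M2
    (fun m hm => hconst m hm)
  refine ⟨s.toNat, b, c, M2, fun m hm => ?_⟩
  have h1 : ((s.toNat : ℕ) : ℚ) = (s : ℚ) := by
    have := Int.toNat_of_nonneg hs0
    exact_mod_cast this
  rw [h1]
  have := hbc m hm
  exact_mod_cast this

end Crest.Agent.R169.P1
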