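import Crest.Agent.R169.Lat

/-!
# Row 169, P1 (part 4): `dim k[u,v]_{≤ m}` and common denominators
Author: helper132.
-/

set_option autoImplicit false
set_option linter.unusedSectionVars false

namespace Crest.Agent.R169.P1

open Module

variable {k K : Type} [Field k] [Field K] [Algebra k K]

/-- the index set of monomials of degree `≤ n` -/
def monIdx (n : ℕ) : Finset (ℕ × ℕ) := (Finset.range (n + 1)).biUnion fun d => Finset.HasAntidiagonal.antidiagonal d

theorem mem_monIdx {n : ℕ} {p : ℕ × ℕ} : p ∈ monIdx n ↔ p.1 + p.2 ≤ n := by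
  simp [monIdx]

theorem card_monIdx (n : ℕ) : (monIdx n).card = ((n + 1) * (n + 2)) / 2 := by
  classical
  rw [monIdx, Finset.card_biUnion]
  · simp only [Finset.Nat.card_antidiagonal]
    induction n with
    | zero => simp
    | succ n ih =>
      rw [Finset.sum_range_succ, ih]
      have h1 : 2 ∣ (n + 1) * (n + 2) := (Nat.even_mul_succ_self (n + 1)).two_dvd
      have h2 : 2 ∣ (n + 1 + 1) * (n + 1 + 2) := (Nat.even_mul_succ_self (n + 2)).two_dvd
      obtain ⟨a, ha⟩ := h1
      obtain ⟨b, hb⟩ := h2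
      rw [ha, hb, Nat.mul_div_cancel_left _ two_pos, Nat.mul_div_cancel_left _ two_pos]
      nlinarith
  · intro i _ j _ hij
    rw [Function.onFun, Finset.disjoint_left]
    intro p hp hp'
    rw [Finset.HasAntidiagonal.mem_antidiagonal] at hp hp'
    exact hij (hp.symm.trans hp')

theorem linInd_mon {u v : K} (hK : AlgebraicIndependent k ![u, v]) :
    LinearIndependent k (fun p : ℕ × ℕ => u ^ p.1 * v ^ p.2) := by
  have h1 : LinearIndependent k (fun s : Fin 2 →₀ ℕ => MvPolynomial.aeval ![u, v]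
      (MvPolynomial.monomial s (1 : k))) := by
    have := (MvPolynomial.basisMonomials (Fin 2) k).linearIndependent.map'
      (MvPolynomial.aeval ![u, v] : MvPolynomial (Fin 2) k →ₐ[k] K).toLinearMap
      (LinearMap.ker_eq_bot.2 hK)
    have hfun : (fun s : Fin 2 →₀ ℕ => MvPolynomial.aeval ![u, v]
        (MvPolynomial.monomial s (1 : k))) =
        (MvPolynomial.aeval ![u, v] : MvPolynomial (Fin 2) k →ₐ[k] K).toLinearMap ∘
          (MvPolynomial.basisMonomials (Fin 2) k) := by
      funext s; simp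
    rw [hfun]
    exact this
  let g : ℕ × ℕ → (Fin 2 →₀ ℕ) := fun p => Finsupp.single 0 p.1 + Finsupp.single 1 p.2
  have hg : Function.Injective g := by
    intro p q hpq
    have h0 := DFunLike.congr_fun hpq 0
    have h1 := DFunLike.congr_fun hpq 1
    simp [g] at h0 h1
    exact Prod.ext h0 h1
  have h2 := h1.comp g hg
  convert h2 using 1
  funext p
  simp only [Function.comp, g, MvPolynomial.aeval_monomial]
  rw [Finsupp.prod_add_index' (by simp) (by intro a b c; exact pow_add _ _ _)]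
  simp

theorem polyLE_eq {u v : K} (n : ℕ) :
    polyLE k u v n = Submodule.span k
      (Set.range fun p : monIdx n => u ^ (p : ℕ × ℕ).1 * v ^ (p : ℕ × ℕ).2) := by
  unfold polyLE
  congr 1
  ext x
  constructor
  · rintro ⟨i, j, hij, rfl⟩
    exact ⟨⟨(i, j), mem_monIdx.2 (by exact_mod_cast hij)⟩, rfl⟩
  · rintro ⟨⟨p, hp⟩, rfl⟩
    exact ⟨p.1, p.2, by exact_mod_cast mem_monIdx.1 hp, rfl⟩

theorem polyLE_neg {u v : K} {m : ℤ} (hm : m < 0) : polyLE k u v m = ⊥ := by
  unfold polyLE
  rw [Submodule.span_eq_bot]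
  rintro x ⟨i, j, hij, rfl⟩
  omega

theorem dimA_nat (n : ℕ) : dimA n = ((n + 1) * (n + 2)) / 2 := by
  unfold dimA
  congr 2

theorem dimA_neg {m : ℤ} (hm : m < 0) : dimA m = 0 := by
  unfold dimA
  have : (m + 1).toNat = 0 := by omega
  rw [this]; simp

instance polyLE_finite (u v : K) (m : ℤ) : Module.Finite k (polyLE k u v m) := by
  rcases lt_or_ge m 0 with hm | hm
  · rw [polyLE_neg hm]; infer_instance
  · obtain ⟨n, rfl⟩ := Int.eq_ofNat_of_zero_le hm
    rw [polyLE_eq]
    exact Module.Finite.span_of_finite k (Set.finite_range _)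

/-- `dim k[u,v]_{≤ m} = dimA m` -/
theorem finrank_polyLE {u v : K} (hK : AlgebraicIndependent k ![u, v]) (m : ℤ) :
    finrank k (polyLE k u v m) = dimA m := by
  rcases lt_or_ge m 0 with hm | hm
  · rw [polyLE_neg hm, dimA_neg hm, finrank_bot]
  · obtain ⟨n, rfl⟩ := Int.eq_ofNat_of_zero_le hm
    rw [polyLE_eq, dimA_nat, ← card_monIdx]
    have := finrank_span_eq_card (R := k)
      ((linInd_mon hK).comp (fun p : monIdx n => (p : ℕ × ℕ)) Subtype.val_injective)
    rw [Fintype.card_coe] at this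
    exact this

theorem dimA_cast {m : ℤ} (hm : -2 ≤ m) : (dimA m : ℚ) = ((m : ℚ) + 1) * (m + 2) / 2 := by
  obtain ⟨n, hn⟩ : ∃ n : ℕ, m = n - 2 := ⟨(m + 2).toNat, by omega⟩
  subst hn
  match n with
  | 0 => simp [dimA]
  | 1 => simp [dimA]; 
  | n + 2 =>
    have e : ((n + 2 : ℕ) : ℤ) - 2 = n := by push_cast; ring
    rw [e, dimA_nat]
    have h1 : 2 ∣ (n + 1) * (n + 2) := (Nat.even_mul_succ_self (n + 1)).two_dvd
    rw [Nat.cast_div h1 (by norm_num)]
    push_cast
    ring

theorem polyLE_mono {u v : K} {m m' : ℤ} (h : m ≤ m') : polyLE k u v m ≤ polyLE k u v m' := by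
  apply Submodule.span_mono
  rintro x ⟨i, j, hij, rfl⟩
  exact ⟨i, j, hij.trans h, rfl⟩

theorem polyLE_mul {u v : K} {m m' : ℤ} {a b : K} (ha : a ∈ polyLE k u v m)
    (hb : b ∈ polyLE k u v m') : a * b ∈ polyLE k u v (m + m') := by
  unfold polyLE at ha hb
  induction ha using Submodule.span_induction with
  | mem x hx =>
    induction hb using Submodule.span_induction with
    | mem y hy =>
      obtain ⟨i, j, hij, rfl⟩ := hx
      obtain ⟨i', j', hij', rfl⟩ := hy
      apply Submodule.subset_span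
      exact ⟨i + i', j + j', by push_cast; linarith, by ring⟩
    | zero => rw [mul_zero]; exact Submodule.zero_mem _
    | add y z _ _ hy hz => rw [mul_add]; exact add_mem hy hz
    | smul c y _ hy => rw [mul_smul_comm]; exact Submodule.smul_mem _ _ hy
  | zero => rw [zero_mul]; exact Submodule.zero_mem _
  | add y z _ _ hy hz => rw [add_mul]; exact add_mem hy hz
  | smul c y _ hy => rw [smul_mul_assoc]; exact Submodule.smul_mem _ _ hy

theorem one_mem_polyLE {u v : K} {m : ℤ} (hm : 0 ≤ m) : (1 : K) ∈ polyLE k u v m :=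
  Submodule.subset_span ⟨0, 0, by simpa using hm, by simp⟩

theorem u_mem_polyLE {u v : K} {m : ℤ} (hm : 1 ≤ m) : u ∈ polyLE k u v m :=
  Submodule.subset_span ⟨1, 0, by simpa using hm, by simp⟩

theorem v_mem_polyLE {u v : K} {m : ℤ} (hm : 1 ≤ m) : v ∈ polyLE k u v m :=
  Submodule.subset_span ⟨0, 1, by simpa using hm, by simp⟩

theorem aeval_mem_polyLE (u v : K) (p : MvPolynomial (Fin 2) k) :
    ∃ n : ℕ, MvPolynomial.aeval ![u, v] p ∈ polyLE k u v n := by
  induction p using MvPolynomial.induction_on with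
  | C a =>
    refine ⟨0, ?_⟩
    rw [MvPolynomial.aeval_C, Algebra.algebraMap_eq_smul_one]
    exact Submodule.smul_mem _ _ (one_mem_polyLE le_rfl)
  | add p q hp hq =>
    obtain ⟨n, hn⟩ := hp
    obtain ⟨n', hn'⟩ := hq
    refine ⟨max n n', ?_⟩
    rw [map_add]
    exact add_mem (polyLE_mono (by exact_mod_cast le_max_left _ _) hn)
      (polyLE_mono (by exact_mod_cast le_max_right _ _) hn')
  | mul_X p i hp =>
    obtain ⟨n, hn⟩ := hp
    refine ⟨n + 1, ?_⟩
    rw [map_mul, MvPolynomial.aeval_X]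
    push_cast
    fin_cases i
    · exact polyLE_mul hn (u_mem_polyLE le_rfl)
    · exact polyLE_mul hn (v_mem_polyLE le_rfl)

/-- every element of `k(u,v)` is a fraction of polynomials -/
theorem IsRat_frac {u v : K} (hK : IsRat k u v) (a : K) :
    ∃ (n : ℕ) (q : K), q ≠ 0 ∧ q ∈ polyLE k u v n ∧ q * a ∈ polyLE k u v n := by
  have ha : a ∈ IntermediateField.adjoin k ({u, v} : Set K) := by rw [hK.top]; trivial
  have hr : ({u, v} : Set K) = Set.range ![u, v] := by
    ext x
    simp [eq_comm, or_comm]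
  rw [hr, IntermediateField.mem_adjoin_range_iff] at ha
  obtain ⟨r, s, rfl⟩ := ha
  by_cases hs : MvPolynomial.aeval ![u, v] s = 0
  · refine ⟨0, 1, one_ne_zero, one_mem_polyLE le_rfl, ?_⟩
    rw [hs]; simp
  · obtain ⟨n, hn⟩ := aeval_mem_polyLE u v r
    obtain ⟨n', hn'⟩ := aeval_mem_polyLE u v s
    refine ⟨max n n', _, hs, polyLE_mono (by exact_mod_cast le_max_right _ _) hn', ?_⟩
    rw [mul_div_cancel₀ _ hs]
    exact polyLE_mono (by exact_mod_cast le_max_left _ _) hn

/-- common denominators -/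
theorem common_denom {u v : K} (hK : IsRat k u v) (S : Finset K) :
    ∃ (n : ℕ) (q : K), q ≠ 0 ∧ q ∈ polyLE k u v n ∧ ∀ a ∈ S, q * a ∈ polyLE k u v n := by
  classical
  induction S using Finset.induction_on with
  | empty => exact ⟨0, 1, one_ne_zero, one_mem_polyLE le_rfl, by simp⟩
  | insert a S _ ih =>
    obtain ⟨n, q, hq, h0, h⟩ := ih
    obtain ⟨n', q', hq', h1, h2⟩ := IsRat_frac hK a
    refine ⟨n + n', q * q', mul_ne_zero hq hq', ?_, fun b hb => ?_⟩
    · push_cast; exact polyLE_mul h0 h1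
    · rw [Finset.mem_insert] at hb
      push_cast
      rcases hb with rfl | hb
      · rw [mul_assoc]; exact polyLE_mul h0 h2
      · rw [mul_comm q q', mul_assoc, add_comm]; exact polyLE_mul h1 (h b hb)

end Crest.Agent.R169.P1
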