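import Crest.Agent.R169.HilbEx
import Crest.Agent.R169.PolyDim

/-!
# Row 169, P1 (part 5): the leading coefficient is the rank
Author: helper132.
-/

set_option autoImplicit false
set_option linter.unusedSectionVars false

namespace Crest.Agent.R169.P1

open Module

/-- a quadratic polynomial that is eventually `≥ 0` -/
theorem quad_nonneg {a b c : ℚ} {M : ℤ} (h : ∀ m ≥ M, 0 ≤ a * (m : ℚ) ^ 2 + b * m + c) :
    0 ≤ a ∧ (a = 0 → 0 ≤ b) ∧ (a = 0 → b = 0 → 0 ≤ c) := by
  refine ⟨?_, ?_, ?_⟩
  · by_contra ha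
    push Not at ha
    obtain ⟨N, hN⟩ := exists_int_gt ((|b| + |c|) / (-a) + 1)
    have h1 := h (max M (max N 1)) (le_max_left _ _)
    set m : ℤ := max M (max N 1) with hm
    have hm1 : (1 : ℚ) ≤ (m : ℚ) := by
      have : (1 : ℤ) ≤ m := (le_max_right _ _).trans (le_max_right _ _)
      exact_mod_cast this
    have hmN : (|b| + |c|) / (-a) < (m : ℚ) := by
      have : N ≤ m := (le_max_left _ _).trans (le_max_right _ _)
      have h2 : (N : ℚ) ≤ m := by exact_mod_cast this
      linarith
    have h3 : |b| + |c| < (m : ℚ) * (-a) := by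
      rwa [div_lt_iff₀ (by linarith)] at hmN
    have hb := le_abs_self b
    have hc := le_abs_self c
    have hb0 := abs_nonneg b
    have hc0 := abs_nonneg c
    nlinarith [mul_le_mul_of_nonneg_right hb (by linarith : (0 : ℚ) ≤ (m : ℚ)),
      mul_pos (by linarith : (0 : ℚ) < (m : ℚ)) (sub_pos.2 h3), mul_nonneg hc0 (by linarith : (0:ℚ) ≤ (m:ℚ) - 1)]
  · intro ha
    by_contra hb
    push Not at hb
    obtain ⟨N, hN⟩ := exists_int_gt (|c| / (-b) + 1)
    have h1 := h (max M N) (le_max_left _ _)
    have hmN : |c| / (-b) < ((max M N : ℤ) : ℚ) := by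
      have h2 : (N : ℚ) ≤ ((max M N : ℤ) : ℚ) := by exact_mod_cast le_max_right M N
      linarith
    rw [div_lt_iff₀ (by linarith)] at hmN
    have hc := le_abs_self c
    rw [ha] at h1
    nlinarith
  · intro ha hb
    have h1 := h M le_rfl
    rw [ha, hb] at h1
    simpa using h1

theorem quad_unique {a b c a' b' c' : ℚ} {M : ℤ}
    (h : ∀ m ≥ M, a * (m : ℚ) ^ 2 + b * m + c = a' * (m : ℚ) ^ 2 + b' * m + c') :
    a = a' ∧ b = b' ∧ c = c' := by
  have h1 := quad_nonneg (a := a - a') (b := b - b') (c := c - c') (M := M)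
    (fun m hm => by have := h m hm; nlinarith)
  have h2 := quad_nonneg (a := a' - a) (b := b' - b) (c := c' - c) (M := M)
    (fun m hm => by have := h m hm; nlinarith)
  have ha : a = a' := by linarith [h1.1, h2.1]
  have hb : b = b' := by
    have := h1.2.1 (by linarith); have := h2.2.1 (by linarith); linarith
  have hc : c = c' := by
    have := h1.2.2 (by linarith) (by linarith)
    have := h2.2.2 (by linarith) (by linarith)
    linarith
  exact ⟨ha, hb, hc⟩

section

variable {k K V : Type} [Field k] [Field K] [Algebra k K] [AddCommGroup V] [Module k V]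
  [Module K V]

theorem unique_hp {E : ℤ → Submodule k V} {n n' : ℕ} {b b' c c' : ℚ} (h : HasHP E n b c)
    (h' : HasHP E n' b' c') : n = n' ∧ b = b' ∧ c = c' := by
  obtain ⟨M, hM⟩ := h
  obtain ⟨M', hM'⟩ := h'
  have := quad_unique (M := max M M') (fun m hm =>
    (hM m ((le_max_left _ _).trans hm)).symm.trans (hM' m ((le_max_right _ _).trans hm)))
  refine ⟨?_, this.2⟩
  have h1 := this.1
  have : (n : ℚ) = n' := by linarith
  exact_mod_cast this

variable [IsScalarTower k K V]

theorem polyLE_smul {u v : K} {E : ℤ → Submodule k V} (h : Fam u v E) {m m' : ℤ} {p : K} {w : V}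
    (hp : p ∈ polyLE k u v m) (hw : w ∈ E m') : p • w ∈ E (m' + m) := by
  unfold polyLE at hp
  induction hp using Submodule.span_induction with
  | mem x hx =>
    obtain ⟨i, j, hij, rfl⟩ := hx
    exact mono_le h.mono (by push_cast; linarith) (h.mon i j hw)
  | zero => rw [zero_smul]; exact Submodule.zero_mem _
  | add y z _ _ hy hz => rw [add_smul]; exact add_mem hy hz
  | smul c y _ hy => rw [smul_assoc]; exact Submodule.smul_mem _ _ hy

theorem span_eq {u v : K} {E : ℤ → Submodule k V} (hE : IsLat u v E) :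
    ∃ m₁ : ℤ, spanK K E = Submodule.span K (E m₁ : Set V) := by
  obtain ⟨m₁, hm₁⟩ := hE.gen
  refine ⟨m₁, le_antisymm ?_ (Submodule.span_mono (Set.subset_iUnion (fun m => (E m : Set V)) m₁))⟩
  unfold spanK
  rw [Submodule.span_le]
  have key : ∀ n : ℕ, ∀ x ∈ E (m₁ + n), x ∈ Submodule.span K (E m₁ : Set V) := by
    intro n
    induction n with
    | zero => intro x hx; simp only [Nat.cast_zero, add_zero] at hx; exact Submodule.subset_span hx
    | succ n ih =>
      intro x hx
      have e : m₁ + ((n + 1 : ℕ) : ℤ) = m₁ + n + 1 := by push_cast; ring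
      rw [e] at hx
      obtain ⟨a, ha, b, hb, c, hc, rfl⟩ := hm₁ (m₁ + n) (by omega) x hx
      exact add_mem (add_mem (ih a ha) (Submodule.smul_mem _ _ (ih b hb)))
        (Submodule.smul_mem _ _ (ih c hc))
  rintro x ⟨_, ⟨m, rfl⟩, hx⟩
  rcases le_total m m₁ with hm | hm
  · exact Submodule.subset_span (mono_le hE.mono hm hx)
  · obtain ⟨n, rfl⟩ := Int.le.dest hm
    exact key n x hx

theorem spanK_finite {u v : K} {E : ℤ → Submodule k V} (hE : IsLat u v E) :
    Module.Finite K (spanK K E) := by
  obtain ⟨m₁, h⟩ := span_eq hE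
  rw [h]
  have := hE.fin m₁
  obtain ⟨S, hS⟩ := Module.Finite.iff_fg.1 this
  have : Submodule.span K (E m₁ : Set V) = Submodule.span K (S : Set V) := by
    rw [← hS, Submodule.span_span_of_tower]
  rw [this]
  exact Module.Finite.span_finset K S

/-- `(b → k[u,v]_{≤m}) → V` -/
noncomputable def Psi (u v : K) {ι : Type} [Fintype ι] (w : ι → V) (m : ℤ) :
    (ι → polyLE k u v m) →ₗ[k] V where
  toFun g := ∑ i, (g i : K) • w i
  map_add' g h := by simp [add_smul, Finset.sum_add_distrib]
  map_smul' c g := by simp [Finset.smul_sum, smul_assoc]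

theorem Psi_inj {u v : K} {ι : Type} [Fintype ι] {w : ι → V} (hw : LinearIndependent K w)
    (m : ℤ) : Function.Injective (Psi (k := k) u v w m) := by
  rw [injective_iff_map_eq_zero]
  intro g hg
  have := Fintype.linearIndependent_iff.1 hw (fun i => (g i : K)) hg
  funext i
  exact Subtype.ext (this i)

theorem finrank_Psi_dom {u v : K} (hK : AlgebraicIndependent k ![u, v]) {ι : Type} [Fintype ι]
    (m : ℤ) : finrank k (ι → polyLE k u v m) = Fintype.card ι * dimA m := by
  rw [Module.finrank_pi_fintype]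
  simp [finrank_polyLE hK]

/-- lower and upper bounds of `dim E_m` by free lattices of rank `rk` -/
theorem sandwich {u v : K} (hK : IsRat k u v) {E : ℤ → Submodule k V} (hE : IsLat u v E) :
    ∃ (m₁ : ℤ) (r : ℕ), ∀ j : ℕ, rk K E * dimA j ≤ finrank k (E (m₁ + j)) ∧
      finrank k (E (m₁ + j)) ≤ rk K E * dimA (j + r) := by
  classical
  have h : Fam u v E := ⟨hE.mono, hE.umul, hE.vmul⟩
  obtain ⟨m₀, hspan₀⟩ := span_eq hE
  obtain ⟨m₂, hm₂⟩ := hE.gen
  -- a common index
  set m₁ : ℤ := max m₀ m₂ with hm₁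
  have hspan : spanK K E = Submodule.span K (E m₁ : Set V) := by
    refine le_antisymm ?_
      (Submodule.span_mono (Set.subset_iUnion (fun m => (E m : Set V)) m₁))
    rw [hspan₀]
    exact Submodule.span_mono (mono_le hE.mono (le_max_left _ _))
  have := hE.fin m₁
  obtain ⟨S, hS⟩ := Module.Finite.iff_fg.1 this
  have hspanS : Submodule.span K (E m₁ : Set V) = Submodule.span K (S : Set V) := by
    rw [← hS, Submodule.span_span_of_tower]
  obtain ⟨b, hbS, hbspan, hbli⟩ := exists_linearIndependent K (S : Set V)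
  have hbfin : b.Finite := S.finite_toSet.subset hbS
  have : Fintype b := hbfin.fintype
  have hcard : rk K E = Fintype.card b := by
    unfold rk
    rw [hspan, hspanS, ← hbspan, finrank_span_set_eq_card hbli, Set.toFinset_card]
  have hbE : ∀ i : b, (i : V) ∈ E m₁ := fun i => by
    rw [← hS]; exact Submodule.subset_span (hbS i.2)
  -- coordinates
  have hcoord : ∀ x ∈ S, ∃ g : b → K, x = ∑ i, g i • (i : V) := by
    intro x hx
    have hx' : x ∈ Submodule.span K b := by
      rw [hbspan]; exact Submodule.subset_span hx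
    have hb' : b = Set.range (Subtype.val : b → V) := by simp
    rw [hb', Submodule.mem_span_range_iff_exists_fun] at hx'
    obtain ⟨g, hg⟩ := hx'
    exact ⟨g, hg.symm⟩
  choose! co hco using hcoord
  obtain ⟨r, q, hq, _, hqr⟩ := common_denom hK
    (S.biUnion fun x => Finset.univ.image fun i : b => co x i)
  have hqS : ∀ x ∈ S, ∀ i : b, q * co x i ∈ polyLE k u v r := fun x hx i =>
    hqr _ (Finset.mem_biUnion.2 ⟨x, hx, Finset.mem_image.2 ⟨i, Finset.mem_univ _, rfl⟩⟩)
  refine ⟨m₁, r, fun j => ⟨?_, ?_⟩⟩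
  · -- lower bound
    have hfin := hE.fin (m₁ + j)
    have hinj := Psi_inj (k := k) (u := u) (v := v) hbli (j : ℤ)
    have hmem : ∀ g, Psi (k := k) u v (Subtype.val : b → V) (j : ℤ) g ∈ E (m₁ + j) := by
      intro g
      exact Submodule.sum_mem _ fun i _ => polyLE_smul h (g i).2 (hbE i)
    have h1 := LinearMap.finrank_le_finrank_of_injective
      (f := (Psi (k := k) u v (Subtype.val : b → V) (j : ℤ)).codRestrict (E (m₁ + j)) hmem)
      (by
        intro x y hxy
        apply hinj
        exact congrArg Subtype.val hxy)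
    rw [finrank_Psi_dom hK.indep, ← hcard] at h1
    exact h1
  · -- upper bound
    have key : ∀ j : ℕ, ∀ x ∈ E (m₁ + j),
        q • x ∈ LinearMap.range (Psi (k := k) u v (Subtype.val : b → V) ((j : ℤ) + r)) := by
      intro j
      induction j with
      | zero =>
        intro x hx
        simp only [Nat.cast_zero, add_zero] at hx
        rw [← hS] at hx
        induction hx using Submodule.span_induction with
        | mem x hx =>
          refine ⟨fun i => ⟨q * co x i, ?_⟩, ?_⟩
          · simpa using hqS x hx i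
          · simp only [Psi, LinearMap.coe_mk, AddHom.coe_mk]
            conv_rhs => rw [hco x hx]
            rw [Finset.smul_sum]
            simp only [mul_smul]
        | zero => rw [smul_zero]; exact Submodule.zero_mem _
        | add y z _ _ hy hz => rw [smul_add]; exact add_mem hy hz
        | smul c y _ hy => rw [smul_comm]; exact Submodule.smul_mem _ _ hy
      | succ j ih =>
        intro x hx
        have e : m₁ + ((j + 1 : ℕ) : ℤ) = m₁ + j + 1 := by push_cast; ring
        rw [e] at hx
        obtain ⟨a, ha, b', hb', c, hc, rfl⟩ := hm₂ (m₁ + j) (by omega) x hx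
        obtain ⟨ga, hga⟩ := ih a ha
        obtain ⟨gb, hgb⟩ := ih b' hb'
        obtain ⟨gc, hgc⟩ := ih c hc
        refine ⟨fun i => ⟨ga i + u * gb i + v * gc i, ?_⟩, ?_⟩
        · refine add_mem (add_mem (polyLE_mono ?_ (ga i).2) ?_) ?_
          · push_cast; omega
          · have := polyLE_mul (k := k) (u_mem_polyLE (v := v) (u := u) le_rfl) (gb i).2
            convert this using 2; push_cast; ring
          · have := polyLE_mul (k := k) (v_mem_polyLE (v := v) (u := u) le_rfl) (gc i).2
            convert this using 2; push_cast; ring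
        · simp only [Psi, LinearMap.coe_mk, AddHom.coe_mk] at hga hgb hgc ⊢
          simp only [add_smul, Finset.sum_add_distrib, mul_smul, ← Finset.smul_sum]
          rw [hga, hgb, hgc, smul_add, smul_add, smul_comm u q, smul_comm v q]
    have h1 : (E (m₁ + j)).map (mulBy k q) ≤
        LinearMap.range (Psi (k := k) u v (Subtype.val : b → V) ((j : ℤ) + r)) := by
      rintro _ ⟨x, hx, rfl⟩
      exact key j x hx
    have h2 := Submodule.finrank_mono h1
    rw [finrank_map_mulBy hq] at h2
    have h3 := LinearMap.finrank_range_le (Psi (k := k) u v (Subtype.val : b → V) ((j : ℤ) + r))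
    rw [finrank_Psi_dom hK.indep, ← hcard] at h3
    exact h2.trans h3

/-- **the leading coefficient is the rank** -/
theorem lead_eq_rk {u v : K} (hK : IsRat k u v) {E : ℤ → Submodule k V} (hE : IsLat u v E)
    {s : ℕ} {b c : ℚ} (hHP : HasHP E s b c) : s = rk K E := by
  obtain ⟨m₁, r, hsw⟩ := sandwich hK hE
  obtain ⟨M, hM⟩ := hHP
  set n := rk K E with hn
  have key : ∀ m ≥ max M m₁, (n : ℚ) * (((m : ℚ) - m₁ + 1) * (m - m₁ + 2) / 2) ≤
      s / 2 * (m : ℚ) ^ 2 + b * m + c ∧ s / 2 * (m : ℚ) ^ 2 + b * m + c ≤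
        (n : ℚ) * (((m : ℚ) - m₁ + r + 1) * (m - m₁ + r + 2) / 2) := by
    intro m hm
    have hm1 : M ≤ m := (le_max_left _ _).trans hm
    have hm2 : m₁ ≤ m := (le_max_right _ _).trans hm
    obtain ⟨j, rfl⟩ := Int.le.dest hm2
    rw [← hM _ hm1]
    obtain ⟨h1, h2⟩ := hsw j
    have e1 := dimA_cast (m := (j : ℤ)) (by omega)
    have e2 := dimA_cast (m := (j : ℤ) + r) (by omega)
    have h1' : ((n * dimA j : ℕ) : ℚ) ≤ (finrank k (E (m₁ + j)) : ℚ) := by exact_mod_cast h1
    have h2' : (finrank k (E (m₁ + j)) : ℚ) ≤ ((n * dimA (j + r) : ℕ) : ℚ) := by exact_mod_cast h2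
    push_cast at h1' h2' e1 e2 ⊢
    rw [e1] at h1'
    rw [e2] at h2'
    constructor
    · convert h1' using 2; ring
    · convert h2' using 2; ring
  have h1 := (quad_nonneg (a := (s : ℚ) / 2 - n / 2) (b := b - n * (-2 * m₁ + 3) / 2)
    (c := c - n * ((-m₁ + 1) * (-m₁ + 2)) / 2) (M := max M m₁) (fun m hm => by
      have := (key m hm).1
      nlinarith)).1
  have h2 := (quad_nonneg (a := (n : ℚ) / 2 - s / 2) (b := n * (-2 * m₁ + 2 * r + 3) / 2 - b)
    (c := n * ((-m₁ + r + 1) * (-m₁ + r + 2)) / 2 - c) (M := max M m₁) (fun m hm => by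
      have := (key m hm).2
      nlinarith)).1
  have h3 : (s : ℚ) = n := by linarith
  exact_mod_cast h3

end

end Crest.Agent.R169.P1
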