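import Mathlib

/-!
# Row 169, Part E1: the ultraproduct field `KStar` of the algebraic closures of the prime fields

`KStar` is an algebraically closed field of characteristic zero and of cardinality continuum, so
it is isomorphic to `ℂ`.
-/

set_option autoImplicit false

namespace Crest.Agent.R169

open Filter Cardinal

/-- the index set: primes larger than `7` -/
def PP : Type := {p : ℕ // p.Prime ∧ 7 < p}

/-- the prime number -/
def PP.val (p : PP) : ℕ := p.1

theorem PP.prime (p : PP) : p.val.Prime := p.2.1

theorem PP.seven_lt (p : PP) : 7 < p.val := p.2.2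

theorem PP.val_injective : Function.Injective PP.val := Subtype.val_injective

instance : Countable PP := PP.val_injective.countable

instance : Infinite PP := by
  have h : ∀ n : ℕ, ∃ p : PP, n < p.val := by
    intro n
    obtain ⟨p, hp, hpp⟩ := Nat.exists_infinite_primes (max n 7 + 1)
    exact ⟨⟨p, hpp, by omega⟩, by show n < p; omega⟩
  rw [← not_finite_iff_infinite]
  intro hfin
  obtain ⟨N, hN⟩ := (Set.finite_range PP.val).bddAbove
  obtain ⟨p, hp⟩ := h N
  exact absurd (hN ⟨p, rfl⟩) (not_le.2 hp)

/-- a fixed non-principal ultrafilter on the primes -/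
noncomputable def UU : Ultrafilter PP := Filter.hyperfilter PP

/-- the field `𝔽̄_p` -/
abbrev Kp (p : PP) : Type :=
  haveI : Fact (p.val).Prime := ⟨p.prime⟩
  AlgebraicClosure (ZMod p.val)

instance factPrime (p : PP) : Fact (p.val).Prime := ⟨p.prime⟩

instance charP_Kp (p : PP) : CharP (Kp p) p.val := inferInstance

/-- a property holds for almost all primes -/
def AE (P : PP → Prop) : Prop := ∀ᶠ p in (UU : Filter PP), P p

theorem AE.mono {P R : PP → Prop} (h : AE P) (h' : ∀ p, P p → R p) : AE R :=
  Filter.Eventually.mono h h'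

theorem AE.and {P R : PP → Prop} (h : AE P) (h' : AE R) : AE (fun p => P p ∧ R p) :=
  Filter.Eventually.and h h'

theorem AE.mp {P R : PP → Prop} (h : AE P) (h' : AE (fun p => P p → R p)) : AE R :=
  Filter.Eventually.mp h h'

theorem AE.of_forall {P : PP → Prop} (h : ∀ p, P p) : AE P :=
  Filter.Eventually.of_forall h

theorem AE.not_iff {P : PP → Prop} : AE (fun p => ¬ P p) ↔ ¬ AE P :=
  Ultrafilter.eventually_not

theorem AE.or_iff {P R : PP → Prop} : AE (fun p => P p ∨ R p) ↔ AE P ∨ AE R :=
  Ultrafilter.eventually_or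

theorem AE.exists {P : PP → Prop} (h : AE P) : ∃ p, P p :=
  Filter.Eventually.exists h

theorem AE.of_finite {P : PP → Prop} (h : {p | ¬ P p}.Finite) : AE P :=
  (hyperfilter_le_cofinite (α := PP)) (by simpa [Filter.mem_cofinite, Set.compl_ofPred] using h)

theorem AE.large {P : PP → Prop} (h : AE P) (N : ℕ) : ∃ p, P p ∧ N < p.val := by
  have h1 : AE (fun p : PP => N < p.val) := by
    apply AE.of_finite
    have : {p : PP | ¬ N < p.val} ⊆ (PP.val) ⁻¹' (Set.Iic N) := by
      intro p hp
      simpa using hp
    exact (Set.Finite.preimage (PP.val_injective.injOn) (Set.finite_Iic N)).subset this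
  exact (h.and h1).exists

theorem AE.all_finite {ι : Type} [Finite ι] {P : ι → PP → Prop} (h : ∀ i, AE (P i)) :
    AE (fun p => ∀ i, P i p) :=
  Filter.eventually_all.2 h

theorem AE.ball_finset {ι : Type} (s : Finset ι) {P : ι → PP → Prop}
    (h : ∀ i ∈ s, AE (P i)) : AE (fun p => ∀ i ∈ s, P i p) :=
  (Filter.eventually_all_finset s).2 h

/-- sequences vanishing almost everywhere -/
def nullIdeal : Ideal (∀ p : PP, Kp p) where
  carrier := {f | AE (fun p => f p = 0)}
  add_mem' := by
    intro a b ha hb
    exact (AE.and ha hb).mono (by rintro p ⟨h1, h2⟩; simp [h1, h2])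
  zero_mem' := AE.of_forall (fun p => rfl)
  smul_mem' := by
    intro c x hx
    exact AE.mono hx (by intro p h; simp [h])

theorem mem_nullIdeal {f : ∀ p : PP, Kp p} : f ∈ nullIdeal ↔ AE (fun p => f p = 0) :=
  Iff.rfl

instance nullIdeal_isMaximal : nullIdeal.IsMaximal := by
  rw [Ideal.isMaximal_iff]
  constructor
  · intro h
    have h1 : AE (fun p => (1 : ∀ p : PP, Kp p) p = 0) := h
    obtain ⟨p, hp⟩ := h1.exists
    exact one_ne_zero hp
  · intro J x hJ hx hxJ
    have h1 : AE (fun p => x p ≠ 0) := AE.not_iff.2 hx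
    have h2 : x * (fun p => (x p)⁻¹) - 1 ∈ nullIdeal := by
      rw [mem_nullIdeal]
      refine h1.mono ?_
      intro p hp
      simp [hp]
    have h3 : x * (fun p => (x p)⁻¹) ∈ J := Ideal.mul_mem_right _ _ hxJ
    have h4 := J.sub_mem h3 (hJ h2)
    simpa using h4

/-- the ultraproduct -/
def KStar : Type := (∀ p : PP, Kp p) ⧸ nullIdeal

noncomputable instance : Field KStar := Ideal.Quotient.field nullIdeal

/-- the class of a sequence -/
noncomputable def cls : (∀ p : PP, Kp p) →+* KStar := Ideal.Quotient.mk nullIdeal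

theorem cls_surjective : Function.Surjective cls := Ideal.Quotient.mk_surjective

theorem cls_eq_zero {f : ∀ p : PP, Kp p} : cls f = 0 ↔ AE (fun p => f p = 0) :=
  Ideal.Quotient.eq_zero_iff_mem

theorem cls_eq_iff {f g : ∀ p : PP, Kp p} : cls f = cls g ↔ AE (fun p => f p = g p) := by
  rw [← sub_eq_zero, ← map_sub, cls_eq_zero]
  constructor
  · intro h; exact h.mono (fun p hp => by simpa [sub_eq_zero] using hp)
  · intro h; exact h.mono (fun p hp => by simpa [sub_eq_zero] using hp)

/-- a choice of representatives -/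
noncomputable def rep (x : KStar) : ∀ p : PP, Kp p := (cls_surjective x).choose

@[simp] theorem cls_rep (x : KStar) : cls (rep x) = x := (cls_surjective x).choose_spec

instance : CharZero KStar := by
  refine charZero_of_inj_zero ?_
  intro n hn
  by_contra hne
  have h1 : cls ((n : ∀ p : PP, Kp p)) = 0 := by simpa using hn
  rw [cls_eq_zero] at h1
  have h2 : AE (fun p : PP => ¬ ((n : ∀ p : PP, Kp p) p = 0)) := by
    apply AE.of_finite
    have : {p : PP | ¬ ¬ ((n : ∀ p : PP, Kp p) p = 0)} ⊆
        (PP.val) ⁻¹' (Set.Iic n) := by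
      intro p hp
      simp only [not_not, Set.mem_ofPred_eq, Pi.natCast_apply] at hp
      rw [CharP.cast_eq_zero_iff (Kp p) p.val] at hp
      exact Nat.le_of_dvd (Nat.pos_of_ne_zero hne) hp
    exact (Set.Finite.preimage (PP.val_injective.injOn) (Set.finite_Iic n)).subset this
  exact (AE.not_iff.1 h2) h1

instance : IsAlgClosed KStar := by
  refine IsAlgClosed.of_exists_root _ ?_
  intro P hP hirr
  have hl : P ∈ Polynomial.lifts cls := by
    rw [Polynomial.lifts_iff_coeff_lifts]
    intro n
    exact cls_surjective _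
  obtain ⟨q, hq, hdeg, hmon⟩ := Polynomial.lifts_and_natDegree_eq_and_monic hl hP
  have hpos : 0 < q.natDegree := by rw [hdeg]; exact hirr.natDegree_pos
  have hroot : ∀ p : PP, ∃ x : Kp p, (q.map (Pi.evalRingHom _ p)).eval x = 0 := by
    intro p
    apply IsAlgClosed.exists_root
    have hm : (q.map (Pi.evalRingHom (fun p : PP => Kp p) p)).Monic := hmon.map _
    have : (q.map (Pi.evalRingHom (fun p : PP => Kp p) p)).natDegree = q.natDegree :=
      hmon.natDegree_map _
    intro hd
    have h0 : (q.map (Pi.evalRingHom (fun p : PP => Kp p) p)).natDegree = 0 :=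
      Polynomial.natDegree_eq_zero_iff_degree_le_zero.2 (le_of_eq hd)
    omega
  choose x hx using hroot
  refine ⟨cls x, ?_⟩
  have h0 : q.eval x = 0 := by
    funext p
    have := hx p
    rw [Polynomial.eval_map] at this
    have h2 := Polynomial.hom_eval₂ q (RingHom.id _) (Pi.evalRingHom (fun p : PP => Kp p) p) x
    simp only [RingHom.comp_id, Pi.evalRingHom_apply] at h2
    rw [Polynomial.eval, h2, this]
    rfl
  rw [← hq, Polynomial.eval_map, Polynomial.eval₂_hom, h0, map_zero]

/-! ### Cardinality -/

theorem countable_Kp (p : PP) : Countable (Kp p) := by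
  have h : #(Kp p) ≤ max #(ZMod p.val) ℵ₀ := Algebra.IsAlgebraic.cardinalMk_le_max _ _
  have h2 : #(ZMod p.val) ≤ ℵ₀ := by
    have : NeZero p.val := ⟨p.prime.ne_zero⟩
    exact (Cardinal.mk_le_aleph0 (α := ZMod p.val))
  exact Cardinal.mk_le_aleph0_iff.1 (h.trans (max_le h2 le_rfl))

theorem card_KStar_le : #KStar ≤ 𝔠 := by
  have := countable_Kp
  have h1 : #KStar ≤ #(∀ p : PP, Kp p) := Cardinal.mk_le_of_surjective cls_surjective
  refine h1.trans ?_
  have h2 : ∀ p : PP, #(Kp p) ≤ ℵ₀ := fun p => Cardinal.mk_le_aleph0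
  rw [Cardinal.mk_pi]
  refine (Cardinal.prod_le_prod _ _ h2).trans ?_
  rw [Cardinal.prod_const]
  simp only [Cardinal.lift_id]
  have h3 : #PP = ℵ₀ := Cardinal.mk_eq_aleph0 _
  rw [h3, Cardinal.aleph0_power_aleph0]

/-- code of the first `n` bits -/
def code (r : ℕ → Bool) (n : ℕ) : ℕ := ∑ i ∈ Finset.range n, (r i).toNat * 2 ^ i

theorem code_inj {r s : ℕ → Bool} {n : ℕ} (h : code r n = code s n) : ∀ i < n, r i = s i := by
  induction n with
  | zero => intro i hi; omega
  | succ n ih =>
    have hlt : ∀ (r : ℕ → Bool) (n : ℕ), code r n < 2 ^ n := by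
      intro r n
      induction n with
      | zero => simp [code]
      | succ n ih2 =>
        rw [code, Finset.sum_range_succ, ← code, pow_succ]
        have : (r n).toNat ≤ 1 := Bool.toNat_le _
        nlinarith
    have e1 : code r (n + 1) = code r n + (r n).toNat * 2 ^ n := by
      rw [code, Finset.sum_range_succ, ← code]
    have e2 : code s (n + 1) = code s n + (s n).toNat * 2 ^ n := by
      rw [code, Finset.sum_range_succ, ← code]
    rw [e1, e2] at h
    have l1 := hlt r n
    have l2 := hlt s n
    have hb : (r n).toNat = (s n).toNat := by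
      cases hr : r n <;> cases hs : s n <;> simp [hr, hs] at h ⊢ <;> omega
    have hn : r n = s n := by
      cases hr : r n <;> cases hs : s n <;> simp [hr, hs] at hb ⊢
    rw [hb] at h
    have h' : code r n = code s n := by omega
    intro i hi
    rcases Nat.lt_succ_iff_lt_or_eq.1 hi with h1 | h1
    · exact ih h' i h1
    · rw [h1]; exact hn

theorem card_KStar_ge : 𝔠 ≤ #KStar := by
  have hinf : ∀ p : PP, Infinite (Kp p) := fun p => IsAlgClosed.instInfinite
  let j : ∀ p : PP, ℕ ↪ Kp p := fun p => Infinite.natEmbedding (Kp p)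
  let f : (ℕ → Bool) → KStar := fun r => cls (fun p => j p (code r p.val))
  have hf : Function.Injective f := by
    intro r s hrs
    have h1 : AE (fun p : PP => j p (code r p.val) = j p (code s p.val)) :=
      cls_eq_iff.1 hrs
    funext i
    obtain ⟨p, hp, hN⟩ := h1.large i
    exact code_inj ((j p).injective hp) i hN
  have := Cardinal.mk_le_of_injective hf
  simpa using this

theorem card_KStar : #KStar = 𝔠 := le_antisymm card_KStar_le card_KStar_ge

/-- `KStar` is isomorphic to the field of complex numbers. -/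
theorem nonempty_ringEquiv_complex : Nonempty (ℂ ≃+* KStar) := by
  refine IsAlgClosed.ringEquiv_of_equiv_of_charZero ?_ ?_
  · rw [Cardinal.mk_complex]; exact Cardinal.aleph0_lt_continuum
  · rw [← Cardinal.eq, Cardinal.mk_complex, card_KStar]

end Crest.Agent.R169
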