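import Mathlib

/-!
# Row 169: a Noetherian integrally closed domain is the intersection of its height-one DVRs
-/

set_option autoImplicit false

noncomputable section

namespace Crest.Agent.R169.Krull

open IsLocalRing

/-- Local form: in a Noetherian local integrally closed domain, if the maximal ideal is
contained in `(b : c)` with `c ∉ (b)`, then the maximal ideal is principal. -/
theorem maximalIdeal_isPrincipal_of_colon {S : Type*} [CommRing S] [IsDomain S] [IsNoetherianRing S]
    [IsLocalRing S] [IsIntegrallyClosed S] {b c : S} (hb : b ≠ 0) (hc : ¬ b ∣ c)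
    (h : ∀ r ∈ maximalIdeal S, b ∣ c * r) : (maximalIdeal S).IsPrincipal := by
  classical
  by_cases hbot : maximalIdeal S = ⊥
  · rw [hbot]; infer_instance
  let K := FractionRing S
  let x : K := algebraMap S K c / algebraMap S K b
  let M := Submodule.map (Algebra.linearMap S K) (maximalIdeal S)
  have hbK : algebraMap S K b ≠ 0 := IsFractionRing.to_map_eq_zero_iff.not.mpr hb
  by_cases hx : ∀ y ∈ M, x * y ∈ M
  · exfalso
    obtain ⟨a, ha, ha0⟩ := Submodule.exists_mem_ne_zero_of_ne_bot hbot
    have := isIntegral_of_smul_mem_submodule M ?_ ?_ x hx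
    · obtain ⟨y, e⟩ := IsIntegrallyClosed.algebraMap_eq_of_integral this
      refine hc ⟨y, ?_⟩
      apply IsFractionRing.injective S K
      rw [map_mul, e, mul_div_cancel₀ _ hbK]
    · rw [Submodule.ne_bot_iff]; refine ⟨_, ⟨a, ha, rfl⟩, ?_⟩
      exact (IsFractionRing.to_map_eq_zero_iff (K := K)).not.mpr ha0
    · apply Submodule.FG.map; exact IsNoetherian.noetherian _
  · push Not at hx
    obtain ⟨y, ⟨r, hr, rfl⟩, hy⟩ := hx
    obtain ⟨w, hw⟩ := h r hr
    have hxr : x * algebraMap S K r = algebraMap S K w := by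
      rw [← mul_div_right_comm, ← map_mul, hw, map_mul, mul_div_cancel_left₀ _ hbK]
    have hwu : IsUnit w := by
      by_contra hwn
      exact hy ⟨w, (mem_maximalIdeal _).mpr hwn, hxr.symm⟩
    refine ⟨⟨r, ?_⟩⟩
    apply le_antisymm
    · intro m hm
      obtain ⟨k, hk⟩ := h m hm
      have hc0 : c ≠ 0 := by rintro rfl; exact hc (dvd_zero _)
      -- c * r = b * w, c * m = b * k  => m * w = r * k
      have : b * (m * w) = b * (r * k) := by
        apply mul_left_cancel₀ hc0
        calc c * (b * (m * w)) = (c * m) * (b * w) := by ring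
          _ = (b * k) * (c * r) := by rw [hk, hw]
          _ = c * (b * (r * k)) := by ring
      have h2 : m * w = r * k := mul_left_cancel₀ hb this
      obtain ⟨u, rfl⟩ := hwu
      have h3 : m = r * (k * ↑u⁻¹) := by
        rw [← mul_assoc, ← h2, mul_assoc, Units.mul_inv, mul_one]
      rw [h3]
      exact Ideal.mul_mem_right _ _ (Ideal.mem_span_singleton_self r)
    · rwa [Submodule.span_le, Set.singleton_subset_iff]

variable {R : Type*} [CommRing R] [IsDomain R]

/-- height-one primes, elementary form -/
structure IsHtOne (P : Ideal R) : Prop where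
  prime : P.IsPrime
  ne_bot : P ≠ ⊥
  min : ∀ Q : Ideal R, Q.IsPrime → Q ≠ ⊥ → Q ≤ P → Q = P

section

variable [IsNoetherianRing R] [IsIntegrallyClosed R]

/-- a prime of the form `(b : c)`, `b ≠ 0`, has a DVR as its local ring -/
theorem isDVR_of_colon (P : Ideal R) [hP : P.IsPrime] {b c : R} (hb : b ≠ 0)
    (h : ∀ r, r ∈ P ↔ b ∣ c * r) : IsDiscreteValuationRing (Localization.AtPrime P) := by
  have hbP : b ∈ P := (h b).mpr (dvd_mul_left _ _)
  have h1 : ¬ b ∣ c := by
    intro hd
    exact hP.ne_top ((Ideal.eq_top_iff_one _).mpr ((h 1).mpr (by simpa using hd)))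
  have hic : IsIntegrallyClosed (Localization.AtPrime P) :=
    isIntegrallyClosed_of_isLocalization _ P.primeCompl P.primeCompl_le_nonZeroDivisors
  have hinj : Function.Injective (algebraMap R (Localization.AtPrime P)) :=
    IsLocalization.injective _ P.primeCompl_le_nonZeroDivisors
  have hb' : algebraMap R (Localization.AtPrime P) b ≠ 0 := by
    rw [Ne, ← map_zero (algebraMap R (Localization.AtPrime P))]
    exact fun e => hb (hinj e)
  have hnf : ¬ IsField (Localization.AtPrime P) := by
    intro hF
    have hm : maximalIdeal (Localization.AtPrime P) = ⊥ := isField_iff_maximalIdeal_eq.mp hF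
    have : algebraMap R (Localization.AtPrime P) b ∈ maximalIdeal (Localization.AtPrime P) := by
      rw [IsLocalization.AtPrime.to_map_mem_maximal_iff (Localization.AtPrime P) P]
      exact hbP
    rw [hm] at this
    exact hb' this
  have key : (maximalIdeal (Localization.AtPrime P)).IsPrincipal := by
    refine maximalIdeal_isPrincipal_of_colon (b := algebraMap R _ b) (c := algebraMap R _ c)
      hb' ?_ ?_
    · rintro ⟨z, hz⟩
      obtain ⟨⟨s, t⟩, hst⟩ := IsLocalization.surj P.primeCompl z
      have h2 : algebraMap R (Localization.AtPrime P) (c * t) = algebraMap R _ (b * s) := by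
        rw [map_mul, map_mul, ← hst, hz]; ring
      have h3 := hinj h2
      exact t.2 ((h t).mpr ⟨s, h3⟩)
    · intro z hz
      obtain ⟨⟨s, t⟩, hst⟩ := IsLocalization.surj P.primeCompl z
      have hs : s ∈ P := by
        have : algebraMap R (Localization.AtPrime P) s ∈ maximalIdeal (Localization.AtPrime P) := by
          rw [← hst]; exact Ideal.mul_mem_right _ _ hz
        rwa [IsLocalization.AtPrime.to_map_mem_maximal_iff (Localization.AtPrime P) P] at this
      obtain ⟨w, hw⟩ := (h s).mp hs
      have ht : IsUnit (algebraMap R (Localization.AtPrime P) t) := IsLocalization.map_units _ t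
      obtain ⟨u, hu⟩ := ht
      refine ⟨algebraMap R _ w * ↑u⁻¹, ?_⟩
      have : algebraMap R (Localization.AtPrime P) c * z * u = algebraMap R _ b * algebraMap R _ w := by
        rw [hu, mul_assoc, hst, ← map_mul, hw, map_mul]
      calc algebraMap R (Localization.AtPrime P) c * z
          = algebraMap R (Localization.AtPrime P) c * z * u * ↑u⁻¹ := by
            rw [mul_assoc _ (u : Localization.AtPrime P), Units.mul_inv, mul_one]
        _ = _ := by rw [this]; ring
  exact ((IsDiscreteValuationRing.TFAE (Localization.AtPrime P) hnf).out 0 4).mpr key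

omit [IsNoetherianRing R] [IsIntegrallyClosed R] in
/-- if the local ring at `P` is a DVR then `P` has height one -/
theorem isHtOne_of_isDVR (P : Ideal R) [hP : P.IsPrime]
    [hD : IsDiscreteValuationRing (Localization.AtPrime P)] : IsHtOne P := by
  have hinj : Function.Injective (algebraMap R (Localization.AtPrime P)) :=
    IsLocalization.injective _ P.primeCompl_le_nonZeroDivisors
  refine ⟨hP, ?_, ?_⟩
  · rintro rfl
    apply IsDiscreteValuationRing.not_a_field (Localization.AtPrime (⊥ : Ideal R))
    rw [eq_bot_iff]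
    intro z hz
    obtain ⟨⟨s, t⟩, hst⟩ := IsLocalization.surj (⊥ : Ideal R).primeCompl z
    have hs : s ∈ (⊥ : Ideal R) := by
      have : algebraMap R (Localization.AtPrime (⊥ : Ideal R)) s ∈ maximalIdeal _ := by
        rw [← hst]; exact Ideal.mul_mem_right _ _ hz
      rwa [IsLocalization.AtPrime.to_map_mem_maximal_iff _ (⊥ : Ideal R)] at this
    rw [Ideal.mem_bot] at hs
    subst hs
    rw [map_zero] at hst
    have ht : IsUnit (algebraMap R (Localization.AtPrime (⊥ : Ideal R)) t) :=
      IsLocalization.map_units _ t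
    rw [Ideal.mem_bot]
    exact (ht.mul_left_eq_zero).mp hst
  · intro Q hQ hQ0 hQP
    have hdis : Disjoint (P.primeCompl : Set R) (Q : Set R) := by
      rw [Set.disjoint_left]
      intro z hz hzQ
      exact hz (hQP hzQ)
    have hQm : (Q.map (algebraMap R (Localization.AtPrime P))).IsPrime :=
      IsLocalization.isPrime_of_isPrime_disjoint P.primeCompl _ Q hQ hdis
    have hQm0 : Q.map (algebraMap R (Localization.AtPrime P)) ≠ ⊥ := by
      intro h0
      obtain ⟨a, ha, ha0⟩ := Submodule.exists_mem_ne_zero_of_ne_bot hQ0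
      have : algebraMap R (Localization.AtPrime P) a ∈
        Q.map (algebraMap R (Localization.AtPrime P)) := Ideal.mem_map_of_mem _ ha
      rw [h0, Ideal.mem_bot, ← map_zero (algebraMap R (Localization.AtPrime P))] at this
      exact ha0 (hinj this)
    have hmax : (Q.map (algebraMap R (Localization.AtPrime P))).IsMaximal := hQm.isMaximal hQm0
    have heq := eq_maximalIdeal hmax
    have c1 := IsLocalization.under_map_of_isPrime_disjoint P.primeCompl (Localization.AtPrime P)
      hQ hdis
    have c2 : (maximalIdeal (Localization.AtPrime P)).under R = P :=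
      IsLocalization.AtPrime.under_maximalIdeal _ P
    rw [← c1, heq, c2]

/-- height-one primes have DVR local rings -/
theorem IsHtOne.isDVR {P : Ideal R} [P.IsPrime] (h : IsHtOne P) :
    IsDiscreteValuationRing (Localization.AtPrime P) := by
  have hic : IsIntegrallyClosed (Localization.AtPrime P) :=
    isIntegrallyClosed_of_isLocalization _ P.primeCompl P.primeCompl_le_nonZeroDivisors
  have hinj : Function.Injective (algebraMap R (Localization.AtPrime P)) :=
    IsLocalization.injective _ P.primeCompl_le_nonZeroDivisors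
  have hm0 : maximalIdeal (Localization.AtPrime P) ≠ ⊥ := by
    intro hm
    apply h.ne_bot
    rw [eq_bot_iff]
    intro a ha
    have : algebraMap R (Localization.AtPrime P) a ∈ maximalIdeal (Localization.AtPrime P) := by
      rwa [IsLocalization.AtPrime.to_map_mem_maximal_iff (Localization.AtPrime P) P]
    rw [hm, Ideal.mem_bot, ← map_zero (algebraMap R (Localization.AtPrime P))] at this
    exact hinj this
  have hnf : ¬ IsField (Localization.AtPrime P) := isField_iff_maximalIdeal_eq.not.mpr hm0
  suffices h4 : IsIntegrallyClosed (Localization.AtPrime P) ∧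
      ∃! Q : Ideal (Localization.AtPrime P), Q ≠ ⊥ ∧ Q.IsPrime from
    ((IsDiscreteValuationRing.TFAE (Localization.AtPrime P) hnf).out 0 3).mpr h4
  refine ⟨hic, maximalIdeal _, ⟨hm0, inferInstance⟩, ?_⟩
  rintro Q ⟨hQ0, hQ⟩
  have hmc : (Q.comap (algebraMap R (Localization.AtPrime P))).map
      (algebraMap R (Localization.AtPrime P)) = Q :=
    IsLocalization.map_under P.primeCompl (Localization.AtPrime P) Q
  have hc : (Q.comap (algebraMap R (Localization.AtPrime P))).IsPrime := Ideal.IsPrime.comap _
  have hcP : Q.comap (algebraMap R (Localization.AtPrime P)) ≤ P := by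
    intro a ha
    rw [← IsLocalization.AtPrime.to_map_mem_maximal_iff (Localization.AtPrime P) P]
    exact le_maximalIdeal hQ.ne_top ha
  have hc0 : Q.comap (algebraMap R (Localization.AtPrime P)) ≠ ⊥ := by
    intro h0
    apply hQ0
    rw [← hmc, h0, Ideal.map_bot]
  have := h.min _ hc hc0 hcP
  rw [← hmc, this]
  exact IsLocalization.AtPrime.map_eq_maximalIdeal P _

/-- (K1)+(K2) if `b ∤ a` there is a height-one prime containing `(b : a)`. -/
theorem exists_isHtOne_of_not_dvd {a b : R} (hb : b ≠ 0) (h : ¬ b ∣ a) :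
    ∃ P : Ideal R, IsHtOne P ∧ ∀ t, b ∣ a * t → t ∈ P := by
  classical
  let I : Ideal R := Ideal.span {b}
  let x : R ⧸ I := Ideal.Quotient.mk I a
  have hx : x ≠ 0 := by
    intro h0
    rw [Ideal.Quotient.eq_zero_iff_mem, Ideal.mem_span_singleton] at h0
    exact h h0
  obtain ⟨P, hP, hle⟩ := exists_le_isAssociatedPrime_of_isNoetherianRing R x hx
  obtain ⟨hPp, y, hy⟩ := (isAssociatedPrime_iff).mp hP
  obtain ⟨c, rfl⟩ := Ideal.Quotient.mk_surjective y
  have hmem : ∀ r, r ∈ P ↔ b ∣ c * r := by
    intro r
    rw [hy, Submodule.mem_colon_singleton]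
    rw [Submodule.mem_bot, Algebra.smul_def, Ideal.Quotient.algebraMap_eq, ← map_mul,
      Ideal.Quotient.eq_zero_iff_mem, Ideal.mem_span_singleton, mul_comm]
  have := isDVR_of_colon P hb hmem
  refine ⟨P, isHtOne_of_isDVR P, ?_⟩
  intro t ht
  apply hle
  rw [Submodule.mem_colon_singleton]
  rw [Submodule.mem_bot, Algebra.smul_def, Ideal.Quotient.algebraMap_eq, ← map_mul,
    Ideal.Quotient.eq_zero_iff_mem, Ideal.mem_span_singleton, mul_comm]
  exact ht

omit [IsIntegrallyClosed R] [IsDomain R] in
/-- (K3) a nonzero element lies in finitely many height-one primes -/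
theorem finite_isHtOne_mem {a : R} (ha : a ≠ 0) : {P : Ideal R | IsHtOne P ∧ a ∈ P}.Finite := by
  apply (Ideal.span {a}).finite_minimalPrimes_of_isNoetherianRing.subset
  rintro P ⟨hP, haP⟩
  refine ⟨⟨hP.prime, ?_⟩, ?_⟩
  · rwa [Ideal.span_le, Set.singleton_subset_iff]
  · rintro Q ⟨hQ, hQa⟩ hQP
    have : Q ≠ ⊥ := by
      rintro rfl
      exact ha (hQa (Ideal.mem_span_singleton_self a))
    exact (hP.min Q hQ this hQP).ge

end

/-! ### the order function of a height-one prime on the fraction field -/

section ord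

variable [IsNoetherianRing R] [IsIntegrallyClosed R] (K : Type*) [Field K] [Algebra R K]
  [IsFractionRing R K]

/-- the local ring at `P` as a subalgebra of `K` -/
abbrev algLoc (P : Ideal R) [P.IsPrime] : Algebra (Localization.AtPrime P) K :=
  (IsLocalization.lift (M := P.primeCompl) (g := algebraMap R K) (fun y => by
    have hy : (y : R) ≠ 0 := nonZeroDivisors.ne_zero (P.primeCompl_le_nonZeroDivisors y.2)
    exact (isUnit_iff_ne_zero.mpr
      ((map_ne_zero_iff _ (IsFractionRing.injective R K)).mpr hy))) :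
      Localization.AtPrime P →+* K).toAlgebra

omit [IsNoetherianRing R] [IsIntegrallyClosed R] in
theorem algLoc_tower (P : Ideal R) [P.IsPrime] :
    letI := algLoc K P
    IsScalarTower R (Localization.AtPrime P) K := by
  let _ := algLoc K P
  refine IsScalarTower.of_algebraMap_eq fun x => ?_
  exact (IsLocalization.lift_eq _ x).symm

/-- `ord : K → ℤ` is the normalised discrete valuation with centre the prime `P` of `R` and
valuation ring `R_P`. -/
structure IsOrd (P : Ideal R) (ord : K → ℤ) : Prop where
  mul : ∀ a b, a ≠ 0 → b ≠ 0 → ord (a * b) = ord a + ord b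
  add : ∀ a b, a ≠ 0 → b ≠ 0 → a + b ≠ 0 → min (ord a) (ord b) ≤ ord (a + b)
  nonneg : ∀ r : R, r ≠ 0 → 0 ≤ ord (algebraMap R K r)
  mem_iff : ∀ r : R, r ≠ 0 → (r ∈ P ↔ 0 < ord (algebraMap R K r))
  unif : ∃ π ∈ P, π ≠ 0 ∧ ord (algebraMap R K π) = 1
  frac : ∀ x : K, x ≠ 0 → 0 ≤ ord x → ∃ s t : R, t ∉ P ∧ x * algebraMap R K t = algebraMap R K s

theorem exists_ord (P : Ideal R) (hP : IsHtOne P) : ∃ ord : K → ℤ, IsOrd K P ord := by
  have := hP.prime
  have hD := hP.isDVR
  let _ := algLoc K P
  have := algLoc_tower K P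
  have : IsFractionRing (Localization.AtPrime P) K :=
    IsFractionRing.isFractionRing_of_isDomain_of_isLocalization P.primeCompl _ K
  let v := (IsDiscreteValuationRing.maximalIdeal (Localization.AtPrime P)).valuation K
  have hv0 : ∀ x : K, x ≠ 0 → v x ≠ 0 := fun x hx => (Valuation.ne_zero_iff _).mpr hx
  have hinj : Function.Injective (algebraMap R K) := IsFractionRing.injective R K
  have hle : ∀ r : R, v (algebraMap R K r) ≤ 1 := by
    intro r
    rw [IsScalarTower.algebraMap_apply R (Localization.AtPrime P) K]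
    exact IsDedekindDomain.HeightOneSpectrum.valuation_le_one _ _
  have hlt : ∀ r : R, v (algebraMap R K r) < 1 ↔ r ∈ P := by
    intro r
    rw [IsScalarTower.algebraMap_apply R (Localization.AtPrime P) K]
    rw [IsDedekindDomain.HeightOneSpectrum.valuation_lt_one_iff_mem]
    exact IsLocalization.AtPrime.to_map_mem_maximal_iff (Localization.AtPrime P) P r
  refine ⟨fun x => - WithZero.log (v x), ?_, ?_, ?_, ?_, ?_, ?_⟩
  · intro a b ha hb
    rw [map_mul, WithZero.log_mul (hv0 a ha) (hv0 b hb)]
    ring
  · intro a b ha hb hab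
    have h := v.map_add a b
    rcases le_max_iff.mp h with h | h
    · have := (WithZero.log_le_log (hv0 _ hab) (hv0 _ ha)).mpr h
      exact (min_le_left _ _).trans (neg_le_neg this)
    · have := (WithZero.log_le_log (hv0 _ hab) (hv0 _ hb)).mpr h
      exact (min_le_right _ _).trans (neg_le_neg this)
  · intro r hr
    have h0 := hv0 _ ((map_ne_zero_iff _ hinj).mpr hr)
    have := (WithZero.log_le_log h0 one_ne_zero).mpr (hle r)
    rw [WithZero.log_one] at this
    omega
  · intro r hr
    have h0 := hv0 _ ((map_ne_zero_iff _ hinj).mpr hr)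
    rw [← hlt, ← WithZero.log_lt_log h0 one_ne_zero, WithZero.log_one]
    omega
  · obtain ⟨ϖ, hϖ⟩ := (IsDiscreteValuationRing.maximalIdeal
      (Localization.AtPrime P)).intValuation_exists_uniformizer
    obtain ⟨⟨s, t⟩, hst⟩ := IsLocalization.surj P.primeCompl ϖ
    have hv : v (algebraMap (Localization.AtPrime P) K ϖ) = WithZero.exp (-1 : ℤ) := by
      rw [IsDedekindDomain.HeightOneSpectrum.valuation_of_algebraMap]
      exact hϖ
    have ht0 : (t : R) ≠ 0 := nonZeroDivisors.ne_zero (P.primeCompl_le_nonZeroDivisors t.2)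
    have ht : v (algebraMap R K t) = 1 := by
      refine le_antisymm (hle t) (not_lt.mp fun h => ?_)
      exact t.2 ((hlt t).mp h)
    have hs : v (algebraMap R K s) = WithZero.exp (-1 : ℤ) := by
      have h1 : algebraMap R K s = algebraMap (Localization.AtPrime P) K ϖ * algebraMap R K t := by
        rw [IsScalarTower.algebraMap_apply R (Localization.AtPrime P) K,
          IsScalarTower.algebraMap_apply R (Localization.AtPrime P) K (t : R), ← map_mul, hst]
      rw [h1, map_mul, hv, ht, mul_one]
    have hs0 : s ≠ 0 := by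
      rintro rfl
      rw [map_zero, map_zero] at hs
      exact (WithZero.exp_ne_zero hs.symm)
    refine ⟨s, ?_, hs0, ?_⟩
    · rw [← hlt, hs, ← WithZero.exp_zero]
      exact WithZero.exp_lt_exp.mpr (by norm_num)
    · rw [hs, WithZero.log_exp]
      norm_num
  · intro x hx h
    have h1 : v x ≤ 1 := by
      rw [← WithZero.log_le_log (hv0 _ hx) one_ne_zero, WithZero.log_one]
      omega
    obtain ⟨z, hz⟩ := IsDiscreteValuationRing.exists_lift_of_le_one h1
    obtain ⟨⟨s, t⟩, hst⟩ := IsLocalization.surj P.primeCompl z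
    refine ⟨s, t, t.2, ?_⟩
    rw [← hz, IsScalarTower.algebraMap_apply R (Localization.AtPrime P) K (t : R), ← map_mul, hst,
      ← IsScalarTower.algebraMap_apply]

/-- the order function of a height-one prime -/
def ordP (P : Ideal R) (hP : IsHtOne P) : K → ℤ := (exists_ord K P hP).choose

theorem ordP_spec (P : Ideal R) (hP : IsHtOne P) : IsOrd K P (ordP K P hP) :=
  (exists_ord K P hP).choose_spec

variable {K} in
omit [IsNoetherianRing R] [IsIntegrallyClosed R] [IsDomain R] [IsFractionRing R K] in
/-- an `IsOrd` vanishes on fractions of elements outside `P` -/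
theorem IsOrd.eq_zero_of_not_mem {P : Ideal R} {o : K → ℤ} (h : IsOrd K P o) {r : R}
    (hr : r ∉ P) : o (algebraMap R K r) = 0 := by
  have h0 : r ≠ 0 := by rintro rfl; exact hr P.zero_mem
  have h1 := h.nonneg r h0
  have h2 := (h.mem_iff r h0).not.mp hr
  omega

variable {K} in
omit [IsNoetherianRing R] [IsIntegrallyClosed R] [IsFractionRing R K] [IsDomain R] in
theorem IsOrd.one {P : Ideal R} {o : K → ℤ} (h : IsOrd K P o) : o 1 = 0 := by
  have := h.mul 1 1 one_ne_zero one_ne_zero
  rw [mul_one] at this
  omega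

theorem mul_hom_zpow {w : K → ℤ} (hmul : ∀ a b, a ≠ 0 → b ≠ 0 → w (a * b) = w a + w b)
    {x : K} (hx : x ≠ 0) (n : ℤ) : w (x ^ n) = n * w x := by
  have h1 : w 1 = 0 := by
    have := hmul 1 1 one_ne_zero one_ne_zero
    rw [mul_one] at this
    omega
  have hnat : ∀ n : ℕ, w (x ^ n) = n * w x := by
    intro n
    induction n with
    | zero => simp [h1]
    | succ n ih =>
      rw [pow_succ, hmul _ _ (pow_ne_zero _ hx) hx, ih]
      push_cast
      ring
  have hinv : ∀ y : K, y ≠ 0 → w y⁻¹ = - w y := by
    intro y hy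
    have := hmul y y⁻¹ hy (inv_ne_zero hy)
    rw [mul_inv_cancel₀ hy, h1] at this
    omega
  rcases Int.eq_nat_or_neg n with ⟨m, rfl | rfl⟩
  · rw [zpow_natCast, hnat]
  · rw [zpow_neg, zpow_natCast, hinv _ (pow_ne_zero _ hx), hnat]
    ring

variable {K} in
omit [IsNoetherianRing R] [IsIntegrallyClosed R] [IsDomain R] in
/-- uniqueness: a normalised discrete valuation, nonnegative on `R`, vanishing outside `P` and
positive on `P`, is the order function. -/
theorem IsOrd.unique {P : Ideal R} {o w : K → ℤ} (h : IsOrd K P o)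
    (hmul : ∀ a b, a ≠ 0 → b ≠ 0 → w (a * b) = w a + w b)
    (hunit : ∀ r : R, r ∉ P → w (algebraMap R K r) = 0)
    (hpos : ∀ r : R, r ∈ P → r ≠ 0 → 0 < w (algebraMap R K r))
    (hu : ∃ x : K, x ≠ 0 ∧ w x = 1) : ∀ x, x ≠ 0 → w x = o x := by
  have hinj : Function.Injective (algebraMap R K) := IsFractionRing.injective R K
  have hz : ∀ x : K, x ≠ 0 → o x = 0 → w x = 0 := by
    intro x hx hox
    obtain ⟨s, t, ht, hst⟩ := h.frac x hx hox.ge
    have ht0 : t ≠ 0 := by rintro rfl; exact ht P.zero_mem
    have ht0' : algebraMap R K t ≠ 0 := (map_ne_zero_iff _ hinj).mpr ht0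
    have h1 := h.mul x _ hx ht0'
    rw [hst, hox, h.eq_zero_of_not_mem ht] at h1
    have hs0 : s ≠ 0 := by
      rintro rfl
      rw [map_zero] at hst
      rcases mul_eq_zero.mp hst with h2 | h2
      · exact hx h2
      · exact ht0' h2
    have hs : s ∉ P := by
      intro hs
      have := (h.mem_iff s hs0).mp hs
      omega
    have h3 := hmul x _ hx ht0'
    rw [hst, hunit s hs, hunit t ht] at h3
    omega
  obtain ⟨π, hπP, hπ0, hπ⟩ := h.unif
  have hπ0' : algebraMap R K π ≠ 0 := (map_ne_zero_iff _ hinj).mpr hπ0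
  have hall : ∀ x : K, x ≠ 0 → w x = o x * w (algebraMap R K π) := by
    intro x hx
    have hπn : algebraMap R K π ^ (- o x) ≠ 0 := zpow_ne_zero _ hπ0'
    have h1 : o (x * algebraMap R K π ^ (- o x)) = 0 := by
      rw [h.mul _ _ hx hπn, mul_hom_zpow K h.mul hπ0', hπ]
      ring
    have h2 := hz _ (mul_ne_zero hx hπn) h1
    rw [hmul _ _ hx hπn, mul_hom_zpow K hmul hπ0'] at h2
    linarith
  have he := hpos π hπP hπ0
  obtain ⟨x0, hx0, hw⟩ := hu
  have h4 := hall x0 hx0
  rw [hw] at h4
  have h5 : w (algebraMap R K π) = 1 := by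
    have h6 : w (algebraMap R K π) ∣ 1 := ⟨o x0, by rw [h4]; ring⟩
    exact Int.eq_one_of_dvd_one he.le h6
  intro x hx
  rw [hall x hx, h5, mul_one]

end ord

end Crest.Agent.R169.Krull
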