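import Crest.Agent.R169.Hilb
import Crest.Agent.R169.Bridge

/-!
# Basic facts on lattices used by P4 and P5
(owner helper649)
-/

set_option autoImplicit false
set_option linter.unusedSectionVars false

namespace Crest.Agent.R169.LatB

open Module

variable {k K V : Type} [Field k] [Field K] [Algebra k K] [AddCommGroup V] [Module k V]
  [Module K V] {u v : K} {E E' : ℤ → Submodule k V}

/-- the `K`-span of a lattice is finite dimensional -/
theorem finite_spanK [IsScalarTower k K V] (hE : IsLat u v E) :
    Module.Finite K (spanK K E) := by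
  obtain ⟨m₁, hm₁⟩ := hE.gen
  have hmono : ∀ (a : ℤ) (j : ℕ), E a ≤ E (a + j) := by
    intro a j
    induction j with
    | zero => simp
    | succ j ih =>
      refine ih.trans ?_
      have := hE.mono (a + j)
      push_cast
      rwa [← add_assoc]
  have key : ∀ j : ℕ, (E (m₁ + j) : Set V) ⊆ Submodule.span K (E m₁ : Set V) := by
    intro j
    induction j with
    | zero => simp
    | succ j ih =>
      intro x hx
      have hx' : x ∈ E (m₁ + j + 1) := by
        have h : (m₁ + ((j + 1 : ℕ) : ℤ)) = m₁ + j + 1 := by push_cast; ring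
        rw [h] at hx
        exact hx
      obtain ⟨a, ha, b, hb, c, hc, rfl⟩ := hm₁ (m₁ + j) (by omega) x hx'
      exact Submodule.add_mem _ (Submodule.add_mem _ (ih ha) (Submodule.smul_mem _ _ (ih hb)))
        (Submodule.smul_mem _ _ (ih hc))
  have hspan : spanK K E = Submodule.span K (E m₁ : Set V) := by
    apply le_antisymm
    · refine Submodule.span_le.mpr ?_
      intro x hx
      obtain ⟨m, hm⟩ := Set.mem_iUnion.mp hx
      rcases le_total m m₁ with h | h
      · have := hmono m (m₁ - m).toNat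
        have h2 : m + ((m₁ - m).toNat : ℤ) = m₁ := by omega
        rw [h2] at this
        exact Submodule.subset_span (this hm)
      · have := key (m - m₁).toNat
        have h2 : m₁ + ((m - m₁).toNat : ℤ) = m := by omega
        rw [h2] at this
        exact this hm
    · exact Submodule.span_mono (Set.subset_iUnion (fun m => (E m : Set V)) m₁)
  have := hE.fin m₁
  obtain ⟨s, hs⟩ := (Submodule.fg_top (E m₁)).mp (Module.finite_def.mp this)
  have h2 : Submodule.span K (E m₁ : Set V) = Submodule.span K (s : Set V) := by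
    rw [← hs]
    apply le_antisymm
    · refine Submodule.span_le.mpr ?_
      intro x hx
      exact Submodule.span_subset_span k K _ hx
    · exact Submodule.span_mono Submodule.subset_span
  rw [hspan, h2]
  exact Module.Finite.iff_fg.mpr ⟨s, rfl⟩

theorem eq_bot_of_rk_eq_zero [IsScalarTower k K V] (hE : IsLat u v E)
    (h : rk K E = 0) (m : ℤ) : E m = ⊥ := by
  have := finite_spanK hE
  have h2 : spanK K E = ⊥ := Submodule.finrank_eq_zero.mp h
  rw [eq_bot_iff]
  intro x hx
  have : x ∈ spanK K E := Submodule.subset_span (Set.mem_iUnion.mpr ⟨m, hx⟩)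
  rw [h2] at this
  exact this

theorem rk_eq_zero_of_eq_bot (h : ∀ m, E m = ⊥) : rk K E = 0 := by
  have h2 : spanK K E = ⊥ := by
    rw [spanK, Submodule.span_eq_bot]
    intro x hx
    obtain ⟨m, hm⟩ := Set.mem_iUnion.mp hx
    rw [h m] at hm
    exact hm
  rw [rk, h2]
  exact finrank_bot K V

theorem hasHP_zero (h : ∀ m, E m = ⊥) : HasHP E 0 0 0 := by
  refine ⟨0, fun m _ => ?_⟩
  rw [h m]
  simp

section Sub

variable [IsScalarTower k K V]

theorem interU_top : interU E (⊤ : Submodule K V) = E := by
  funext m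
  simp [interU]

theorem interU_interU (U W : Submodule K V) (h : W ≤ U) :
    interU (interU E U) W = interU E W := by
  funext m
  ext x
  simp only [interU, Submodule.mem_inf, Submodule.restrictScalars_mem]
  constructor
  · rintro ⟨⟨h1, _⟩, h3⟩
    exact ⟨h1, h3⟩
  · rintro ⟨h1, h2⟩
    exact ⟨⟨h1, h h2⟩, h2⟩

theorem interU_quotU (U W : Submodule K V) (U'' : Submodule K (V ⧸ W)) :
    interU (quotU (interU E U) W) U'' = quotU (interU E (U ⊓ U''.comap W.mkQ)) W := by
  funext m
  ext x
  simp only [interU, quotU, Submodule.mem_inf, Submodule.restrictScalars_mem, Submodule.mem_map]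
  constructor
  · rintro ⟨⟨y, ⟨h1, h2⟩, rfl⟩, h3⟩
    exact ⟨y, ⟨h1, h2, h3⟩, rfl⟩
  · rintro ⟨y, ⟨h1, h2, h3⟩, rfl⟩
    exact ⟨⟨y, ⟨h1, h2⟩, rfl⟩, h3⟩

theorem interU_mono {U W : Submodule K V} (h : W ≤ U) (m : ℤ) : interU E W m ≤ interU E U m :=
  inf_le_inf_left _ (fun _ hx => h hx)

/-- the Hilbert polynomial of the quotient `(E ∩ U) / W`. -/
theorem hasHP_sub_quot (hE : IsLat u v E) {U W : Submodule K V} (hWU : W ≤ U)
    {n n₁ : ℕ} {b b₁ c c₁ : ℚ} (h : HasHP (interU E U) n b c)
    (h1 : HasHP (interU E W) n₁ b₁ c₁) (hn : n₁ ≤ n) :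
    HasHP (quotU (interU E U) W) (n - n₁) (b - b₁) (c - c₁) := by
  obtain ⟨m₀, hm₀⟩ := h
  obtain ⟨m₁, hm₁⟩ := h1
  refine ⟨max m₀ m₁, fun m hm => ?_⟩
  have e0 := hm₀ m (le_trans (le_max_left _ _) hm)
  have e1 := hm₁ m (le_trans (le_max_right _ _) hm)
  have e2 := finrank_add (hE.interU U) W m
  rw [interU_interU U W hWU] at e2
  have e3 : (finrank k (interU E U m) : ℚ)
      = finrank k (interU E W m) + finrank k (quotU (interU E U) W m) := by exact_mod_cast e2
  rw [Nat.cast_sub hn]
  linarith

theorem rk_interU_le (hE : IsLat u v E) {U W : Submodule K V} (h : W ≤ U) :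
    rk K (interU E W) ≤ rk K (interU E U) :=
  rk_le_of_le (hE.interU U) (hE.interU W) ⟨0, fun m _ => interU_mono h m⟩

theorem hasHP_interU [Infinite k] (hK : IsRat k u v) (hE : IsLat u v E) (U : Submodule K V) :
    HasHP (interU E U) (rk K (interU E U)) (hb (interU E U)) (hc (interU E U)) :=
  (hE.interU U).hasHP hK

theorem interU_rk_zero [Infinite k] (hK : IsRat k u v) (hE : IsLat u v E) (U : Submodule K V)
    (h : rk K (interU E U) = 0) : hb (interU E U) = 0 ∧ hc (interU E U) = 0 := by
  have h1 := hasHP_interU hK hE U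
  have h2 := hasHP_zero (fun m => eq_bot_of_rk_eq_zero (hE.interU U) h m)
  have := hasHP_unique h1 h2
  exact this.2

end Sub

end Crest.Agent.R169.LatB
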