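import Crest.Agent.R169.Frob

/-!
# Row 169: final numerics
-/

set_option autoImplicit false

namespace Crest.Agent.R169

theorem Jinv_T7 : Jinv 1715 (-(8575 / 2 : ℚ)) 4802 = -343 := by
  unfold Jinv; norm_num

/-- For `T = T_7` the lower bound C7 and the upper bound contradict each other for large `p`. -/
theorem numeric_contra (R : ℕ) (hR : 0 < R) (c0 c1 : ℕ) :
    ∃ p0 : ℕ, ∀ p : ℕ, p0 ≤ p → ∀ J JW : ℚ, 0 ≤ J →
      (p : ℚ) ^ 2 * (J - R * (-343)) + R * (-343) ≤ JW →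
      JW ≤ 1 / 2 * ((1715 : ℕ) * R) * ((p : ℚ) / 2 + (R - 1) * c0 + c1) ^ 2 → False := by
  refine ⟨10 * ((R - 1) * c0 + c1 + 1), fun p hp J JW hJ h1 h2 => ?_⟩
  have hR1 : (1 : ℚ) ≤ R := by exact_mod_cast hR
  set C : ℚ := (R - 1) * c0 + c1 with hC
  have hC0 : 0 ≤ C := by
    have h : (0 : ℚ) ≤ (R - 1) * c0 := mul_nonneg (by linarith) (by positivity)
    have : (0 : ℚ) ≤ c1 := by positivity
    linarith
  have hpC : 10 * (C + 1) ≤ (p : ℚ) := by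
    have h : ((10 * ((R - 1) * c0 + c1 + 1) : ℕ) : ℚ) ≤ p := by exact_mod_cast hp
    rw [hC]
    have e : (((R - 1 : ℕ) : ℚ)) = (R : ℚ) - 1 := by
      rw [Nat.cast_sub hR]; norm_num
    push_cast at h
    rw [e] at h
    linarith
  have hp0 : (0 : ℚ) ≤ p := by positivity
  have e3 : (p : ℚ) / 2 + (R - 1) * c0 + c1 = p / 2 + C := by rw [hC]; ring
  rw [e3] at h2
  have hRp : (R : ℚ) * (343 * (p : ℚ) ^ 2 - 343) ≤ R * ((1715 / 2) * (p / 2 + C) ^ 2) := by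
    have h4 : (p : ℚ) ^ 2 * J ≥ 0 := by positivity
    push_cast at h2
    nlinarith
  have h5 : 343 * (p : ℚ) ^ 2 - 343 ≤ (1715 / 2) * (p / 2 + C) ^ 2 :=
    le_of_mul_le_mul_left hRp (by linarith)
  nlinarith [mul_nonneg hC0 hp0, mul_nonneg hC0 hC0, mul_nonneg (sub_nonneg.2 hpC) hp0,
    mul_nonneg (sub_nonneg.2 hpC) hC0]

/-- char `p` contradiction from C7 + upper bound. -/
theorem charp_contra {k Q : Type} [Field k] [Field Q] [Algebra k Q] (D : TData k Q)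
    (R : ℕ) (hR : 0 < R) (c0 c1 p : ℕ)
    (hp : ∀ J JW : ℚ, 0 ≤ J →
      (p : ℚ) ^ 2 * (J - R * (-343)) + R * (-343) ≤ JW →
      JW ≤ 1 / 2 * ((1715 : ℕ) * R) * ((p : ℚ) / 2 + (R - 1) * c0 + c1) ^ 2 → False)
    (hU : UpperBound D p 1715 c0 c1) (hL : C7 D p 1715 (-(8575 / 2)) 4802)
    (G : ℤ → Submodule k (Fin R → Q)) (hG : IsTLat D G) (b c : ℚ)
    (hHP : HasHP G (1715 * R) b c) (hN : NSS (Q := Q) G (1715 * R) b)
    (hJ : 0 ≤ Jinv (1715 * R) b c)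
    (hW : ∃ b' c' : ℚ, HasHP (frobPull D p G) (1715 * R) b' c') : False := by
  obtain ⟨b', c', hW⟩ := hW
  have h1 := hL R G hR hG b c b' c' hHP hW
  have h2 := hU R G hR hG b c b' c' hHP hN hW
  rw [Jinv_T7] at h1
  exact hp _ _ hJ h1 (by exact_mod_cast h2)

end Crest.Agent.R169
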