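import Crest.Agent.R169.PackMod

/-!
Row 169, module `Pack257`: assembly of S0257 from `NoMCM` and the dimension statements
(`ℂ`-algebra structure through `e : ℂ ≃+* k`).
-/

set_option autoImplicit false

noncomputable section

namespace Crest.Agent.R169.Pack257

open Polynomial DirectSum

variable {k Q : Type} [Field k] [Field Q] [Algebra k Q]

/-- the `ℂ`-algebra structure -/
@[reducible] def algC (e : ℂ ≃+* k) (𝓕 : Fil k Q) : Algebra ℂ 𝓕.T :=
  ((algebraMap k 𝓕.T).comp e.toRingHom).toAlgebra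

/-- the `ℂ`-grading -/
def gr (e : ℂ ≃+* k) (𝓕 : Fil k Q) : letI := algC e 𝓕; ℕ → Submodule ℂ 𝓕.T :=
  letI := algC e 𝓕
  fun m =>
  { carrier := (𝓕.piece m : Set 𝓕.T)
    add_mem' := fun ha hb => (𝓕.piece m).add_mem ha hb
    zero_mem' := (𝓕.piece m).zero_mem
    smul_mem' := by
      intro c x hx
      have h1 : c • x = (e c) • x := by
        rw [Algebra.smul_def, Algebra.smul_def]
        rfl
      rw [h1]
      exact (𝓕.piece m).smul_mem _ hx }

theorem mem_gr (e : ℂ ≃+* k) (𝓕 : Fil k Q) (m : ℕ) (p : 𝓕.T) :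
    letI := algC e 𝓕
    p ∈ gr e 𝓕 m ↔ p ∈ 𝓕.piece m := Iff.rfl

/-- identity on values -/
def ide (e : ℂ ≃+* k) (𝓕 : Fil k Q) (m : ℕ) :
    letI := algC e 𝓕
    ↥(𝓕.piece m) →+ ↥(gr e 𝓕 m) :=
  letI := algC e 𝓕
  { toFun := fun p => ⟨p.1, p.2⟩
    map_zero' := rfl
    map_add' := fun _ _ => rfl }

/-- the graded algebra structure -/
@[reducible] def grAlg (e : ℂ ≃+* k) (𝓕 : Fil k Q) :
    letI := algC e 𝓕
    GradedAlgebra (gr e 𝓕) := by
  letI := algC e 𝓕
  refine
  { one_mem := SetLike.GradedOne.one_mem (A := 𝓕.piece)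
    mul_mem := fun i j _ _ ha hb => SetLike.GradedMul.mul_mem (A := 𝓕.piece) ha hb
    decompose' := fun p => DirectSum.map (ide e 𝓕) (DirectSum.decompose 𝓕.piece p)
    left_inv := ?_
    right_inv := ?_ }
  · intro p
    have key : ∀ x : ⨁ i, 𝓕.piece i,
        (DirectSum.coeAddMonoidHom (gr e 𝓕)) (DirectSum.map (ide e 𝓕) x) =
          (DirectSum.coeAddMonoidHom 𝓕.piece) x := by
      intro x
      induction x using DirectSum.induction_on with
      | zero => simp
      | of i y =>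
        rw [DirectSum.map_of, DirectSum.coeAddMonoidHom_of, DirectSum.coeAddMonoidHom_of]
        rfl
      | add x y hx hy => rw [map_add, map_add, map_add, hx, hy]
    rw [key]
    exact DirectSum.Decomposition.left_inv p
  · intro x
    induction x using DirectSum.induction_on with
    | zero => simp
    | of i y =>
      rw [DirectSum.coeAddMonoidHom_of]
      have h1 : DirectSum.decompose 𝓕.piece (y : 𝓕.T) =
          DirectSum.of (fun i => 𝓕.piece i) i ⟨y.1, y.2⟩ :=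
        DirectSum.decompose_of_mem 𝓕.piece (x := (y : 𝓕.T)) y.2
      change DirectSum.map (ide e 𝓕) (DirectSum.decompose 𝓕.piece (y : 𝓕.T)) = _
      rw [h1, DirectSum.map_of]
      rfl
    | add x y hx hy =>
      change DirectSum.map (ide e 𝓕) (DirectSum.decompose 𝓕.piece _) = _
      rw [map_add, DirectSum.decompose_add, map_add]
      exact congrArg₂ (· + ·) hx hy

theorem mem_irrelevant (e : ℂ ≃+* k) (𝓕 : Fil k Q) (p : 𝓕.T) :
    letI := algC e 𝓕
    letI := grAlg e 𝓕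
    p ∈ (HomogeneousIdeal.irrelevant (gr e 𝓕)).toIdeal ↔ (p : Q[X]).coeff 0 = 0 := by
  let i1 := algC e 𝓕
  let i2 := grAlg e 𝓕
  rw [← 𝓕.mem_irr]
  change GradedRing.proj (gr e 𝓕) 0 p = 0 ↔ GradedRing.proj 𝓕.piece 0 p = 0
  rw [GradedRing.proj_apply, GradedRing.proj_apply]
  have h1 : DirectSum.decompose (gr e 𝓕) p =
      DirectSum.map (ide e 𝓕) (DirectSum.decompose 𝓕.piece p) := rfl
  rw [h1, DirectSum.map_apply]
  rfl

theorem irrelevant_eq (e : ℂ ≃+* k) (𝓕 : Fil k Q) :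
    letI := algC e 𝓕
    letI := grAlg e 𝓕
    (HomogeneousIdeal.irrelevant (gr e 𝓕)).toIdeal = 𝓕.irr := by
  let i1 := algC e 𝓕
  let i2 := grAlg e 𝓕
  ext p
  rw [𝓕.mem_irr]
  exact mem_irrelevant e 𝓕 p

theorem finiteType (e : ℂ ≃+* k) (𝓕 : Fil k Q) {u v : Q} (h : FilUV 𝓕 u v) :
    letI := algC e 𝓕
    Algebra.FiniteType ℂ 𝓕.T := by
  let i1 := algC e 𝓕
  have h1 : (algebraMap k 𝓕.T).FiniteType := by
    rw [RingHom.finiteType_algebraMap]
    exact Fil.finiteType_T h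
  have h2 : (e.toRingHom).FiniteType := RingHom.FiniteType.of_surjective _ e.surjective
  exact h1.comp h2

theorem bijective (e : ℂ ≃+* k) (𝓕 : Fil k Q) (I : Ideal 𝓕.T) (hI : I = 𝓕.irr) :
    letI := algC e 𝓕
    Function.Bijective (algebraMap ℂ (𝓕.T ⧸ I)) := by
  subst hI
  let i1 := algC e 𝓕
  have : (algebraMap ℂ (𝓕.T ⧸ 𝓕.irr) : ℂ → 𝓕.T ⧸ 𝓕.irr) =
      (algebraMap k (𝓕.T ⧸ 𝓕.irr)) ∘ e := rfl
  rw [this]
  exact 𝓕.bijective_algebraMap_quot.comp e.bijective

/-- **Packaging of S0257** from the dimension facts. -/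
theorem pack257_of (e : ℂ ≃+* k) (D : TData k Q) (hno : NoMCM D)
    (hdim : ringKrullDim D.Ttot = 3)
    (hloc : ∀ (I : Ideal D.Ttot) [I.IsPrime], (∀ p : D.Ttot, p ∈ I ↔ (p : Q[X]).coeff 0 = 0) →
      ringKrullDim (Localization.AtPrime I) = 3) :
    ∃ (T : Type) (_ : CommRing T) (_ : Algebra ℂ T) (𝒜 : ℕ → Submodule ℂ T) (_ : GradedAlgebra 𝒜)
      (_ : (HomogeneousIdeal.irrelevant 𝒜).toIdeal.IsMaximal),
      Algebra.FiniteType ℂ T ∧ IsDomain T ∧ ringKrullDim T = 3 ∧
      Function.Bijective (algebraMap ℂ (T ⧸ (HomogeneousIdeal.irrelevant 𝒜).toIdeal)) ∧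
      ringKrullDim (Localization.AtPrime (HomogeneousIdeal.irrelevant 𝒜).toIdeal) = 3 ∧
      ∀ (M : Type) [AddCommGroup M] [Module (Localization.AtPrime (HomogeneousIdeal.irrelevant 𝒜).toIdeal) M],
        Module.Finite (Localization.AtPrime (HomogeneousIdeal.irrelevant 𝒜).toIdeal) M → Nontrivial M →
        ∀ rs : List (Localization.AtPrime (HomogeneousIdeal.irrelevant 𝒜).toIdeal), rs.length = 3 →
          (∀ r ∈ rs, r ∈ IsLocalRing.maximalIdeal (Localization.AtPrime (HomogeneousIdeal.irrelevant 𝒜).toIdeal)) →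
          ¬ RingTheory.Sequence.IsRegular M rs := by
  let i1 := algC e D.toFil
  let i2 := grAlg e D.toFil
  have hirr := irrelevant_eq e D.toFil
  have hmax : (HomogeneousIdeal.irrelevant (gr e D.toFil)).toIdeal.IsMaximal := by
    rw [hirr]
    exact D.toFil.isMaximal_irr
  have hprime : (HomogeneousIdeal.irrelevant (gr e D.toFil)).toIdeal.IsPrime := hmax.isPrime
  refine ⟨D.toFil.T, inferInstance, i1, gr e D.toFil, i2, hmax, finiteType e D.toFil D.filUV,
    inferInstance, hdim, bijective e D.toFil _ hirr, ?_, ?_⟩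
  · exact @hloc (HomogeneousIdeal.irrelevant (gr e D.toFil)).toIdeal hprime
      (fun p => mem_irrelevant e D.toFil p)
  · exact @glueT _ _ _ _ _ D hno (HomogeneousIdeal.irrelevant (gr e D.toFil)).toIdeal hprime
      (fun p => mem_irrelevant e D.toFil p)

end Crest.Agent.R169.Pack257
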