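import Crest.Agent.R169.PackR

/-!
# Row 169: `T` is finite over `k[X, uX, vX]`, of finite type; `R` is Noetherian
-/

set_option autoImplicit false

noncomputable section

namespace Crest.Agent.R169

open Polynomial

variable {k Q : Type} [Field k] [Field Q] [Algebra k Q]

namespace Fil

variable (𝓕 : Fil k Q)

/-- `mono m` as a linear map -/
def monoLin (m : ℕ) : 𝓕.F m →ₗ[k] 𝓕.T where
  toFun := 𝓕.mono m
  map_add' := by
    intro a b
    apply Subtype.ext
    change monomial m (((a + b : 𝓕.F m) : Q)) = monomial m (a : Q) + monomial m (b : Q)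
    rw [Submodule.coe_add, map_add]
  map_smul' := by
    intro r a
    apply Subtype.ext
    change monomial m (((r • a : 𝓕.F m) : Q)) = r • monomial m (a : Q)
    rw [Submodule.coe_smul, Polynomial.smul_monomial]

@[simp] lemma monoLin_apply (m : ℕ) (q : 𝓕.F m) : 𝓕.monoLin m q = 𝓕.mono m q := rfl

lemma mono_mul_mono {i j : ℕ} (a : 𝓕.F i) (b : 𝓕.F j) :
    𝓕.mono i a * 𝓕.mono j b = 𝓕.mono (i + j) ⟨(a : Q) * b, 𝓕.mul_mem a.2 b.2⟩ := by
  apply Subtype.ext
  simp [mono, Polynomial.monomial_mul_monomial]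

lemma mono_congr {i j : ℕ} (h : i = j) (a : 𝓕.F i) (b : 𝓕.F j) (hab : (a : Q) = b) :
    𝓕.mono i a = 𝓕.mono j b := by
  subst h
  congr 1
  exact Subtype.ext hab

lemma sum_mono (p : 𝓕.T) :
    p = ∑ m ∈ (p : Q[X]).support, 𝓕.mono m ⟨(p : Q[X]).coeff m, p.2 m⟩ := by
  apply Subtype.ext
  rw [AddSubmonoidClass.coe_finsetSum]
  simp only [coe_mono]
  exact (p : Q[X]).as_sum_support

variable {𝓕} {u v : Q}

/-- The elements `X, uX, vX` of `T`. -/
def xT (h : FilUV 𝓕 u v) : 𝓕.T := 𝓕.mono 1 ⟨1, h.one_mem⟩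
/-- `uX` -/
def yT (h : FilUV 𝓕 u v) : 𝓕.T := 𝓕.mono 1 ⟨u, h.u_mem⟩
/-- `vX` -/
def zT (h : FilUV 𝓕 u v) : 𝓕.T := 𝓕.mono 1 ⟨v, h.v_mem⟩

/-- `k[X, uX, vX]` -/
def A (h : FilUV 𝓕 u v) : Subalgebra k 𝓕.T := Algebra.adjoin k {xT h, yT h, zT h}

lemma xT_mem_A (h : FilUV 𝓕 u v) : xT h ∈ A h := Algebra.subset_adjoin (by simp)
lemma yT_mem_A (h : FilUV 𝓕 u v) : yT h ∈ A h := Algebra.subset_adjoin (by simp)
lemma zT_mem_A (h : FilUV 𝓕 u v) : zT h ∈ A h := Algebra.subset_adjoin (by simp)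

lemma finite_A (h : FilUV 𝓕 u v) : Module.Finite (A h) 𝓕.T := by
  classical
  obtain ⟨c, hc⟩ := h.gen
  have hfin : ∀ m, ∃ S : Finset (𝓕.F m), Submodule.span k (S : Set (𝓕.F m)) = ⊤ :=
    fun m => (h.finite m).fg_top
  choose S hS using hfin
  let W : Finset 𝓕.T := (Finset.range (c + 1)).biUnion fun m => (S m).image (𝓕.mono m)
  refine ⟨⟨W, ?_⟩⟩
  have key : ∀ m (q : 𝓕.F m), 𝓕.mono m q ∈ Submodule.span (A h) (W : Set 𝓕.T) := by
    intro m
    induction m using Nat.strong_induction_on with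
    | _ m ih =>
      intro q
      by_cases hm : m ≤ c
      · have hle : Submodule.map (𝓕.monoLin m) (Submodule.span k (S m : Set (𝓕.F m))) ≤
            (Submodule.span (A h) (W : Set 𝓕.T)).restrictScalars k := by
          rw [Submodule.map_span, Submodule.span_le]
          rintro _ ⟨a, ha, rfl⟩
          refine Submodule.subset_span ?_
          simp only [W, Finset.coe_biUnion, Set.mem_iUnion, Finset.coe_image]
          exact ⟨m, by simpa using Nat.lt_succ_of_le hm, a, ha, rfl⟩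
        exact hle ⟨q, by rw [hS]; trivial, rfl⟩
      · obtain ⟨n, rfl⟩ : ∃ n, m = n + 1 := ⟨m - 1, by omega⟩
        obtain ⟨a, ha, b, hb, d, hd, hq⟩ := hc n (by omega) q q.2
        have e : 𝓕.mono (n + 1) q = (⟨xT h, xT_mem_A h⟩ : A h) • 𝓕.mono n ⟨a, ha⟩ +
            (⟨yT h, yT_mem_A h⟩ : A h) • 𝓕.mono n ⟨b, hb⟩ +
            (⟨zT h, zT_mem_A h⟩ : A h) • 𝓕.mono n ⟨d, hd⟩ := by
          rw [Subalgebra.smul_def, Subalgebra.smul_def, Subalgebra.smul_def, smul_eq_mul,
            smul_eq_mul, smul_eq_mul]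
          simp only [xT, yT, zT]
          rw [mono_mul_mono, mono_mul_mono, mono_mul_mono]
          apply Subtype.ext
          simp only [Subalgebra.coe_add, coe_mono, hq]
          rw [← map_add, ← map_add, one_mul, add_comm 1 n]
        rw [e]
        exact Submodule.add_mem _ (Submodule.add_mem _
          (Submodule.smul_mem _ _ (ih n (by omega) _)) (Submodule.smul_mem _ _ (ih n (by omega) _)))
          (Submodule.smul_mem _ _ (ih n (by omega) _))
  rw [eq_top_iff]
  intro p _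
  rw [𝓕.sum_mono p]
  exact Submodule.sum_mem _ fun m _ => key m _

lemma finiteType_A (h : FilUV 𝓕 u v) : Algebra.FiniteType k (A h) := by
  classical
  rw [← Subalgebra.fg_iff_finiteType]
  exact ⟨{xT h, yT h, zT h}, by simp [A]⟩

lemma finiteType_T (h : FilUV 𝓕 u v) : Algebra.FiniteType k 𝓕.T := by
  have := finite_A h
  exact Algebra.FiniteType.trans (finiteType_A h) inferInstance

lemma isNoetherianRing_T (h : FilUV 𝓕 u v) : IsNoetherianRing 𝓕.T := by
  have := finiteType_T h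
  exact Algebra.FiniteType.isNoetherianRing k 𝓕.T

/-- `R` is Noetherian (leading form argument). -/
theorem isNoetherianRing_R (h : FilUV 𝓕 u v) : IsNoetherianRing 𝓕.R := by
  classical
  have hT := isNoetherianRing_T h
  rw [isNoetherianRing_iff_ideal_fg]
  intro I
  let G : Set 𝓕.T := {p | ∃ n, ∃ f ∈ I, f ∈ 𝓕.ordIdeal n ∧ p = 𝓕.mono n ⟨𝓕.co f n, 𝓕.co_mem f n⟩}
  obtain ⟨G', hG', hspan⟩ : ∃ G' : Finset 𝓕.T, (G' : Set 𝓕.T) ⊆ G ∧
      Ideal.span (G' : Set 𝓕.T) = Ideal.span G := by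
    have := (isNoetherianRing_iff_ideal_fg 𝓕.T).mp hT (Ideal.span G)
    obtain ⟨G', h1, h2⟩ := Submodule.fg_span_iff_fg_span_finset_subset G |>.mp this
    exact ⟨G', h1, h2.symm⟩
  choose! d f hfI hford hfp using fun p (hp : p ∈ G) => hp
  -- one step
  have step : ∀ n (g : 𝓕.R), g ∈ I → g ∈ 𝓕.ordIdeal n → ∃ a : 𝓕.T → Q,
      (∀ p ∈ G', d p ≤ n → a p ∈ 𝓕.F (n - d p)) ∧ (∀ p, ¬ (d p ≤ n) → a p = 0) ∧
      𝓕.co g n = ∑ p ∈ G', a p * 𝓕.co (f p) (d p) := by
    intro n g hg hgn
    have hmem : 𝓕.mono n ⟨𝓕.co g n, 𝓕.co_mem g n⟩ ∈ Ideal.span (G' : Set 𝓕.T) := by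
      rw [hspan]
      exact Ideal.subset_span ⟨n, g, hg, hgn, rfl⟩
    obtain ⟨b, hb⟩ := Submodule.mem_span_finset'.mp hmem
    let b' : 𝓕.T → 𝓕.T := fun p => if hp : p ∈ G' then b ⟨p, hp⟩ else 0
    refine ⟨fun p => if d p ≤ n then ((b' p : 𝓕.T) : Q[X]).coeff (n - d p) else 0, ?_, ?_, ?_⟩
    · intro p hp hd
      simp only [hd, if_true]
      exact (b' p).2 _
    · intro p hd
      simp only [hd, if_false]
    · have h1 : 𝓕.mono n ⟨𝓕.co g n, 𝓕.co_mem g n⟩ = ∑ p ∈ G', b' p * p := by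
        rw [← hb, ← Finset.sum_attach G' (fun p => b' p * p)]
        rw [← Finset.univ_eq_attach]
        refine Finset.sum_congr rfl fun x _ => ?_
        simp only [b', x.2, dif_pos, Subtype.coe_eta, smul_eq_mul]
      have h2 := congrArg (fun p : 𝓕.T => (p : Q[X]).coeff n) h1
      simp only [coe_mono, Polynomial.coeff_monomial_same] at h2
      rw [h2, AddSubmonoidClass.coe_finsetSum, Polynomial.finsetSum_coeff]
      refine Finset.sum_congr rfl fun p hp => ?_
      have e : ((b' p * p : 𝓕.T) : Q[X]) = (b' p : Q[X]) * monomial (d p) (𝓕.co (f p) (d p)) := by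
        conv_lhs => rw [Subalgebra.coe_mul]
        congr 1
        conv_lhs => rw [hfp p (hG' hp)]
        rfl
      rw [e, ← Polynomial.C_mul_X_pow_eq_monomial, ← mul_assoc, Polynomial.coeff_mul_X_pow',
        Polynomial.coeff_mul_C]
      change _ = (if d p ≤ n then ((b' p : 𝓕.T) : Q[X]).coeff (n - d p) else 0) * _
      split_ifs with hd
      · rfl
      · rw [zero_mul]
  choose! a ha1 ha2 ha3 using step
  -- the sequence of remainders
  let corr : ℕ → 𝓕.R → 𝓕.R := fun n g => ∑ p ∈ G',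
    (if hp : p ∈ G' ∧ d p ≤ n ∧ g ∈ I ∧ g ∈ 𝓕.ordIdeal n then
      𝓕.hom (n - d p) ⟨a n g p, ha1 n g hp.2.2.1 hp.2.2.2 p hp.1 hp.2.1⟩ * f p else 0)
  have hcorrI : ∀ n g, corr n g ∈ Ideal.span (f '' (G' : Set 𝓕.T)) := by
    intro n g
    refine Ideal.sum_mem _ fun p hp => ?_
    split_ifs with hp'
    · exact Ideal.mul_mem_left _ _ (Ideal.subset_span ⟨p, hp, rfl⟩)
    · exact Ideal.zero_mem _
  have hIle : Ideal.span (f '' (G' : Set 𝓕.T)) ≤ I := by
    rw [Ideal.span_le]
    rintro _ ⟨p, hp, rfl⟩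
    exact hfI p (hG' hp)
  have hnext : ∀ n g, g ∈ I → g ∈ 𝓕.ordIdeal n → g - corr n g ∈ 𝓕.ordIdeal (n + 1) := by
    intro n g hg hgn m hm
    have hc : 𝓕.co (corr n g) m = ∑ p ∈ G', if d p ≤ n ∧ n - d p ≤ m then
        a n g p * 𝓕.co (f p) (m - (n - d p)) else 0 := by
      simp only [corr]
      rw [co_sum]
      refine Finset.sum_congr rfl fun p hp => ?_
      by_cases hd : d p ≤ n
      · rw [dif_pos ⟨hp, hd, hg, hgn⟩, co_hom_mul]
        simp only [hd, true_and]
      · rw [dif_neg (fun h => hd h.2.1), if_neg (fun h => hd h.1), co_zero]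
    rw [co_sub, hc]
    rcases Nat.lt_or_ge m n with hmn | hmn
    · rw [hgn m hmn, zero_sub, neg_eq_zero]
      refine Finset.sum_eq_zero fun p hp => ?_
      split_ifs with h1
      · rw [hford p (hG' hp) _ (by omega), mul_zero]
      · rfl
    · obtain rfl : m = n := by omega
      rw [ha3 m g hg hgn, ← Finset.sum_sub_distrib]
      refine Finset.sum_eq_zero fun p hp => ?_
      by_cases hd : d p ≤ m
      · rw [if_pos ⟨hd, Nat.sub_le _ _⟩, Nat.sub_sub_self hd, sub_self]
      · rw [if_neg (fun h => hd h.1), ha2 m g hg hgn p hd]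
        simp
  refine ⟨(G'.image f), ?_⟩
  rw [Finset.coe_image]
  refine le_antisymm hIle ?_
  intro g hg
  let r : ℕ → 𝓕.R := fun n => Nat.rec g (fun n g' => g' - corr n g') n
  have hr0 : r 0 = g := rfl
  have hrs : ∀ n, r (n + 1) = r n - corr n (r n) := fun n => rfl
  have hrI : ∀ n, r n ∈ I := by
    intro n
    induction n with
    | zero => exact hg
    | succ n ih => rw [hrs]; exact I.sub_mem ih (hIle (hcorrI n _))
  have hrord : ∀ n, r n ∈ 𝓕.ordIdeal n := by
    intro n
    induction n with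
    | zero => intro m hm; omega
    | succ n ih => rw [hrs]; exact hnext n _ (hrI n) ih
  -- the limits
  let cf : 𝓕.T → ℕ → Q := fun p j => if p ∈ G' then a (j + d p) (r (j + d p)) p else 0
  have hcf : ∀ p j, cf p j ∈ 𝓕.F j := by
    intro p j
    simp only [cf]
    split_ifs with hp
    · have := ha1 (j + d p) (r (j + d p)) (hrI _) (hrord _) p hp (by omega)
      rwa [Nat.add_sub_cancel] at this
    · exact Submodule.zero_mem _
  let s : 𝓕.T → 𝓕.R := fun p => 𝓕.mkR (fun j => ⟨cf p j, hcf p j⟩)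
  have hfinal : g = ∑ p ∈ G', s p * f p := by
    refine 𝓕.R_ext fun m => ?_
    -- partial sums
    have hpart : ∀ N, 𝓕.co (g - r N) m = ∑ n ∈ Finset.range N, 𝓕.co (corr n (r n)) m := by
      intro N
      induction N with
      | zero => simp [hr0]
      | succ N ih =>
        rw [Finset.sum_range_succ, ← ih, hrs, co_sub, co_sub, co_sub]
        ring
    have h1 := hpart (m + 1)
    rw [co_sub, hrord (m + 1) m (Nat.lt_succ_self m), sub_zero] at h1
    rw [h1, co_sum]
    have hc : ∀ n, 𝓕.co (corr n (r n)) m = ∑ p ∈ G', if d p ≤ n ∧ n - d p ≤ m then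
        a n (r n) p * 𝓕.co (f p) (m - (n - d p)) else 0 := by
      intro n
      simp only [corr]
      rw [co_sum]
      refine Finset.sum_congr rfl fun p hp => ?_
      by_cases hd : d p ≤ n
      · rw [dif_pos ⟨hp, hd, hrI n, hrord n⟩, co_hom_mul]
        simp only [hd, true_and]
      · rw [dif_neg (fun h => hd h.2.1), if_neg (fun h => hd h.1), co_zero]
    rw [Finset.sum_congr rfl (fun n _ => hc n), Finset.sum_comm]
    refine Finset.sum_congr rfl fun p hp => ?_
    rw [co_mul, Finset.Nat.sum_antidiagonal_eq_sum_range_succ_mk]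
    simp only [s, co_mkR, cf, hp, if_true]
    -- both sides: sums over j = n - d p
    symm
    rw [← Finset.sum_filter]
    rw [← Finset.sum_filter_of_ne (s := Finset.range m.succ) (p := fun j => j + d p < m + 1)]
    swap
    · intro j hj hne
      by_contra hlt
      apply hne
      rw [Finset.mem_range] at hj
      rw [hford p (hG' hp) (m - j) (by omega), mul_zero]
    refine Finset.sum_bij' (fun j _ => j + d p) (fun n _ => n - d p) ?_ ?_ ?_ ?_ ?_
    · intro j hj
      simp only [Finset.mem_filter, Finset.mem_range] at hj ⊢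
      omega
    · intro n hn
      simp only [Finset.mem_filter, Finset.mem_range] at hn ⊢
      omega
    · intro j hj
      simp
    · intro n hn
      simp only [Finset.mem_filter, Finset.mem_range] at hn
      omega
    · intro j hj
      rw [Nat.add_sub_cancel]
  rw [hfinal]
  exact Ideal.sum_mem _ fun p hp => Ideal.mul_mem_left _ _ (Ideal.subset_span ⟨p, hp, rfl⟩)

end Fil

end Crest.Agent.R169
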