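import Crest.Agent.R169.Iface
import Crest.Agent.R169.GrFreeOf
import Crest.Agent.R169.Depth2
import Crest.Agent.R169.PackNoeth

/-!
Row 169, module `PackMod`: module glue.  A finite module with a regular sequence of length three in
the maximal ideal over a Noetherian local ring `B` receiving `T = D.Ttot` (with `X, Xu, Xv`
generating an ideal primary to the maximal ideal) gives a `GrFree` module over `T`.
-/

set_option autoImplicit false

noncomputable section

namespace Crest.Agent.R169

open RingTheory.Sequence Pointwise Polynomial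

section Quot

variable {k B : Type} [Field k] [CommRing B] [IsLocalRing B] [IsNoetherianRing B] [Algebra k B]

/-- `B = (finite dimensional) + 𝔪^s`. -/
theorem exists_finset_pow (hres : ∀ b : B, ∃ r : k, b - algebraMap k B r ∈ IsLocalRing.maximalIdeal B)
    (s : ℕ) : ∃ S : Set B, S.Finite ∧ ∀ b : B, ∃ a ∈ Submodule.span k S,
      b - a ∈ IsLocalRing.maximalIdeal B ^ s := by
  induction s with
  | zero => exact ⟨∅, Set.finite_empty, fun b => ⟨0, zero_mem _, by simp⟩⟩
  | succ s ih =>
    obtain ⟨S, hS, h⟩ := ih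
    obtain ⟨G, hG⟩ := (isNoetherianRing_iff_ideal_fg B).mp ‹_› (IsLocalRing.maximalIdeal B ^ s)
    refine ⟨S ∪ G, hS.union G.finite_toSet, fun b => ?_⟩
    obtain ⟨a, ha, hb⟩ := h b
    rw [← hG] at hb
    have key : ∀ y ∈ Submodule.span B (G : Set B), ∃ a ∈ Submodule.span k (S ∪ (G : Set B)),
        y - a ∈ IsLocalRing.maximalIdeal B ^ (s + 1) := by
      intro y hy
      induction hy using Submodule.span_induction with
      | mem g hg =>
        exact ⟨g, Submodule.subset_span (Set.mem_union_right _ hg), by simp⟩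
      | zero => exact ⟨0, zero_mem _, by simp⟩
      | add x y _ _ hx hy =>
        obtain ⟨a, ha, h1⟩ := hx
        obtain ⟨b, hb, h2⟩ := hy
        refine ⟨a + b, Submodule.add_mem _ ha hb, ?_⟩
        have := Ideal.add_mem _ h1 h2
        convert this using 1
        ring
      | smul c x hx' hx =>
        obtain ⟨a, ha, h1⟩ := hx
        obtain ⟨r, hr⟩ := hres c
        refine ⟨r • a, Submodule.smul_mem _ _ ha, ?_⟩
        have h2 : (c - algebraMap k B r) * x ∈ IsLocalRing.maximalIdeal B ^ (s + 1) := by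
          rw [pow_succ']
          refine Ideal.mul_mem_mul hr ?_
          rw [← hG]
          exact hx'
        have h3 : algebraMap k B r * (x - a) ∈ IsLocalRing.maximalIdeal B ^ (s + 1) :=
          Ideal.mul_mem_left _ _ h1
        have := Ideal.add_mem _ h2 h3
        convert this using 1
        rw [smul_eq_mul, Algebra.smul_def]
        ring
    obtain ⟨a', ha', h'⟩ := key _ hb
    refine ⟨a + a', Submodule.add_mem _ (Submodule.span_mono Set.subset_union_left ha) ha', ?_⟩
    convert h' using 1
    ring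

end Quot

section Main

variable {k Q : Type} [Field k] [Field Q] [Algebra k Q]

/-- **Module glue.** -/
theorem not_isRegular_of_noMCM (D : TData k Q) (hno : NoMCM D)
    (B : Type) [CommRing B] [IsLocalRing B] [IsNoetherianRing B] (f : D.Ttot →+* B)
    (h0 : f D.x0 ∈ IsLocalRing.maximalIdeal B) (h1 : f D.x1 ∈ IsLocalRing.maximalIdeal B)
    (h2 : f D.x2 ∈ IsLocalRing.maximalIdeal B) (s : ℕ)
    (hs : IsLocalRing.maximalIdeal B ^ s ≤ Ideal.span {f D.x0, f D.x1, f D.x2})
    (hres : ∀ b : B, ∃ r : k, b - f (algebraMap k D.Ttot r) ∈ IsLocalRing.maximalIdeal B)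
    (M : Type) [AddCommGroup M] [Module B M] (hMfin : Module.Finite B M)
    (rs : List B) (hlen : rs.length = 3)
    (hrs : ∀ r ∈ rs, r ∈ IsLocalRing.maximalIdeal B) : ¬ IsRegular M rs := by
  intro hreg
  classical
  let algB : Algebra k B := (f.comp (algebraMap k D.Ttot)).toAlgebra
  let algT : Algebra D.Ttot B := f.toAlgebra
  let modT : Module D.Ttot M := Module.compHom M f
  let modk : Module k M := Module.compHom M (f.comp (algebraMap k D.Ttot))
  have tow1 : IsScalarTower k D.Ttot M := by
    refine ⟨fun a t m => ?_⟩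
    change f (a • t) • m = f (algebraMap k D.Ttot a) • (f t • m)
    rw [smul_smul, ← map_mul, Algebra.smul_def]
  have tow2 : IsScalarTower D.Ttot B M := by
    refine ⟨fun t b m => ?_⟩
    change (f t * b) • m = f t • (b • m)
    rw [mul_smul]
  have tow3 : IsScalarTower k B M := by
    refine ⟨fun t b m => ?_⟩
    change (f (algebraMap k D.Ttot t) * b) • m = f (algebraMap k D.Ttot t) • (b • m)
    rw [mul_smul]
  have hsmulT : ∀ (t : D.Ttot) (m : M), t • m = f t • m := fun _ _ => rfl
  -- regularity over `B`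
  have hofl : Ideal.ofList [f D.x0, f D.x1, f D.x2] = Ideal.span {f D.x0, f D.x1, f D.x2} := by
    rw [Ideal.ofList]
    congr 1
    ext z
    simp
  have hregB : IsRegular M [f D.x0, f D.x1, f D.x2] := by
    refine isRegular_of_primary _ ?_ s (by rw [hofl]; exact hs) M rs (by simpa using hlen) hrs hreg
    intro x hx
    simp only [List.mem_cons, List.not_mem_nil, or_false] at hx
    rcases hx with rfl | rfl | rfl <;> assumption
  have hregT : IsWeaklyRegular M [D.x0, D.x1, D.x2] := by
    rw [← isWeaklyRegular_map_algebraMap_iff (S := B)]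
    exact hregB.toIsWeaklyRegular
  -- `I_B M ⊆ m_I M`
  have hIB : ∀ y ∈ (Ideal.span {f D.x0, f D.x1, f D.x2} • (⊤ : Submodule B M)),
      y ∈ (D.mI • (⊤ : Submodule D.Ttot M)) := by
    intro y hy
    refine Submodule.smul_induction_on hy ?_ ?_
    · intro b hb m _
      induction hb using Submodule.span_induction generalizing m with
      | mem x hx =>
        simp only [Set.mem_insert_iff, Set.mem_singleton_iff] at hx
        rcases hx with rfl | rfl | rfl
        · rw [← hsmulT]
          exact Submodule.smul_mem_smul (Ideal.subset_span (by simp)) trivial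
        · rw [← hsmulT]
          exact Submodule.smul_mem_smul (Ideal.subset_span (by simp)) trivial
        · rw [← hsmulT]
          exact Submodule.smul_mem_smul (Ideal.subset_span (by simp)) trivial
      | zero => rw [zero_smul]; exact zero_mem _
      | add x y _ _ hx hy =>
        rw [add_smul]
        exact Submodule.add_mem _ (hx m trivial) (hy m trivial)
      | smul c x _ hx =>
        rw [smul_eq_mul, mul_comm, mul_smul]
        exact hx (c • m) trivial
    · intro x y hx hy
      exact Submodule.add_mem _ hx hy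
  -- finite dimensionality
  have hfin : Module.Finite k (M ⧸ (D.mI • (⊤ : Submodule D.Ttot M))) := by
    obtain ⟨S, hS, hSpan⟩ := exists_finset_pow (k := k) (B := B) hres s
    obtain ⟨W, hW⟩ := hMfin.fg_top
    have hfinite : (Set.image2 (fun (b : B) (w : M) => b • w) S (W : Set M)).Finite :=
      hS.image2 _ W.finite_toSet
    have hw : ∀ (w : M), w ∈ (W : Set M) → ∀ a ∈ Submodule.span k S,
        a • w ∈ Submodule.span k (Set.image2 (fun (b : B) (w : M) => b • w) S (W : Set M)) := by
      intro w hw a ha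
      induction ha using Submodule.span_induction with
      | mem x hx => exact Submodule.subset_span ⟨x, hx, w, hw, rfl⟩
      | zero => rw [zero_smul]; exact zero_mem _
      | add x y _ _ hx hy => rw [add_smul]; exact Submodule.add_mem _ hx hy
      | smul c x _ hx => rw [smul_assoc]; exact Submodule.smul_mem _ c hx
    have hk : ∀ m : M, ∃ a ∈ Submodule.span k (Set.image2 (fun (b : B) (w : M) => b • w) S
        (W : Set M)), m - a ∈ (D.mI • (⊤ : Submodule D.Ttot M)) := by
      intro m
      have hm : m ∈ Submodule.span B (W : Set M) := by rw [hW]; trivial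
      obtain ⟨b, _, hb⟩ := Submodule.mem_span_finset.mp hm
      choose a ha ha' using fun w : M => hSpan (b w)
      refine ⟨∑ w ∈ W, a w • w, Submodule.sum_mem _ fun w hw' => hw w hw' _ (ha w), ?_⟩
      rw [← hb, ← Finset.sum_sub_distrib]
      refine Submodule.sum_mem _ fun w _ => ?_
      rw [← sub_smul]
      exact hIB _ (Submodule.smul_mem_smul (hs (ha' w)) trivial)
    have hfd : Module.Finite k (Submodule.span k (Set.image2 (fun (b : B) (w : M) => b • w) S
        (W : Set M))) := FiniteDimensional.span_of_finite k hfinite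
    refine Module.Finite.of_surjective
      (((Submodule.mkQ (D.mI • (⊤ : Submodule D.Ttot M))).restrictScalars k).comp
        (Submodule.subtype (Submodule.span k (Set.image2 (fun (b : B) (w : M) => b • w) S
        (W : Set M))))) ?_
    intro y
    obtain ⟨m, rfl⟩ := Submodule.mkQ_surjective _ y
    obtain ⟨a, ha, h⟩ := hk m
    refine ⟨⟨a, ha⟩, ?_⟩
    symm
    exact (Submodule.Quotient.eq _).mpr h
  have hntM : Nontrivial M := hreg.nontrivial
  have hnt : Nontrivial (M ⧸ (D.mI • (⊤ : Submodule D.Ttot M))) := by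
    rw [Submodule.Quotient.nontrivial_iff]
    intro htop
    have hle : ∀ y ∈ (D.mI • (⊤ : Submodule D.Ttot M)),
        y ∈ (IsLocalRing.maximalIdeal B • (⊤ : Submodule B M)) := by
      intro y hy
      refine Submodule.smul_induction_on hy ?_ ?_
      · intro t ht m _
        rw [hsmulT]
        refine Submodule.smul_mem_smul ?_ trivial
        have : D.mI ≤ (IsLocalRing.maximalIdeal B).comap f := by
          unfold TData.mI
          rw [Ideal.span_le]
          rintro x (rfl | rfl | rfl)
          exacts [h0, h1, h2]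
        exact this ht
      · intro x y hx hy
        exact Submodule.add_mem _ hx hy
    have h3 : (⊤ : Submodule B M) ≤ IsLocalRing.maximalIdeal B • (⊤ : Submodule B M) := by
      intro y _
      exact hle y (by rw [htop]; trivial)
    have h4 := Submodule.eq_bot_of_le_smul_of_le_jacobson_bot (IsLocalRing.maximalIdeal B)
      (⊤ : Submodule B M) Module.Finite.fg_top h3 (IsLocalRing.maximalIdeal_le_jacobson _)
    exact top_ne_bot h4
  exact hno M _ (grFree_of_isWeaklyRegular D M hregT)

/-- the hypotheses `FilUV` of the packaging hold for every `TData`. -/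
theorem TData.filUV (D : TData k Q) : FilUV D.toFil D.u D.v where
  one_mem := by
    have := D.one_mem
    change (1 : Q) ∈ D.F ((1 : ℕ) : ℤ)
    exact_mod_cast this
  u_mem := by
    have := D.u_mem
    change D.u ∈ D.F ((1 : ℕ) : ℤ)
    exact_mod_cast this
  v_mem := by
    have := D.v_mem
    change D.v ∈ D.F ((1 : ℕ) : ℤ)
    exact_mod_cast this
  finite := fun m => D.lat.fin m
  gen := by
    obtain ⟨m₁, h⟩ := D.lat.gen
    refine ⟨m₁.toNat, fun m hm q hq => ?_⟩
    have hq' : q ∈ D.F ((m : ℤ) + 1) := by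
      have : q ∈ D.F ((m + 1 : ℕ) : ℤ) := hq
      exact_mod_cast this
    obtain ⟨a, ha, b, hb, c, hc, e⟩ := h m (by omega) q hq'
    exact ⟨a, ha, b, hb, c, hc, by simpa [smul_eq_mul] using e⟩
  indep := D.indep

theorem TData.x0_eq (D : TData k Q) : D.x0 = Fil.xT D.filUV := rfl
theorem TData.x1_eq (D : TData k Q) : D.x1 = Fil.yT D.filUV := rfl
theorem TData.x2_eq (D : TData k Q) : D.x2 = Fil.zT D.filUV := rfl

/-- the ideal of elements of `T` of order `≥ n` -/
def TData.ordT (D : TData k Q) (n : ℕ) : Ideal D.Ttot where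
  carrier := {p | ∀ m, m < n → (p : Q[X]).coeff m = 0}
  add_mem' := by
    intro f g hf hg m hm
    have h1 : ((f + g : D.Ttot) : Q[X]) = (f : Q[X]) + (g : Q[X]) := rfl
    rw [h1, Polynomial.coeff_add, hf m hm, hg m hm, add_zero]
  zero_mem' := by
    intro m _
    exact Polynomial.coeff_zero m
  smul_mem' := by
    intro c f hf m hm
    have h1 : ((c • f : D.Ttot) : Q[X]) = (c : Q[X]) * (f : Q[X]) := rfl
    rw [h1, Polynomial.coeff_mul]
    refine Finset.sum_eq_zero fun x hx => ?_
    have := Finset.HasAntidiagonal.mem_antidiagonal.mp hx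
    rw [hf x.2 (by omega), mul_zero]

theorem TData.mem_ordT {D : TData k Q} {n : ℕ} {p : D.Ttot} :
    p ∈ D.ordT n ↔ ∀ m, m < n → (p : Q[X]).coeff m = 0 := Iff.rfl

theorem TData.pow_ordT_le (D : TData k Q) (n : ℕ) : D.ordT 1 ^ n ≤ D.ordT n := by
  induction n with
  | zero => intro f _ m hm; omega
  | succ n ih =>
    rw [pow_succ, Ideal.mul_le]
    intro f hf g hg m hm
    have h1 : ((f * g : D.Ttot) : Q[X]) = (f : Q[X]) * (g : Q[X]) := rfl
    rw [h1, Polynomial.coeff_mul]
    refine Finset.sum_eq_zero fun x hx => ?_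
    have := Finset.HasAntidiagonal.mem_antidiagonal.mp hx
    rcases Nat.lt_or_ge x.1 n with h2 | h2
    · rw [ih hf x.1 h2, zero_mul]
    · rw [hg x.2 (by omega), mul_zero]

theorem TData.exists_ordT_le (D : TData k Q) : ∃ c : ℕ, D.ordT c ≤ D.mI := by
  obtain ⟨c, hc⟩ := D.filUV.gen
  refine ⟨c + 1, fun p hp => ?_⟩
  have hmono : ∀ (m : ℕ) (q : D.toFil.F (m + 1)), c ≤ m → D.toFil.mono (m + 1) q ∈ D.mI := by
    intro m q hm
    obtain ⟨a, ha, b, hb, d, hd, e⟩ := hc m hm q q.2
    have e' : D.toFil.mono (m + 1) q = Fil.xT D.filUV * D.toFil.mono m ⟨a, ha⟩ +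
        Fil.yT D.filUV * D.toFil.mono m ⟨b, hb⟩ + Fil.zT D.filUV * D.toFil.mono m ⟨d, hd⟩ := by
      simp only [Fil.xT, Fil.yT, Fil.zT]
      rw [Fil.mono_mul_mono, Fil.mono_mul_mono, Fil.mono_mul_mono]
      apply Subtype.ext
      simp only [Subalgebra.coe_add, Fil.coe_mono, e]
      rw [← map_add, ← map_add, one_mul, add_comm 1 m]
    have hx0 : Fil.xT D.filUV ∈ D.mI := Ideal.subset_span (Or.inl rfl)
    have hx1 : Fil.yT D.filUV ∈ D.mI := Ideal.subset_span (Or.inr (Or.inl rfl))
    have hx2 : Fil.zT D.filUV ∈ D.mI := Ideal.subset_span (Or.inr (Or.inr rfl))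
    rw [e']
    exact Ideal.add_mem D.mI (Ideal.add_mem D.mI (Ideal.mul_mem_right _ D.mI hx0)
      (Ideal.mul_mem_right _ D.mI hx1)) (Ideal.mul_mem_right _ D.mI hx2)
  have hsum := D.toFil.sum_mono p
  rw [hsum]
  refine Ideal.sum_mem _ fun m hm => ?_
  have hm' : c + 1 ≤ m := by
    by_contra hlt
    exact (Polynomial.mem_support_iff.mp hm) (hp m (by omega))
  obtain ⟨n, rfl⟩ : ∃ n, m = n + 1 := ⟨m - 1, by omega⟩
  exact hmono n _ (by omega)

/-- Module glue for an abstract localization of `T` at the irrelevant ideal. -/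
theorem glueLoc (D : TData k Q) (hno : NoMCM D) (I : Ideal D.Ttot) [I.IsPrime]
    (hI : ∀ p : D.Ttot, p ∈ I ↔ (p : Q[X]).coeff 0 = 0)
    (B : Type) [CommRing B] [Algebra D.Ttot B] [IsLocalization.AtPrime B I] [IsLocalRing B] :
    ∀ (M : Type) [AddCommGroup M] [Module B M],
      Module.Finite B M → Nontrivial M →
        ∀ rs : List B, rs.length = 3 →
          (∀ r ∈ rs, r ∈ IsLocalRing.maximalIdeal B) →
          ¬ IsRegular M rs := by
  intro M _ _ hfin _ rs hlen hrs
  have hT : IsNoetherianRing D.Ttot := Fil.isNoetherianRing_T D.filUV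
  have hN : IsNoetherianRing B :=
    IsLocalization.isNoetherianRing I.primeCompl _ hT
  have hIord : I = D.ordT 1 := by
    ext p
    rw [hI, TData.mem_ordT]
    constructor
    · intro h m hm
      obtain rfl : m = 0 := by omega
      exact h
    · intro h
      exact h 0 (by omega)
  have hmap : I.map (algebraMap D.Ttot B) =
      IsLocalRing.maximalIdeal B :=
    IsLocalization.AtPrime.map_eq_maximalIdeal I B
  have hxI : D.mI ≤ I := by
    unfold TData.mI
    rw [Ideal.span_le]
    rintro x (rfl | rfl | rfl) <;> rw [SetLike.mem_coe, hI]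
    · change (Polynomial.monomial 1 (1 : Q)).coeff 0 = 0
      rw [Polynomial.coeff_monomial, if_neg one_ne_zero]
    · change (Polynomial.monomial 1 D.u).coeff 0 = 0
      rw [Polynomial.coeff_monomial, if_neg one_ne_zero]
    · change (Polynomial.monomial 1 D.v).coeff 0 = 0
      rw [Polynomial.coeff_monomial, if_neg one_ne_zero]
  have hmem : ∀ x ∈ D.mI, algebraMap D.Ttot B x ∈
      IsLocalRing.maximalIdeal B := by
    intro x hx
    rw [← hmap]
    exact Ideal.mem_map_of_mem _ (hxI hx)
  obtain ⟨c, hc⟩ := D.exists_ordT_le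
  refine not_isRegular_of_noMCM D hno B
    (algebraMap D.Ttot B)
    (hmem _ (Ideal.subset_span (by simp))) (hmem _ (Ideal.subset_span (by simp)))
    (hmem _ (Ideal.subset_span (by simp))) c ?_ ?_ M hfin rs hlen hrs
  · rw [← hmap, ← Ideal.map_pow]
    have h1 : I ^ c ≤ D.mI := by
      rw [hIord]
      exact (D.pow_ordT_le c).trans hc
    refine (Ideal.map_mono h1).trans ?_
    unfold TData.mI
    rw [Ideal.map_span, Set.image_insert_eq, Set.image_insert_eq, Set.image_singleton]
  · -- residue field
    have hconst : ∀ t : D.Ttot, ∃ r : k, t - algebraMap k D.Ttot r ∈ I := by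
      intro t
      obtain ⟨r, hr⟩ := D.toFil.exists_const t
      refine ⟨r, ?_⟩
      rw [hI]
      exact D.toFil.mem_irr.mp hr
    intro b
    obtain ⟨⟨t, w⟩, hb⟩ := IsLocalization.surj I.primeCompl b
    obtain ⟨r, hr⟩ := hconst t
    obtain ⟨r', hr'⟩ := hconst w
    have hr'0 : r' ≠ 0 := by
      rintro rfl
      apply w.2
      simpa using hr'
    refine ⟨r / r', ?_⟩
    -- `b * w = t`, so `(b - r/r') * w = t - (r/r') w ∈ 𝔪`
    have hw : IsUnit (algebraMap D.Ttot B w) :=
      IsLocalization.map_units _ w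
    have key : (b - algebraMap D.Ttot B (algebraMap k D.Ttot (r / r'))) *
        algebraMap D.Ttot B w =
        algebraMap D.Ttot B
          (t - algebraMap k D.Ttot (r / r') * (w : D.Ttot)) := by
      rw [sub_mul, hb, map_sub, map_mul]
    refine (Ideal.mul_unit_mem_iff_mem _ hw).mp ?_
    rw [key, ← hmap]
    apply Ideal.mem_map_of_mem
    have e : t - algebraMap k D.Ttot (r / r') * (w : D.Ttot) =
        (t - algebraMap k D.Ttot r) - algebraMap k D.Ttot (r / r') *
          ((w : D.Ttot) - algebraMap k D.Ttot r') := by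
      rw [mul_sub, ← map_mul, div_mul_cancel₀ _ hr'0]
      ring
    change t - algebraMap k D.Ttot (r / r') * (w : D.Ttot) ∈ I
    rw [e]
    exact Ideal.sub_mem _ hr (Ideal.mul_mem_left _ _ hr')

/-- **Module glue for `T_𝔪`** (S0257). -/
theorem glueT (D : TData k Q) (hno : NoMCM D) (I : Ideal D.Ttot) [I.IsPrime]
    (hI : ∀ p : D.Ttot, p ∈ I ↔ (p : Q[X]).coeff 0 = 0) :
    ∀ (M : Type) [AddCommGroup M] [Module (Localization.AtPrime I) M],
      Module.Finite (Localization.AtPrime I) M → Nontrivial M →
        ∀ rs : List (Localization.AtPrime I), rs.length = 3 →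
          (∀ r ∈ rs, r ∈ IsLocalRing.maximalIdeal (Localization.AtPrime I)) →
          ¬ IsRegular M rs :=
  glueLoc D hno I hI (Localization.AtPrime I)

/-- the inclusion `T → R` -/
def TData.toR (D : TData k Q) : D.Ttot →+* D.toFil.R :=
  ((Polynomial.coeToPowerSeries.ringHom (R := Q)).comp D.Ttot.val.toRingHom).codRestrict
    D.toFil.R.toSubring (fun p m => by
      have : PowerSeries.coeff m ((p : Q[X]) : PowerSeries Q) = (p : Q[X]).coeff m :=
        Polynomial.coeff_coe _ _
      change PowerSeries.coeff m ((p : Q[X]) : PowerSeries Q) ∈ D.F m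
      rw [this]
      exact p.2 m)

theorem TData.co_toR (D : TData k Q) (p : D.Ttot) (m : ℕ) :
    D.toFil.co (D.toR p) m = (p : Q[X]).coeff m :=
  Polynomial.coeff_coe _ _

/-- **Module glue for the completion `R`** (S0256). -/
theorem glueR (D : TData k Q) (hno : NoMCM D) :
    ∀ (M : Type) [AddCommGroup M] [Module D.toFil.R M], Module.Finite D.toFil.R M →
      Nontrivial M → ∀ rs : List D.toFil.R, rs.length = 3 →
          (∀ r ∈ rs, r ∈ IsLocalRing.maximalIdeal D.toFil.R) → ¬ IsRegular M rs := by
  intro M _ _ hfin _ rs hlen hrs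
  have hN : IsNoetherianRing D.toFil.R := Fil.isNoetherianRing_R D.filUV
  have e0 : D.toR D.x0 = D.toFil.hom 1 ⟨1, D.filUV.one_mem⟩ := by
    refine D.toFil.R_ext fun m => ?_
    rw [D.co_toR, Fil.co_hom]
    change (Polynomial.monomial 1 (1 : Q)).coeff m = _
    rw [Polynomial.coeff_monomial]
    simp only [eq_comm]
  have e1 : D.toR D.x1 = D.toFil.hom 1 ⟨D.u, D.filUV.u_mem⟩ := by
    refine D.toFil.R_ext fun m => ?_
    rw [D.co_toR, Fil.co_hom]
    change (Polynomial.monomial 1 D.u).coeff m = _
    rw [Polynomial.coeff_monomial]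
    simp only [eq_comm]
  have e2 : D.toR D.x2 = D.toFil.hom 1 ⟨D.v, D.filUV.v_mem⟩ := by
    refine D.toFil.R_ext fun m => ?_
    rw [D.co_toR, Fil.co_hom]
    change (Polynomial.monomial 1 D.v).coeff m = _
    rw [Polynomial.coeff_monomial]
    simp only [eq_comm]
  have hxyz : Fil.xyzR D.filUV = Ideal.span {D.toR D.x0, D.toR D.x1, D.toR D.x2} := by
    rw [e0, e1, e2]
    rfl
  have hle := Fil.xyzR_le D.filUV
  obtain ⟨c, hc⟩ := Fil.exists_ordIdeal_le D.filUV
  refine not_isRegular_of_noMCM D hno D.toFil.R D.toR ?_ ?_ ?_ (c + 1) ?_ ?_ M hfin rs hlen hrs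
  · apply hle
    rw [hxyz]
    exact Ideal.subset_span (by simp)
  · apply hle
    rw [hxyz]
    exact Ideal.subset_span (by simp)
  · apply hle
    rw [hxyz]
    exact Ideal.subset_span (by simp)
  · rw [← hxyz]
    have h1 := hc 1
    rw [pow_one] at h1
    refine le_trans ?_ h1
    rw [Fil.maximalIdeal_eq]
    exact D.toFil.pow_ordIdeal_le (c + 1)
  · intro b
    obtain ⟨r, hr⟩ := D.toFil.mem_zero_iff.mp (D.toFil.co_mem b 0)
    refine ⟨r, ?_⟩
    rw [Fil.mem_maximalIdeal, Fil.co_sub, D.co_toR, ← hr]
    change algebraMap k Q r - (Polynomial.C (algebraMap k Q r)).coeff 0 = 0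
    rw [Polynomial.coeff_C_zero, sub_self]

end Main

end Crest.Agent.R169
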