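import Crest.Agent.R169.PackDim
import Crest.Agent.R169.PackMod

/-!
# Row 169: Krull dimensions for `TData`
-/

set_option autoImplicit false

noncomputable section

namespace Crest.Agent.R169.PackDimD

open Polynomial Crest.Agent.R169

variable {k Q : Type} [Field k] [Field Q] [Algebra k Q]

theorem ringKrullDim_Ttot (D : TData k Q) : ringKrullDim D.Ttot = 3 :=
  Fil.ringKrullDim_T (TData.filUV D)

theorem ringKrullDim_loc (D : TData k Q) (I : Ideal D.Ttot) [I.IsPrime]
    (hI : ∀ p : D.Ttot, p ∈ I ↔ (p : Q[X]).coeff 0 = 0) :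
    ringKrullDim (Localization.AtPrime I) = 3 := by
  have e : I = D.toFil.irr := by
    ext p
    rw [hI p]
    exact (D.toFil.mem_irr).symm
  subst e
  exact Fil.ringKrullDim_localization (TData.filUV D)

end Crest.Agent.R169.PackDimD
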