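import Crest.Agent.R169.Pack256
import Crest.Agent.R169.Pack257
import Crest.Agent.R169.PackDimD

/-!
Row 169, module `PackFinal`: `pack256` and `pack257` exactly in the form of `Skeleton.lean`.
-/

set_option autoImplicit false

noncomputable section

namespace Crest.Agent.R169.PackFinal

variable {k Q : Type} [Field k] [Field Q] [Algebra k Q]

theorem pack256 (e : ℂ ≃+* k) (D : TData k Q) (hN : FilNormal D.toFil) (hno : NoMCM D) :
    ∃ (R : Type) (_ : CommRing R) (_ : IsLocalRing R) (_ : Algebra ℂ R),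
      IsDomain R ∧ IsNoetherianRing R ∧ IsIntegrallyClosed R ∧
      IsAdicComplete (IsLocalRing.maximalIdeal R) R ∧ ringKrullDim R = 3 ∧
      Function.Bijective (algebraMap ℂ (IsLocalRing.ResidueField R)) ∧
      ∀ (M : Type) [AddCommGroup M] [Module R M], Module.Finite R M → Nontrivial M →
        ∀ rs : List R, rs.length = 3 → (∀ r ∈ rs, r ∈ IsLocalRing.maximalIdeal R) →
          ¬ RingTheory.Sequence.IsRegular M rs :=
  Pack256.pack256_of e D hN (glueR D hno)

theorem pack257 (e : ℂ ≃+* k) (D : TData k Q) (hno : NoMCM D) :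
    ∃ (T : Type) (_ : CommRing T) (_ : Algebra ℂ T) (𝒜 : ℕ → Submodule ℂ T) (_ : GradedAlgebra 𝒜)
      (_ : (HomogeneousIdeal.irrelevant 𝒜).toIdeal.IsMaximal),
      Algebra.FiniteType ℂ T ∧ IsDomain T ∧ ringKrullDim T = 3 ∧
      Function.Bijective (algebraMap ℂ (T ⧸ (HomogeneousIdeal.irrelevant 𝒜).toIdeal)) ∧
      ringKrullDim (Localization.AtPrime (HomogeneousIdeal.irrelevant 𝒜).toIdeal) = 3 ∧
      ∀ (M : Type) [AddCommGroup M] [Module (Localization.AtPrime (HomogeneousIdeal.irrelevant 𝒜).toIdeal) M],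
        Module.Finite (Localization.AtPrime (HomogeneousIdeal.irrelevant 𝒜).toIdeal) M → Nontrivial M →
        ∀ rs : List (Localization.AtPrime (HomogeneousIdeal.irrelevant 𝒜).toIdeal), rs.length = 3 →
          (∀ r ∈ rs, r ∈ IsLocalRing.maximalIdeal (Localization.AtPrime (HomogeneousIdeal.irrelevant 𝒜).toIdeal)) →
          ¬ RingTheory.Sequence.IsRegular M rs :=
  Pack257.pack257_of e D hno (PackDimD.ringKrullDim_Ttot D)
    (fun I _ hI => PackDimD.ringKrullDim_loc D I hI)

end Crest.Agent.R169.PackFinal
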