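import Crest.Agent.R169.A4
import Crest.Agent.R169.AMin

/-!
# Row 169, PART A (helper592, helper914): end product
-/

set_option autoImplicit false

namespace Crest.Agent.R169

/-- PART A. -/
theorem partA_main {k Q : Type} [Field k] [Field Q] [Algebra k Q] (D : TData k Q)
    (M : Type) [AddCommGroup M] [Module D.Ttot M] [Module k M] [IsScalarTower k D.Ttot M]
    [Infinite k] (n : ℕ) (hG : GrFree D M n)
    (hF : ∃ (N : ℕ) (b c : ℚ), 0 < N ∧ HasHP D.F N b c) :
    ∃ R : ℕ, 0 < R ∧ ∃ G : ℤ → Submodule k (Fin R → Q), IsTLat D G ∧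
      ∃ b c : ℚ, HasHP G n b c ∧ 0 ≤ Jinv n b c ∧ NSS (Q := Q) G n b := by
  have hF' : ∃ (N : ℕ) (b c : ℚ), HasHP D.F N b c := by
    obtain ⟨N, b, c, _, h⟩ := hF
    exact ⟨N, b, c, h⟩
  exact AMin.partA_of D M n hG (A1 D n hG hF') (fun FM hFM => A2.A2 D hG FM hFM)
    (fun FM hFM b c hHP => A4 D M n hG hF FM hFM b c hHP)

end Crest.Agent.R169
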