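import Crest.Agent.R169.TwoStep

/-!
# Row 169, Part D3 (helper641): the sum of all translates of a rank one lattice has principal
order function.
-/

set_option autoImplicit false

namespace Crest.Agent.R169.Principal

open Module TwoStep

section

variable {k Q ι : Type} [Field k] [Field Q] [Algebra k Q] {D : TData k Q} {S : Places D ι}
  (Y : Symm D S)

theorem ord_prod (P : Place Q) {α : Type} (s : Finset α) (f : α → Q) (hf : ∀ i ∈ s, f i ≠ 0) :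
    P.ord (∏ i ∈ s, f i) = ∑ i ∈ s, P.ord (f i) := by
  classical
  induction s using Finset.induction_on with
  | empty => simp [P.ord_one]
  | insert a s ha ih =>
    rw [Finset.prod_insert ha, Finset.sum_insert ha, P.ord_mul, ih]
    · exact fun i hi => hf i (Finset.mem_insert_of_mem hi)
    · exact hf a (Finset.mem_insert_self a s)
    · exact Finset.prod_ne_zero_iff.2 fun i hi => hf i (Finset.mem_insert_of_mem hi)

theorem perm_inv (γ : Y.Γ) (P : ι) : Y.perm γ (Y.perm γ⁻¹ P) = P := by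
  rw [← Y.perm_mul, mul_inv_cancel, Y.perm_one]

theorem ord_act (γ : Y.Γ) (P : ι) (x : Q) (hx : x ≠ 0) :
    (S.pl P).ord (Y.act γ x) = (S.pl (Y.perm γ⁻¹ P)).ord x := by
  have := Y.ord_perm γ (Y.perm γ⁻¹ P) x hx
  rwa [perm_inv] at this

theorem ordL_act' (γ : Y.Γ) (P : ι) (I : ℤ → Submodule k Q) :
    ordL S P (mapL (Y.act γ) I) = ordL S (Y.perm γ⁻¹ P) I := by
  have := ordL_act Y γ (Y.perm γ⁻¹ P) I
  rwa [perm_inv] at this

theorem act_ne_zero (γ : Y.Γ) {x : Q} (hx : x ≠ 0) : Y.act γ x ≠ 0 := by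
  rwa [Ne, map_eq_zero_iff _ (Y.act γ).injective]

/-- step A: over the affine places the norm of a rank one lattice is principal. -/
theorem exists_affine [Infinite k] {I : ℤ → Submodule k Q} (hI : IsTLat D I) :
    ∃ g : Q, g ≠ 0 ∧ ∀ P, S.c P = 0 →
      (S.pl P).ord g = ∑ δ ∈ Y.μ, ordL S (Y.perm δ⁻¹ P) I := by
  classical
  obtain ⟨d, x, hx, hx0⟩ := exists_ne_zero hI
  let A : Set ι := {P | (S.pl P).ord x ≠ ordL S P I - S.c P * d}
  have hA : A.Finite := by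
    refine ((S.fin x hx0).union (S.cfin.union (ordL_finite S hI))).subset ?_
    intro P hP
    by_contra hcon
    simp only [Set.mem_union, Set.mem_ofPred_eq, not_or, not_not] at hcon
    obtain ⟨h1, h2, h3⟩ := hcon
    apply hP
    rw [h1, h2, h3]
    simp
  let B : Set ι := ⋃ γ : Y.Γ, Y.perm γ '' A
  have hB : B.Finite := Set.finite_iUnion fun γ => hA.image _
  obtain ⟨M, hM⟩ := exists_exact S hI B hB
  obtain ⟨y, hy, hy0, hyex⟩ := hM M le_rfl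
  obtain ⟨g, hg0, hg⟩ := Y.gcd x y hx0 hy0
  refine ⟨g, hg0, fun P hP => ?_⟩
  rw [hg P hP]
  have hc : ∀ γ : Y.Γ, S.c (Y.perm γ P) = 0 := fun γ => by rw [Y.c_perm, hP]
  have e1 : ∀ w : Q, w ≠ 0 → (S.pl P).ord (∏ δ ∈ Y.μ, Y.act δ w) =
      ∑ δ ∈ Y.μ, (S.pl (Y.perm δ⁻¹ P)).ord w := by
    intro w hw
    rw [ord_prod _ _ _ fun δ _ => act_ne_zero Y δ hw]
    exact Finset.sum_congr rfl fun δ _ => ord_act Y δ P w hw
  rw [e1 x hx0, e1 y hy0]
  have hge : ∀ (m : ℤ) (w : Q), w ∈ I m → w ≠ 0 →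
      ∑ δ ∈ Y.μ, ordL S (Y.perm δ⁻¹ P) I ≤ ∑ δ ∈ Y.μ, (S.pl (Y.perm δ⁻¹ P)).ord w := by
    intro m w hw hw0
    refine Finset.sum_le_sum fun δ _ => ?_
    have := ordL_le S (Y.perm δ⁻¹ P) hI hw
    rw [hc, zero_mul, sub_zero] at this
    exact (Place.ge_iff hw0).1 this
  have h1 := hge d x hx hx0
  have h2 := hge M y hy hy0
  by_cases hall : ∀ δ ∈ Y.μ, Y.perm δ⁻¹ P ∉ A
  · have h3 : ∑ δ ∈ Y.μ, (S.pl (Y.perm δ⁻¹ P)).ord x = ∑ δ ∈ Y.μ, ordL S (Y.perm δ⁻¹ P) I := by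
      refine Finset.sum_congr rfl fun δ hδ => ?_
      have h4 := hall δ hδ
      simp only [A, Set.mem_ofPred_eq, not_not] at h4
      rw [h4, hc, zero_mul, sub_zero]
    rw [h3]
    exact min_eq_left h2
  · push Not at hall
    obtain ⟨δ₀, -, hδ₀⟩ := hall
    have h3 : ∑ δ ∈ Y.μ, (S.pl (Y.perm δ⁻¹ P)).ord y = ∑ δ ∈ Y.μ, ordL S (Y.perm δ⁻¹ P) I := by
      refine Finset.sum_congr rfl fun δ _ => ?_
      have h4 : Y.perm δ⁻¹ P ∈ B := by
        refine Set.mem_iUnion.2 ⟨δ⁻¹ * δ₀, Y.perm δ₀⁻¹ P, hδ₀, ?_⟩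
        rw [← Y.perm_mul, mul_assoc, mul_inv_cancel, mul_one]
      rw [hyex _ h4, hc, zero_mul, sub_zero]
    rw [h3]
    exact min_eq_right h1

/-- **D3** -/
theorem principal [Infinite k] : PrincipalStatement D S Y := by
  classical
  intro I hI
  obtain ⟨g, hg0, hg⟩ := exists_affine Y hI
  let t : ι → ℤ := fun P => ∑ δ ∈ Y.μ, ordL S (Y.perm δ⁻¹ P) I - (S.pl P).ord g
  let h : ι → ℤ := fun P => ∑ γ : Y.Γ, t (Y.perm γ⁻¹ P)
  have hinv : ∀ (σ : Y.Γ) (P : ι), h (Y.perm σ P) = h P := by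
    intro σ P
    show ∑ γ : Y.Γ, t (Y.perm γ⁻¹ (Y.perm σ P)) = ∑ γ : Y.Γ, t (Y.perm γ⁻¹ P)
    rw [← Equiv.sum_comp (Equiv.mulLeft σ) (fun γ => t (Y.perm γ⁻¹ (Y.perm σ P)))]
    refine Finset.sum_congr rfl fun γ _ => ?_
    rw [Equiv.coe_mulLeft, ← Y.perm_mul, mul_inv_rev, mul_assoc, inv_mul_cancel, mul_one]
  obtain ⟨κ, hκ⟩ : ∃ κ : ℤ, ∀ P, S.c P = 1 → h P = κ := by
    by_cases hex : ∃ P₀, S.c P₀ = 1
    · obtain ⟨P₀, hP₀⟩ := hex
      refine ⟨h P₀, fun P hP => ?_⟩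
      obtain ⟨γ, rfl⟩ := Y.trans P₀ P hP₀ hP
      exact hinv γ P₀
    · exact ⟨0, fun P hP => absurd ⟨P, hP⟩ hex⟩
  refine ⟨∏ γ : Y.Γ, Y.act γ g, κ, ?_, ?_⟩
  · exact Finset.prod_ne_zero_iff.2 fun γ _ => act_ne_zero Y γ hg0
  · intro P
    rw [ord_prod _ _ _ fun γ _ => act_ne_zero Y γ hg0]
    have e1 : ∀ γ : Y.Γ, ∑ δ ∈ Y.μ, ordL S P (mapL (Y.act (γ * δ)) I) =
        t (Y.perm γ⁻¹ P) + (S.pl P).ord (Y.act γ g) := by
      intro γ
      rw [ord_act Y γ P g hg0]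
      simp only [t]
      rw [sub_add_cancel]
      refine Finset.sum_congr rfl fun δ _ => ?_
      rw [ordL_act', mul_inv_rev, Y.perm_mul]
    rw [Finset.sum_congr rfl fun γ _ => e1 γ, Finset.sum_add_distrib]
    have e2 : ∑ γ : Y.Γ, t (Y.perm γ⁻¹ P) = S.c P * κ := by
      rcases S.c_eq P with hc | hc
      · rw [hc, zero_mul]
        refine Finset.sum_eq_zero fun γ _ => ?_
        simp only [t]
        rw [hg _ (by rw [Y.c_perm, hc]), sub_self]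
      · rw [hc, one_mul]
        exact hκ P hc
    rw [e2]
    ring

end

end Crest.Agent.R169.Principal
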