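import Crest.Agent.R169.PartD
import Crest.Agent.R169.Principal
import Crest.Agent.R169.C.C3Whole

/-! Row 169, PART D final (safety copy, helper641). -/

set_option autoImplicit false

namespace Crest.Agent.R169

theorem partD {k Q : Type} [Field k] [IsAlgClosed k] [Field Q] [Algebra k Q] (D : TData k Q)
    (p : ℕ) [Fact p.Prime] [CharP k p] {N : ℕ} {bT cT : ℚ} (hT : HilbT D N bT cT)
    {ι : Type} (S : Places D ι) (Y : Symm D S) (hpt : AllPtRegular D) :
    C3 D p N bT ∧ C7 D p N bT cT := by
  haveI : Infinite k := IsAlgClosed.instInfinite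
  have hcol := colengthStatement D p hpt
  have hprin : PrincipalStatement D S Y := Principal.principal Y
  refine ⟨C3W.c3_of_whole D p N bT hT.pos fun R G hG => ?_, PartD.c7 S Y p hT hcol hprin⟩
  obtain ⟨b, c, b', c', h1, h2, h3, -⟩ := PartD.whole S Y p hT hcol hprin R G hG
  exact ⟨b, c, b', c', h1, h2, h3⟩

end Crest.Agent.R169
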