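import Crest.Agent.R169.E3
import Crest.Agent.R169.E4
import Crest.Agent.R169.E5
import Crest.Agent.R169.EScale
import Crest.Agent.R169.P6

/-!
# Row 169, Part E: complete (reduction of a normal semistable slope stable lattice from
characteristic zero to infinitely many characteristics `p`)
-/

set_option autoImplicit false

namespace Crest.Agent.R169

open Crest.R169

theorem PartE.p6 (s : ℕ) (b : ℚ) (g : ℤ) : ∃ C : ℚ, E3Win.P6Stmt s b g C := by
  obtain ⟨C, hC⟩ := P6.p6_bound s b g
  refine ⟨C, ?_⟩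
  intro k K V _ _ _ _ _ _ _ _ u v E hK hE hg b' c' hHP hb m hm
  haveI : Infinite k := IsAlgClosed.instInfinite
  exact hC k K V u v E hK hE hg b' c' hHP hb m hm

/-- **Part E** (exactly the Skeleton statement) -/
theorem partE {R : ℕ} (_ : 0 < R) (G : ℤ → Submodule KStar (Fin R → QField 7 KStar))
    (hG : IsTLat (D7 KStar) G) {n : ℕ} {b c : ℚ} (hn : 0 < n) (hHP : HasHP G n b c)
    (hN : NSS (Q := QField 7 KStar) G n b) (p0 : ℕ) :
    ∃ p : PP, p0 ≤ p.val ∧ ∃ G' : ℤ → Submodule (Kp p) (Fin R → QField 7 (Kp p)),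
      IsTLat (D7 (Kp p)) G' ∧ HasHP G' n b c ∧ NSS (Q := QField 7 (Kp p)) G' n b :=
  E5.partE_of' (E3.e3_of PartE.p6) E4.main EScale.main G hG hn hHP hN p0

end Crest.Agent.R169
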