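import Crest.Agent.R169.TBasic
import Crest.Agent.R169.Lat
import Crest.Agent.R169.Bridge

/-!
# Row 169: rank of a `T`-lattice in `Q^R` over `K0 = k(u,v)` is `N R` (helper169)
-/

set_option autoImplicit false

namespace Crest.Agent.R169.Rank

open Module

variable {k Q : Type} [Field k] [Field Q] [Algebra k Q] (D : TData k Q)

/-- the `K0`-span of `F` is closed under multiplication by elements of `F`. -/
theorem mul_mem_span {f : Q} {i : ℤ} (hf : f ∈ D.F i) {x : Q} (hx : x ∈ spanK D.K0 D.F) :
    f * x ∈ spanK D.K0 D.F := by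
  induction hx using Submodule.span_induction with
  | mem x h =>
    obtain ⟨j, hj⟩ := Set.mem_iUnion.1 h
    exact Submodule.subset_span (Set.mem_iUnion.2 ⟨i + j, D.mul_mem i j f hf x hj⟩)
  | zero => simp
  | add x y _ _ hx hy =>
    rw [mul_add]
    exact Submodule.add_mem _ hx hy
  | smul a x _ hx =>
    have : f * a • x = a • (f * x) := by
      rw [Algebra.smul_def, Algebra.smul_def]; ring
    rw [this]
    exact Submodule.smul_mem _ _ hx

theorem spanK_le {V : Type} [AddCommGroup V] [Module k V] [Module Q V]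
    [IsScalarTower k Q V] {E : ℤ → Submodule k V} (hE : IsLat D.u D.v E) :
    ∃ m₁ : ℤ, spanK D.K0 E ≤ Submodule.span D.K0 (E m₁ : Set V) := by
  obtain ⟨m₁, h⟩ := hE.gen
  refine ⟨m₁, Submodule.span_le.2 ?_⟩
  intro x hx
  obtain ⟨m, hm⟩ := Set.mem_iUnion.1 hx
  have key : ∀ n : ℕ, ∀ x ∈ E (m₁ + n), x ∈ Submodule.span D.K0 (E m₁ : Set V) := by
    intro n
    induction n with
    | zero =>
      intro x hx
      exact Submodule.subset_span (by simpa using hx)
    | succ n ih =>
      intro x hx
      obtain ⟨a, ha, b, hb, c, hc, rfl⟩ := h (m₁ + n) (by omega) x (by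
        have e : m₁ + ((n + 1 : ℕ) : ℤ) = m₁ + n + 1 := by push_cast; ring
        rwa [e] at hx)
      have hu : D.u ∈ D.K0 := IntermediateField.subset_adjoin _ _ (by simp)
      have hv : D.v ∈ D.K0 := IntermediateField.subset_adjoin _ _ (by simp)
      refine Submodule.add_mem _ (Submodule.add_mem _ (ih a ha) ?_) ?_
      · exact Submodule.smul_mem _ (⟨D.u, hu⟩ : D.K0) (ih b hb)
      · exact Submodule.smul_mem _ (⟨D.v, hv⟩ : D.K0) (ih c hc)
  rcases le_total m m₁ with hle | hle
  · exact Submodule.subset_span (hE.mono_le hle hm)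
  · obtain ⟨n, rfl⟩ := Int.le.dest hle
    exact key n x hm

theorem finite_spanK {V : Type} [AddCommGroup V] [Module k V] [Module Q V]
    [IsScalarTower k Q V] {E : ℤ → Submodule k V} (hE : IsLat D.u D.v E) :
    Module.Finite D.K0 (spanK D.K0 E) := by
  obtain ⟨m₁, h⟩ := spanK_le D hE
  have : IsScalarTower k D.K0 V := ⟨fun a x v => by
    change ((a • x : D.K0) : Q) • v = a • ((x : Q) • v)
    rw [← smul_assoc]
    rfl⟩
  have hfin := hE.fin m₁
  obtain ⟨s, hs⟩ := (Module.Finite.iff_fg.1 hfin)
  have h2 : (E m₁ : Set V) ⊆ Submodule.span D.K0 (s : Set V) := by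
    intro x hx
    have : x ∈ Submodule.span k (s : Set V) := by rw [hs]; exact hx
    exact Submodule.span_le_restrictScalars k D.K0 (s : Set V) this
  have h3 : spanK D.K0 E ≤ Submodule.span D.K0 (s : Set V) :=
    h.trans (Submodule.span_le.2 h2)
  have : Module.Finite D.K0 (Submodule.span D.K0 (s : Set V)) :=
    Module.Finite.iff_fg.2 ⟨s, rfl⟩
  exact Submodule.finiteDimensional_of_le h3

/-- `T ⊗ K0 = Q`. -/
theorem spanK_F : spanK D.K0 D.F = ⊤ := by
  have hfin := finite_spanK D (E := D.F) D.lat
  rw [eq_top_iff]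
  intro q _
  obtain ⟨m, f, hf, g, hg, hg0, hq⟩ := D.frac q
  let L : spanK D.K0 D.F →ₗ[D.K0] spanK D.K0 D.F :=
    { toFun := fun x => ⟨g * x.1, mul_mem_span D hg x.2⟩
      map_add' := by intro x y; ext; simp [mul_add]
      map_smul' := by
        intro a x
        ext
        simp only [SetLike.val_smul, RingHom.id_apply, Algebra.smul_def]
        ring }
  have hinj : Function.Injective L := by
    intro x y h
    have h1 : g * x.1 = g * y.1 := congrArg Subtype.val h
    exact Subtype.ext (mul_left_cancel₀ hg0 h1)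
  have hsurj := LinearMap.surjective_of_injective hinj
  have hf' : f ∈ spanK D.K0 D.F := Submodule.subset_span (Set.mem_iUnion.2 ⟨m, hf⟩)
  obtain ⟨x, hx⟩ := hsurj ⟨f, hf'⟩
  have h1 : g * x.1 = f := congrArg Subtype.val hx
  have h2 : q = x.1 := by
    apply mul_left_cancel₀ hg0
    rw [h1, mul_comm, hq]
  rw [h2]
  exact x.2

theorem finite_Q : Module.Finite D.K0 Q := by
  have hfin := finite_spanK D (E := D.F) D.lat
  rw [spanK_F] at hfin
  exact Module.finite_def.2 (Module.Finite.iff_fg.1 hfin)

/-- the `K0`-span of a `T`-lattice is a `Q`-subspace, hence everything. -/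
theorem spanK_G {V : Type} [AddCommGroup V] [Module k V] [Module Q V]
    [IsScalarTower k Q V] {G : ℤ → Submodule k V} (hG : IsTLat D G) :
    spanK D.K0 G = ⊤ := by
  have key : ∀ q : Q, ∀ x ∈ spanK D.K0 G, q • x ∈ spanK D.K0 G := by
    intro q x hx
    have hq : q ∈ spanK D.K0 D.F := by rw [spanK_F]; trivial
    induction hq using Submodule.span_induction with
    | mem f h =>
      obtain ⟨i, hi⟩ := Set.mem_iUnion.1 h
      induction hx using Submodule.span_induction with
      | mem x h =>
        obtain ⟨j, hj⟩ := Set.mem_iUnion.1 h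
        exact Submodule.subset_span (Set.mem_iUnion.2 ⟨i + j, hG.act i j f hi x hj⟩)
      | zero => simp
      | add x y _ _ hx hy =>
        rw [smul_add]
        exact Submodule.add_mem _ hx hy
      | smul a x _ hx =>
        have : f • a • x = a • (f • x) := by
          have h1 : ∀ y : V, a • y = (a : Q) • y := fun y => rfl
          rw [h1, h1, smul_smul, smul_smul, mul_comm]
        rw [this]
        exact Submodule.smul_mem _ _ hx
    | zero => simp
    | add a b _ _ ha hb =>
      rw [add_smul]
      exact Submodule.add_mem _ ha hb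
    | smul a b _ hb =>
      have : (a • b) • x = a • (b • x) := by
        have h1 : ∀ y : V, a • y = (a : Q) • y := fun y => rfl
        rw [h1, Algebra.smul_def, smul_smul]
        rfl
      rw [this]
      exact Submodule.smul_mem _ _ hb
  rw [eq_top_iff]
  intro x _
  have hx : x ∈ spanK Q G := by rw [hG.full]; trivial
  induction hx using Submodule.span_induction with
  | mem x h => exact Submodule.subset_span h
  | zero => exact Submodule.zero_mem _
  | add x y _ _ hx hy => exact Submodule.add_mem _ (hx trivial) (hy trivial)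
  | smul q x _ hx => exact key q x (hx trivial)

theorem rk_F : rk D.K0 D.F = finrank D.K0 Q := by
  unfold rk
  rw [spanK_F, finrank_top]

theorem rk_G {R : ℕ} {G : ℤ → Submodule k (Fin R → Q)} (hG : IsTLat D G) :
    rk D.K0 G = rk D.K0 D.F * R := by
  have hfin := finite_Q D
  unfold rk
  rw [spanK_G D hG, spanK_F, finrank_top, finrank_top, Module.finrank_pi_fintype]
  simp [mul_comm]

end Crest.Agent.R169.Rank
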