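import Crest.Agent.R169.PackR
import Crest.Agent.R169.PackNoeth
import Crest.Agent.R169.DimGrowth

/-! Row 169 (helper506): `ringKrullDim 𝓕.R = 3`. -/

set_option autoImplicit false

noncomputable section

namespace Crest.Agent.R169.PackDimR

open Polynomial Crest.Agent.R169 Crest.Agent.R169.Fil Crest.Agent.R169.DimGrowth

variable {k Q : Type} [Field k] [Field Q] [Algebra k Q]

/-- the monomials `u^i v^j` are linearly independent. -/
lemma linearIndependent_uv {u v : Q} (h : AlgebraicIndependent k ![u, v]) :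
    LinearIndependent k (fun p : ℕ × ℕ => u ^ p.1 * v ^ p.2) := by
  have h1 : LinearIndependent k (fun s : Fin 2 →₀ ℕ => MvPolynomial.monomial (R := k) s 1) := by
    have := (MvPolynomial.basisMonomials (Fin 2) k).linearIndependent
    simpa using this
  have h2 := h1.map' (MvPolynomial.aeval ![u, v] : MvPolynomial (Fin 2) k →ₐ[k] Q).toLinearMap
    (LinearMap.ker_eq_bot.mpr h)
  let e : ℕ × ℕ → (Fin 2 →₀ ℕ) := fun p => Finsupp.equivFunOnFinite.symm ![p.1, p.2]
  have he : Function.Injective e := by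
    intro p q hpq
    have h3 : ![p.1, p.2] = ![q.1, q.2] := Finsupp.equivFunOnFinite.symm.injective hpq
    have h0 := congrFun h3 0
    have h4 := congrFun h3 1
    simp at h0 h4
    exact Prod.ext h0 h4
  have h5 := h2.comp e he
  have h6 : (((MvPolynomial.aeval ![u, v] : MvPolynomial (Fin 2) k →ₐ[k] Q).toLinearMap ∘
      fun s : Fin 2 →₀ ℕ => MvPolynomial.monomial (R := k) s 1) ∘ e) =
      fun p : ℕ × ℕ => u ^ p.1 * v ^ p.2 := by
    funext p
    simp [e, MvPolynomial.aeval_monomial, Finsupp.prod_fintype, Fin.prod_univ_two]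
  rw [← h6]
  exact h5

variable {𝓕 : Fil k Q} {u v : Q}

lemma F_mono (h : FilUV 𝓕 u v) {m n : ℕ} (hmn : m ≤ n) : 𝓕.F m ≤ 𝓕.F n := by
  obtain ⟨d, rfl⟩ := Nat.exists_eq_add_of_le hmn
  intro q hq
  have h1 : (1 : Q) ∈ 𝓕.F d := by
    have := 𝓕.pow_mem h.one_mem d
    simpa using this
  simpa using 𝓕.mul_mem hq h1

lemma uv_mem (h : FilUV 𝓕 u v) {i j m : ℕ} (hm : i + j ≤ m) : u ^ i * v ^ j ∈ 𝓕.F m := by
  have h1 := 𝓕.pow_mem h.u_mem i
  have h2 := 𝓕.pow_mem h.v_mem j
  have h3 := 𝓕.mul_mem h1 h2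
  rw [mul_one, mul_one] at h3
  exact F_mono h hm h3

/-- the truncation map to coefficients. -/
def trunc (𝓕 : Fil k Q) (n : ℕ) : 𝓕.R →ₗ[k] (Fin n → Q) where
  toFun f i := 𝓕.co f i
  map_add' f g := by ext i; simp
  map_smul' c f := by
    ext i
    simp only [co, RingHom.id_apply, Pi.smul_apply]
    rfl

lemma trunc_eq_zero {n : ℕ} {f : 𝓕.R} (hf : f ∈ 𝓕.ordIdeal n) : trunc 𝓕 n f = 0 := by
  ext i
  exact hf i i.2

/-- growth: finitely many elements of `R` (few compared with `n²`) do not span the monomials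
modulo order `n`. -/
lemma growth (h : FilUV 𝓕 u v) (C : ℕ) : ∃ n : ℕ, ∀ B : Finset 𝓕.R, B.card ≤ C * n ^ 2 →
    ∃ (i j m : ℕ) (hij : i + j ≤ m), 𝓕.hom m ⟨u ^ i * v ^ j, uv_mem h hij⟩ ∉
      Submodule.span k (B : Set 𝓕.R) ⊔ (𝓕.ordIdeal n).restrictScalars k := by
  classical
  set N : ℕ := 9 * C + 1 with hN
  refine ⟨3 * N, fun B hB => ?_⟩
  by_contra hcon
  push Not at hcon
  -- the independent family
  let y : Fin N × (Fin N × Fin N) → (Fin (3 * N) → Q) := fun p =>
    Pi.single (⟨2 * N + p.1, by omega⟩ : Fin (3 * N)) (u ^ (p.2.1 : ℕ) * v ^ (p.2.2 : ℕ))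
  have hyind : LinearIndependent k y := by
    have h0 := linearIndependent_uv h.indep
    have h1 : LinearIndependent k (fun q : Fin N × Fin N => u ^ (q.1 : ℕ) * v ^ (q.2 : ℕ)) :=
      h0.comp (fun q : Fin N × Fin N => ((q.1 : ℕ), (q.2 : ℕ))) (by
        intro a b hab
        simp only [Prod.mk.injEq] at hab
        exact Prod.ext (Fin.ext hab.1) (Fin.ext hab.2))
    rw [Fintype.linearIndependent_iff]
    intro g hg p
    have h2 := congrFun hg ⟨2 * N + p.1, by omega⟩
    rw [Finset.sum_apply, Pi.zero_apply] at h2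
    have h3 : ∑ q : Fin N × Fin N, g (p.1, q) • (u ^ (q.1 : ℕ) * v ^ (q.2 : ℕ)) = 0 := by
      rw [Fintype.sum_prod_type] at h2
      rw [Finset.sum_eq_single p.1] at h2
      · rw [← h2]
        refine Finset.sum_congr rfl fun q _ => ?_
        simp [y]
      · intro l _ hl
        refine Finset.sum_eq_zero fun q _ => ?_
        have hne : (⟨2 * N + p.1, by omega⟩ : Fin (3 * N)) ≠ ⟨2 * N + l, by omega⟩ := by
          intro h4
          apply hl
          rw [Fin.mk.injEq] at h4
          ext; omega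
        have : y (l, q) ⟨2 * N + p.1, by omega⟩ = 0 := Pi.single_eq_of_ne hne _
        rw [Pi.smul_apply, this, smul_zero]
      · intro h4; exact absurd (Finset.mem_univ _) h4
    exact Fintype.linearIndependent_iff.mp h1 (fun q => g (p.1, q)) h3 p.2
  have hyspan : Set.range y ≤ Submodule.span k ((B.image (trunc 𝓕 (3 * N)) : Finset _) :
      Set (Fin (3 * N) → Q)) := by
    rintro _ ⟨p, rfl⟩
    have h1 := hcon p.2.1 p.2.2 (2 * N + p.1) (by omega)
    obtain ⟨w, hw, z, hz, hwz⟩ := Submodule.mem_sup.mp h1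
    have h2 : y p = trunc 𝓕 (3 * N) w := by
      have h3 := congrArg (trunc 𝓕 (3 * N)) hwz
      rw [map_add, trunc_eq_zero hz, add_zero] at h3
      rw [h3]
      ext l
      simp only [y, trunc, LinearMap.coe_mk, AddHom.coe_mk, co_hom, Pi.single_apply]
      by_cases hl : l = ⟨2 * N + p.1, by omega⟩
      · subst hl; simp
      · rw [if_neg hl, if_neg]
        intro h4
        apply hl
        ext
        exact h4
    rw [h2]
    have h4 : Submodule.span k (B : Set 𝓕.R) ≤ (Submodule.span k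
        ((B.image (trunc 𝓕 (3 * N)) : Finset _) : Set (Fin (3 * N) → Q))).comap
        (trunc 𝓕 (3 * N)) := by
      rw [Submodule.span_le]
      intro b hb
      refine Submodule.subset_span ?_
      rw [Finset.coe_image]
      exact ⟨b, hb, rfl⟩
    exact h4 hw
  have hcard := linearIndependent_le_span_aux' y hyind _ hyspan
  have hc2 : (B.image (trunc 𝓕 (3 * N))).card ≤ B.card := Finset.card_image_le
  simp only [Fintype.card_prod, Fintype.card_fin, Finset.coe_sort_coe, Fintype.card_coe] at hcard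
  have hfin : N * (N * N) ≤ C * (3 * N) ^ 2 := hcard.trans (hc2.trans hB)
  have hNpos : 0 < N := by omega
  have h6 : N * (N * N) ≤ (9 * C) * (N * N) := by nlinarith
  have h7 : N ≤ 9 * C := Nat.le_of_mul_le_mul_right h6 (by positivity)
  omega

lemma exists_finset_ord (h : FilUV 𝓕 u v) (n : ℕ) : ∃ W : Finset 𝓕.R,
    (⊤ : Submodule k 𝓕.R) ≤ Submodule.span k (W : Set 𝓕.R) ⊔
      (𝓕.ordIdeal n).restrictScalars k := by
  classical
  induction n with
  | zero =>
    refine ⟨∅, fun f _ => Submodule.mem_sup_right ?_⟩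
    intro m hm
    omega
  | succ n ih =>
    obtain ⟨W, hW⟩ := ih
    have := h.finite n
    obtain ⟨s, hs⟩ := Module.Finite.fg_top (R := k) (M := 𝓕.F n)
    let L : 𝓕.F n →ₗ[k] 𝓕.R :=
      { toFun := fun q => 𝓕.hom n q
        map_add' := fun a b => by
          refine 𝓕.R_ext fun m => ?_
          rw [co_add, co_hom, co_hom, co_hom]
          split_ifs <;> simp
        map_smul' := fun c a => by
          refine 𝓕.R_ext fun m => ?_
          have : 𝓕.co (c • 𝓕.hom n a) m = c • 𝓕.co (𝓕.hom n a) m := rfl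
          rw [RingHom.id_apply, this, co_hom, co_hom]
          split_ifs <;> simp }
    refine ⟨W ∪ s.image L, hW.trans (sup_le ?_ ?_)⟩
    · refine le_trans (Submodule.span_mono ?_) le_sup_left
      simp
    · intro f hf
      have h1 : L ⟨𝓕.co f n, 𝓕.co_mem f n⟩ ∈ Submodule.span k (s.image L : Set 𝓕.R) := by
        rw [Finset.coe_image, Submodule.span_image, hs]
        exact ⟨_, trivial, rfl⟩
      have h2 : f - L ⟨𝓕.co f n, 𝓕.co_mem f n⟩ ∈ 𝓕.ordIdeal (n + 1) := by
        intro m hm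
        have : 𝓕.co (L ⟨𝓕.co f n, 𝓕.co_mem f n⟩) m = if m = n then 𝓕.co f n else 0 :=
          𝓕.co_hom n _ m
        rw [co_sub, this]
        split_ifs with hmn
        · subst hmn; simp
        · rw [sub_zero]; exact hf m (by omega)
      rw [← add_sub_cancel (L ⟨𝓕.co f n, 𝓕.co_mem f n⟩) f]
      refine Submodule.add_mem _ (Submodule.mem_sup_left ?_) (Submodule.mem_sup_right h2)
      refine Submodule.span_mono ?_ h1
      simp

theorem ringKrullDim_R (h : FilUV 𝓕 u v) : ringKrullDim 𝓕.R = 3 := by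
  classical
  have := isNoetherianRing_R h
  apply le_antisymm
  · rw [← IsLocalRing.maximalIdeal_height_eq_ringKrullDim (R := 𝓕.R)]
    have hmin : IsLocalRing.maximalIdeal 𝓕.R ∈ (xyzR h).minimalPrimes := by
      refine ⟨⟨(IsLocalRing.maximalIdeal.isMaximal _).isPrime, xyzR_le h⟩, ?_⟩
      rintro q ⟨hq, hIq⟩ -
      obtain ⟨c, hc⟩ := exists_ordIdeal_le h
      have h1 : IsLocalRing.maximalIdeal 𝓕.R ^ (c + 1) ≤ q := by
        refine le_trans ?_ hIq
        rw [maximalIdeal_eq]
        exact (𝓕.pow_ordIdeal_le (c + 1)).trans ((hc 1).trans (by rw [pow_one]))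
      exact Ideal.IsPrime.le_of_pow_le h1
    have h1 := Ideal.height_le_card_of_mem_minimalPrimes_span (Set.toFinite _) hmin
    have h2 : ({𝓕.hom 1 ⟨1, h.one_mem⟩, 𝓕.hom 1 ⟨u, h.u_mem⟩, 𝓕.hom 1 ⟨v, h.v_mem⟩} :
        Set 𝓕.R).ncard ≤ 3 := by
      refine (Set.ncard_insert_le _ _).trans ?_
      refine Nat.succ_le_succ ((Set.ncard_insert_le _ _).trans ?_)
      rw [Set.ncard_singleton]
    have h3 : (IsLocalRing.maximalIdeal 𝓕.R).height ≤ (3 : ℕ∞) :=
      h1.trans (by exact_mod_cast h2)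
    exact WithBot.coe_le_coe.mpr h3
  · refine three_le_ringKrullDim (k := k) (fun n => (𝓕.ordIdeal n).restrictScalars k) ?_ ?_ ?_
    · intro n f hf
      have : f ∈ IsLocalRing.maximalIdeal 𝓕.R ^ n := hf
      rw [maximalIdeal_eq] at this
      exact 𝓕.pow_ordIdeal_le n this
    · intro K
      obtain ⟨c, hc⟩ := exists_ordIdeal_le_pow h
      obtain ⟨W, hW⟩ := exists_finset_ord h (c + K)
      exact ⟨W, hW.trans (sup_le_sup_left (fun f hf => hc K hf) _)⟩
    · intro C
      obtain ⟨n, hn⟩ := growth h C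
      refine ⟨n, fun B hB hle => ?_⟩
      obtain ⟨i, j, m, hij, hnot⟩ := hn B hB
      exact hnot (hle trivial)

end Crest.Agent.R169.PackDimR
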