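import Crest.Agent.R169.PackR

/-! Row 169 (helper506): the complete ring `𝓕.R` is integrally closed. -/

set_option autoImplicit false

noncomputable section

namespace Crest.Agent.R169.PackNormal

open PowerSeries Crest.Agent.R169

variable {k Q : Type} [Field k] [Field Q] [Algebra k Q]

variable (𝓕 : Fil k Q)

/-- a power series almost integral over `R` lies in `R`. -/
theorem mem_R_of_almost (hN : FilNormal 𝓕) (s : 𝓕.R) (hs : s ≠ 0) (f : PowerSeries Q)
    (hf : ∀ n : ℕ, (s : PowerSeries Q) * f ^ n ∈ 𝓕.R) : f ∈ 𝓕.R := by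
  classical
  intro m
  induction m using Nat.strong_induction_on with
  | _ m ih =>
    let f' : 𝓕.R := 𝓕.mkR (fun j => ⟨if j < m then coeff j f else 0, by
      split_ifs with h
      · exact ih j h
      · exact Submodule.zero_mem _⟩)
    have hf'c : ∀ j, coeff j (f' : PowerSeries Q) = if j < m then coeff j f else 0 := fun j =>
      𝓕.co_mkR _ j
    let g : PowerSeries Q := f - f'
    have hg : ∀ n : ℕ, (s : PowerSeries Q) * g ^ n ∈ 𝓕.R := by
      intro n
      have : g ^ n = ∑ i ∈ Finset.range (n + 1), f ^ i * ((-f' : 𝓕.R) : PowerSeries Q) ^ (n - i) *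
          (n.choose i : PowerSeries Q) := by
        have e : ((-f' : 𝓕.R) : PowerSeries Q) = -(f' : PowerSeries Q) := rfl
        rw [← add_pow, e, ← sub_eq_add_neg]
      rw [this, Finset.mul_sum]
      refine Subalgebra.sum_mem _ fun i _ => ?_
      rw [← mul_assoc, ← mul_assoc]
      refine Subalgebra.mul_mem _ (Subalgebra.mul_mem _ (hf i) (Subalgebra.pow_mem _ (-f').2 _)) ?_
      exact natCast_mem _ _
    have hgm : ∀ j < m, coeff j g = 0 := by
      intro j hj
      simp only [g, map_sub]
      rw [hf'c, if_pos hj, sub_self]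
    have hgm' : coeff m g = coeff m f := by
      simp only [g, map_sub]
      rw [hf'c, if_neg (lt_irrefl m), sub_zero]
    -- the lowest coefficient of s
    have hs' : (s : PowerSeries Q) ≠ 0 := fun h => hs (Subtype.ext h)
    obtain ⟨a, ha, ha'⟩ : ∃ a, coeff a (s : PowerSeries Q) ≠ 0 ∧
        ∀ j < a, coeff j (s : PowerSeries Q) = 0 := by
      have hex : ∃ a, coeff a (s : PowerSeries Q) ≠ 0 := by
        by_contra h
        push Not at h
        exact hs' (by ext j; simpa using h j)
      exact ⟨Nat.find hex, Nat.find_spec hex, fun j hj => by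
        by_contra h
        exact Nat.find_min hex hj h⟩
    obtain ⟨s1, hs1⟩ := PowerSeries.X_pow_dvd_iff.mpr ha'
    obtain ⟨g1, hg1⟩ := PowerSeries.X_pow_dvd_iff.mpr hgm
    have e1 : constantCoeff s1 = coeff a (s : PowerSeries Q) := by
      rw [hs1, PowerSeries.coeff_X_pow_mul', if_pos le_rfl, Nat.sub_self,
        coeff_zero_eq_constantCoeff_apply]
    have e2 : constantCoeff g1 = coeff m f := by
      rw [← hgm', hg1, PowerSeries.coeff_X_pow_mul', if_pos le_rfl, Nat.sub_self,
        coeff_zero_eq_constantCoeff_apply]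
    refine hN (coeff m f) m a (coeff a (s : PowerSeries Q)) ha (𝓕.co_mem s a) fun n => ?_
    have h1 := hg n (a + n * m)
    have h2 : (s : PowerSeries Q) * g ^ n = X ^ (a + n * m) * (s1 * g1 ^ n) := by
      rw [hs1, hg1, mul_pow, ← pow_mul]
      ring
    rw [h2, PowerSeries.coeff_X_pow_mul', if_pos le_rfl, Nat.sub_self,
        coeff_zero_eq_constantCoeff_apply, map_mul, map_pow, e1, e2] at h1
    exact h1

theorem isIntegrallyClosed_R (hN : FilNormal 𝓕) : IsIntegrallyClosed 𝓕.R := by
  rw [isIntegrallyClosed_iff (FractionRing 𝓕.R)]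
  intro x hx
  let L := FractionRing (PowerSeries Q)
  let φ : 𝓕.R →+* PowerSeries Q := 𝓕.R.subtype
  have hφ : Function.Injective φ := Subtype.val_injective
  have hφL : Function.Injective ((algebraMap (PowerSeries Q) L).comp φ) :=
    (IsFractionRing.injective (PowerSeries Q) L).comp hφ
  let ψ : FractionRing 𝓕.R →+* L := IsFractionRing.lift hφL
  have hψ : ∀ y : 𝓕.R, ψ (algebraMap 𝓕.R _ y) = algebraMap (PowerSeries Q) L (φ y) := by
    intro y
    exact IsFractionRing.lift_algebraMap hφL y
  have hxL : IsIntegral (PowerSeries Q) (ψ x) := by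
    obtain ⟨p, hp, hpx⟩ := hx
    refine ⟨p.map φ, hp.map φ, ?_⟩
    rw [Polynomial.eval₂_map]
    have : (algebraMap (PowerSeries Q) L).comp φ = ψ.comp (algebraMap 𝓕.R (FractionRing 𝓕.R)) := by
      ext y; exact (hψ y).symm
    rw [this, ← Polynomial.hom_eval₂, hpx, map_zero]
  obtain ⟨f, hf⟩ := IsIntegrallyClosed.algebraMap_eq_of_integral hxL
  obtain ⟨r, hr, hrn⟩ := hx.isAlmostIntegral
  have hmem : f ∈ 𝓕.R := by
    refine mem_R_of_almost 𝓕 hN r (nonZeroDivisors.ne_zero hr) f fun n => ?_
    obtain ⟨y, hy⟩ := hrn n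
    have h1 := congrArg ψ hy
    rw [hψ, Algebra.smul_def, map_mul, hψ, map_pow, ← hf, ← map_pow, ← map_mul] at h1
    have h2 := IsFractionRing.injective (PowerSeries Q) L h1
    have h3 : (r : PowerSeries Q) * f ^ n = φ y := h2.symm
    rw [h3]
    exact y.2
  refine ⟨⟨f, hmem⟩, ?_⟩
  apply ψ.injective
  rw [hψ, ← hf]
  rfl

end Crest.Agent.R169.PackNormal
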