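import Crest.Agent.R169.Iface
import Crest.Agent.R169.PackR
import Crest.Agent.R169.PackNoeth
import Crest.Agent.R169.PackNormal
import Crest.Agent.R169.PackDimR
import Crest.Agent.R169.PackMod

/-! Row 169 (helper506): packaging of S0256 (the complete local ring). -/

set_option autoImplicit false

noncomputable section

namespace Crest.Agent.R169.Pack256

open Crest.Agent.R169 Crest.Agent.R169.Fil

variable {k Q : Type} [Field k] [Field Q] [Algebra k Q]

/-- the filtration of a datum satisfies the `FilUV` hypotheses -/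
theorem filUV (D : TData k Q) : FilUV D.toFil D.u D.v where
  one_mem := D.one_mem
  u_mem := D.u_mem
  v_mem := D.v_mem
  finite := fun m => D.lat.fin m
  gen := by
    obtain ⟨m₁, h⟩ := D.lat.gen
    refine ⟨m₁.toNat, fun m hm q hq => ?_⟩
    have hm' : (m : ℤ) ≥ m₁ := by omega
    have hq' : q ∈ D.F ((m : ℤ) + 1) := by
      have : ((m + 1 : ℕ) : ℤ) = (m : ℤ) + 1 := by push_cast; ring
      rw [← this]
      exact hq
    obtain ⟨a, ha, b, hb, c, hc, e⟩ := h m hm' q hq'
    exact ⟨a, ha, b, hb, c, hc, e⟩
  indep := D.indep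

/-- S0256 from the module statement over the complete ring. -/
theorem pack256_of (e : ℂ ≃+* k) (D : TData k Q) (hN : FilNormal D.toFil)
    (hglue : ∀ (M : Type) [AddCommGroup M] [Module D.toFil.R M], Module.Finite D.toFil.R M →
      Nontrivial M → ∀ rs : List D.toFil.R, rs.length = 3 →
        (∀ r ∈ rs, r ∈ IsLocalRing.maximalIdeal D.toFil.R) →
          ¬ RingTheory.Sequence.IsRegular M rs) :
    ∃ (R : Type) (_ : CommRing R) (_ : IsLocalRing R) (_ : Algebra ℂ R),
      IsDomain R ∧ IsNoetherianRing R ∧ IsIntegrallyClosed R ∧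
      IsAdicComplete (IsLocalRing.maximalIdeal R) R ∧ ringKrullDim R = 3 ∧
      Function.Bijective (algebraMap ℂ (IsLocalRing.ResidueField R)) ∧
      ∀ (M : Type) [AddCommGroup M] [Module R M], Module.Finite R M → Nontrivial M →
        ∀ rs : List R, rs.length = 3 → (∀ r ∈ rs, r ∈ IsLocalRing.maximalIdeal R) →
          ¬ RingTheory.Sequence.IsRegular M rs := by
  have h := filUV D
  let algC : Algebra ℂ D.toFil.R :=
    ((algebraMap k D.toFil.R).comp (e : ℂ →+* k)).toAlgebra
  refine ⟨D.toFil.R, inferInstance, inferInstance, algC, inferInstance, isNoetherianRing_R h,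
    PackNormal.isIntegrallyClosed_R D.toFil hN, isAdicComplete_R h, PackDimR.ringKrullDim_R h, ?_,
    fun M _ _ => hglue M⟩
  have h1 : (algebraMap ℂ (IsLocalRing.ResidueField D.toFil.R) : ℂ → _) =
      (algebraMap k (IsLocalRing.ResidueField D.toFil.R)) ∘ e := by
    funext c
    rfl
  rw [h1]
  exact D.toFil.bijective_algebraMap_residue.comp e.bijective

/-- packaging of S0256 -/
theorem pack256 (e : ℂ ≃+* k) (D : TData k Q) (hN : FilNormal D.toFil) (hno : NoMCM D) :
    ∃ (R : Type) (_ : CommRing R) (_ : IsLocalRing R) (_ : Algebra ℂ R),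
      IsDomain R ∧ IsNoetherianRing R ∧ IsIntegrallyClosed R ∧
      IsAdicComplete (IsLocalRing.maximalIdeal R) R ∧ ringKrullDim R = 3 ∧
      Function.Bijective (algebraMap ℂ (IsLocalRing.ResidueField R)) ∧
      ∀ (M : Type) [AddCommGroup M] [Module R M], Module.Finite R M → Nontrivial M →
        ∀ rs : List R, rs.length = 3 → (∀ r ∈ rs, r ∈ IsLocalRing.maximalIdeal R) →
          ¬ RingTheory.Sequence.IsRegular M rs :=
  pack256_of e D hN (glueR D hno)

end Crest.Agent.R169.Pack256
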