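import Crest.Agent.R169.OnOverO1

/-!
# Row 169: invariants of `μ_n^5` on `O n k` (helper239)

`rot ζ : z_j ↦ ζ_j z_j`.  An element of `O n k` fixed by all `rot ζ` comes from `O 1 k`; norms from
`O n k` come from `O 1 k`.
-/

set_option autoImplicit false

open Crest.R169

namespace Crest.Agent.R169.SymInv

open OnOverO1

section

variable (n : ℕ) (k : Type*) [Field k]

/-- `μ_n^5` -/
abbrev Mu : Type _ := Fin 5 → rootsOfUnity n k

variable {n k}

theorem coe_pow_eq_one (ζ : Mu n k) (j : Fin 5) : (((ζ j : kˣ) : k)) ^ n = 1 := by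
  have h := (ζ j).2
  rw [mem_rootsOfUnity] at h
  rw [← Units.val_pow_eq_pow_val, h, Units.val_one]

/-- `z_j ↦ ζ_j z_j` -/
noncomputable def rot (ζ : Mu n k) : ORing n k →ₐ[k] ORing n k :=
  ORing.lift (fun j => ((ζ j : kˣ) : k) • z n k j) (fun j => by
    rw [smul_pow, smul_pow, smul_pow, coe_pow_eq_one, coe_pow_eq_one, coe_pow_eq_one, one_smul,
      one_smul, one_smul]
    exact z_rel n k j)

@[simp] theorem rot_z (ζ : Mu n k) (j : Fin 5) : rot ζ (z n k j) = ((ζ j : kˣ) : k) • z n k j := by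
  unfold rot
  rw [ORing.lift_z]

theorem rot_rot (ζ ξ : Mu n k) (x : ORing n k) : rot ζ (rot ξ x) = rot (ζ * ξ) x := by
  have h : (rot ζ).comp (rot ξ) = rot (ζ * ξ) := by
    apply ORing.algHom_ext
    intro j
    rw [AlgHom.comp_apply, rot_z, map_smul, rot_z, rot_z, smul_smul]
    congr 1
    rw [Pi.mul_apply, Subgroup.coe_mul, Units.val_mul, mul_comm]
  exact DFunLike.congr_fun h x

theorem rot_zm (ζ : Mu n k) (γ : Fin 5 → ℕ) :
    rot ζ (zm n k γ) = (∏ j, ((ζ j : kˣ) : k) ^ γ j) • zm n k γ := by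
  unfold zm
  rw [map_prod]
  simp only [map_pow, rot_z, smul_pow]
  rw [Finset.prod_smul]

variable [Fintype (rootsOfUnity n k)]

theorem sum_pow_eq_zero [NeZero n] {ζ₀ : k} (hζ₀ : IsPrimitiveRoot ζ₀ n) {a : ℕ} (ha : ¬ n ∣ a) :
    ∑ ξ : rootsOfUnity n k, ((ξ : kˣ) : k) ^ a = 0 := by
  have hu : IsUnit ζ₀ := hζ₀.isUnit (NeZero.ne n)
  obtain ⟨u, hu⟩ := hu
  have hun : u ∈ rootsOfUnity n k := by
    rw [mem_rootsOfUnity]
    ext
    rw [Units.val_pow_eq_pow_val, hu, hζ₀.pow_eq_one, Units.val_one]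
  have h1 : ∑ ξ : rootsOfUnity n k, ((ξ : kˣ) : k) ^ a
      = ζ₀ ^ a * ∑ ξ : rootsOfUnity n k, ((ξ : kˣ) : k) ^ a := by
    rw [Finset.mul_sum]
    symm
    refine Fintype.sum_equiv (Equiv.mulLeft (⟨u, hun⟩ : rootsOfUnity n k)) _ _ ?_
    intro ξ
    rw [Equiv.coe_mulLeft, Subgroup.coe_mul, Units.val_mul, mul_pow, hu]
  have h2 : ζ₀ ^ a ≠ 1 := by
    rw [Ne, hζ₀.pow_eq_one_iff_dvd]
    exact ha
  have h3 : (ζ₀ ^ a - 1) * ∑ ξ : rootsOfUnity n k, ((ξ : kˣ) : k) ^ a = 0 := by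
    rw [sub_mul, one_mul, ← h1, sub_self]
  exact (mul_eq_zero.mp h3).resolve_left (sub_ne_zero.mpr h2)

theorem sum_rot_mem [NeZero n] {ζ₀ : k} (hζ₀ : IsPrimitiveRoot ζ₀ n) (x : ORing n k) :
    ∑ ζ : Mu n k, rot ζ x ∈ (incl n k).range := by
  have hx : x ∈ Submodule.span k (Set.range (zm n k)) := by
    rw [span_zm]; exact Submodule.mem_top
  induction hx using Submodule.span_induction with
  | mem x hx =>
    obtain ⟨γ, rfl⟩ := hx
    simp only [rot_zm]
    rw [← Finset.sum_smul]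
    have hprod : ∑ ζ : Mu n k, ∏ j, ((ζ j : kˣ) : k) ^ γ j
        = ∏ j, ∑ ξ : rootsOfUnity n k, ((ξ : kˣ) : k) ^ γ j := by
      rw [Finset.prod_univ_sum]
      rw [Fintype.piFinset_univ]
    rw [hprod]
    by_cases hall : ∀ j, n ∣ γ j
    · refine Subalgebra.smul_mem _ ?_ _
      refine ⟨zm 1 k (fun j => γ j / n), ?_⟩
      show incl n k (zm 1 k (fun j => γ j / n)) = _
      unfold zm
      rw [map_prod]
      refine Finset.prod_congr rfl fun j _ => ?_
      rw [map_pow, incl_z, ← pow_mul, Nat.mul_div_cancel' (hall j)]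
    · push Not at hall
      obtain ⟨j, hj⟩ := hall
      rw [Finset.prod_eq_zero (Finset.mem_univ j) (sum_pow_eq_zero hζ₀ hj), zero_smul]
      exact Subalgebra.zero_mem _
  | zero => simp only [map_zero, Finset.sum_const_zero]; exact Subalgebra.zero_mem _
  | add x y _ _ hx hy =>
    simp only [map_add, Finset.sum_add_distrib]
    exact Subalgebra.add_mem _ hx hy
  | smul c x _ hx =>
    simp only [map_smul, ← Finset.smul_sum]
    exact Subalgebra.smul_mem _ hx _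

/-- invariants of `μ_n^5` -/
theorem mem_range_of_fixed [NeZero (n : k)] {ζ₀ : k} (hζ₀ : IsPrimitiveRoot ζ₀ n)
    (x : ORing n k) (hx : ∀ ζ : Mu n k, rot ζ x = x) : x ∈ (incl n k).range := by
  have : NeZero n := NeZero.of_neZero_natCast k
  have h := sum_rot_mem hζ₀ x
  simp only [hx] at h
  rw [Finset.sum_const, Finset.card_univ, Fintype.card_fun, Fintype.card_fin] at h
  have hcard : Fintype.card (rootsOfUnity n k) = n := by
    rw [← Nat.card_eq_fintype_card]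
    exact hζ₀.card_rootsOfUnity
  rw [hcard] at h
  have h2 : ((n : k) ^ 5)⁻¹ • ((n ^ 5) • x) = x := by
    rw [← Nat.cast_smul_eq_nsmul k (n ^ 5) x, smul_smul]
    have : ((n : k) ^ 5)⁻¹ * ((n ^ 5 : ℕ) : k) = 1 := by
      push_cast
      exact inv_mul_cancel₀ (pow_ne_zero _ (NeZero.ne (n : k)))
    rw [this, one_smul]
  rw [← h2]
  exact Subalgebra.smul_mem _ h _

/-- norms come from `O 1 k` -/
theorem norm_mem_range [NeZero (n : k)] {ζ₀ : k} (hζ₀ : IsPrimitiveRoot ζ₀ n) (x : ORing n k) :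
    ∏ ζ : Mu n k, rot ζ x ∈ (incl n k).range := by
  apply mem_range_of_fixed hζ₀
  intro ξ
  rw [map_prod]
  refine Fintype.prod_equiv (Equiv.mulLeft ξ) _ _ ?_
  intro ζ
  rw [rot_rot, Equiv.coe_mulLeft]

end

end Crest.Agent.R169.SymInv
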