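import Crest.Agent.R169.SymGcd0
import Crest.Agent.R169.SymInv
import Crest.Agent.R169.Ring

/-!
# Row 169: field `gcd` of `Symm (D7 k) S` (helper239), final form
-/

set_option autoImplicit false

open Crest.R169

namespace Crest.Agent.R169.SymGcd

open Crest.Agent.R169.SymmAlg Crest.Agent.R169.SymInv OnOverO1

variable {n : ℕ} {k : Type} [Field k]

theorem map_rot (σ : Mu n k → (QField n k ≃ₐ[k] QField n k))
    (hσ : ∀ ζ j, σ ζ (algebraMap (ORing n k) (QField n k) (z n k j))
      = ((ζ j : kˣ) : k) • algebraMap (ORing n k) (QField n k) (z n k j))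
    (ζ : Mu n k) (x : ORing n k) :
    σ ζ (algebraMap (ORing n k) (QField n k) x) = algebraMap (ORing n k) (QField n k) (rot ζ x) := by
  have h : ((σ ζ : QField n k →ₐ[k] QField n k).comp
      (IsScalarTower.toAlgHom k (ORing n k) (QField n k)))
      = (IsScalarTower.toAlgHom k (ORing n k) (QField n k)).comp (rot ζ) := by
    apply ORing.algHom_ext
    intro j
    simp only [AlgHom.comp_apply, IsScalarTower.coe_toAlgHom', rot_z]
    rw [Algebra.smul_def, map_mul, ← IsScalarTower.algebraMap_apply, ← Algebra.smul_def]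
    exact hσ ζ j
  exact DFunLike.congr_fun h x

/-- The field `gcd` of `Symm`, for `D` with `D.F m = FilQ n k m` and places with the property that
the places with `c P = 0` come from homogeneous height one primes of `D.Ttot`. -/
theorem gcd_field [IsDomain (ORing n k)] [IsDomain (ORing 1 k)]
    [UniqueFactorizationMonoid (ORing 1 k)] [NeZero (n : k)] [Fintype (rootsOfUnity n k)] {ζ₀ : k}
    (hζ₀ : IsPrimitiveRoot ζ₀ n) (D : TData k (QField n k)) (hDF : ∀ m : ℤ, D.F m = FilQ n k m)
    {ι : Type} (S : Places D ι)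
    (hpl : ∀ P, S.c P = 0 → ∃ 𝔓 : Ideal D.Ttot, MinNZ 𝔓 ∧
      (∀ t ∈ 𝔓, ∀ m : ℕ, D.mono m ((t : Polynomial (QField n k)).coeff m) (t.2 m) ∈ 𝔓) ∧
      ∀ (m : ℕ) (f : QField n k) (hf : f ∈ D.F m), f ≠ 0 →
        (D.mono m f hf ∈ 𝔓 ↔ 0 < (S.pl P).ord f))
    (σ : Mu n k → (QField n k ≃ₐ[k] QField n k))
    (hσ : ∀ ζ j, σ ζ (algebraMap (ORing n k) (QField n k) (z n k j))
      = ((ζ j : kˣ) : k) • algebraMap (ORing n k) (QField n k) (z n k j))
    (x y : QField n k) (hx : x ≠ 0) (hy : y ≠ 0) :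
    ∃ g : QField n k, g ≠ 0 ∧ ∀ P, S.c P = 0 →
      (S.pl P).ord g = min ((S.pl P).ord (∏ ζ : Mu n k, σ ζ x))
        ((S.pl P).ord (∏ ζ : Mu n k, σ ζ y)) := by
  classical
  have hn : 0 < n := by
    have : NeZero n := NeZero.of_neZero_natCast k
    exact Nat.pos_of_ne_zero (NeZero.ne n)
  let _ : Algebra (ORing 1 k) (ORing n k) := algO n k
  have : IsScalarTower (ORing 1 k) (ORing n k) (QField n k) := inferInstance
  have hinj : Function.Injective (algebraMap (ORing 1 k) (ORing n k)) := incl_injective hn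
  have : FaithfulSMul (ORing 1 k) (ORing n k) := (faithfulSMul_iff_algebraMap_injective _ _).mpr hinj
  have : Algebra.IsIntegral (ORing 1 k) (ORing n k) := by
    have hfin : Module.Finite (ORing 1 k) (ORing n k) := by
      refine ⟨⟨(Set.finite_range (Kummer.zmon (z n k) : (Fin 5 → Fin n) → ORing n k)).toFinset, ?_⟩⟩
      rw [Set.Finite.coe_toFinset]
      exact span_zmon n k hn
    infer_instance
  have : Algebra.HasGoingDown (ORing 1 k) (ORing n k) := inferInstance
  let N : QField n k →* QField n k :=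
    { toFun := fun x => ∏ ζ : Mu n k, σ ζ x
      map_one' := by simp
      map_mul' := by
        intro a b
        simp only [map_mul, Finset.prod_mul_distrib] }
  have hN0 : ∀ x : QField n k, x ≠ 0 → N x ≠ 0 := by
    intro x hx
    refine Finset.prod_ne_zero_iff.mpr fun ζ _ => ?_
    rwa [Ne, map_eq_zero_iff _ (σ ζ).injective]
  have hN : ∀ a : ORing n k, a ≠ 0 → ∃ α : ORing 1 k,
      algebraMap (ORing 1 k) (QField n k) α = N (algebraMap (ORing n k) (QField n k) a) := by
    intro a _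
    obtain ⟨α, hα⟩ := norm_mem_range hζ₀ a
    refine ⟨α, ?_⟩
    rw [IsScalarTower.algebraMap_apply (ORing 1 k) (ORing n k) (QField n k)]
    show algebraMap (ORing n k) (QField n k) (incl n k α)
      = ∏ ζ : Mu n k, σ ζ (algebraMap (ORing n k) (QField n k) a)
    have hα' : incl n k α = ∏ ζ : Mu n k, rot ζ a := hα
    rw [hα', map_prod]
    refine Finset.prod_congr rfl fun ζ _ => ?_
    rw [map_rot σ hσ]
  obtain ⟨g, hg0, hg⟩ := gcd_abs (A := ORing 1 k) (O := ORing n k) (Q := QField n k) hinj N hN0 hN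
    x y hx hy
  refine ⟨g, hg0, fun P hP => hg (S.pl P) ?_⟩
  obtain ⟨𝔓, h𝔓, hhom, hmem⟩ := hpl P hP
  refine affine_prime D (IsFractionRing.injective (ORing n k) (QField n k)) ?_ ?_ (S.pl P) ?_ 𝔓 h𝔓
    hhom hmem
  · intro a
    obtain ⟨m, hm⟩ := exists_mem_Fil a
    refine ⟨m, ?_⟩
    rw [hDF]
    exact ⟨a, hm, rfl⟩
  · intro m f hf
    rw [hDF] at hf
    obtain ⟨a, _, rfl⟩ := hf
    exact ⟨a, rfl⟩
  · intro m f hf hf0
    rcases (S.memF m f).mp hf with h | h
    · exact absurd h hf0
    · have := h P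
      rw [hP] at this
      simpa using this

end Crest.Agent.R169.SymGcd
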