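import Crest.Agent.R169.Ring
import Crest.Agent.R169.SymInv

/-!
# Row 169, F6: the finite group `Γ = μ_n^5 ⋊ ℤ/5` of automorphisms of `Frac O_n` (helper641)

`Gam n k ≤ Aut_k(Frac O_n)` = automorphisms `σ` with `σ z_j = ζ_j z_{j+i}`.
-/

set_option autoImplicit false
set_option linter.unusedSectionVars false

namespace Crest.Agent.R169.SymmG

open Crest.R169 SymInv

section

variable (n : ℕ) (k : Type) [Field k] [IsDomain (ORing n k)]

/-- the coordinates in the fraction field -/
noncomputable def zq (j : Fin 5) : QField n k := algebraMap (ORing n k) (QField n k) (z n k j)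

variable {n k}

/-- `σ z_j = ζ_j z_{j+i}`, `ζ_j ∈ μ_n` -/
def IsMon (σ : QField n k ≃ₐ[k] QField n k) (i : Fin 5) (ζ : Fin 5 → k) : Prop :=
  (∀ j, ζ j ^ n = 1) ∧ ∀ j, σ (zq n k j) = ζ j • zq n k (j + i)

theorem ext_zq {σ τ : QField n k →ₐ[k] QField n k} (h : ∀ j, σ (zq n k j) = τ (zq n k j)) :
    σ = τ := by
  have h1 : σ.comp (IsScalarTower.toAlgHom k (ORing n k) (QField n k)) =
      τ.comp (IsScalarTower.toAlgHom k (ORing n k) (QField n k)) :=
    ORing.algHom_ext fun j => h j
  refine AlgHom.ext fun x => ?_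
  obtain ⟨a, b, hb, rfl⟩ := IsFractionRing.div_surjective (A := ORing n k) x
  have ha := DFunLike.congr_fun h1 a
  have hb' := DFunLike.congr_fun h1 b
  simp only [AlgHom.comp_apply, IsScalarTower.coe_toAlgHom'] at ha hb'
  rw [map_div₀, map_div₀, ha, hb']

theorem ext_zq' {σ τ : QField n k ≃ₐ[k] QField n k} (h : ∀ j, σ (zq n k j) = τ (zq n k j)) :
    σ = τ := by
  have := ext_zq (σ := (σ : QField n k →ₐ[k] QField n k)) (τ := (τ : QField n k →ₐ[k] QField n k)) h
  refine AlgEquiv.ext fun x => ?_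
  exact DFunLike.congr_fun this x

theorem IsMon.mul {σ τ : QField n k ≃ₐ[k] QField n k} {i i' : Fin 5} {ζ ζ' : Fin 5 → k}
    (hσ : IsMon σ i ζ) (hτ : IsMon τ i' ζ') :
    IsMon (σ * τ) (i' + i) (fun j => ζ' j * ζ (j + i')) := by
  refine ⟨fun j => ?_, fun j => ?_⟩
  · rw [mul_pow, hσ.1, hτ.1, mul_one]
  · rw [AlgEquiv.mul_apply, hτ.2, map_smul, hσ.2, smul_smul, add_assoc]

theorem IsMon.inv {σ : QField n k ≃ₐ[k] QField n k} {i : Fin 5} {ζ : Fin 5 → k}
    (hn : 0 < n) (hσ : IsMon σ i ζ) : IsMon σ⁻¹ (-i) (fun j => (ζ (j - i))⁻¹) := by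
  refine ⟨fun j => ?_, fun j => ?_⟩
  · rw [inv_pow, hσ.1, inv_one]
  · have h0 : ζ (j - i) ≠ 0 := by
      intro h
      have := hσ.1 (j - i)
      rw [h, zero_pow hn.ne'] at this
      exact zero_ne_one this
    have h1 := hσ.2 (j - i)
    rw [sub_add_cancel] at h1
    have h2 : σ ((ζ (j - i))⁻¹ • zq n k (j - i)) = zq n k j := by
      rw [map_smul, h1, smul_smul, inv_mul_cancel₀ h0, one_smul]
    rw [← sub_eq_add_neg, ← h2]
    exact AlgEquiv.symm_apply_apply σ _

variable (n k) in
/-- the group of monomial automorphisms -/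
def Gam [NeZero n] : Subgroup (QField n k ≃ₐ[k] QField n k) where
  carrier := {σ | ∃ i ζ, IsMon σ i ζ}
  mul_mem' := by
    rintro σ τ ⟨i, ζ, h⟩ ⟨i', ζ', h'⟩
    exact ⟨_, _, h.mul h'⟩
  one_mem' := ⟨0, fun _ => 1, fun _ => one_pow _, fun j => by simp⟩
  inv_mem' := by
    rintro σ ⟨i, ζ, h⟩
    exact ⟨_, _, h.inv (Nat.pos_of_ne_zero (NeZero.ne n))⟩

theorem finite_roots (hn : 0 < n) : {ζ : k | ζ ^ n = 1}.Finite := by
  classical
  have h : {ζ : k | ζ ^ n = 1} ⊆ ((Polynomial.X ^ n - 1 : Polynomial k).roots.toFinset : Set k) := by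
    intro ζ hζ
    have hne : (Polynomial.X ^ n - 1 : Polynomial k) ≠ 0 := by
      have := Polynomial.X_pow_sub_C_ne_zero (R := k) hn 1
      simpa using this
    rw [Finset.mem_coe, Multiset.mem_toFinset, Polynomial.mem_roots hne]
    simp only [Polynomial.IsRoot.def, Polynomial.eval_sub, Polynomial.eval_pow,
      Polynomial.eval_X, Polynomial.eval_one]
    rw [sub_eq_zero]
    exact hζ
  exact (Finset.finite_toSet _).subset h

instance finite_Gam [NeZero n] : Finite (Gam n k) := by
  have hn : 0 < n := Nat.pos_of_ne_zero (NeZero.ne n)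
  let S : Set (Fin 5 → QField n k) := Set.pi Set.univ fun _ =>
    (fun x : k × Fin 5 => x.1 • zq n k x.2) '' ({ζ : k | ζ ^ n = 1} ×ˢ (Set.univ : Set (Fin 5)))
  have hS : S.Finite := by
    refine Set.Finite.pi fun _ => ?_
    exact ((finite_roots hn).prod Set.finite_univ).image _
  let f : Gam n k → S := fun σ => ⟨fun j => σ.1 (zq n k j), by
    obtain ⟨i, ζ, h1, h2⟩ := σ.2
    intro j _
    exact ⟨(ζ j, j + i), ⟨h1 j, trivial⟩, (h2 j).symm⟩⟩
  have hf : Function.Injective f := by
    intro σ τ h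
    apply Subtype.ext
    apply ext_zq'
    intro j
    exact congrFun (congrArg Subtype.val h) j
  have := hS.to_subtype
  exact Finite.of_injective f hf

noncomputable instance fintype_Gam [NeZero n] : Fintype (Gam n k) := Fintype.ofFinite _

/-- `σ` preserves the filtration -/
theorem IsMon.map_Fil {σ : QField n k ≃ₐ[k] QField n k} {i : Fin 5} {ζ : Fin 5 → k}
    (hσ : IsMon σ i ζ) (m : ℤ) {x : QField n k} (hx : x ∈ FilQ n k m) : σ x ∈ FilQ n k m := by
  obtain ⟨a, ha, rfl⟩ := hx
  change σ (algebraMap (ORing n k) (QField n k) a) ∈ FilQ n k m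
  unfold Fil at ha
  induction ha using Submodule.span_induction with
  | mem a ha =>
    obtain ⟨γ, hγ, rfl⟩ := ha
    have h1 : σ (algebraMap (ORing n k) (QField n k) (zm n k γ)) =
        (∏ j, ζ j ^ γ j) • algebraMap (ORing n k) (QField n k) (zm n k (fun j => γ (j - i))) := by
      unfold zm
      rw [map_prod, map_prod, map_prod]
      have h2 : ∀ j, σ (algebraMap (ORing n k) (QField n k) (z n k j ^ γ j)) =
          ζ j ^ γ j • zq n k (j + i) ^ γ j := by
        intro j
        rw [map_pow, map_pow]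
        have := hσ.2 j
        unfold zq at this
        rw [this, smul_pow]
        rfl
      rw [Finset.prod_congr rfl fun j _ => h2 j, Finset.prod_smul]
      congr 1
      rw [← Equiv.prod_comp (Equiv.addRight i) (fun j => algebraMap (ORing n k) (QField n k)
        (z n k j ^ γ (j - i)))]
      refine Finset.prod_congr rfl fun j _ => ?_
      rw [Equiv.coe_addRight, add_sub_cancel_right, map_pow]
      rfl
    rw [h1]
    refine Submodule.smul_mem _ _ ⟨_, zm_mem_Fil ?_, rfl⟩
    intro l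
    have h3 := hγ (l - i)
    unfold w at h3 ⊢
    have e1 : l - i + 4 = l + 4 - i := by abel
    have e2 : l - i + 1 = l + 1 - i := by abel
    rw [e1, e2] at h3
    exact h3
  | zero => rw [map_zero, map_zero]; exact Submodule.zero_mem _
  | add a b _ _ ha hb => rw [map_add, map_add]; exact Submodule.add_mem _ ha hb
  | smul c a _ ha =>
    have : algebraMap (ORing n k) (QField n k) (c • a) =
        c • algebraMap (ORing n k) (QField n k) a := by
      rw [Algebra.smul_def, map_mul, ← IsScalarTower.algebraMap_apply, ← Algebra.smul_def]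
    rw [this, map_smul]
    exact Submodule.smul_mem _ _ ha

/-! ### the torus part -/

/-- `rot ζ` as an automorphism -/
noncomputable def rotE (ζ : Mu n k) : ORing n k ≃ₐ[k] ORing n k :=
  AlgEquiv.ofAlgHom (rot ζ) (rot ζ⁻¹)
    (by
      refine AlgHom.ext fun x => ?_
      rw [AlgHom.comp_apply, rot_rot, mul_inv_cancel]
      have : rot (1 : Mu n k) = AlgHom.id k (ORing n k) := by
        apply ORing.algHom_ext
        intro j
        rw [rot_z]
        simp
      rw [this])
    (by
      refine AlgHom.ext fun x => ?_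
      rw [AlgHom.comp_apply, rot_rot, inv_mul_cancel]
      have : rot (1 : Mu n k) = AlgHom.id k (ORing n k) := by
        apply ORing.algHom_ext
        intro j
        rw [rot_z]
        simp
      rw [this])

/-- `rot ζ` on the fraction field -/
noncomputable def sig (ζ : Mu n k) : QField n k ≃ₐ[k] QField n k :=
  IsFractionRing.algEquivOfAlgEquiv (rotE ζ)

theorem sig_zq (ζ : Mu n k) (j : Fin 5) :
    sig ζ (zq n k j) = ((ζ j : kˣ) : k) • zq n k j := by
  unfold sig zq
  rw [IsFractionRing.algEquivOfAlgEquiv_algebraMap]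
  have : rotE ζ (z n k j) = ((ζ j : kˣ) : k) • z n k j := rot_z ζ j
  rw [this, Algebra.smul_def, map_mul, ← IsScalarTower.algebraMap_apply, ← Algebra.smul_def]

theorem isMon_sig (ζ : Mu n k) : IsMon (sig ζ) 0 (fun j => ((ζ j : kˣ) : k)) :=
  ⟨fun j => coe_pow_eq_one ζ j, fun j => by rw [sig_zq, add_zero]⟩

theorem sig_mem [NeZero n] (ζ : Mu n k) : sig ζ ∈ Gam n k := ⟨_, _, isMon_sig ζ⟩

theorem sig_injective (h0 : ∀ j, zq n k j ≠ 0) :
    Function.Injective (sig : Mu n k → (QField n k ≃ₐ[k] QField n k)) := by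
  intro ζ ξ h
  funext j
  have h1 := DFunLike.congr_fun h (zq n k j)
  rw [sig_zq, sig_zq] at h1
  have h2 : ((ζ j : kˣ) : k) = ((ξ j : kˣ) : k) := by
    rw [Algebra.smul_def, Algebra.smul_def] at h1
    exact (algebraMap k (QField n k)).injective (mul_right_cancel₀ (h0 j) h1)
  exact Subtype.ext (Units.ext h2)

end

end Crest.Agent.R169.SymmG
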