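import Crest.Agent.R169.PlaceBasic
import Crest.Agent.R169.TBasic
import Crest.Agent.R169.Krull

/-!
# Row 169, D0: existence of the places of `T`
-/

set_option autoImplicit false

noncomputable section

namespace Crest.Agent.R169.PlacesEx

open Polynomial Krull

variable {k Q : Type} [Field k] [Field Q] [Algebra k Q] (D : TData k Q)

/-! ### homogeneous components -/

/-- homogeneous component of an element of `T` -/
def cf (p : D.Ttot) (m : ℕ) : D.Ttot := D.mono m ((p : Q[X]).coeff m) (p.2 m)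

variable {D}

theorem coe_mono (m : ℕ) (f : Q) (hf : f ∈ D.F m) :
    ((D.mono m f hf : D.Ttot) : Q[X]) = monomial m f := rfl

theorem coe_cf (p : D.Ttot) (m : ℕ) :
    ((cf D p m : D.Ttot) : Q[X]) = monomial m ((p : Q[X]).coeff m) := rfl

theorem mono_congr {m : ℕ} {f g : Q} (hf : f ∈ D.F m) (hg : g ∈ D.F m) (h : f = g) :
    D.mono m f hf = D.mono m g hg := by
  subst h; rfl

theorem cf_add (p q : D.Ttot) (m : ℕ) : cf D (p + q) m = cf D p m + cf D q m := by
  apply Subtype.ext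
  simp [coe_cf]

theorem cf_zero (m : ℕ) : cf D (0 : D.Ttot) m = 0 := by
  apply Subtype.ext
  simp [coe_cf]

theorem mono_mul {i j : ℕ} {f g : Q} (hf : f ∈ D.F i) (hg : g ∈ D.F j) :
    D.mono i f hf * D.mono j g hg
      = D.mono (i + j) (f * g) (by have := D.mul_mem i j f hf g hg; exact_mod_cast this) := by
  apply Subtype.ext
  simp [coe_mono, monomial_mul_monomial]

theorem cf_mul (p q : D.Ttot) (m : ℕ) :
    cf D (p * q) m = ∑ x ∈ Finset.HasAntidiagonal.antidiagonal m, cf D p x.1 * cf D q x.2 := by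
  apply Subtype.ext
  rw [coe_cf]
  push_cast
  simp only [coe_cf, monomial_mul_monomial]
  rw [Polynomial.coeff_mul, map_sum]
  refine Finset.sum_congr rfl fun x hx => ?_
  rw [Finset.HasAntidiagonal.mem_antidiagonal.mp hx]

theorem cf_mono_self (m : ℕ) (f : Q) (hf : f ∈ D.F m) : cf D (D.mono m f hf) m = D.mono m f hf := by
  apply Subtype.ext
  rw [coe_cf, coe_mono, coeff_monomial_same]

theorem cf_mono_ne {m n : ℕ} (f : Q) (hf : f ∈ D.F m) (h : m ≠ n) :
    cf D (D.mono m f hf) n = 0 := by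
  apply Subtype.ext
  rw [coe_cf, coe_mono, coeff_monomial, if_neg h]
  simp

theorem sum_cf (p : D.Ttot) : p = ∑ m ∈ (p : Q[X]).support, cf D p m := by
  apply Subtype.ext
  push_cast
  simp only [coe_cf]
  exact (p : Q[X]).as_sum_support

theorem mem_of_cf_mem {P : Ideal D.Ttot} {p : D.Ttot} (h : ∀ m, cf D p m ∈ P) : p ∈ P := by
  rw [sum_cf p]
  exact Ideal.sum_mem _ fun m _ => h m

/-- homogeneous ideals -/
def Hom (P : Ideal D.Ttot) : Prop := ∀ p ∈ P, ∀ m, cf D p m ∈ P

/-- the homogeneous core -/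
def core (P : Ideal D.Ttot) : Ideal D.Ttot where
  carrier := {p | ∀ m, cf D p m ∈ P}
  add_mem' := by
    intro a b ha hb m
    rw [cf_add]
    exact P.add_mem (ha m) (hb m)
  zero_mem' := by
    intro m
    rw [cf_zero]
    exact P.zero_mem
  smul_mem' := by
    intro c x hx m
    rw [smul_eq_mul, cf_mul]
    exact Ideal.sum_mem _ fun y _ => P.mul_mem_left _ (hx _)

theorem mem_core {P : Ideal D.Ttot} {p : D.Ttot} : p ∈ core P ↔ ∀ m, cf D p m ∈ P := Iff.rfl

theorem core_le (P : Ideal D.Ttot) : core P ≤ P := fun _ h => mem_of_cf_mem h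

theorem cf_cf (p : D.Ttot) (m n : ℕ) : cf D (cf D p m) n = if m = n then cf D p m else 0 := by
  split_ifs with h
  · subst h; exact cf_mono_self _ _ _
  · exact cf_mono_ne _ _ h

theorem core_hom (P : Ideal D.Ttot) : Hom (core P) := by
  intro p hp m n
  rw [cf_cf]
  split_ifs
  · exact hp m
  · exact P.zero_mem

theorem mono_mem_core {P : Ideal D.Ttot} {m : ℕ} {f : Q} {hf : f ∈ D.F m}
    (h : D.mono m f hf ∈ P) : D.mono m f hf ∈ core P := by
  intro n
  by_cases hmn : m = n
  · subst hmn; rw [cf_mono_self]; exact h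
  · rw [cf_mono_ne _ _ hmn]; exact P.zero_mem

theorem core_prime {P : Ideal D.Ttot} (hP : P.IsPrime) : (core P).IsPrime := by
  classical
  refine ⟨fun h => hP.ne_top (eq_top_iff.mpr (h ▸ core_le P)), ?_⟩
  intro a b hab
  by_contra hcon
  push Not at hcon
  obtain ⟨ha, hb⟩ := hcon
  have ha' : ∃ m, cf D a m ∉ P := by
    by_contra h; push Not at h; exact ha h
  have hb' : ∃ m, cf D b m ∉ P := by
    by_contra h; push Not at h; exact hb h
  let i := Nat.find ha'
  let j := Nat.find hb'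
  have hi : cf D a i ∉ P := Nat.find_spec ha'
  have hj : cf D b j ∉ P := Nat.find_spec hb'
  have h1 := hab (i + j)
  rw [cf_mul] at h1
  have h2 : ∑ x ∈ (Finset.HasAntidiagonal.antidiagonal (i + j)).erase (i, j), cf D a x.1 * cf D b x.2 ∈ P := by
    refine Ideal.sum_mem _ fun x hx => ?_
    rw [Finset.mem_erase, Finset.HasAntidiagonal.mem_antidiagonal] at hx
    rcases lt_or_ge x.1 i with h | h
    · exact P.mul_mem_right _ (not_not.mp (Nat.find_min ha' h))
    · have : x.2 < j := by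
        by_contra h3
        apply hx.1
        have h4 : x.1 = i := by omega
        have h5 : x.2 = j := by omega
        exact Prod.ext h4 h5
      exact P.mul_mem_left _ (not_not.mp (Nat.find_min hb' this))
  rw [← Finset.add_sum_erase _ _ (Finset.HasAntidiagonal.mem_antidiagonal.mpr (rfl : (i, j).1 + (i, j).2 = i + j))]
    at h1
  have h3 : cf D a i * cf D b j ∈ P := by
    have := P.sub_mem h1 h2
    simpa using this
  rcases hP.mem_or_mem h3 with h | h
  · exact hi h
  · exact hj h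

/-- a height-one prime containing a nonzero homogeneous element is homogeneous -/
theorem hom_of_isHtOne {P : Ideal D.Ttot} (hP : IsHtOne P) {m : ℕ} {f : Q} {hf : f ∈ D.F m}
    (h : D.mono m f hf ∈ P) (hf0 : f ≠ 0) : Hom P := by
  have h1 := mono_mem_core h
  have h2 : core P ≠ ⊥ := by
    intro h0
    rw [h0, Ideal.mem_bot] at h1
    have := congrArg (fun q : D.Ttot => (q : Q[X]).coeff m) h1
    simp [coe_mono] at this
    exact hf0 this
  have h3 := hP.min _ (core_prime hP.prime) h2 (core_le P)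
  rw [← h3]
  exact core_hom P

/-! ### the fraction field of `T` -/

theorem algebraMap_eq (p : D.Ttot) :
    algebraMap D.Ttot (RatFunc Q) p = algebraMap Q[X] (RatFunc Q) (p : Q[X]) := rfl

theorem algebraMap_mono (m : ℕ) (f : Q) (hf : f ∈ D.F m) :
    algebraMap D.Ttot (RatFunc Q) (D.mono m f hf) = RatFunc.C f * RatFunc.X ^ m := by
  rw [algebraMap_eq, coe_mono, ← C_mul_X_pow_eq_monomial, map_mul, map_pow, RatFunc.algebraMap_C,
    RatFunc.algebraMap_X]

instance : FaithfulSMul D.Ttot (RatFunc Q) := by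
  rw [faithfulSMul_iff_algebraMap_injective]
  intro a b hab
  rw [algebraMap_eq, algebraMap_eq] at hab
  exact Subtype.ext (IsFractionRing.injective Q[X] (RatFunc Q) hab)

/-- every element of `Q` is a fraction with natural degree -/
theorem exists_frac (D : TData k Q) (q : Q) :
    ∃ m : ℕ, ∃ f ∈ D.F m, ∃ g ∈ D.F m, g ≠ 0 ∧ q * g = f := by
  obtain ⟨m, f, hf, g, hg, hg0, h⟩ := D.frac q
  rcases lt_or_ge m 0 with hm | hm
  · exact absurd (D.eq_zero_of_neg hm hg) hg0
  · obtain ⟨n, rfl⟩ := Int.eq_ofNat_of_zero_le hm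
    exact ⟨n, f, hf, g, hg, hg0, h⟩

theorem exists_denom (D : TData k Q) (p : Q[X]) :
    ∃ g : Q, g ≠ 0 ∧ ∃ l : ℕ, g ∈ D.F l ∧ ∀ i, g * p.coeff i ∈ D.F l := by
  induction p using Polynomial.induction_on' with
  | add p q hp hq =>
    obtain ⟨g, hg, l, hgl, h⟩ := hp
    obtain ⟨g', hg', l', hgl', h'⟩ := hq
    refine ⟨g * g', mul_ne_zero hg hg', l + l', ?_, fun i => ?_⟩
    · have := D.mul_mem _ _ _ hgl _ hgl'
      exact_mod_cast this
    · rw [coeff_add, mul_add]
      refine Submodule.add_mem _ ?_ ?_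
      · have := D.mul_mem _ _ _ (h i) _ hgl'
        rw [show g * g' * p.coeff i = g * p.coeff i * g' by ring]
        exact_mod_cast this
      · have := D.mul_mem _ _ _ hgl _ (h' i)
        rw [show g * g' * q.coeff i = g * (g' * q.coeff i) by ring]
        exact_mod_cast this
  | monomial n a =>
    obtain ⟨m, f, hf, g, hg, hg0, h⟩ := exists_frac D a
    refine ⟨g, hg0, m, hg, fun i => ?_⟩
    rw [coeff_monomial]
    split_ifs with hi
    · rw [mul_comm, h]; exact hf
    · rw [mul_zero]; exact Submodule.zero_mem _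

theorem mem_Ttot_of_denom {p : Q[X]} {g : Q} {l : ℕ} (h : ∀ i, g * p.coeff i ∈ D.F l) :
    C g * X ^ l * p ∈ D.Ttot := by
  intro m
  rw [mul_assoc, mul_comm (X ^ l : Q[X]) p, coeff_C_mul, coeff_mul_X_pow']
  split_ifs with hlm
  · exact D.F_mono (by exact_mod_cast hlm) (h _)
  · rw [mul_zero]; exact Submodule.zero_mem _

instance : IsFractionRing D.Ttot (RatFunc Q) := by
  refine IsFractionRing.of_field _ _ fun z => ?_
  obtain ⟨g, hg, l, hgl, h⟩ := exists_denom D z.num
  obtain ⟨g', hg', l', hgl', h'⟩ := exists_denom D z.denom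
  have h1 : ∀ i, g * g' * z.num.coeff i ∈ D.F ((l + l' : ℕ) : ℤ) := by
    intro i
    have := D.mul_mem _ _ _ (h i) _ hgl'
    rw [show g * g' * z.num.coeff i = g * z.num.coeff i * g' by ring]
    exact_mod_cast this
  have h2 : ∀ i, g * g' * z.denom.coeff i ∈ D.F ((l + l' : ℕ) : ℤ) := by
    intro i
    have := D.mul_mem _ _ _ hgl _ (h' i)
    rw [show g * g' * z.denom.coeff i = g * (g' * z.denom.coeff i) by ring]
    exact_mod_cast this
  refine ⟨⟨_, mem_Ttot_of_denom h1⟩, ⟨_, mem_Ttot_of_denom h2⟩, ?_⟩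
  rw [algebraMap_eq, algebraMap_eq]
  have h0 : (C (g * g') * X ^ (l + l') : Q[X]) ≠ 0 :=
    mul_ne_zero (C_ne_zero.mpr (mul_ne_zero hg hg')) (pow_ne_zero _ X_ne_zero)
  have h3 : algebraMap Q[X] (RatFunc Q) (C (g * g') * X ^ (l + l')) ≠ 0 :=
    (map_ne_zero_iff _ (IsFractionRing.injective Q[X] (RatFunc Q))).mpr h0
  change z = algebraMap Q[X] (RatFunc Q) (C (g * g') * X ^ (l + l') * z.num) /
    algebraMap Q[X] (RatFunc Q) (C (g * g') * X ^ (l + l') * z.denom)
  rw [map_mul _ _ z.num, map_mul _ _ z.denom, mul_div_mul_left _ _ h3, RatFunc.num_div_denom]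

/-! ### homogeneous height-one primes and their order functions -/

variable (D) in
/-- homogeneous height-one primes of `T` -/
structure HPrime where
  /-- the prime ideal -/
  I : Ideal D.Ttot
  ht : IsHtOne I
  hom : Hom I

theorem HPrime.ext' {P P' : HPrime D} (h : P.I = P'.I) : P = P' := by
  cases P; cases P'; cases h; rfl

section ord

variable [IsNoetherianRing D.Ttot] [IsIntegrallyClosed D.Ttot]

/-- order function on `Q(X)` -/
def HPrime.ordK (P : HPrime D) : RatFunc Q → ℤ := ordP (RatFunc Q) P.I P.ht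

theorem HPrime.ordK_spec (P : HPrime D) : IsOrd (RatFunc Q) P.I P.ordK := ordP_spec _ _ _

/-- the place of `Q(X)` -/
def HPrime.plK (P : HPrime D) : Place (RatFunc Q) where
  ord := P.ordK
  ord_mul := P.ordK_spec.mul
  ord_add := P.ordK_spec.add
  unif := by
    obtain ⟨π, _, h0, h1⟩ := P.ordK_spec.unif
    exact ⟨_, (map_ne_zero_iff _ (IsFractionRing.injective D.Ttot (RatFunc Q))).mpr h0, h1⟩

/-- the value of `X` -/
def HPrime.c (P : HPrime D) : ℤ := P.ordK RatFunc.X

/-- the order function on `Q` -/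
def HPrime.ord (P : HPrime D) (f : Q) : ℤ := P.ordK (RatFunc.C f)

theorem C_ne_zero' {f : Q} (hf : f ≠ 0) : (RatFunc.C f : RatFunc Q) ≠ 0 := by
  rwa [Ne, map_eq_zero]

theorem HPrime.ordK_mul_pow (P : HPrime D) {f : Q} (hf : f ≠ 0) (m : ℕ) :
    P.ordK (RatFunc.C f * RatFunc.X ^ m) = P.ord f + P.c * m := by
  rw [P.ordK_spec.mul _ _ (C_ne_zero' hf) (pow_ne_zero _ RatFunc.X_ne_zero)]
  have := mul_hom_zpow (RatFunc Q) P.ordK_spec.mul RatFunc.X_ne_zero (m : ℤ)
  rw [zpow_natCast] at this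
  rw [this]
  unfold HPrime.c HPrime.ord
  ring

theorem HPrime.ordK_mul_zpow (P : HPrime D) {f : Q} (hf : f ≠ 0) (m : ℤ) :
    P.ordK (RatFunc.C f * RatFunc.X ^ m) = P.ord f + P.c * m := by
  rw [P.ordK_spec.mul _ _ (C_ne_zero' hf) (zpow_ne_zero _ RatFunc.X_ne_zero)]
  rw [mul_hom_zpow (RatFunc Q) P.ordK_spec.mul RatFunc.X_ne_zero m]
  unfold HPrime.c HPrime.ord
  ring

theorem HPrime.ordK_mono (P : HPrime D) {m : ℕ} {f : Q} (hf : f ∈ D.F m) (hf0 : f ≠ 0) :
    P.ordK (algebraMap D.Ttot (RatFunc Q) (D.mono m f hf)) = P.ord f + P.c * m := by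
  rw [algebraMap_mono, P.ordK_mul_pow hf0]

omit [IsNoetherianRing D.Ttot] [IsIntegrallyClosed D.Ttot] in
theorem mono_ne_zero {m : ℕ} {f : Q} (hf : f ∈ D.F m) (hf0 : f ≠ 0) : D.mono m f hf ≠ 0 := by
  intro h0
  have := congrArg (fun q : D.Ttot => (q : Q[X]).coeff m) h0
  simp [coe_mono] at this
  exact hf0 this

theorem HPrime.nonneg (P : HPrime D) {m : ℕ} {f : Q} (hf : f ∈ D.F m) (hf0 : f ≠ 0) :
    0 ≤ P.ord f + P.c * m := by
  rw [← P.ordK_mono hf hf0]
  exact P.ordK_spec.nonneg _ (mono_ne_zero hf hf0)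

theorem HPrime.mem_iff (P : HPrime D) {m : ℕ} {f : Q} (hf : f ∈ D.F m) (hf0 : f ≠ 0) :
    D.mono m f hf ∈ P.I ↔ 0 < P.ord f + P.c * m := by
  rw [← P.ordK_mono hf hf0]
  exact P.ordK_spec.mem_iff _ (mono_ne_zero hf hf0)

theorem HPrime.ord_mul (P : HPrime D) {f g : Q} (hf : f ≠ 0) (hg : g ≠ 0) :
    P.ord (f * g) = P.ord f + P.ord g := by
  unfold HPrime.ord
  rw [map_mul, P.ordK_spec.mul _ _ (C_ne_zero' hf) (C_ne_zero' hg)]

theorem HPrime.ord_add (P : HPrime D) {f g : Q} (hf : f ≠ 0) (hg : g ≠ 0) (hfg : f + g ≠ 0) :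
    min (P.ord f) (P.ord g) ≤ P.ord (f + g) := by
  unfold HPrime.ord
  rw [map_add]
  exact P.ordK_spec.add _ _ (C_ne_zero' hf) (C_ne_zero' hg) (by
    rw [← map_add]; exact C_ne_zero' hfg)

end ord

end Crest.Agent.R169.PlacesEx
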