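import Crest.Agent.R169.PackNormal
import Crest.Agent.R169.Iface
import Crest.Agent.R169.PlacesEx

/-! Row 169 (helper641): `T` is integrally closed, from `FilNormal`. -/

set_option autoImplicit false

noncomputable section

namespace Crest.Agent.R169.TNormal

open Polynomial

variable {k Q : Type} [Field k] [Field Q] [Algebra k Q]

theorem isIntegrallyClosed_Ttot (D : TData k Q) (hN : FilNormal D.toFil) :
    IsIntegrallyClosed D.Ttot := by
  have := PlacesEx.instIsFractionRingSubtypePolynomialMemSubalgebraTtotRatFunc (D := D)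
  rw [isIntegrallyClosed_iff (RatFunc Q)]
  intro x hx
  have hxL : IsIntegral Q[X] x := by
    obtain ⟨p, hp, hpx⟩ := hx
    refine ⟨p.map (algebraMap D.Ttot Q[X]), hp.map _, ?_⟩
    rw [Polynomial.eval₂_map]
    exact hpx
  obtain ⟨f, hf⟩ := IsIntegrallyClosed.algebraMap_eq_of_integral hxL
  obtain ⟨r, hr, hrn⟩ := hx.isAlmostIntegral
  have hinj : Function.Injective (algebraMap Q[X] (RatFunc Q)) := IsFractionRing.injective _ _
  have h1 : ∀ n : ℕ, ∃ y : D.Ttot, (r : Q[X]) * f ^ n = (y : Q[X]) := by
    intro n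
    obtain ⟨y, hy⟩ := hrn n
    refine ⟨y, ?_⟩
    apply hinj
    rw [Algebra.smul_def, ← hf] at hy
    rw [map_mul, map_pow]
    exact hy.symm
  have hr0 : (r : Q[X]) ≠ 0 := fun h => nonZeroDivisors.ne_zero hr (Subtype.ext h)
  -- pass to power series
  let r' : D.toFil.R := ⟨((r : Q[X]) : PowerSeries Q), fun m => by
    rw [Polynomial.coeff_coe]; exact r.2 m⟩
  have hr' : r' ≠ 0 := by
    intro h
    apply hr0
    have := congrArg Subtype.val h
    exact Polynomial.coe_injective Q (by simpa [r'] using this)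
  have h2 := PackNormal.mem_R_of_almost D.toFil hN r' hr' (f : PowerSeries Q) (by
    intro n
    obtain ⟨y, hy⟩ := h1 n
    have : (r' : PowerSeries Q) * (f : PowerSeries Q) ^ n = ((y : Q[X]) : PowerSeries Q) := by
      rw [← hy]
      push_cast
      rfl
    rw [this]
    intro m
    rw [Polynomial.coeff_coe]
    exact y.2 m)
  have hfm : f ∈ D.Ttot := by
    intro m
    have := h2 m
    rwa [Polynomial.coeff_coe] at this
  exact ⟨⟨f, hfm⟩, hf⟩

end Crest.Agent.R169.TNormal
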