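import Crest.Agent.R169.Trans.Core
import Crest.Agent.R169.Defs
import Crest.Agent.R169.RingBasis

/-!
# Row 169, Symm field `trans`: transitivity of `μ_7^5 ⋊ ℤ/5` on the places over `X` (helper69)
-/

set_option autoImplicit false

open Crest.R169

namespace Crest.Agent.R169.Trans7

section

variable {n : ℕ} {k Q : Type} [Field k] [Field Q] [Algebra k Q]

/-- `TO ≃ D.Ttot` -/
noncomputable def eTO (D : TData k Q) (ι : ORing n k →ₐ[k] Q)
    (hF : ∀ m, D.F m = (Fil n k m).map ι.toLinearMap) : TO n k →+* D.Ttot :=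
  ((Polynomial.mapRingHom (ι : ORing n k →+* Q)).comp ((TO n k).val : TO n k →+* _)).codRestrict
    D.Ttot.toSubring (by
      intro t m
      show (Polynomial.map (ι : ORing n k →+* Q) t.1).coeff m ∈ D.F m
      rw [Polynomial.coeff_map, hF]
      exact ⟨_, t.2 m, rfl⟩)

theorem eTO_coeff (D : TData k Q) (ι : ORing n k →ₐ[k] Q)
    (hF : ∀ m, D.F m = (Fil n k m).map ι.toLinearMap) (t : TO n k) (m : ℕ) :
    (eTO D ι hF t).1.coeff m = ι (t.1.coeff m) := by
  show (Polynomial.map (ι : ORing n k →+* Q) t.1).coeff m = _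
  rw [Polynomial.coeff_map]
  rfl

theorem eTO_injective (D : TData k Q) (ι : ORing n k →ₐ[k] Q) (hι : Function.Injective ι)
    (hF : ∀ m, D.F m = (Fil n k m).map ι.toLinearMap) : Function.Injective (eTO D ι hF) := by
  intro s t hst
  apply TO_ext
  intro m
  apply hι
  rw [← eTO_coeff D ι hF, ← eTO_coeff D ι hF, hst]

theorem eTO_surjective (D : TData k Q) (ι : ORing n k →ₐ[k] Q) (hι : Function.Injective ι)
    (hF : ∀ m, D.F m = (Fil n k m).map ι.toLinearMap) : Function.Surjective (eTO D ι hF) := by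
  intro s
  have hs : ∀ m : ℕ, ∃ x ∈ Fil n k m, ι x = s.1.coeff m := by
    intro m
    have := s.2 m
    rw [hF] at this
    exact this
  have h1 : s.1 ∈ Polynomial.lifts (ι : ORing n k →+* Q) := by
    rw [Polynomial.lifts_iff_coeff_lifts]
    intro m
    obtain ⟨x, -, hx⟩ := hs m
    exact ⟨x, hx⟩
  obtain ⟨q, hq⟩ := (Polynomial.mem_lifts _).mp h1
  have hc : ∀ m, ι (q.coeff m) = s.1.coeff m := by
    intro m
    rw [← hq, Polynomial.coeff_map]
    rfl
  refine ⟨⟨q, ?_⟩, ?_⟩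
  · intro m
    obtain ⟨x, hx, hx2⟩ := hs m
    have : q.coeff m = x := hι (by rw [hc, hx2])
    rw [this]; exact hx
  · apply Subtype.ext
    exact hq

/-- END STATEMENT of the field `trans`, general form. -/
theorem trans7_gen (hn : 0 < n) {ζ₀ : k} (hζ : IsPrimitiveRoot ζ₀ n)
    (b : Module.Basis {β : Fin 5 → ℕ // Good n β} k (ORing n k)) (hb : ∀ β, b β = zm n k β.1)
    (hfil : ∀ (m : ℤ) (x : ORing n k), x ∈ Fil n k m → ∀ β, b.repr x β ≠ 0 → ∀ j, w j β.1 ≤ m)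
    (D : TData k Q) (ι : ORing n k →ₐ[k] Q) (hι : Function.Injective ι)
    (hF : ∀ m, D.F m = (Fil n k m).map ι.toLinearMap) (P P' : Ideal D.Ttot)
    (hP : IsH1 P) (hP' : IsH1 P') (hX : D.mono 1 1 D.one_mem ∈ P) (hX' : D.mono 1 1 D.one_mem ∈ P') :
    ∃ (i : Fin 5) (ζ : Fin 5 → k), (∀ j, ζ j ^ n = 1) ∧ ∀ σ : Q ≃ₐ[k] Q,
      (∀ j, σ (ι (z n k j)) = ζ j • ι (z n k (j + i))) →
      ∀ t t' : D.Ttot, (∀ m, t'.1.coeff m = σ (t.1.coeff m)) → (t ∈ P ↔ t' ∈ P') := by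
  let e : TO n k ≃+* D.Ttot := RingEquiv.ofBijective (eTO D ι hF)
    ⟨eTO_injective D ι hι hF, eTO_surjective D ι hι hF⟩
  have he : ∀ (t : TO n k) (m : ℕ), (e t).1.coeff m = ι (t.1.coeff m) := eTO_coeff D ι hF
  have hx : e xE = D.mono 1 1 D.one_mem := by
    apply Subtype.ext
    ext m
    rw [he]
    show ι ((Polynomial.monomial 1 (1 : ORing n k)).coeff m) = (Polynomial.monomial 1 (1 : Q)).coeff m
    rw [Polynomial.coeff_monomial, Polynomial.coeff_monomial]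
    split_ifs <;> simp
  obtain ⟨i, g, hg⟩ := trans_core b hb hfil hn hζ (Ideal.comap (e : TO n k →+* D.Ttot) P)
    (Ideal.comap (e : TO n k →+* D.Ttot) P') (hP.comap e) (hP'.comap e)
    (by rw [Ideal.mem_comap]; show e xE ∈ P; rw [hx]; exact hX)
    (by rw [Ideal.mem_comap]; show e xE ∈ P'; rw [hx]; exact hX')
  refine ⟨i, fun j => ((g j : kˣ) : k), fun j => mu_pow g j, ?_⟩
  intro σ hσ t t' ht
  have hσι : ∀ x : ORing n k, σ (ι x) = ι (phiO i g x) := by
    have : ((σ : Q →ₐ[k] Q).comp ι) = ι.comp (phiO i g) := by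
      apply ORing.algHom_ext
      intro j
      rw [AlgHom.comp_apply, AlgHom.comp_apply, phiO_z, map_smul]
      exact hσ j
    exact fun x => DFunLike.congr_fun this x
  obtain ⟨s, rfl⟩ := e.surjective t
  have ht' : t' = e (tauO i g s) := by
    apply Subtype.ext
    ext m
    rw [ht, he, he, hσι, tauO_coeff]
  have h1 : e s ∈ P ↔ s ∈ Ideal.comap (e : TO n k →+* D.Ttot) P := by
    rw [Ideal.mem_comap]; rfl
  rw [h1, hg, Ideal.mem_comap, Ideal.mem_comap, ht']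
  rfl

end

/-- END STATEMENT of the field `trans` for `n = 7`. -/
theorem trans7 {k Q : Type} [Field k] [IsAlgClosed k] [NeZero ((7 : ℕ) : k)] [Field Q]
    [Algebra k Q] (D : TData k Q) (ι : ORing 7 k →ₐ[k] Q) (hι : Function.Injective ι)
    (hF : ∀ m, D.F m = (Fil 7 k m).map ι.toLinearMap) (P P' : Ideal D.Ttot)
    (hP : IsH1 P) (hP' : IsH1 P') (hX : D.mono 1 1 D.one_mem ∈ P) (hX' : D.mono 1 1 D.one_mem ∈ P') :
    ∃ (i : Fin 5) (ζ : Fin 5 → k), (∀ j, ζ j ^ 7 = 1) ∧ ∀ σ : Q ≃ₐ[k] Q,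
      (∀ j, σ (ι (z 7 k j)) = ζ j • ι (z 7 k (j + i))) →
      ∀ t t' : D.Ttot, (∀ m, t'.1.coeff m = σ (t.1.coeff m)) → (t ∈ P ↔ t' ∈ P') := by
  obtain ⟨ζ₀, hζ⟩ := HasEnoughRootsOfUnity.exists_primitiveRoot k 7
  exact trans7_gen (by norm_num) hζ (zBasis 7 k) (fun β => zBasis_apply β)
    (fun m x hx => (mem_Fil_iff m x).mp hx) D ι hι hF P P' hP hP' hX hX'

end Crest.Agent.R169.Trans7
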