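import Crest.Agent.R169.Iface
import Crest.Agent.R169.LatStmts
import Crest.Agent.R169.Rank
import Crest.Agent.R169.Numeric
import Crest.Agent.R169.D7Hilb
import Crest.Agent.R169.Der
import Crest.Agent.R169.FilNormalD7
import Crest.Agent.R169.Pt.D7Reg
import Crest.Agent.R169.SymmD7
import Crest.Agent.R169.C.Main
import Crest.Agent.R169.PartE
import Crest.Agent.R169.PartDFinal
import Crest.Agent.R169.PartA
import Crest.Agent.R169.PackFinal

/-!
# Row 169: final assembly (integrator helper169)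

`noMCM` : there is no module over the graded ring `T_7` (over `KStar ≅ ℂ`) whose associated graded
with respect to `(X, uX, vX)` is free over `k[X, uX, vX]` — from parts A, C, D, E, F.
-/

set_option autoImplicit false

noncomputable section

namespace Crest.Agent.R169.Main

open Crest.Agent.R169 Crest.R169

/-- the rank of a `T`-lattice in `Q^R` is `N R` -/
theorem rank_eq {k Q : Type} [Field k] [IsAlgClosed k] [Field Q] [Algebra k Q] (D : TData k Q)
    {N : ℕ} {bT cT : ℚ} (hT : HilbT D N bT cT) {R : ℕ} (G : ℤ → Submodule k (Fin R → Q))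
    (hG : IsTLat D G) {n : ℕ} {b c : ℚ} (h : HasHP G n b c) : n = N * R := by
  have : Infinite k := IsAlgClosed.instInfinite
  have h1 := Rank.rk_G D hG
  obtain ⟨b', c', h2, -, -⟩ := IsLat.exists_hasHP (K := D.K0) D.isRat (IsTLat.lat' D hG)
  obtain ⟨b₁, c₁, h3, -, -⟩ := IsLat.exists_hasHP (K := D.K0) (V := Q) D.isRat
    (IsLat.restrict (L := D.K0) (Q := Q) (V := Q) D.lat)
  rw [(hasHP_unique h h2).1, h1, (hasHP_unique hT.hp h3).1]

/-- Part A -/
theorem partA {k Q : Type} [Field k] [IsAlgClosed k] [Field Q] [Algebra k Q] (D : TData k Q)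
    {N : ℕ} {bT cT : ℚ} (hT : HilbT D N bT cT) : PartA D N := by
  intro M _ _ _ _ n hM
  have : Infinite k := IsAlgClosed.instInfinite
  obtain ⟨R, hR, G, hG, b, c, hHP, hJ, hN⟩ := partA_main D M n hM ⟨N, bT, cT, hT.pos, hT.hp⟩
  obtain rfl := rank_eq D hT G hG hHP
  exact ⟨R, G, b, c, hR, hG, hHP, hJ, hN⟩

theorem interU_top {k Q V : Type} [Field k] [Field Q] [Algebra k Q] [AddCommGroup V] [Module k V]
    [Module Q V] [IsScalarTower k Q V] (G : ℤ → Submodule k V) :
    interU G (⊤ : Submodule Q V) = G := by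
  funext m
  simp [interU]

theorem frobSub_top {Q : Type} [Field Q] {p R : ℕ} (hp : p ≠ 0) :
    frobSub p (⊤ : Submodule Q (Fin R → Q)) = ⊤ := by
  rw [eq_top_iff]
  intro w _
  have h : w = ∑ i, w i • (Pi.single i (1 : Q) : Fin R → Q) := by
    funext j
    simp [Finset.sum_apply, Pi.single_apply]
  rw [h]
  refine Submodule.sum_mem _ fun i _ => Submodule.smul_mem _ _ (Submodule.subset_span ?_)
  refine ⟨Pi.single i 1, trivial, ?_⟩
  funext j
  by_cases hj : j = i
  · subst hj; simp [phi]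
  · simp [phi, hj, hp]

/-- the derivation data of `D7` -/
def D7_der (k : Type) [Field k] [IsAlgClosed k] [NeZero ((7 : ℕ) : k)] (p : ℕ) [Fact p.Prime]
    [CharP k p] : DerData (D7 k) p 7 700 :=
  Der.derData (n := 7) (NeZero.ne _) (D7 k) (fun _ => rfl) p 700 (D7_gen k)

/-- no module with free associated graded over the ring `T_7` over `KStar` -/
theorem noMCM : NoMCM (D7 KStar) := by
  intro M _ _ _ _ n hM
  obtain ⟨R, G, b, c, hR, hG, hHP, hJ, hN⟩ := partA (D7 KStar) (D7_hilb KStar) M n hM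
  obtain ⟨p0, hp0⟩ := numeric_contra R hR 7 700
  obtain ⟨p, hp, G', hG', hHP', hN'⟩ := partE hR G hG (by positivity) hHP hN p0
  obtain ⟨ι, S, ⟨Y⟩⟩ := SymmD7.D7_places (Kp p)
  have : CharP (Kp p) p.val := inferInstance
  obtain ⟨h3, h7⟩ := partD (D7 (Kp p)) p.val (D7_hilb (Kp p)) S Y (Pt.D7_ptReg (Kp p))
  have hU := partC (D7 (Kp p)) p.val (D7_hilb (Kp p)) (D7_der (Kp p) p.val) h3
  refine charp_contra (D7 (Kp p)) R hR 7 700 p.val (hp0 p.val hp) hU h7 G' hG' b c hHP' hN' hJ ?_
  obtain ⟨c', hc'⟩ := h3 R G' hG' ⊤ (1715 * R) b c (by rw [interU_top]; exact hHP')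
  rw [frobSub_top p.prime.ne_zero, interU_top] at hc'
  exact ⟨_, c', hc'⟩

end Crest.Agent.R169.Main
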