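import Mathlib

/-!
# Row 169: Nagata's lemma

If `R` is a Noetherian domain, `s` a prime element and `R[1/s]` is a UFD, then `R` is a UFD.
-/

set_option autoImplicit false

namespace Crest.Agent.R169

/-- If `s` is prime, `¬ s ∣ r` and `r ∣ s ^ n * a` then `r ∣ a`. -/
theorem dvd_of_dvd_pow_mul {R : Type*} [CommRing R] [IsDomain R] {s r : R} (hs : Prime s)
    (hsr : ¬ s ∣ r) : ∀ (n : ℕ) (a : R), r ∣ s ^ n * a → r ∣ a := by
  intro n
  induction n with
  | zero => intro a h; simpa using h
  | succ n ih =>
    intro a h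
    apply ih
    obtain ⟨c, hc⟩ := h
    have h1 : s ∣ r * c := by
      rw [← hc, pow_succ]
      exact ⟨s ^ n * a, by ring⟩
    rcases hs.dvd_or_dvd h1 with h2 | ⟨c', rfl⟩
    · exact absurd h2 hsr
    · refine ⟨c', ?_⟩
      apply mul_left_cancel₀ hs.ne_zero
      rw [← mul_assoc, ← pow_succ', hc]
      ring

/-- **Nagata's lemma.** -/
theorem nagata {R : Type*} [CommRing R] [IsDomain R] [IsNoetherianRing R] {s : R} (hs : Prime s)
    (S : Type*) [CommRing S] [Algebra R S] [IsLocalization.Away s S]
    [IsDomain S] [UniqueFactorizationMonoid S] : UniqueFactorizationMonoid R := by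
  have hle : Submonoid.powers s ≤ nonZeroDivisors R :=
    powers_le_nonZeroDivisors_of_noZeroDivisors hs.ne_zero
  have hinj : Function.Injective (algebraMap R S) := IsLocalization.injective S hle
  refine UniqueFactorizationMonoid.iff_exists_prime_mem_of_isPrime.2 fun P hP0 hP => ?_
  by_cases hsP : s ∈ P
  · exact ⟨s, hsP, hs⟩
  have hdisj : Disjoint (Submonoid.powers s : Set R) (P : Set R) := by
    rw [Set.disjoint_left]
    rintro _ ⟨n, rfl⟩ h
    exact hsP (hP.mem_of_pow_mem n h)
  have hPS : (P.map (algebraMap R S)).IsPrime :=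
    IsLocalization.isPrime_of_isPrime_disjoint (Submonoid.powers s) S P hP hdisj
  have hPS0 : P.map (algebraMap R S) ≠ ⊥ := by
    obtain ⟨y, hy, hy0⟩ := Submodule.exists_mem_ne_zero_of_ne_bot hP0
    intro h
    have : algebraMap R S y ∈ P.map (algebraMap R S) := Ideal.mem_map_of_mem _ hy
    rw [h] at this
    exact hy0 (hinj (by simpa using this))
  obtain ⟨x, hx, hxp⟩ := hPS.exists_mem_prime_of_ne_bot hPS0
  obtain ⟨⟨r, m⟩, hr⟩ := IsLocalization.surj (Submonoid.powers s) x
  simp only at hr
  have hu : IsUnit (algebraMap R S (m : R)) := IsLocalization.map_units S m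
  have hrP : algebraMap R S r ∈ P.map (algebraMap R S) := by
    rw [← hr]; exact Ideal.mul_mem_right _ _ hx
  have hrprime : Prime (algebraMap R S r) := by
    rw [← hr]
    exact (associated_mul_unit_right x _ hu).prime hxp
  have hr0 : r ≠ 0 := by
    rintro rfl
    exact hrprime.ne_zero (map_zero _)
  have hrP' : r ∈ P := by
    have := IsLocalization.under_map_of_isPrime_disjoint (Submonoid.powers s) S hP hdisj
    rw [← this]
    exact hrP
  obtain ⟨n, r', hsr', hrr'⟩ := WfDvdMonoid.max_power_factor hr0 hs.irreducible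
  have hr'P : r' ∈ P := by
    rcases hP.mem_or_mem (hrr' ▸ hrP') with h | h
    · exact absurd (hP.mem_of_pow_mem n h) hsP
    · exact h
  have hr'prime : Prime (algebraMap R S r') := by
    have h2 : IsUnit (algebraMap R S (s ^ n)) :=
      IsLocalization.map_units S (⟨s ^ n, n, rfl⟩ : Submonoid.powers s)
    refine (associated_unit_mul_left _ _ h2).prime (p := algebraMap R S (s ^ n) * algebraMap R S r') ?_
    rw [← map_mul, ← hrr']
    exact hrprime
  refine ⟨r', hr'P, ?_, ?_, ?_⟩
  · rintro rfl
    exact hr'prime.ne_zero (map_zero _)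
  · intro h
    exact hr'prime.not_isUnit (h.map _)
  · intro a b hab
    have key : ∀ c : R, algebraMap R S r' ∣ algebraMap R S c → r' ∣ c := by
      rintro c ⟨y, hy⟩
      obtain ⟨⟨t, ⟨_, N, rfl⟩⟩, ht⟩ := IsLocalization.surj (Submonoid.powers s) y
      simp only at ht
      apply dvd_of_dvd_pow_mul hs hsr' N
      refine ⟨t, hinj ?_⟩
      rw [map_mul, map_mul, hy, ← ht]
      ring
    have : algebraMap R S r' ∣ algebraMap R S a * algebraMap R S b := by
      rw [← map_mul]; exact map_dvd _ hab
    rcases hr'prime.dvd_or_dvd this with h | h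
    · exact Or.inl (key a h)
    · exact Or.inr (key b h)

end Crest.Agent.R169
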