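import Crest.Agent.R169.P3e

/-!
# Row 169, P3: `Crest.Agent.R169.exists_resol` (length one resolution), proved in `P3e`.
-/
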