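import Crest.Agent.R169.Lat

/-!
# Row 169, P2/P3, part a: polynomials of bounded degree `polyLE`
(helper272)
-/

set_option autoImplicit false

namespace Crest.Agent.R169.P3

open Module

/-- monomials as a family indexed by `ℕ × ℕ` -/
def mono2 {K : Type} [Field K] (u v : K) (p : ℕ × ℕ) : K := u ^ p.1 * v ^ p.2

section Field

variable {k K : Type} [Field k] [Field K] [Algebra k K] {u v : K}

/-- index set of monomials of degree `≤ m` -/
def degSet (m : ℤ) : Set (ℕ × ℕ) := {p | ((p.1 : ℤ) + p.2) ≤ m}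

lemma polyLE_eq (m : ℤ) :
    polyLE k u v m = Submodule.span k (mono2 u v '' degSet m) := by
  unfold polyLE
  congr 1
  ext x
  simp only [Set.mem_ofPred_eq, Set.mem_image, Prod.exists, degSet, mono2]
  constructor
  · rintro ⟨i, j, h, rfl⟩; exact ⟨i, j, h, rfl⟩
  · rintro ⟨i, j, h, rfl⟩; exact ⟨i, j, h, rfl⟩

lemma mem_polyLE_iff {m : ℤ} {x : K} :
    x ∈ polyLE k u v m ↔ ∃ c ∈ Finsupp.supported k k (degSet m),
      Finsupp.linearCombination k (mono2 u v) c = x := by
  rw [polyLE_eq, Finsupp.span_image_eq_map_linearCombination]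
  simp [Submodule.mem_map]

lemma mono2_mem {m : ℤ} {p : ℕ × ℕ} (h : ((p.1 : ℤ) + p.2) ≤ m) :
    mono2 u v p ∈ polyLE k u v m := by
  rw [polyLE_eq]
  exact Submodule.subset_span ⟨p, h, rfl⟩

lemma one_mem_polyLE {m : ℤ} (h : 0 ≤ m) : (1 : K) ∈ polyLE k u v m := by
  have := mono2_mem (k := k) (u := u) (v := v) (m := m) (p := (0, 0)) (by simpa using h)
  simpa [mono2] using this

lemma polyLE_mono {m m' : ℤ} (h : m ≤ m') : polyLE k u v m ≤ polyLE k u v m' := by
  rw [polyLE_eq, polyLE_eq]
  refine Submodule.span_mono (Set.image_mono ?_)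
  intro p hp
  exact le_trans hp h

lemma polyLE_neg {m : ℤ} (h : m < 0) : polyLE k u v m = ⊥ := by
  rw [polyLE_eq]
  have : degSet m = ∅ := by
    ext p
    simp only [degSet, Set.mem_ofPred_eq, Set.mem_empty_iff_false, iff_false]
    omega
  rw [this]
  simp

/-- shift of exponents -/
noncomputable def sh (q : ℕ × ℕ) : (ℕ × ℕ →₀ k) →ₗ[k] (ℕ × ℕ →₀ k) :=
  Finsupp.lmapDomain k k (fun p => p + q)

lemma linComb_sh (q : ℕ × ℕ) (c : ℕ × ℕ →₀ k) :
    Finsupp.linearCombination k (mono2 u v) (sh q c) =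
      mono2 u v q * Finsupp.linearCombination k (mono2 u v) c := by
  induction c using Finsupp.induction_linear with
  | zero => simp
  | add f g hf hg => rw [map_add, map_add, hf, hg, map_add, mul_add]
  | single p a =>
    simp only [sh, Finsupp.lmapDomain_apply, Finsupp.mapDomain_single,
      Finsupp.linearCombination_single]
    simp only [mono2, Prod.fst_add, Prod.snd_add, pow_add, Algebra.smul_def]
    ring

lemma sh_supported {q : ℕ × ℕ} {m : ℤ} {c : ℕ × ℕ →₀ k}
    (hc : c ∈ Finsupp.supported k k (degSet m)) :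
    sh q c ∈ Finsupp.supported k k (degSet (m + (q.1 + q.2))) := by
  rw [Finsupp.mem_supported] at hc ⊢
  intro p hp
  have hp' : p ∈ (Finsupp.mapDomain (fun p => p + q) c).support := hp
  have := Finsupp.mapDomain_support hp'
  rw [Finset.mem_image] at this
  obtain ⟨p', hpp, rfl⟩ := this
  have := hc hpp
  simp only [degSet, Set.mem_ofPred_eq, Prod.fst_add, Prod.snd_add, Nat.cast_add] at this ⊢
  omega

lemma sh_apply_add (q : ℕ × ℕ) (c : ℕ × ℕ →₀ k) (p : ℕ × ℕ) : sh q c (p + q) = c p := by
  have hinj : Function.Injective (fun p : ℕ × ℕ => p + q) := fun a b h => by simpa using h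
  exact Finsupp.mapDomain_apply hinj c p

lemma mono2_mul_mem {m : ℤ} {x : K} (hx : x ∈ polyLE k u v m) (q : ℕ × ℕ) :
    mono2 u v q * x ∈ polyLE k u v (m + (q.1 + q.2)) := by
  obtain ⟨c, hc, rfl⟩ := mem_polyLE_iff.1 hx
  exact mem_polyLE_iff.2 ⟨sh q c, sh_supported hc, linComb_sh q c⟩

lemma u_mul_mem {m : ℤ} {x : K} (hx : x ∈ polyLE k u v m) : u * x ∈ polyLE k u v (m + 1) := by
  have := mono2_mul_mem hx (1, 0)
  simpa [mono2] using this

lemma v_mul_mem {m : ℤ} {x : K} (hx : x ∈ polyLE k u v m) : v * x ∈ polyLE k u v (m + 1) := by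
  have := mono2_mul_mem hx (0, 1)
  simpa [mono2] using this

lemma mul_mem_polyLE {m m' : ℤ} {x y : K} (hx : x ∈ polyLE k u v m) (hy : y ∈ polyLE k u v m') :
    x * y ∈ polyLE k u v (m + m') := by
  rw [polyLE_eq] at hx
  induction hx using Submodule.span_induction with
  | mem x h =>
    obtain ⟨p, hp, rfl⟩ := h
    refine polyLE_mono ?_ (mono2_mul_mem hy p)
    have : ((p.1 : ℤ) + p.2) ≤ m := hp
    omega
  | zero => rw [zero_mul]; exact Submodule.zero_mem _
  | add x y _ _ hx hy => rw [add_mul]; exact Submodule.add_mem _ hx hy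
  | smul a x _ hx => rw [smul_mul_assoc]; exact Submodule.smul_mem _ _ hx

/-- degree reduction: an element of `A_m` is `c + u a + v b` -/
lemma polyLE_gen {m : ℤ} (hm : 0 ≤ m) {x : K} (hx : x ∈ polyLE k u v (m + 1)) :
    ∃ a ∈ polyLE k u v m, ∃ b ∈ polyLE k u v m, ∃ c ∈ polyLE k u v m,
      x = a + u * b + v * c := by
  rw [polyLE_eq] at hx
  induction hx using Submodule.span_induction with
  | mem x h =>
    obtain ⟨p, hp, rfl⟩ := h
    have hp' : ((p.1 : ℤ) + p.2) ≤ m + 1 := hp
    rcases p with ⟨i, j⟩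
    simp only at hp'
    rcases i with _ | i
    · rcases j with _ | j
      · exact ⟨_, mono2_mem (p := (0, 0)) (by simpa using hm), 0, Submodule.zero_mem _, 0,
          Submodule.zero_mem _, by simp⟩
      · refine ⟨0, Submodule.zero_mem _, 0, Submodule.zero_mem _, mono2 u v (0, j),
          mono2_mem (by simp only; push_cast at hp' ⊢; omega), ?_⟩
        simp only [mono2]; ring
    · refine ⟨0, Submodule.zero_mem _, mono2 u v (i, j),
          mono2_mem (by simp only; push_cast at hp' ⊢; omega), 0, Submodule.zero_mem _, ?_⟩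
      simp only [mono2]; ring
  | zero => exact ⟨0, Submodule.zero_mem _, 0, Submodule.zero_mem _, 0, Submodule.zero_mem _,
      by simp⟩
  | add x y _ _ hx hy =>
    obtain ⟨a, ha, b, hb, c, hc, rfl⟩ := hx
    obtain ⟨a', ha', b', hb', c', hc', rfl⟩ := hy
    exact ⟨a + a', Submodule.add_mem _ ha ha', b + b', Submodule.add_mem _ hb hb', c + c',
      Submodule.add_mem _ hc hc', by ring⟩
  | smul r x _ hx =>
    obtain ⟨a, ha, b, hb, c, hc, rfl⟩ := hx
    refine ⟨r • a, Submodule.smul_mem _ _ ha, r • b, Submodule.smul_mem _ _ hb, r • c,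
      Submodule.smul_mem _ _ hc, ?_⟩
    simp only [Algebra.smul_def]; ring

/-- the finite index set -/
def degFin (m : ℤ) : Finset (ℕ × ℕ) :=
  if m < 0 then ∅ else (Finset.range (m.toNat + 1)).biUnion
    (fun s => Finset.HasAntidiagonal.antidiagonal s)

lemma mem_degFin {m : ℤ} {p : ℕ × ℕ} : p ∈ degFin m ↔ p ∈ degSet m := by
  unfold degFin degSet
  split_ifs with h
  · simp only [Finset.notMem_empty, Set.mem_ofPred_eq, false_iff]
    omega
  · simp only [Finset.mem_biUnion, Finset.mem_range, Finset.HasAntidiagonal.mem_antidiagonal, Set.mem_ofPred_eq]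
    constructor
    · rintro ⟨s, hs, h2⟩
      omega
    · intro h2
      exact ⟨p.1 + p.2, by omega, rfl⟩

lemma card_degFin (m : ℤ) : (degFin m).card = dimA m := by
  unfold degFin dimA
  split_ifs with h
  · simp only [Finset.card_empty]
    have : (m + 1).toNat = 0 := by omega
    rw [this]; simp
  · rw [Finset.card_biUnion]
    · simp only [Finset.Nat.card_antidiagonal]
      obtain ⟨n, rfl⟩ : ∃ n : ℕ, m = n := ⟨m.toNat, by omega⟩
      have h1 : ((n : ℤ) + 1).toNat = n + 1 := by omega
      have h2 : ((n : ℤ) + 2).toNat = n + 2 := by omega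
      rw [h1, h2, Int.toNat_natCast]
      have h3 : ∑ x ∈ Finset.range (n + 1), (x + 1) = ∑ x ∈ Finset.range (n + 2), x := by
        rw [Finset.sum_range_succ' (fun x => x) (n + 1)]
        simp
      rw [h3, Finset.sum_range_id]
      congr 1
      rw [mul_comm]
      simp
    · intro x _ y _ hxy
      rw [Function.onFun, Finset.disjoint_left]
      intro p hp hp'
      rw [Finset.HasAntidiagonal.mem_antidiagonal] at hp hp'
      omega

lemma degSet_eq_coe (m : ℤ) : degSet m = (degFin m : Set (ℕ × ℕ)) := by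
  ext p; rw [Finset.mem_coe, mem_degFin]

instance polyLE_finite (m : ℤ) : Module.Finite k (polyLE k u v m) := by
  rw [polyLE_eq, degSet_eq_coe]
  exact Module.Finite.span_of_finite k ((Finset.finite_toSet _).image _)

/-- monomials are independent -/
def MonoIndep (k : Type) {K : Type} [Field k] [Field K] [Algebra k K] (u v : K) : Prop :=
  LinearIndependent k (mono2 u v)

lemma finrank_polyLE (h : MonoIndep k u v) (m : ℤ) :
    finrank k (polyLE k u v m) = dimA m := by
  classical
  rw [polyLE_eq, degSet_eq_coe, ← card_degFin]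
  have h2 : LinearIndependent k (fun p : (degFin m : Set (ℕ × ℕ)) => mono2 u v p) :=
    h.comp _ Subtype.val_injective
  have h3 := finrank_span_eq_card (R := k) h2
  rw [Set.image_eq_range]
  rw [h3]
  simp

lemma linComb_inj (h : MonoIndep k u v) :
    Function.Injective (Finsupp.linearCombination k (mono2 u v)) := h

/-- (Hu) for polynomials -/
lemma polyLE_Hu (h : MonoIndep k u v) {m : ℤ} {x : K}
    (hx : x ∈ polyLE k u v m) (hux : u * x ∈ polyLE k u v m) : x ∈ polyLE k u v (m - 1) := by
  obtain ⟨c, hc, rfl⟩ := mem_polyLE_iff.1 hx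
  obtain ⟨d, hd, hd2⟩ := mem_polyLE_iff.1 hux
  have h1 : u = mono2 u v (1, 0) := by simp [mono2]
  have h2 : Finsupp.linearCombination k (mono2 u v) d =
      Finsupp.linearCombination k (mono2 u v) (sh (1, 0) c) := by
    rw [linComb_sh, hd2, ← h1]
  have h3 := linComb_inj h h2
  refine mem_polyLE_iff.2 ⟨c, ?_, rfl⟩
  rw [Finsupp.mem_supported]
  intro p hp
  have h4 : sh (1, 0) c (p + (1, 0)) ≠ 0 := by
    rw [sh_apply_add]; exact Finsupp.mem_support_iff.1 hp
  rw [← h3] at h4
  have h5 := (Finsupp.mem_supported _ _).1 hd (Finsupp.mem_support_iff.2 h4)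
  simp only [degSet, Set.mem_ofPred_eq, Prod.fst_add, Prod.snd_add, Nat.cast_add] at h5 ⊢
  push_cast at h5
  omega

/-- (Hv) for polynomials -/
lemma polyLE_Hv (h : MonoIndep k u v) {m : ℤ} {x : K}
    (hx : x ∈ polyLE k u v m) (hvx : ∃ a ∈ polyLE k u v m, ∃ b ∈ polyLE k u v m,
      v * x = a + u * b) :
    ∃ a ∈ polyLE k u v (m - 1), ∃ b ∈ polyLE k u v (m - 1), x = a + u * b := by
  obtain ⟨c, hc, rfl⟩ := mem_polyLE_iff.1 hx
  obtain ⟨_, ha, _, hb, hab⟩ := hvx
  obtain ⟨d, hd, rfl⟩ := mem_polyLE_iff.1 ha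
  obtain ⟨e, he, rfl⟩ := mem_polyLE_iff.1 hb
  have h1 : u = mono2 u v (1, 0) := by simp [mono2]
  have h1' : v = mono2 u v (0, 1) := by simp [mono2]
  have h2 : Finsupp.linearCombination k (mono2 u v) (sh (0, 1) c) =
      Finsupp.linearCombination k (mono2 u v) (d + sh (1, 0) e) := by
    rw [linComb_sh, map_add, linComb_sh, ← h1, ← h1', hab]
  have h3 := linComb_inj h h2
  -- coefficient of `v^m` in `x` vanishes
  have key : ∀ p ∈ c.support, ((p.1 : ℤ) + p.2 ≤ m - 1) ∨ 1 ≤ p.1 := by
    intro p hp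
    by_contra hcon
    push Not at hcon
    obtain ⟨hc1, hc2⟩ := hcon
    have hc3 : p.1 = 0 := by omega
    have hm : (p.2 : ℤ) = m := by
      have := (Finsupp.mem_supported _ _).1 hc hp
      simp only [degSet, Set.mem_ofPred_eq] at this
      omega
    have h4 : sh (0, 1) c (p + (0, 1)) ≠ 0 := by
      rw [sh_apply_add]; exact Finsupp.mem_support_iff.1 hp
    rw [h3, Finsupp.add_apply] at h4
    apply h4
    have h5 : d (p + (0, 1)) = 0 := by
      by_contra h6
      have := (Finsupp.mem_supported _ _).1 hd (Finsupp.mem_support_iff.2 h6)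
      simp only [degSet, Set.mem_ofPred_eq, Prod.fst_add, Prod.snd_add, Nat.cast_add] at this
      push_cast at this
      omega
    have h6 : sh (1, 0) e (p + (0, 1)) = 0 := by
      have : p + (0, 1) ∉ Set.range (fun q : ℕ × ℕ => q + (1, 0)) := by
        rintro ⟨q, hq⟩
        have := congrArg Prod.fst hq
        simp only [Prod.fst_add] at this
        omega
      exact Finsupp.mapDomain_of_notMem_range e _ this
    rw [h5, h6, add_zero]
  -- decompose
  have : ∀ c : ℕ × ℕ →₀ k, c ∈ Finsupp.supported k k (degSet m) →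
      (∀ p ∈ c.support, ((p.1 : ℤ) + p.2 ≤ m - 1) ∨ 1 ≤ p.1) →
      ∃ a ∈ polyLE k u v (m - 1), ∃ b ∈ polyLE k u v (m - 1),
        Finsupp.linearCombination k (mono2 u v) c = a + u * b := by
    intro c hc hk
    rw [Finsupp.linearCombination_apply, Finsupp.sum]
    refine Finset.sum_induction _ (fun x => ∃ a ∈ polyLE k u v (m - 1),
      ∃ b ∈ polyLE k u v (m - 1), x = a + u * b) ?_ ?_ ?_
    · rintro x y ⟨a, ha, b, hb, rfl⟩ ⟨a', ha', b', hb', rfl⟩
      exact ⟨a + a', Submodule.add_mem _ ha ha', b + b', Submodule.add_mem _ hb hb', by ring⟩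
    · exact ⟨0, Submodule.zero_mem _, 0, Submodule.zero_mem _, by simp⟩
    · intro p hp
      have hpm := (Finsupp.mem_supported _ _).1 hc hp
      simp only [degSet, Set.mem_ofPred_eq] at hpm
      rcases hk p hp with h6 | h6
      · exact ⟨c p • mono2 u v p, Submodule.smul_mem _ _ (mono2_mem h6), 0,
          Submodule.zero_mem _, by simp⟩
      · rcases p with ⟨i, j⟩
        rcases i with _ | i
        · simp at h6
        · refine ⟨0, Submodule.zero_mem _, c (i + 1, j) • mono2 u v (i, j),
            Submodule.smul_mem _ _ (mono2_mem ?_), ?_⟩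
          · simp only at hpm ⊢
            push_cast at hpm
            omega
          · simp only [mono2, Algebra.smul_def]; ring
  exact this c hc key

end Field

end Crest.Agent.R169.P3
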