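import Crest.Agent.R169.P3a

/-!
# Row 169, P2/P3, part b: third differences and homogeneous generators
(helper272)
-/

set_option autoImplicit false
set_option linter.unusedSectionVars false

namespace Crest.Agent.R169.P3

open Module

section Gen

variable {k K V : Type} [Field k] [Field K] [Algebra k K] [AddCommGroup V] [Module k V]
  [Module K V] [IsScalarTower k K V]

/-- multiplication by `a` on subspaces -/
def sm (a : K) (E : Submodule k V) : Submodule k V := E.map (Algebra.lsmul k k V a)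

lemma mem_sm {a : K} {E : Submodule k V} {x : V} : x ∈ sm a E ↔ ∃ y ∈ E, a • y = x := by
  simp [sm, Submodule.mem_map]

lemma sm_finrank {a : K} (ha : a ≠ 0) (E : Submodule k V) : finrank k (sm a E) = finrank k E := by
  have hinj : Function.Injective (Algebra.lsmul k k V a) := by
    intro x y h
    exact smul_right_injective V ha h
  exact (Submodule.equivMapOfInjective (Algebra.lsmul k k V a) hinj E).finrank_eq.symm

instance sm_finite (a : K) (E : Submodule k V) [Module.Finite k E] : Module.Finite k (sm a E) := by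
  unfold sm; infer_instance

/-- (Hu): `u` is injective on `gr E`. -/
def Hu (u : K) (E : ℤ → Submodule k V) : Prop :=
  ∀ m, ∀ x ∈ E m, u • x ∈ E m → x ∈ E (m - 1)

/-- (Hv): `v` is injective on `gr E / u gr E`. -/
def Hv (u v : K) (E : ℤ → Submodule k V) : Prop :=
  ∀ m, ∀ x ∈ E m, (∃ a ∈ E m, ∃ b ∈ E m, v • x = a + u • b) →
    ∃ a ∈ E (m - 1), ∃ b ∈ E (m - 1), x = a + u • b

/-- `S_m = E_m + u E_m` -/
def SS (u : K) (E : ℤ → Submodule k V) (m : ℤ) : Submodule k V := E m ⊔ sm u (E m)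

/-- `N_m = E_{m-1} + u E_{m-1} + v E_{m-1}` -/
def NN (u v : K) (E : ℤ → Submodule k V) (m : ℤ) : Submodule k V :=
  SS u E (m - 1) ⊔ sm v (E (m - 1))

lemma mem_SS {u : K} {E : ℤ → Submodule k V} {m : ℤ} {x : V} :
    x ∈ SS u E m ↔ ∃ a ∈ E m, ∃ b ∈ E m, x = a + u • b := by
  unfold SS
  rw [Submodule.mem_sup]
  constructor
  · rintro ⟨a, ha, y, hy, rfl⟩
    obtain ⟨b, hb, rfl⟩ := mem_sm.1 hy
    exact ⟨a, ha, b, hb, rfl⟩
  · rintro ⟨a, ha, b, hb, rfl⟩
    exact ⟨a, ha, u • b, mem_sm.2 ⟨b, hb, rfl⟩, rfl⟩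

lemma mem_NN {u v : K} {E : ℤ → Submodule k V} {m : ℤ} {x : V} :
    x ∈ NN u v E m ↔ ∃ a ∈ E (m - 1), ∃ b ∈ E (m - 1), ∃ c ∈ E (m - 1),
      x = a + u • b + v • c := by
  unfold NN
  rw [Submodule.mem_sup]
  constructor
  · rintro ⟨y, hy, z, hz, rfl⟩
    obtain ⟨a, ha, b, hb, rfl⟩ := mem_SS.1 hy
    obtain ⟨c, hc, rfl⟩ := mem_sm.1 hz
    exact ⟨a, ha, b, hb, c, hc, rfl⟩
  · rintro ⟨a, ha, b, hb, c, hc, rfl⟩
    exact ⟨a + u • b, mem_SS.2 ⟨a, ha, b, hb, rfl⟩, v • c, mem_sm.2 ⟨c, hc, rfl⟩, rfl⟩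

instance SS_finite (u : K) (E : ℤ → Submodule k V) [∀ m, Module.Finite k (E m)] (m : ℤ) :
    Module.Finite k (SS u E m) := by unfold SS; infer_instance

instance NN_finite (u v : K) (E : ℤ → Submodule k V) [∀ m, Module.Finite k (E m)] (m : ℤ) :
    Module.Finite k (NN u v E m) := by unfold NN; infer_instance

lemma NN_le {u v : K} {E : ℤ → Submodule k V} (hE : IsFam u v E) (m : ℤ) :
    NN u v E m ≤ E m := by
  intro x hx
  obtain ⟨a, ha, b, hb, c, hc, rfl⟩ := mem_NN.1 hx
  have h1 := hE.mono (m - 1) ha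
  have h2 := hE.umul (m - 1) b hb
  have h3 := hE.vmul (m - 1) c hc
  rw [sub_add_cancel] at h1 h2 h3
  exact Submodule.add_mem _ (Submodule.add_mem _ h1 h2) h3

lemma mono_le {u v : K} {E : ℤ → Submodule k V} (hE : IsFam u v E) {m m' : ℤ} (h : m ≤ m') :
    E m ≤ E m' := by
  obtain ⟨n, rfl⟩ := Int.le.dest h
  induction n with
  | zero => simp
  | succ n ih =>
    refine le_trans (ih (by omega)) ?_
    have := hE.mono (m + n)
    push_cast
    rwa [← add_assoc]

lemma poly_smul_mem {u v : K} {E : ℤ → Submodule k V} (hE : IsFam u v E) {i m : ℤ} {a : K}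
    {x : V} (ha : a ∈ polyLE k u v i) (hx : x ∈ E m) : a • x ∈ E (i + m) := by
  rw [polyLE_eq] at ha
  induction ha using Submodule.span_induction with
  | mem a h =>
    obtain ⟨p, hp, rfl⟩ := h
    have hp' : ((p.1 : ℤ) + p.2) ≤ i := hp
    have h1 : ∀ j : ℕ, v ^ j • x ∈ E (j + m) := by
      intro j
      induction j with
      | zero => simpa using hx
      | succ j ih =>
        have := hE.vmul _ _ ih
        rw [smul_smul, ← pow_succ'] at this
        convert this using 1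
        push_cast; ring_nf
    have h2 : ∀ j : ℕ, u ^ j • (v ^ p.2 • x) ∈ E (j + p.2 + m) := by
      intro j
      induction j with
      | zero => simpa using h1 p.2
      | succ j ih =>
        have := hE.umul _ _ ih
        rw [smul_smul, ← pow_succ'] at this
        convert this using 1
        push_cast; ring_nf
    have h3 := h2 p.1
    rw [smul_smul] at h3
    exact mono_le hE (by omega) h3
  | zero => rw [zero_smul]; exact Submodule.zero_mem _
  | add x y _ _ hx hy => rw [add_smul]; exact Submodule.add_mem _ hx hy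
  | smul a x _ hx => rw [smul_assoc]; exact Submodule.smul_mem _ _ hx

lemma finrank_SS {u v : K} (hu : u ≠ 0) {E : ℤ → Submodule k V} (hE : IsFam u v E)
    [∀ m, Module.Finite k (E m)] (hHu : Hu u E) (m : ℤ) :
    finrank k (SS u E m) + finrank k (E (m - 1)) = 2 * finrank k (E m) := by
  have h1 := Submodule.finrank_sup_add_finrank_inf_eq (E m) (sm u (E m))
  have h2 : E m ⊓ sm u (E m) = sm u (E (m - 1)) := by
    apply le_antisymm
    · rintro x ⟨hx1, hx2⟩
      obtain ⟨y, hy, rfl⟩ := mem_sm.1 hx2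
      exact mem_sm.2 ⟨y, hHu m y hy hx1, rfl⟩
    · intro x hx
      obtain ⟨y, hy, rfl⟩ := mem_sm.1 hx
      have h3 := hE.umul _ _ hy
      have h4 := hE.mono _ hy
      rw [sub_add_cancel] at h3 h4
      exact ⟨h3, mem_sm.2 ⟨y, h4, rfl⟩⟩
  rw [h2, sm_finrank hu, sm_finrank hu] at h1
  unfold SS
  omega

lemma finrank_NN {u v : K} (hu : u ≠ 0) (hv : v ≠ 0) {E : ℤ → Submodule k V}
    (hE : IsFam u v E) [∀ m, Module.Finite k (E m)] (hHu : Hu u E) (hHv : Hv u v E) (m : ℤ) :
    finrank k (NN u v E (m + 1)) + 3 * finrank k (E (m - 1)) =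
      3 * finrank k (E m) + finrank k (E (m - 2)) := by
  have h1 := Submodule.finrank_sup_add_finrank_inf_eq (SS u E m) (sm v (E m))
  have h2 : SS u E m ⊓ sm v (E m) = sm v (SS u E (m - 1)) := by
    apply le_antisymm
    · rintro x ⟨hx1, hx2⟩
      obtain ⟨y, hy, rfl⟩ := mem_sm.1 hx2
      exact mem_sm.2 ⟨y, mem_SS.2 (hHv m y hy (mem_SS.1 hx1)), rfl⟩
    · intro x hx
      obtain ⟨y, hy, rfl⟩ := mem_sm.1 hx
      obtain ⟨a, ha, b, hb, rfl⟩ := mem_SS.1 hy
      have h3 := hE.vmul _ _ ha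
      have h4 := hE.vmul _ _ hb
      have h5 := hE.umul _ _ hb
      have h6 := hE.mono _ ha
      rw [sub_add_cancel] at h3 h4 h5 h6
      refine ⟨mem_SS.2 ⟨v • a, h3, v • b, h4, ?_⟩, mem_sm.2 ⟨a + u • b,
        Submodule.add_mem _ h6 h5, rfl⟩⟩
      rw [smul_add, smul_comm v u]
  rw [h2, sm_finrank hv, sm_finrank hv] at h1
  have h3 := finrank_SS hu hE hHu m
  have h4 := finrank_SS hu hE hHu (m - 1)
  have h5 : m - 1 - 1 = m - 2 := by ring
  rw [h5] at h4
  have h6 : NN u v E (m + 1) = SS u E m ⊔ sm v (E m) := by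
    unfold NN
    rw [add_sub_cancel_right]
  rw [h6]
  omega

/-- without `Hv`: an inequality -/
lemma finrank_NN_le {u v : K} (hu : u ≠ 0) (hv : v ≠ 0) {E : ℤ → Submodule k V}
    (hE : IsFam u v E) [∀ m, Module.Finite k (E m)] (hHu : Hu u E) (m : ℤ) :
    finrank k (NN u v E (m + 1)) + 3 * finrank k (E (m - 1)) ≤
      3 * finrank k (E m) + finrank k (E (m - 2)) := by
  have h1 := Submodule.finrank_sup_add_finrank_inf_eq (SS u E m) (sm v (E m))
  have h2 : sm v (SS u E (m - 1)) ≤ SS u E m ⊓ sm v (E m) := by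
    intro x hx
    obtain ⟨y, hy, rfl⟩ := mem_sm.1 hx
    obtain ⟨a, ha, b, hb, rfl⟩ := mem_SS.1 hy
    have h3 := hE.vmul _ _ ha
    have h4 := hE.vmul _ _ hb
    have h5 := hE.umul _ _ hb
    have h6 := hE.mono _ ha
    rw [sub_add_cancel] at h3 h4 h5 h6
    refine ⟨mem_SS.2 ⟨v • a, h3, v • b, h4, ?_⟩, mem_sm.2 ⟨a + u • b,
      Submodule.add_mem _ h6 h5, rfl⟩⟩
    rw [smul_add, smul_comm v u]
  have h2' := Submodule.finrank_mono h2
  rw [sm_finrank hv] at h1 h2'
  have h3 := finrank_SS hu hE hHu m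
  have h4 := finrank_SS hu hE hHu (m - 1)
  have h5 : m - 1 - 1 = m - 2 := by ring
  rw [h5] at h4
  have h6 : NN u v E (m + 1) = SS u E m ⊔ sm v (E m) := by
    unfold NN
    rw [add_sub_cancel_right]
  rw [h6]
  omega

/-- number of generators in degree `m` -/
noncomputable def cc (u v : K) (E : ℤ → Submodule k V) (m : ℤ) : ℕ :=
  finrank k (E m) - finrank k (NN u v E m)

lemma cc_add {u v : K} {E : ℤ → Submodule k V} (hE : IsFam u v E)
    [∀ m, Module.Finite k (E m)] (m : ℤ) :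
    cc u v E m + finrank k (NN u v E m) = finrank k (E m) := by
  have := Submodule.finrank_mono (NN_le hE m)
  unfold cc
  omega

/-- complement to `N_m` in `E_m` -/
lemma exists_gens {u v : K} {E : ℤ → Submodule k V} (hE : IsFam u v E)
    [∀ m, Module.Finite k (E m)] (m : ℤ) :
    ∃ g : Fin (cc u v E m) → V, (∀ i, g i ∈ E m) ∧
      ∀ x ∈ E m, ∃ y ∈ NN u v E m, ∃ c : Fin (cc u v E m) → k, x = y + ∑ i, c i • g i := by
  set N' := (NN u v E m).submoduleOf (E m) with hN'
  have h1 : finrank k N' = finrank k (NN u v E m) :=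
    (Submodule.submoduleOfEquivOfLe (NN_le hE m)).finrank_eq
  have h2 := Submodule.finrank_quotient_add_finrank N'
  have h3 := cc_add hE m
  have h4 : finrank k (E m ⧸ N') = cc u v E m := by omega
  let b := Module.finBasisOfFinrankEq k (E m ⧸ N') h4
  refine ⟨fun i => ((Quotient.out (b i) : E m) : V), fun i => (Quotient.out (b i)).2, ?_⟩
  intro x hx
  set c := b.repr (N'.mkQ ⟨x, hx⟩) with hc
  refine ⟨x - ∑ i, c i • ((Quotient.out (b i) : E m) : V), ?_, c, by simp⟩
  have h5 : N'.mkQ (⟨x, hx⟩ - ∑ i, c i • (Quotient.out (b i) : E m)) = 0 := by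
    rw [map_sub, map_sum]
    have : ∀ i, N'.mkQ (c i • (Quotient.out (b i) : E m)) = c i • b i := by
      intro i
      rw [map_smul]
      congr 1
      exact Quotient.out_eq (b i)
    simp_rw [this]
    rw [hc, b.sum_repr, sub_self]
  rw [Submodule.mkQ_apply, Submodule.Quotient.mk_eq_zero] at h5
  have h6 : ((⟨x, hx⟩ - ∑ i, c i • (Quotient.out (b i) : E m) : E m) : V) ∈ NN u v E m := h5
  simpa using h6

end Gen

end Crest.Agent.R169.P3
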