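import Crest.Agent.R169.P3b

/-!
# Row 169, P2/P3, part c: homogeneous generators, dimension count
(helper272)
-/

set_option autoImplicit false
set_option linter.unusedSectionVars false

namespace Crest.Agent.R169.P3

open Module

lemma two_dimA {m : ℤ} (hm : -2 ≤ m) : 2 * (dimA m : ℤ) = (m + 1) * (m + 2) := by
  rcases lt_or_ge m (-1) with h | h
  · have : m = -2 := by omega
    subst this
    simp [dimA]
  · obtain ⟨n, hn⟩ : ∃ n : ℕ, m + 1 = n := ⟨(m + 1).toNat, by omega⟩
    have h1 : (m + 1).toNat = n := by omega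
    have h2 : (m + 2).toNat = n + 1 := by omega
    have h3 : (m + 2) = (n : ℤ) + 1 := by omega
    unfold dimA
    rw [h1, h2, h3, hn]
    have h4 : 2 ∣ n * (n + 1) := (Nat.even_mul_succ_self n).two_dvd
    have h5 := Nat.mul_div_cancel' h4
    exact_mod_cast h5

lemma dimA_neg {m : ℤ} (hm : m < 0) : dimA m = 0 := by
  have : (m + 1).toNat = 0 := by omega
  simp [dimA, this]

/-- third difference of `dimA` -/
lemma dimA_third (m : ℤ) : (dimA (m + 1) : ℤ) - 3 * dimA m + 3 * dimA (m - 1) - dimA (m - 2) =
    if m + 1 = 0 then 1 else 0 := by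
  split_ifs with h
  · have : m = -1 := by omega
    subst this
    simp [dimA]
  · rcases lt_or_ge (m + 1) 0 with h1 | h1
    · rw [dimA_neg h1, dimA_neg (by omega : m < 0), dimA_neg (by omega : m - 1 < 0),
        dimA_neg (by omega : m - 2 < 0)]
      simp
    · have e1 := two_dimA (by omega : -2 ≤ m + 1)
      have e2 := two_dimA (by omega : -2 ≤ m)
      have e3 := two_dimA (by omega : -2 ≤ m - 1)
      have e4 := two_dimA (by omega : -2 ≤ m - 2)
      have : 2 * ((dimA (m + 1) : ℤ) - 3 * dimA m + 3 * dimA (m - 1) - dimA (m - 2)) = 0 := by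
        linear_combination e1 - 3 * e2 + 3 * e3 - e4
      omega

section Gen

variable {k K V : Type} [Field k] [Field K] [Algebra k K] [AddCommGroup V] [Module k V]
  [Module K V] [IsScalarTower k K V]

/-- a sequence `ℤ → ℤ` with vanishing third difference and zero for `m ≪ 0` is zero -/
lemma third_zero {D : ℤ → ℤ} {m₀ : ℤ} (h0 : ∀ m ≤ m₀, D m = 0)
    (h : ∀ m, D (m + 1) - 3 * D m + 3 * D (m - 1) - D (m - 2) = 0) (m : ℤ) : D m = 0 := by
  have key : ∀ n : ℕ, D (m₀ + n) = 0 := by
    intro n
    induction n using Nat.strong_induction_on with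
    | _ n ih =>
      rcases n with _ | n
      · exact h0 _ (by simp)
      · have h1 := h (m₀ + n)
        have e1 : D (m₀ + n) = 0 := ih n (by omega)
        have e2 : D (m₀ + n - 1) = 0 := by
          rcases n with _ | n
          · exact h0 _ (by simp)
          · have := ih n (by omega)
            convert this using 2
            push_cast; ring
        have e3 : D (m₀ + n - 2) = 0 := by
          rcases n with _ | n
          · exact h0 _ (by simp)
          · rcases n with _ | n
            · exact h0 _ (by push_cast; omega)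
            · have := ih n (by omega)
              convert this using 2
              push_cast; ring
        rw [e1, e2, e3] at h1
        have : D (m₀ + n + 1) = 0 := by linarith
        convert this using 2
        push_cast; ring
  rcases le_total m m₀ with h1 | h1
  · exact h0 m h1
  · obtain ⟨n, rfl⟩ := Int.le.dest h1
    exact key n

/-- A finite homogeneous generating system: `n` generators `f j ∈ E (δ j)`,
`cc m` of them in degree `m`. -/
lemma exists_generators {u v : K} {E : ℤ → Submodule k V} (hE : IsFam u v E)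
    [∀ m, Module.Finite k (E m)] (m₀ m₁ : ℤ) (h0 : ∀ m ≤ m₀, E m = ⊥)
    (h1 : ∀ m > m₁, cc u v E m = 0) :
    ∃ (n : ℕ) (δ : Fin n → ℤ) (f : Fin n → V), (∀ j, f j ∈ E (δ j)) ∧
      (∀ φ : ℤ → ℤ, ∑ j, φ (δ j) = ∑ d ∈ Finset.Ioc m₀ m₁, (cc u v E d : ℤ) * φ d) ∧
      ∀ m, ∀ x ∈ E m, ∃ q : Fin n → K, (∀ j, q j ∈ polyLE k u v (m - δ j)) ∧
        x = ∑ j, q j • f j := by
  classical
  choose g hg hg2 using fun m => exists_gens hE m
  let J := Σ d : Finset.Ioc m₀ m₁, Fin (cc u v E d)
  let e : J ≃ Fin (Fintype.card J) := Fintype.equivFin J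
  refine ⟨Fintype.card J, fun j => (e.symm j).1, fun j => g (e.symm j).1 (e.symm j).2,
    fun j => hg _ _, ?_, ?_⟩
  · intro φ
    rw [Equiv.sum_comp e.symm (fun j : J => φ j.1)]
    rw [Fintype.sum_sigma]
    simp only [Finset.sum_const, Finset.card_univ, Fintype.card_fin, nsmul_eq_mul]
    exact Finset.sum_coe_sort (Finset.Ioc m₀ m₁) (fun d => (cc u v E d : ℤ) * φ d)
  · suffices H : ∀ n : ℕ, ∀ x ∈ E (m₀ + n), ∃ q : J → K,
        (∀ j, q j ∈ polyLE k u v (m₀ + n - j.1)) ∧ x = ∑ j, q j • g j.1 j.2 by
      intro m x hx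
      rcases le_total m m₀ with h2 | h2
      · rw [h0 m h2, Submodule.mem_bot] at hx
        exact ⟨0, fun j => Submodule.zero_mem _, by simp [hx]⟩
      · obtain ⟨n, rfl⟩ := Int.le.dest h2
        obtain ⟨q, hq, hq2⟩ := H n x hx
        refine ⟨fun j => q (e.symm j), fun j => hq _, ?_⟩
        rw [hq2, Equiv.sum_comp e.symm (fun j : J => q j • g j.1 j.2)]
    -- the top part
    have top : ∀ M > m₀, ∀ c : Fin (cc u v E M) → k, ∃ q : J → K,
        (∀ j, q j ∈ polyLE k u v (M - j.1)) ∧ ∑ i, c i • g M i = ∑ j, q j • g j.1 j.2 := by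
      intro M hM0 c
      by_cases hMm : M ∈ Finset.Ioc m₀ m₁
      · refine ⟨fun j => if h : (j.1 : ℤ) = M then
            algebraMap k K (c (Fin.cast (congrArg (cc u v E) h) j.2)) else 0, ?_, ?_⟩
        · intro j
          simp only
          split_ifs with h
          · rw [Algebra.algebraMap_eq_smul_one]
            refine Submodule.smul_mem _ _ (one_mem_polyLE ?_)
            rw [h]; simp
          · exact Submodule.zero_mem _
        · rw [Fintype.sum_sigma]
          rw [Finset.sum_eq_single (⟨M, hMm⟩ : Finset.Ioc m₀ m₁)]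
          · refine Finset.sum_congr rfl fun i _ => ?_
            simp only [dite_true, algebraMap_smul, Fin.cast_refl, id]
          · intro d _ hd
            refine Finset.sum_eq_zero fun i _ => ?_
            have : ¬ ((d : ℤ) = M) := fun h => hd (Subtype.ext h)
            simp only [dif_neg this, zero_smul]
          · intro h; exact absurd (Finset.mem_univ _) h
      · have hM1 : M > m₁ := by
          rw [Finset.mem_Ioc] at hMm
          push Not at hMm
          exact hMm hM0
        have hM2 := h1 M hM1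
        refine ⟨0, fun j => Submodule.zero_mem _, ?_⟩
        have : IsEmpty (Fin (cc u v E M)) := by rw [hM2]; infer_instance
        simp
    intro n
    induction n with
    | zero =>
      intro x hx
      rw [h0 _ (by simp), Submodule.mem_bot] at hx
      exact ⟨0, fun j => Submodule.zero_mem _, by simp [hx]⟩
    | succ n ih =>
      intro x hx
      obtain ⟨y, hy, c, hyc⟩ := hg2 _ x hx
      obtain ⟨a, ha, b, hb, w, hw, rfl⟩ := mem_NN.1 hy
      have e1 : m₀ + ((n + 1 : ℕ) : ℤ) - 1 = m₀ + n := by push_cast; ring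
      rw [e1] at ha hb hw
      obtain ⟨qa, hqa, rfl⟩ := ih a ha
      obtain ⟨qb, hqb, rfl⟩ := ih b hb
      obtain ⟨qw, hqw, rfl⟩ := ih w hw
      obtain ⟨qt, hqt, hqt2⟩ := top (m₀ + ((n + 1 : ℕ) : ℤ)) (by push_cast; omega) c
      refine ⟨fun j => qa j + u * qb j + v * qw j + qt j, ?_, ?_⟩
      · intro j
        have e2 : m₀ + (n : ℤ) - (j.1 : ℤ) + 1 = m₀ + ((n + 1 : ℕ) : ℤ) - j.1 := by
          push_cast; ring
        refine Submodule.add_mem _ (Submodule.add_mem _ (Submodule.add_mem _
          (polyLE_mono ?_ (hqa j)) ?_) ?_) (hqt j)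
        · push_cast; omega
        · have := u_mul_mem (hqb j)
          rwa [e2] at this
        · have := v_mul_mem (hqw j)
          rwa [e2] at this
      · rw [hyc, hqt2]
        simp only [add_smul, mul_smul, Finset.sum_add_distrib, Finset.smul_sum]

/-- third difference identity `Δ³ dim E = cc` -/
lemma third_eq {u v : K} (hu : u ≠ 0) (hv : v ≠ 0) {E : ℤ → Submodule k V}
    (hE : IsFam u v E) [∀ m, Module.Finite k (E m)] (hHu : Hu u E) (hHv : Hv u v E) (m : ℤ) :
    (finrank k (E (m + 1)) : ℤ) - 3 * finrank k (E m) + 3 * finrank k (E (m - 1)) -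
      finrank k (E (m - 2)) = cc u v E (m + 1) := by
  have h1 := finrank_NN hu hv hE hHu hHv m
  have h2 := cc_add hE (m + 1)
  omega

/-- dimension formula for a family with both injectivity conditions -/
lemma dim_formula {u v : K} (hu : u ≠ 0) (hv : v ≠ 0) {E : ℤ → Submodule k V}
    (hE : IsFam u v E) [∀ m, Module.Finite k (E m)] (hHu : Hu u E) (hHv : Hv u v E)
    (m₀ m₁ : ℤ) (h0 : ∀ m ≤ m₀, E m = ⊥) (h1 : ∀ m > m₁, cc u v E m = 0) (m : ℤ) :
    (finrank k (E m) : ℤ) = ∑ d ∈ Finset.Ioc m₀ m₁, (cc u v E d : ℤ) * dimA (m - d) := by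
  have key := third_zero (D := fun m => (finrank k (E m) : ℤ) -
    ∑ d ∈ Finset.Ioc m₀ m₁, (cc u v E d : ℤ) * dimA (m - d)) (m₀ := m₀) ?_ ?_ m
  · simpa [sub_eq_zero] using key
  · intro m hm
    rw [h0 m hm]
    have : ∑ d ∈ Finset.Ioc m₀ m₁, (cc u v E d : ℤ) * dimA (m - d) = 0 := by
      refine Finset.sum_eq_zero fun d hd => ?_
      rw [Finset.mem_Ioc] at hd
      rw [dimA_neg (by omega)]
      simp
    rw [this]
    simp
  · intro m
    have h2 := third_eq hu hv hE hHu hHv m
    have h3 : ∑ d ∈ Finset.Ioc m₀ m₁, (cc u v E d : ℤ) * dimA (m + 1 - d) -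
        3 * ∑ d ∈ Finset.Ioc m₀ m₁, (cc u v E d : ℤ) * dimA (m - d) +
        3 * ∑ d ∈ Finset.Ioc m₀ m₁, (cc u v E d : ℤ) * dimA (m - 1 - d) -
        ∑ d ∈ Finset.Ioc m₀ m₁, (cc u v E d : ℤ) * dimA (m - 2 - d) = cc u v E (m + 1) := by
      rw [Finset.mul_sum, Finset.mul_sum, ← Finset.sum_sub_distrib, ← Finset.sum_add_distrib,
        ← Finset.sum_sub_distrib]
      have h4 : ∀ d ∈ Finset.Ioc m₀ m₁, ((cc u v E d : ℤ) * dimA (m + 1 - d) -
          3 * ((cc u v E d : ℤ) * dimA (m - d)) + 3 * ((cc u v E d : ℤ) * dimA (m - 1 - d)) -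
          (cc u v E d : ℤ) * dimA (m - 2 - d)) =
          if m + 1 = d then (cc u v E d : ℤ) else 0 := by
        intro d _
        have := dimA_third (m - d)
        have e1 : m - d + 1 = m + 1 - d := by ring
        have e2 : m - d - 1 = m - 1 - d := by ring
        have e3 : m - d - 2 = m - 2 - d := by ring
        rw [e1, e2, e3] at this
        have h5 : (m + 1 - d = 0) ↔ (m + 1 = d) := sub_eq_zero
        rw [if_congr h5 rfl rfl] at this
        split_ifs at this ⊢ with h6
        · linear_combination (cc u v E d : ℤ) * this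
        · linear_combination (cc u v E d : ℤ) * this
      rw [Finset.sum_congr rfl h4, Finset.sum_ite_eq]
      split_ifs with h5
      · rfl
      · rw [Finset.mem_Ioc] at h5
        push Not at h5
        rcases le_or_gt (m + 1) m₀ with h6 | h6
        · unfold cc
          rw [h0 _ h6]
          simp
        · rw [h1 _ (by have := h5 h6; omega)]
          simp
    linarith

end Gen

end Crest.Agent.R169.P3
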