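import Crest.Agent.R169.P3c

/-!
# Row 169, P2/P3, part d: the length one resolution under (Hu)
(helper272)
-/

set_option autoImplicit false
set_option linter.unusedSectionVars false
set_option linter.unusedVariables false

namespace Crest.Agent.R169.P3

open Module

section Free

variable {k K : Type} [Field k] [Field K] [Algebra k K] {u v : K}

lemma u_ne_zero (h : MonoIndep k u v) : u ≠ 0 := by
  have := h.ne_zero (1, 0)
  simpa [mono2] using this

lemma v_ne_zero (h : MonoIndep k u v) : v ≠ 0 := by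
  have := h.ne_zero (0, 1)
  simpa [mono2] using this

lemma mem_freeL {I : Type} {d : I → ℤ} {m : ℤ} {g : I → K} :
    g ∈ freeL k u v d m ↔ ∀ i, g i ∈ polyLE k u v (m - d i) := by
  simp [freeL, Submodule.mem_pi]

lemma freeL_isFam {I : Type} (d : I → ℤ) : IsFam (k := k) u v (freeL k u v d) where
  mono m := by
    intro g hg
    rw [mem_freeL] at hg ⊢
    exact fun i => polyLE_mono (by omega) (hg i)
  umul m g hg := by
    rw [mem_freeL] at hg ⊢
    intro i
    have := u_mul_mem (hg i)
    have e : m - d i + 1 = m + 1 - d i := by ring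
    rw [e] at this
    simpa using this
  vmul m g hg := by
    rw [mem_freeL] at hg ⊢
    intro i
    have := v_mul_mem (hg i)
    have e : m - d i + 1 = m + 1 - d i := by ring
    rw [e] at this
    simpa using this

/-- `freeL` as a product -/
noncomputable def freeLEquiv {I : Type} (d : I → ℤ) (m : ℤ) :
    freeL k u v d m ≃ₗ[k] (∀ i, polyLE k u v (m - d i)) where
  toFun g i := ⟨g.1 i, mem_freeL.1 g.2 i⟩
  invFun g := ⟨fun i => (g i : K), mem_freeL.2 fun i => (g i).2⟩
  left_inv g := rfl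
  right_inv g := rfl
  map_add' g h := rfl
  map_smul' c g := rfl

instance freeL_finite {I : Type} [Finite I] (d : I → ℤ) (m : ℤ) :
    Module.Finite k (freeL k u v d m) :=
  Module.Finite.equiv (freeLEquiv d m).symm

lemma finrank_freeL {I : Type} [Fintype I] (h : MonoIndep k u v) (d : I → ℤ) (m : ℤ) :
    finrank k (freeL k u v d m) = ∑ i, dimA (m - d i) := by
  rw [(freeLEquiv d m).finrank_eq, Module.finrank_pi_fintype]
  exact Finset.sum_congr rfl fun i _ => finrank_polyLE h _

lemma freeL_Hu {I : Type} (h : MonoIndep k u v) (d : I → ℤ) :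
    Hu (k := k) u (freeL k u v d) := by
  intro m g hg hug
  rw [mem_freeL] at hg hug ⊢
  intro i
  have := polyLE_Hu h (hg i) (by simpa using hug i)
  have e : m - d i - 1 = m - 1 - d i := by ring
  rwa [e] at this

lemma freeL_Hv {I : Type} (h : MonoIndep k u v) (d : I → ℤ) :
    Hv (k := k) u v (freeL k u v d) := by
  intro m g hg ⟨a, ha, b, hb, hab⟩
  rw [mem_freeL] at hg ha hb
  have key : ∀ i, ∃ a ∈ polyLE k u v (m - d i - 1), ∃ b ∈ polyLE k u v (m - d i - 1),
      g i = a + u * b := by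
    intro i
    refine polyLE_Hv h (hg i) ⟨a i, ha i, b i, hb i, ?_⟩
    have := congrFun hab i
    simpa using this
  choose a' ha' b' hb' hab' using key
  have e : ∀ i, m - d i - 1 = m - 1 - d i := fun i => by ring
  refine ⟨a', mem_freeL.2 fun i => by rw [← e]; exact ha' i, b',
    mem_freeL.2 fun i => by rw [← e]; exact hb' i, ?_⟩
  funext i
  simpa using hab' i

lemma freeL_bot {I : Type} {d : I → ℤ} {m₀ : ℤ} (h : ∀ i, m₀ < d i) {m : ℤ} (hm : m ≤ m₀) :
    freeL k u v d m = ⊥ := by
  rw [eq_bot_iff]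
  intro g hg
  rw [mem_freeL] at hg
  rw [Submodule.mem_bot]
  funext i
  have := hg i
  rw [polyLE_neg (by have := h i; omega)] at this
  simpa using this

end Free

section Core

variable {k K V : Type} [Field k] [Field K] [Algebra k K] [AddCommGroup V] [Module k V]
  [Module K V] [IsScalarTower k K V] {u v : K}

lemma isFam_of_isLat {E : ℤ → Submodule k V} (hE : IsLat u v E) : IsFam u v E :=
  ⟨hE.mono, hE.umul, hE.vmul⟩

lemma cc_zero_of_isLat {E : ℤ → Submodule k V} (hE : IsLat u v E) :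
    ∃ m₁ : ℤ, ∀ m > m₁, cc u v E m = 0 := by
  obtain ⟨m₁, h⟩ := hE.gen
  refine ⟨m₁, fun m hm => ?_⟩
  have := hE.fin
  have h2 : E m ≤ NN u v E m := by
    intro x hx
    have h3 := h (m - 1) (by omega) x (by rwa [sub_add_cancel])
    exact mem_NN.2 h3
  unfold cc
  have h4 := Submodule.finrank_mono h2
  omega

/-- kernel-image dimension count -/
lemma finrank_ker_map {W : Type} [AddCommGroup W] [Module k W] (π : W →ₗ[k] V)
    (L : Submodule k W) [Module.Finite k L] :
    finrank k (L ⊓ LinearMap.ker π : Submodule k W) + finrank k (L.map π) = finrank k L := by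
  have h1 := LinearMap.finrank_range_add_finrank_ker (π.domRestrict L)
  rw [LinearMap.range_domRestrict] at h1
  have h2 : LinearMap.ker (π.domRestrict L) = (L ⊓ LinearMap.ker π).submoduleOf L := by
    ext x
    simp [Submodule.submoduleOf]
  rw [h2, (Submodule.submoduleOfEquivOfLe
    (inf_le_left : L ⊓ LinearMap.ker π ≤ L)).finrank_eq] at h1
  omega

/-- every element of `K` is a fraction of polynomials -/
def HasFrac (k : Type) {K : Type} [Field k] [Field K] [Algebra k K] (u v : K) : Prop :=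
  ∀ q : K, ∃ m : ℤ, ∃ a ∈ polyLE k u v m, ∃ b ∈ polyLE k u v m, b ≠ 0 ∧ b * q = a

lemma common_denom (hf : HasFrac k u v) {n : ℕ} (q : Fin n → K) :
    ∃ b : K, b ≠ 0 ∧ ∃ m : ℤ, 0 ≤ m ∧ b ∈ polyLE k u v m ∧ ∀ i, b * q i ∈ polyLE k u v m := by
  induction n with
  | zero => exact ⟨1, one_ne_zero, 0, le_rfl, one_mem_polyLE le_rfl, fun i => i.elim0⟩
  | succ n ih =>
    obtain ⟨b, hb, m, hm, hbm, h⟩ := ih (fun i => q i.succ)
    obtain ⟨m', a, ha, b', hb', hb0, hba⟩ := hf (q 0)
    have hm' : 0 ≤ m' := by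
      by_contra hcon
      rw [polyLE_neg (by omega), Submodule.mem_bot] at hb'
      exact hb0 hb'
    refine ⟨b * b', mul_ne_zero hb hb0, m + m', by omega, mul_mem_polyLE hbm hb', ?_⟩
    intro i
    refine Fin.cases ?_ ?_ i
    · rw [mul_assoc, hba]
      exact mul_mem_polyLE hbm ha
    · intro i
      have : b * b' * q i.succ = (b * q i.succ) * b' := by ring
      rw [this]
      exact mul_mem_polyLE (h i) hb'

/-- the eventual vanishing of the third difference of `dim E_m` for a lattice with (Hu) -/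
lemma third_eventually (hmi : MonoIndep k u v) {E : ℤ → Submodule k V} (hE : IsLat u v E)
    (hHu : Hu u E) :
    ∃ M : ℤ, ∀ m ≥ M, (finrank k (E (m + 1)) : ℤ) - 3 * finrank k (E m) +
      3 * finrank k (E (m - 1)) - finrank k (E (m - 2)) = 0 := by
  have hfin := hE.fin
  have hFam := isFam_of_isLat hE
  obtain ⟨m₁, h1⟩ := cc_zero_of_isLat hE
  -- second difference
  let β : ℤ → ℤ := fun m => (finrank k (E m) : ℤ) - 2 * finrank k (E (m - 1)) +
    finrank k (E (m - 2))
  have hβ0 : ∀ m, 0 ≤ β m := by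
    intro m
    have h2 := finrank_SS (u_ne_zero hmi) hFam hHu (m - 1)
    have h3 : SS u E (m - 1) ≤ E m := by
      refine le_trans ?_ (NN_le hFam m)
      exact le_sup_left
    have h4 := Submodule.finrank_mono h3
    have h5 : m - 1 - 1 = m - 2 := by ring
    rw [h5] at h2
    simp only [β]
    omega
  have hβ1 : ∀ m ≥ m₁, β (m + 1) ≤ β m := by
    intro m hm
    have h2 := finrank_NN_le (u_ne_zero hmi) (v_ne_zero hmi) hFam hHu m
    have h3 := cc_add (u := u) (v := v) hFam (m + 1)
    have h4 := h1 (m + 1) (by omega)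
    simp only [β]
    have h5 : m + 1 - 1 = m := by ring
    have h6 : m + 1 - 2 = m - 1 := by ring
    rw [h5, h6]
    omega
  -- a nonincreasing nonnegative sequence is eventually constant
  let s : ℕ → ℕ := fun n => (β (m₁ + n)).toNat
  have hs : Antitone s := by
    apply antitone_nat_of_succ_le
    intro n
    simp only [s]
    have := hβ1 (m₁ + n) (by omega)
    have e : m₁ + ((n + 1 : ℕ) : ℤ) = m₁ + n + 1 := by push_cast; ring
    rw [e]
    omega
  obtain ⟨N, hN⟩ : ∃ N, ∀ n ≥ N, s n = s N := by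
    obtain ⟨N, hN⟩ := WellFounded.has_min (wellFounded_lt (α := ℕ)) (Set.range s) ⟨s 0, 0, rfl⟩
    obtain ⟨⟨N', rfl⟩, hN2⟩ := hN
    refine ⟨N', fun n hn => le_antisymm (hs hn) ?_⟩
    have := hN2 (s n) ⟨n, rfl⟩
    omega
  refine ⟨m₁ + N, fun m hm => ?_⟩
  obtain ⟨n, rfl⟩ : ∃ n : ℕ, m = m₁ + n := ⟨(m - m₁).toNat, by omega⟩
  have h2 := hN n (by omega)
  have h3 := hN (n + 1) (by omega)
  simp only [s] at h2 h3
  have e : m₁ + ((n + 1 : ℕ) : ℤ) = m₁ + n + 1 := by push_cast; ring
  rw [e] at h3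
  have h4 := hβ0 (m₁ + n)
  have h5 := hβ0 (m₁ + n + 1)
  have h6 : β (m₁ + n + 1) = β (m₁ + n) := by omega
  simp only [β] at h6
  have e1 : m₁ + (n : ℤ) + 1 - 1 = m₁ + n := by ring
  have e2 : m₁ + (n : ℤ) + 1 - 2 = m₁ + n - 1 := by ring
  rw [e1, e2] at h6
  omega

theorem resol_core (hmi : MonoIndep k u v) (hfr : HasFrac k u v) {E : ℤ → Submodule k V}
    (hE : IsLat u v E) (hHu : Hu u E) :
    ∃ (r s : ℕ) (d : Fin r → ℤ) (e : Fin r → V) (δ : Fin s → ℤ) (f : Fin s → Fin r → K),
      IsResol u v E d e δ f := by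
  classical
  have hfin := hE.fin
  have hFam := isFam_of_isLat hE
  have hu := u_ne_zero hmi
  have hv := v_ne_zero hmi
  obtain ⟨m₀, h0⟩ := hE.bot
  obtain ⟨m₁, h1⟩ := cc_zero_of_isLat hE
  obtain ⟨r, d, e, he, hsum, hgen⟩ := exists_generators hFam m₀ m₁ h0 h1
  let π : (Fin r → K) →ₗ[K] V := Fintype.linearCombination K e
  have hπ : ∀ g, π g = ∑ i, g i • e i := fun g => rfl
  let πk : (Fin r → K) →ₗ[k] V := π.restrictScalars k
  -- `E m` is the image of `L m`
  have hmap : ∀ m, (freeL k u v d m).map πk = E m := by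
    intro m
    apply le_antisymm
    · rintro _ ⟨g, hg, rfl⟩
      change π g ∈ E m
      rw [hπ]
      refine Submodule.sum_mem _ fun i _ => ?_
      have := poly_smul_mem hFam (mem_freeL.1 hg i) (he i)
      rwa [sub_add_cancel] at this
    · intro x hx
      obtain ⟨q, hq, rfl⟩ := hgen m x hx
      exact ⟨q, mem_freeL.2 hq, rfl⟩
  let KK : ℤ → Submodule k (Fin r → K) := fun m => freeL k u v d m ⊓ LinearMap.ker πk
  have memKK : ∀ m g, g ∈ KK m ↔ g ∈ freeL k u v d m ∧ π g = 0 := fun m g => Iff.rfl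
  have hKfin : ∀ m, Module.Finite k (KK m) := fun m =>
    Submodule.finiteDimensional_of_le (inf_le_left : KK m ≤ freeL k u v d m)
  have hKFam : IsFam u v KK := by
    refine ⟨fun m g hg => ?_, fun m g hg => ?_, fun m g hg => ?_⟩
    · exact ⟨(freeL_isFam d).mono m hg.1, hg.2⟩
    · exact ⟨(freeL_isFam d).umul m g hg.1, by
        change π (u • g) = 0
        rw [map_smul, ((memKK m g).1 hg).2, smul_zero]⟩
    · exact ⟨(freeL_isFam d).vmul m g hg.1, by
        change π (v • g) = 0
        rw [map_smul, ((memKK m g).1 hg).2, smul_zero]⟩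
  have hKHu : Hu u KK := by
    intro m g hg hug
    exact ⟨freeL_Hu hmi d m g hg.1 hug.1, hg.2⟩
  have hKHv : Hv u v KK := by
    intro m g hg ⟨a, ha, b, hb, hab⟩
    obtain ⟨a', ha', b', hb', hab'⟩ := freeL_Hv hmi d m g hg.1 ⟨a, ha.1, b, hb.1, hab⟩
    -- `π b' ∈ E (m - 1)`, `u • π b' = - π a' ∈ E (m-1)`
    have h2 : π a' + u • π b' = 0 := by
      have := ((memKK m g).1 hg).2
      rw [hab', map_add, map_smul] at this
      exact this
    have h3 : π a' ∈ E (m - 1) := by rw [← hmap]; exact ⟨a', ha', rfl⟩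
    have h4 : π b' ∈ E (m - 1) := by rw [← hmap]; exact ⟨b', hb', rfl⟩
    have h5 : u • π b' ∈ E (m - 1) := by
      have : u • π b' = - π a' := by rw [eq_neg_iff_add_eq_zero, add_comm]; exact h2
      rw [this]
      exact Submodule.neg_mem _ h3
    have h6 := hHu _ _ h4 h5
    rw [← hmap] at h6
    obtain ⟨c, hc, hc2⟩ := h6
    have hc2' : π c = π b' := hc2
    have e1 : m - 1 - 1 + 1 = m - 1 := by ring
    have hc3 : c ∈ freeL k u v d (m - 1) := by
      have := (freeL_isFam d).mono (m - 1 - 1) hc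
      rwa [e1] at this
    have hc4 : u • c ∈ freeL k u v d (m - 1) := by
      have := (freeL_isFam d).umul (m - 1 - 1) c hc
      rwa [e1] at this
    refine ⟨a' + u • c, ⟨Submodule.add_mem _ ha' hc4, ?_⟩, b' - c,
      ⟨Submodule.sub_mem _ hb' hc3, ?_⟩, ?_⟩
    · change π (a' + u • c) = 0
      rw [map_add, map_smul, hc2']; exact h2
    · change π (b' - c) = 0
      rw [map_sub, hc2', sub_self]
    · rw [hab', smul_sub]; abel
  -- dimension count
  have hdim : ∀ m, (finrank k (KK m) : ℤ) + finrank k (E m) = ∑ i, (dimA (m - d i) : ℤ) := by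
    intro m
    have h2 := finrank_ker_map πk (freeL k u v d m)
    rw [hmap, finrank_freeL hmi] at h2
    exact_mod_cast h2
  obtain ⟨M, hM⟩ := third_eventually hmi hE hHu
  have hsum3 : ∀ m, ∑ i, (dimA (m - d i) : ℤ) =
      ∑ x ∈ Finset.Ioc m₀ m₁, (cc u v E x : ℤ) * dimA (m - x) := fun m =>
    hsum (fun x => (dimA (m - x) : ℤ))
  have hKcc : ∀ m > max M m₁, cc u v KK m = 0 := by
    intro m hm
    have h2 := third_eq hu hv hKFam hKHu hKHv (m - 1)
    have h3 := hM (m - 1) (by omega)
    have h4 : (∑ i, (dimA (m - 1 + 1 - d i) : ℤ)) - 3 * ∑ i, (dimA (m - 1 - d i) : ℤ) +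
        3 * ∑ i, (dimA (m - 1 - 1 - d i) : ℤ) - ∑ i, (dimA (m - 1 - 2 - d i) : ℤ) = 0 := by
      rw [hsum3, hsum3, hsum3, hsum3, Finset.mul_sum, Finset.mul_sum,
        ← Finset.sum_sub_distrib, ← Finset.sum_add_distrib, ← Finset.sum_sub_distrib]
      refine Finset.sum_eq_zero fun x hx => ?_
      rw [Finset.mem_Ioc] at hx
      have := dimA_third (m - 1 - x)
      have e1 : m - 1 - x + 1 = m - 1 + 1 - x := by ring
      have e2 : m - 1 - x - 1 = m - 1 - 1 - x := by ring
      have e3 : m - 1 - x - 2 = m - 1 - 2 - x := by ring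
      rw [e1, e2, e3, if_neg (by omega)] at this
      linear_combination (cc u v E x : ℤ) * this
    have h5 := hdim (m - 1 + 1)
    have h6 := hdim (m - 1)
    have h7 := hdim (m - 1 - 1)
    have h8 := hdim (m - 1 - 2)
    have h9 : (cc u v KK (m - 1 + 1) : ℤ) = 0 := by linarith
    rw [sub_add_cancel] at h9
    exact_mod_cast h9
  have hK0 : ∀ m ≤ m₀, KK m = ⊥ := by
    intro m hm
    have h2 : ∑ i, (dimA (m - d i) : ℤ) = 0 := by
      rw [hsum3]
      refine Finset.sum_eq_zero fun x hx => ?_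
      rw [Finset.mem_Ioc] at hx
      rw [dimA_neg (by omega)]
      simp
    have h3 := hdim m
    have h4 : finrank k (KK m) = 0 := by omega
    exact Submodule.finrank_eq_zero.1 h4
  obtain ⟨s, δ, f, hf, hsumK, hgenK⟩ := exists_generators hKFam m₀ (max M m₁) hK0 hKcc
  have hdimK : ∀ m, (finrank k (KK m) : ℤ) = ∑ j, (dimA (m - δ j) : ℤ) := by
    intro m
    rw [dim_formula hu hv hKFam hKHu hKHv m₀ (max M m₁) hK0 hKcc m]
    exact (hsumK (fun x => (dimA (m - x) : ℤ))).symm
  let ρ : (Fin s → K) →ₗ[K] (Fin r → K) := Fintype.linearCombination K f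
  have hρ : ∀ g, ρ g = ∑ j, g j • f j := fun g => rfl
  let ρk : (Fin s → K) →ₗ[k] (Fin r → K) := ρ.restrictScalars k
  have hmapK : ∀ m, (freeL k u v δ m).map ρk = KK m := by
    intro m
    apply le_antisymm
    · rintro _ ⟨g, hg, rfl⟩
      change ρ g ∈ KK m
      rw [hρ]
      refine Submodule.sum_mem _ fun i _ => ?_
      have := poly_smul_mem hKFam (mem_freeL.1 hg i) (hf i)
      rwa [sub_add_cancel] at this
    · intro x hx
      obtain ⟨q, hq, rfl⟩ := hgenK m x hx
      exact ⟨q, mem_freeL.2 hq, rfl⟩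
  have hinj : ∀ m, ∀ g ∈ freeL k u v δ m, ρ g = 0 → g = 0 := by
    intro m g hg hg0
    have h2 := finrank_ker_map ρk (freeL k u v δ m)
    rw [hmapK, finrank_freeL hmi] at h2
    have h3 := hdimK m
    have h4 : finrank k (freeL k u v δ m ⊓ LinearMap.ker ρk : Submodule k (Fin s → K)) = 0 := by
      have : (∑ j, dimA (m - δ j) : ℕ) = finrank k (KK m) := by exact_mod_cast h3.symm
      omega
    have h5 : (freeL k u v δ m ⊓ LinearMap.ker ρk : Submodule k (Fin s → K)) = ⊥ := by
      have : Module.Finite k (freeL k u v δ m ⊓ LinearMap.ker ρk : Submodule k (Fin s → K)) :=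
        Submodule.finiteDimensional_of_le inf_le_left
      exact Submodule.finrank_eq_zero.1 h4
    have h6 : g ∈ (freeL k u v δ m ⊓ LinearMap.ker ρk : Submodule k (Fin s → K)) := ⟨hg, hg0⟩
    rw [h5] at h6
    simpa using h6
  -- a vector with polynomial entries lies in some `freeL`
  have hlarge : ∀ {n : ℕ} (δ' : Fin n → ℤ) (m : ℤ) (g : Fin n → K),
      (∀ i, g i ∈ polyLE k u v m) → ∃ M : ℤ, g ∈ freeL k u v δ' M := by
    intro n δ' m g hg
    obtain ⟨B, hB⟩ : ∃ B : ℤ, ∀ i, δ' i ≤ B := by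
      refine ⟨∑ i, |δ' i|, fun i => le_trans (le_abs_self _) ?_⟩
      exact Finset.single_le_sum (f := fun i => |δ' i|) (fun _ _ => abs_nonneg _)
        (Finset.mem_univ i)
    refine ⟨m + B, mem_freeL.2 fun i => polyLE_mono ?_ (hg i)⟩
    have := hB i
    omega
  refine ⟨r, s, d, e, δ, f, he, ?_, ?_, ?_, ?_, ?_⟩
  · intro j i
    exact mem_freeL.1 (hf j).1 i
  · intro m x
    constructor
    · intro hx
      exact hgen m x hx
    · rintro ⟨g, hg, rfl⟩
      rw [← hmap]
      exact ⟨g, mem_freeL.2 hg, rfl⟩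
  · rw [Fintype.linearIndependent_iff]
    intro g hg
    obtain ⟨b, hb, m, _, hbm, h⟩ := common_denom hfr g
    obtain ⟨M', hM'⟩ := hlarge δ m (b • g) (by simpa using h)
    have h2 : ρ (b • g) = 0 := by
      rw [map_smul, hρ, hg, smul_zero]
    have h3 := hinj M' _ hM' h2
    intro i
    have h4 := congrFun h3 i
    simpa [hb] using h4
  · intro g
    constructor
    · intro hg
      obtain ⟨b, hb, m, _, hbm, h⟩ := common_denom hfr g
      obtain ⟨M', hM'⟩ := hlarge d m (b • g) (by simpa using h)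
      have h2 : b • g ∈ KK M' := by
        refine ⟨hM', ?_⟩
        change π (b • g) = 0
        rw [map_smul, hπ, hg, smul_zero]
      rw [← hmapK] at h2
      obtain ⟨q, _, hq2⟩ := h2
      have h3 : b • g ∈ Submodule.span K (Set.range f) := by
        rw [← hq2]
        change ρ q ∈ _
        rw [hρ]
        exact Submodule.sum_mem _ fun j _ =>
          Submodule.smul_mem _ _ (Submodule.subset_span ⟨j, rfl⟩)
      have h4 := Submodule.smul_mem _ b⁻¹ h3
      rwa [smul_smul, inv_mul_cancel₀ hb, one_smul] at h4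
    · intro hg
      have h2 : Submodule.span K (Set.range f) ≤ LinearMap.ker π := by
        rw [Submodule.span_le]
        rintro _ ⟨j, rfl⟩
        exact (hf j).2
      exact h2 hg
  · intro m
    have h2 := hdim m
    have h3 := hdimK m
    rw [h3] at h2
    have h4 : ((finrank k (E m) + ∑ j, dimA (m - δ j) : ℕ) : ℤ) =
        ((∑ i, dimA (m - d i) : ℕ) : ℤ) := by
      push_cast
      linarith
    exact_mod_cast h4

end Core

end Crest.Agent.R169.P3
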