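import Crest.Agent.R169.P3d
import Crest.Agent.R169.GenL
import Mathlib.FieldTheory.IntermediateField.Adjoin.Basic

/-!
# Row 169, P2/P3, part e: change of coordinates `l = u + t v`, resolution of a saturated lattice
(helper272)
-/

set_option autoImplicit false
set_option linter.unusedSectionVars false
set_option linter.unusedVariables false

namespace Crest.Agent.R169.P3

open Module

section Rat

variable {k K : Type} [Field k] [Field K] [Algebra k K] {u v : K}

lemma monoIndep_of_isRat (h : AlgebraicIndependent k ![u, v]) : MonoIndep k u v := by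
  unfold MonoIndep
  have h1 := (MvPolynomial.basisMonomials (Fin 2) k).linearIndependent
  have h2 : LinearMap.ker (MvPolynomial.aeval (R := k) ![u, v]).toLinearMap = ⊥ :=
    LinearMap.ker_eq_bot.2 h
  have h3 := h1.map' _ h2
  let φ : ℕ × ℕ → (Fin 2 →₀ ℕ) := fun p => Finsupp.single 0 p.1 + Finsupp.single 1 p.2
  have hφ : Function.Injective φ := by
    intro p q hpq
    have e0 := DFunLike.congr_fun hpq 0
    have e1 := DFunLike.congr_fun hpq 1
    simp [φ] at e0 e1
    exact Prod.ext e0 e1
  have h4 := h3.comp φ hφ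
  have h5 : mono2 u v = (((MvPolynomial.aeval (R := k) ![u, v]).toLinearMap ∘
      (MvPolynomial.basisMonomials (Fin 2) k)) ∘ φ) := by
    funext p
    simp only [Function.comp_apply, MvPolynomial.coe_basisMonomials, AlgHom.toLinearMap_apply,
      MvPolynomial.aeval_monomial, map_one, one_mul, φ, mono2]
    rw [Finsupp.prod_add_index' (fun _ => pow_zero _) (fun _ _ _ => pow_add _ _ _),
      Finsupp.prod_single_index (h := fun i n => (![u, v] i) ^ n) (pow_zero _),
      Finsupp.prod_single_index (h := fun i n => (![u, v] i) ^ n) (pow_zero _)]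
    simp
  rw [h5]
  exact h4

lemma hasFrac_of_top (h : IntermediateField.adjoin k ({u, v} : Set K) = ⊤) :
    HasFrac k u v := by
  have key : ∀ x ∈ Algebra.adjoin k ({u, v} : Set K), ∃ m : ℤ, 0 ≤ m ∧ x ∈ polyLE k u v m := by
    intro x hx
    induction hx using Algebra.adjoin_induction with
    | mem x hx =>
      rcases hx with rfl | hx
      · exact ⟨1, by norm_num, by
          have := mono2_mem (k := k) (u := x) (v := v) (m := 1) (p := (1, 0)) (by simp)
          simpa [mono2] using this⟩
      · rw [Set.mem_singleton_iff] at hx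
        subst hx
        exact ⟨1, by norm_num, by
          have := mono2_mem (k := k) (u := u) (v := x) (m := 1) (p := (0, 1)) (by simp)
          simpa [mono2] using this⟩
    | algebraMap r =>
      refine ⟨0, le_rfl, ?_⟩
      rw [Algebra.algebraMap_eq_smul_one]
      exact Submodule.smul_mem _ _ (one_mem_polyLE le_rfl)
    | add x y _ _ hx hy =>
      obtain ⟨m, hm, hx⟩ := hx
      obtain ⟨m', hm', hy⟩ := hy
      exact ⟨max m m', by omega, Submodule.add_mem _ (polyLE_mono (le_max_left _ _) hx)
        (polyLE_mono (le_max_right _ _) hy)⟩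
    | mul x y _ _ hx hy =>
      obtain ⟨m, hm, hx⟩ := hx
      obtain ⟨m', hm', hy⟩ := hy
      exact ⟨m + m', by omega, mul_mem_polyLE hx hy⟩
  intro q
  have hq : q ∈ IntermediateField.adjoin k ({u, v} : Set K) := by rw [h]; trivial
  rw [IntermediateField.mem_adjoin_iff_div] at hq
  obtain ⟨r, hr, s, hs, rfl⟩ := hq
  obtain ⟨m, hm, hr⟩ := key r hr
  obtain ⟨m', hm', hs⟩ := key s hs
  by_cases h0 : s = 0
  · refine ⟨0, 0, Submodule.zero_mem _, 1, one_mem_polyLE le_rfl, one_ne_zero, ?_⟩
    rw [h0]; simp
  · refine ⟨max m m', r, polyLE_mono (le_max_left _ _) hr, s,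
      polyLE_mono (le_max_right _ _) hs, h0, ?_⟩
    field_simp

lemma pow_mem_polyLE {x : K} (hx : x ∈ polyLE k u v 1) (i : ℕ) : x ^ i ∈ polyLE k u v i := by
  induction i with
  | zero => simpa using one_mem_polyLE (k := k) (u := u) (v := v) (le_refl (0 : ℤ))
  | succ i ih =>
    rw [pow_succ]
    have := mul_mem_polyLE ih hx
    push_cast
    exact this

lemma polyLE_le_of {l w : K} (hl : l ∈ polyLE k u v 1) (hw : w ∈ polyLE k u v 1) (m : ℤ) :
    polyLE k l w m ≤ polyLE k u v m := by
  unfold polyLE
  rw [Submodule.span_le]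
  rintro _ ⟨i, j, hij, rfl⟩
  have := mul_mem_polyLE (pow_mem_polyLE hl i) (pow_mem_polyLE hw j)
  exact polyLE_mono hij this

lemma v_mem_one : v ∈ polyLE k u v 1 := by
  have := mono2_mem (k := k) (u := u) (v := v) (m := 1) (p := (0, 1)) (by simp)
  simpa [mono2] using this

lemma u_mem_one : u ∈ polyLE k u v 1 := by
  have := mono2_mem (k := k) (u := u) (v := v) (m := 1) (p := (1, 0)) (by simp)
  simpa [mono2] using this

lemma polyLE_coord (t : k) (m : ℤ) :
    polyLE k (u + algebraMap k K t * v) v m = polyLE k u v m := by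
  apply le_antisymm
  · refine polyLE_le_of ?_ v_mem_one m
    refine Submodule.add_mem _ u_mem_one ?_
    rw [← Algebra.smul_def]
    exact Submodule.smul_mem _ _ v_mem_one
  · refine polyLE_le_of ?_ v_mem_one m
    have h1 : u = (u + algebraMap k K t * v) + (-t) • v := by
      rw [Algebra.smul_def, map_neg]; ring
    have h2 : (u + algebraMap k K t * v) + (-t) • v ∈
        polyLE k (u + algebraMap k K t * v) v 1 :=
      Submodule.add_mem _ u_mem_one (Submodule.smul_mem _ _ v_mem_one)
    rwa [← h1] at h2

lemma monoIndep_coord (h : MonoIndep k u v) (t : k) :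
    MonoIndep k (u + algebraMap k K t * v) v := by
  classical
  set l := u + algebraMap k K t * v with hl
  unfold MonoIndep
  rw [linearIndependent_iff_finset_linearIndependent]
  intro s
  -- `s` is contained in some `degFin m`
  obtain ⟨m, hm⟩ : ∃ m : ℤ, s ⊆ degFin m := by
    refine ⟨∑ p ∈ s, ((p.1 : ℤ) + p.2), fun p hp => ?_⟩
    rw [mem_degFin]
    simp only [degSet, Set.mem_ofPred_eq]
    exact Finset.single_le_sum (f := fun p : ℕ × ℕ => (p.1 : ℤ) + p.2)
      (fun p _ => by positivity) hp
  have h1 : LinearIndependent k (fun p : degFin m => mono2 l v p) := by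
    rw [linearIndependent_iff_card_eq_finrank_span]
    have h2 : Set.range (fun p : degFin m => mono2 l v p) = mono2 l v '' degSet m := by
      rw [degSet_eq_coe, Set.image_eq_range]
      rfl
    rw [Set.finrank, h2, ← polyLE_eq, hl, polyLE_coord, finrank_polyLE h, ← card_degFin,
      Fintype.card_coe]
  exact h1.comp (fun p : s => (⟨p.1, hm p.2⟩ : degFin m)) (fun a b hab =>
    Subtype.ext (by
      have h3 := congrArg (fun q : degFin m => (q : ℕ × ℕ)) hab
      exact h3))

lemma hasFrac_coord (h : HasFrac k u v) (t : k) : HasFrac k (u + algebraMap k K t * v) v := by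
  intro q
  obtain ⟨m, a, ha, b, hb, h0, hq⟩ := h q
  exact ⟨m, a, by rwa [polyLE_coord], b, by rwa [polyLE_coord], h0, hq⟩

end Rat

section Core

variable {k K V : Type} [Field k] [Field K] [Algebra k K] [AddCommGroup V] [Module k V]
  [Module K V] [IsScalarTower k K V] {u v : K}

lemma lf_eq (t : k) (x : V) : (u + algebraMap k K t * v) • x = u • x + t • v • x := by
  rw [add_smul, mul_smul, algebraMap_smul]

lemma isLat_coord {E : ℤ → Submodule k V} (hE : IsLat u v E) (t : k) :
    IsLat (u + algebraMap k K t * v) v E where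
  mono := hE.mono
  umul m e he := by
    rw [lf_eq]
    exact Submodule.add_mem _ (hE.umul m e he) (Submodule.smul_mem _ _ (hE.vmul m e he))
  vmul := hE.vmul
  fin := hE.fin
  bot := hE.bot
  gen := by
    obtain ⟨m₁, h⟩ := hE.gen
    refine ⟨m₁, fun m hm e he => ?_⟩
    obtain ⟨a, ha, b, hb, c, hc, rfl⟩ := h m hm e he
    refine ⟨a, ha, b, hb, c - t • b, Submodule.sub_mem _ hc (Submodule.smul_mem _ _ hb), ?_⟩
    rw [lf_eq, smul_sub, smul_comm v t b]
    abel

/-- transfer of a resolution between coordinates -/
lemma isResol_coord {E : ℤ → Submodule k V} (t : k) {r s : ℕ} {d : Fin r → ℤ} {e : Fin r → V}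
    {δ : Fin s → ℤ} {f : Fin s → Fin r → K}
    (h : IsResol (u + algebraMap k K t * v) v E d e δ f) : IsResol u v E d e δ f where
  e_mem := h.e_mem
  f_mem j i := by
    have := h.f_mem j i
    rwa [polyLE_coord] at this
  mem_iff m x := by
    rw [h.mem_iff]
    simp_rw [polyLE_coord]
  lin := h.lin
  ker := h.ker
  dim := h.dim

/-- (SAT) gives a generic linear form `l = u + t v` injective on `gr E` -/
lemma exists_Hu [Infinite k] {E : ℤ → Submodule k V} (hE : IsLat u v E) (hs : SAT u v E) :
    ∃ t : k, Hu (u + algebraMap k K t * v) E := by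
  obtain ⟨T, M, hT⟩ := P1.generic_l hE
  obtain ⟨t, ht⟩ := Infinite.exists_notMem_finset T
  refine ⟨t, fun m x hx hlx => ?_⟩
  rw [lf_eq] at hlx
  -- descending induction on `m`
  have key : ∀ n : ℕ, ∀ m : ℤ, M ≤ m + n → ∀ x ∈ E m, u • x + t • v • x ∈ E m →
      x ∈ E (m - 1) := by
    intro n
    induction n with
    | zero => intro m hm x hx hlx; exact hT t ht m (by simpa using hm) x hx hlx
    | succ n ih =>
      intro m hm x hx hlx
      have h1 : v • x ∈ E m := by
        have := ih (m + 1) (by push_cast at hm; omega) (v • x) (hE.vmul m x hx) ?_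
        · rwa [add_sub_cancel_right] at this
        · have h2 := hE.vmul m _ hlx
          rw [smul_add, smul_comm v u, smul_comm v t] at h2
          exact h2
      have h2 : u • x ∈ E m := by
        have : u • x = (u • x + t • v • x) - t • v • x := by abel
        rw [this]
        exact Submodule.sub_mem _ hlx (Submodule.smul_mem _ _ h1)
      exact hs m x hx h2 h1
  exact key (M - m).toNat m (by omega) x hx hlx

end Core

end Crest.Agent.R169.P3

namespace Crest.Agent.R169

variable {k K V : Type} [Field k] [Field K] [Algebra k K] [AddCommGroup V] [Module k V]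
  [Module K V] {u v : K} {E E' : ℤ → Submodule k V}

/-- P3: length one resolution. -/
theorem exists_resol [IsScalarTower k K V] [Infinite k] (hK : IsRat k u v)
    (hE : IsLat u v E) (hs : SAT u v E) :
    ∃ (r s : ℕ) (d : Fin r → ℤ) (e : Fin r → V) (δ : Fin s → ℤ) (f : Fin s → Fin r → K),
      IsResol u v E d e δ f := by
  obtain ⟨t, ht⟩ := P3.exists_Hu hE hs
  have h1 := P3.monoIndep_coord (P3.monoIndep_of_isRat hK.indep) t
  have h2 := P3.hasFrac_coord (P3.hasFrac_of_top hK.top) t
  obtain ⟨r, s, d, e, δ, f, h⟩ := P3.resol_core h1 h2 (P3.isLat_coord hE t) ht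
  exact ⟨r, s, d, e, δ, f, P3.isResol_coord t h⟩

end Crest.Agent.R169
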