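import Crest.Agent.R169.P4

/-!
# P5: the bound for `J` in terms of the slopes of sub- and quotient lattices
(owner helper649)
-/

set_option autoImplicit false

namespace Crest.Agent.R169.P5

open Module LatB

variable {k K V : Type} [Field k] [Field K] [Algebra k K] [AddCommGroup V] [Module k V]
  [Module K V] {u v : K} {E E' : ℤ → Submodule k V}

/-- a nonempty bounded below set of rationals with bounded denominators has a minimum -/
theorem exists_min_of_discrete (S : Set ℚ) (hS : S.Nonempty) (D : ℕ) (hD : 0 < D)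
    (hint : ∀ q ∈ S, ∃ t : ℤ, (D : ℚ) * q = t) (α : ℚ) (hα : ∀ q ∈ S, α ≤ q) :
    ∃ z ∈ S, ∀ q ∈ S, z ≤ q := by
  have hD' : (0 : ℚ) < D := by exact_mod_cast hD
  obtain ⟨q₀, hq₀⟩ := hS
  obtain ⟨t₀, ht₀⟩ := hint q₀ hq₀
  obtain ⟨lb, hlb1, hlb2⟩ := Int.exists_least_of_bdd
    (P := fun t : ℤ => ∃ q ∈ S, (D : ℚ) * q = t)
    ⟨⌊(D : ℚ) * α⌋, by
      rintro t ⟨q, hq, hqt⟩
      have h1 : (D : ℚ) * α ≤ t := by
        rw [← hqt]
        exact mul_le_mul_of_nonneg_left (hα q hq) hD'.le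
      have h2 : ((⌊(D : ℚ) * α⌋ : ℤ) : ℚ) ≤ t := (Int.floor_le _).trans h1
      exact_mod_cast h2⟩ ⟨t₀, q₀, hq₀, ht₀⟩
  obtain ⟨z, hz, hzt⟩ := hlb1
  refine ⟨z, hz, fun q hq => ?_⟩
  obtain ⟨t, ht⟩ := hint q hq
  have h1 : lb ≤ t := hlb2 t ⟨q, hq, ht⟩
  have h2 : (lb : ℚ) ≤ t := by exact_mod_cast h1
  rw [← hzt, ← ht] at h2
  exact le_of_mul_le_mul_left h2 hD'

theorem jinv_nonpos_of_le_one {n : ℕ} {J : ℚ} (hn : 0 < n) (h : (n : ℚ) ^ 2 + 2 * n * J ≤ 1) :
    J ≤ 0 := by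
  have h1 : (1 : ℚ) ≤ n := by exact_mod_cast hn
  by_contra hJ
  push Not at hJ
  have : (0 : ℚ) < 2 * n * J := by positivity
  nlinarith

/-- The numerical step: `n = n₁ + n₂`, quotient of slope `z` with `J₂ ≤ 0`. -/
theorem jinv_step {n₁ n₂ : ℕ} (h1 : 0 < n₁) (h2 : 0 < n₂) (b₁ b₂ c₁ c₂ α β : ℚ)
    (hJ1 : Jinv n₁ b₁ c₁ ≤ n₁ / 2 * (β - b₁ / n₁) * (b₁ / n₁ - b₂ / n₂))
    (hJ2 : Jinv n₂ b₂ c₂ ≤ 0) (hβ : (b₁ + b₂) ≤ β * (n₁ + n₂)) (hα : α ≤ b₂ / n₂) :
    Jinv (n₁ + n₂) (b₁ + b₂) (c₁ + c₂) ≤ (n₁ + n₂ : ℚ) / 2 * (β - (b₁ + b₂) / (n₁ + n₂))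
      * ((b₁ + b₂) / (n₁ + n₂) - α) := by
  have p1 : (0 : ℚ) < n₁ := by exact_mod_cast h1
  have p2 : (0 : ℚ) < n₂ := by exact_mod_cast h2
  have p3 : (0 : ℚ) < n₁ + n₂ := by positivity
  obtain ⟨z₁, hz₁⟩ : ∃ z, z = b₁ / n₁ := ⟨_, rfl⟩
  obtain ⟨z₂, hz₂⟩ : ∃ z, z = b₂ / n₂ := ⟨_, rfl⟩
  obtain ⟨z, hz⟩ : ∃ z, z = (b₁ + b₂) / (n₁ + n₂ : ℚ) := ⟨_, rfl⟩
  have e1 : b₁ = z₁ * n₁ := by rw [hz₁]; field_simp
  have e2 : b₂ = z₂ * n₂ := by rw [hz₂]; field_simp
  have e3 : b₁ + b₂ = z * (n₁ + n₂) := by rw [hz]; field_simp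
  have hadd := jinv_add n₁ n₂ b₁ b₂ c₁ c₂ h1 h2
  rw [← hz, ← hz₁, ← hz₂] at hadd
  rw [← hz₁, ← hz₂] at hJ1
  rw [← hz₂] at hα
  rw [← hz]
  have hb : z ≤ β := by
    rw [e3] at hβ
    exact le_of_mul_le_mul_right hβ p3
  have e4 : z₁ * n₁ + z₂ * n₂ = z * (n₁ + n₂) := by rw [← e1, ← e2, e3]
  -- identity: n₁(z₁-z)^2 + n₂(z₂-z)^2 + n₁(β-z₁)(z₁-z₂) = n (β - z)(z - z₂)
  have key : (n₁ : ℚ) / 2 * (β - z₁) * (z₁ - z₂) + n₁ / 2 * (z₁ - z) ^ 2
      + n₂ / 2 * (z₂ - z) ^ 2 = (n₁ + n₂ : ℚ) / 2 * (β - z) * (z - z₂) := by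
    have e5 : z = (z₁ * n₁ + z₂ * n₂) / (n₁ + n₂) := by
      rw [e4]; field_simp
    rw [e5]
    field_simp
    ring
  have mono : (n₁ + n₂ : ℚ) / 2 * (β - z) * (z - z₂) ≤ (n₁ + n₂ : ℚ) / 2 * (β - z) * (z - α) := by
    apply mul_le_mul_of_nonneg_left
    · linarith
    · have : 0 ≤ β - z := by linarith
      positivity
  linarith

section Main

variable [IsScalarTower k K V]

/-- the main induction for P5 -/
theorem jinv_le_aux [IsAlgClosed k] (hK : IsRat k u v) (hE : IsLat u v E) :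
    ∀ r : ℕ, 0 < r → ∀ U : Submodule K V, rk K (interU E U) = r → ∀ β α : ℚ,
    (∀ W ≤ U, 0 < rk K (interU E W) → hb (interU E W) ≤ β * rk K (interU E W)) →
    (∀ W ≤ U, rk K (interU E W) < rk K (interU E U) →
      α * ((rk K (interU E U) : ℚ) - rk K (interU E W)) ≤ hb (interU E U) - hb (interU E W)) →
    Jinv (rk K (interU E U)) (hb (interU E U)) (hc (interU E U)) ≤
      (rk K (interU E U) : ℚ) / 2 * (β - hb (interU E U) / rk K (interU E U))
        * (hb (interU E U) / rk K (interU E U) - α) := by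
  have : Infinite k := IsAlgClosed.instInfinite
  set N : Submodule K V → ℕ := fun U => rk K (interU E U) with hN
  set B : Submodule K V → ℚ := fun U => hb (interU E U) with hB
  set C : Submodule K V → ℚ := fun U => hc (interU E U) with hC
  have hHP : ∀ U, HasHP (interU E U) (N U) (B U) (C U) := fun U => hasHP_interU hK hE U
  have hNmono : ∀ {U W : Submodule K V}, W ≤ U → N W ≤ N U := fun h => rk_interU_le hE h
  have hN0 : N ⊥ = 0 := rk_eq_zero_of_eq_bot (fun m => by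
    rw [eq_bot_iff]
    rintro x ⟨_, hx⟩
    exact hx)
  intro r
  induction r using Nat.strong_induction_on with
  | _ r ih =>
  intro hr U hU β α hβ hα
  change N U = r at hU
  change ∀ W ≤ U, 0 < N W → B W ≤ β * N W at hβ
  change ∀ W ≤ U, N W < N U → α * ((N U : ℚ) - N W) ≤ B U - B W at hα
  change Jinv (N U) (B U) (C U) ≤ (N U : ℚ) / 2 * (β - B U / N U) * (B U / N U - α)
  have hNU : 0 < N U := hU ▸ hr
  -- the set of slopes of quotients
  let S : Set ℚ := {q | ∃ W ≤ U, N W < N U ∧ q = (B U - B W) / ((N U : ℚ) - N W)}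
  have hpos : ∀ W, N W < N U → (0 : ℚ) < (N U : ℚ) - N W := by
    intro W hW
    have : (N W : ℚ) < N U := by exact_mod_cast hW
    linarith
  obtain ⟨z, hzS, hzmin⟩ := exists_min_of_discrete S
    ⟨_, ⊥, bot_le, by rw [hN0]; exact hNU, rfl⟩ (2 * (N U).factorial) (by positivity)
    (by
      rintro q ⟨W, hW, hlt, rfl⟩
      obtain ⟨b₁, c₁, h1, ⟨t1, ht1⟩, _⟩ := (hE.interU U).exists_hasHP hK
      obtain ⟨b₂, c₂, h2, ⟨t2, ht2⟩, _⟩ := (hE.interU W).exists_hasHP hK
      have e1 : b₁ = B U := (hasHP_unique h1 (hHP U)).2.1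
      have e2 : b₂ = B W := (hasHP_unique h2 (hHP W)).2.1
      rw [e1] at ht1
      rw [e2] at ht2
      have hd : (N U - N W) ∣ (N U).factorial :=
        Nat.dvd_factorial (by omega) (Nat.sub_le _ _)
      obtain ⟨c, hc⟩ := hd
      refine ⟨c * (t1 - t2), ?_⟩
      have h3 : ((N U - N W : ℕ) : ℚ) = (N U : ℚ) - N W := by
        rw [Nat.cast_sub hlt.le]
      have h4 := hpos W hlt
      have h5 : ((N U).factorial : ℚ) = ((N U : ℚ) - N W) * c := by
        rw [hc]; push_cast; rw [h3]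
      push_cast
      rw [h5, ← ht1, ← ht2]
      field_simp)
    α (by
      rintro q ⟨W, hW, hlt, rfl⟩
      have h4 := hpos W hlt
      rw [le_div_iff₀ h4]
      exact hα W hW hlt)
  -- among minimal slopes, minimal rank of the quotient
  have hex : ∃ m : ℕ, ∃ W ≤ U, N W < N U ∧ z = (B U - B W) / ((N U : ℚ) - N W) ∧ N U - N W = m := by
    obtain ⟨W, hW, hlt, hz⟩ := hzS
    exact ⟨_, W, hW, hlt, hz, rfl⟩
  classical
  obtain ⟨W, hWU, hlt, hz, hWm⟩ := Nat.find_spec hex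
  have hmin2 : ∀ W' ≤ U, N W' < N U → z = (B U - B W') / ((N U : ℚ) - N W') →
      N U - N W ≤ N U - N W' := by
    intro W' hW' hlt' hz'
    rw [hWm]
    exact Nat.find_min' hex ⟨W', hW', hlt', hz', rfl⟩
  have hposW := hpos W hlt
  have hzeq : z * ((N U : ℚ) - N W) = B U - B W := by
    rw [hz]; field_simp
  have hzle : ∀ W' ≤ U, N W' < N U → z * ((N U : ℚ) - N W') ≤ B U - B W' := by
    intro W' hW' hlt'
    have := hzmin _ ⟨W', hW', hlt', rfl⟩
    rwa [le_div_iff₀ (hpos W' hlt')] at this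
  have hzlt : ∀ W' ≤ U, N W' < N U → N W < N W' → z * ((N U : ℚ) - N W') < B U - B W' := by
    intro W' hW' hlt' hlt2
    refine lt_of_le_of_ne (hzle W' hW' hlt') ?_
    intro heq
    have h4 := hpos W' hlt'
    have : z = (B U - B W') / ((N U : ℚ) - N W') := by
      rw [← heq]; field_simp
    have := hmin2 W' hW' hlt' this
    omega
  have hαz : α ≤ z := by
    rw [hz, le_div_iff₀ hposW]
    exact hα W hWU hlt
  have hβU : B U ≤ β * N U := hβ U le_rfl hNU
  -- the quotient lattice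
  have hQ : IsLat u v (quotU (interU E U) W) := (hE.interU U).quotU W
  have hQHP : HasHP (quotU (interU E U) W) (N U - N W) (B U - B W) (C U - C W) :=
    hasHP_sub_quot hE hWU (hHP U) (hHP W) hlt.le
  have hcast : ((N U - N W : ℕ) : ℚ) = (N U : ℚ) - N W := by rw [Nat.cast_sub hlt.le]
  have hbog := P4.bogomolov hK hQ hQHP (by omega) (by
    intro U'' n₁ b₁ c₁ h1 h2 h3
    rw [interU_quotU] at h1
    have hW' : W ≤ U ⊓ U''.comap W.mkQ := by
      refine le_inf hWU ?_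
      intro x hx
      rw [Submodule.mem_comap]
      have : W.mkQ x = 0 := by rwa [Submodule.mkQ_apply, Submodule.Quotient.mk_eq_zero]
      rw [this]
      exact Submodule.zero_mem _
    have h4 := hasHP_sub_quot hE hW' (hHP _) (hHP W) (hNmono hW')
    obtain ⟨e1, e2, e3⟩ := hasHP_unique h1 h4
    have hle : N W ≤ N (U ⊓ U''.comap W.mkQ) := hNmono hW'
    have hlt' : N (U ⊓ U''.comap W.mkQ) < N U := by omega
    have h5 := hzlt _ inf_le_left hlt' (by omega)
    have hp1 : (0 : ℚ) < n₁ := by exact_mod_cast h2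
    have e1' : (n₁ : ℚ) = N (U ⊓ U''.comap W.mkQ) - N W := by
      rw [e1, Nat.cast_sub hle]
    rw [hcast, e2, ← hzeq]
    have h6 : B (U ⊓ U''.comap W.mkQ) - B W < n₁ * z := by
      rw [e1']
      linarith
    calc (B (U ⊓ U''.comap W.mkQ) - B W) * ((N U : ℚ) - N W)
        < (n₁ * z) * ((N U : ℚ) - N W) := mul_lt_mul_of_pos_right h6 hposW
      _ = n₁ * (z * ((N U : ℚ) - N W)) := by ring)
  have hJ2 : Jinv (N U - N W) (B U - B W) (C U - C W) ≤ 0 :=
    jinv_nonpos_of_le_one (by omega) hbog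
  rcases Nat.eq_zero_or_pos (N W) with hW0 | hWpos
  · -- `E ∩ W = 0`
    obtain ⟨hB0, hC0⟩ := interU_rk_zero hK hE W hW0
    have hB0' : B W = 0 := hB0
    have hC0' : C W = 0 := hC0
    rw [hW0, hB0', hC0'] at hJ2
    simp only [Nat.sub_zero, sub_zero] at hJ2
    rw [hW0, hB0'] at hz
    simp only [Nat.cast_zero, sub_zero] at hz
    have hNU' : (0 : ℚ) < N U := by exact_mod_cast hNU
    rw [← hz]
    have h1 : 0 ≤ β - z := by
      have : z ≤ β := by rw [hz, div_le_iff₀ hNU']; exact hβU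
      linarith
    have h2 : 0 ≤ z - α := by linarith
    have : 0 ≤ (N U : ℚ) / 2 * (β - z) * (z - α) := by positivity
    linarith
  · -- induction
    have hJ1 := ih (N W) (by omega) hWpos W rfl β z
      (fun W' hW' h => hβ W' (hW'.trans hWU) h)
      (fun W' hW' h => by
        change N W' < N W at h
        change z * ((N W : ℚ) - N W') ≤ B W - B W'
        have := hzle W' (hW'.trans hWU) (h.trans hlt)
        linarith)
    change Jinv (N W) (B W) (C W) ≤ (N W : ℚ) / 2 * (β - B W / N W) * (B W / N W - z) at hJ1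
    have h2 : 0 < N U - N W := by omega
    have hz' : z = (B U - B W) / ((N U - N W : ℕ) : ℚ) := by rw [hcast]; exact hz
    have hstep := jinv_step hWpos h2 (B W) (B U - B W) (C W) (C U - C W) α β
      (by rw [← hz']; exact hJ1) hJ2 (by
        rw [hcast]
        have : (N W : ℚ) + (N U - N W) = N U := by ring
        rw [this]
        linarith) (by rw [← hz']; exact hαz)
    have e1 : N W + (N U - N W) = N U := by omega
    have e2 : B W + (B U - B W) = B U := by ring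
    have e3 : C W + (C U - C W) = C U := by ring
    have e4 : ((N W : ℕ) : ℚ) + ((N U - N W : ℕ) : ℚ) = N U := by rw [hcast]; ring
    rw [e1, e2, e3, e4] at hstep
    exact hstep

/-- P5: slopes of all sublattices `≤ ζ + s₁`, of all quotients `≥ ζ - s₂` imply `J ≤ n s₁ s₂/2`. -/
theorem jinv_le [IsAlgClosed k] (hK : IsRat k u v) (hE : IsLat u v E)
    {n : ℕ} {b c : ℚ} (hHP : HasHP E n b c) (hn : 0 < n) (s₁ s₂ : ℚ)
    (h₁ : ∀ (U : Submodule K V) (n₁ : ℕ) (b₁ c₁ : ℚ), HasHP (interU E U) n₁ b₁ c₁ →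
      b₁ * n - n₁ * b ≤ s₁ * n₁ * n)
    (h₂ : ∀ (U : Submodule K V) (n₁ : ℕ) (b₁ c₁ : ℚ), HasHP (interU E U) n₁ b₁ c₁ →
      b₁ * n - n₁ * b ≤ s₂ * (n - n₁) * n) :
    Jinv n b c ≤ n / 2 * s₁ * s₂ := by
  have : Infinite k := IsAlgClosed.instInfinite
  have htop : HasHP (interU E (⊤ : Submodule K V)) n b c := by rw [interU_top]; exact hHP
  obtain ⟨e1, e2, e3⟩ := hasHP_unique htop (hasHP_interU hK hE ⊤)
  have hn' : (0 : ℚ) < n := by exact_mod_cast hn
  have key := jinv_le_aux hK hE n hn ⊤ e1.symm (b / n + s₁) (b / n - s₂)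
    (by
      intro W _ hW
      have h := h₁ W _ _ _ (hasHP_interU hK hE W)
      have h3 : hb (interU E W) * n ≤ ((b / n + s₁) * rk K (interU E W)) * n := by
        have : ((b / n + s₁) * rk K (interU E W)) * n
            = rk K (interU E W) * b + s₁ * rk K (interU E W) * n := by field_simp
        rw [this]
        linarith
      exact le_of_mul_le_mul_right h3 hn')
    (by
      intro W _ hW
      have h := h₂ W _ _ _ (hasHP_interU hK hE W)
      rw [← e1, ← e2]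
      have h3 : ((b / n - s₂) * ((n : ℚ) - rk K (interU E W))) * n
          ≤ (b - hb (interU E W)) * n := by
        have : ((b / n - s₂) * ((n : ℚ) - rk K (interU E W))) * n
            = b * n - rk K (interU E W) * b - s₂ * (n - rk K (interU E W)) * n := by
          field_simp
        rw [this]
        linarith
      exact le_of_mul_le_mul_right h3 hn')
  rw [← e1, ← e2, ← e3] at key
  have : (n : ℚ) / 2 * (b / n + s₁ - b / n) * (b / n - (b / n - s₂)) = n / 2 * s₁ * s₂ := by ring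
  rw [this] at key
  exact key

end Main

end Crest.Agent.R169.P5
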