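import Crest.Agent.R169.PackNoeth

/-!
# Row 169: Krull dimensions of `T`, `T_𝔪` and `R`
-/

set_option autoImplicit false

noncomputable section

namespace Crest.Agent.R169

open Polynomial

namespace PackDim

variable (k : Type) [Field k]

/-- the homogenisation map `k[x₀,x₁,x₂] → k[a,b][X]`, `x₀ ↦ X`, `x₁ ↦ aX`, `x₂ ↦ bX`. -/
def theta : MvPolynomial (Fin 3) k →ₐ[k] (MvPolynomial (Fin 2) k)[X] :=
  MvPolynomial.aeval ![Polynomial.X, Polynomial.C (MvPolynomial.X 0) * Polynomial.X,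
    Polynomial.C (MvPolynomial.X 1) * Polynomial.X]

/-- exponents of the dehomogenised monomial -/
def fs (s : Fin 3 →₀ ℕ) : Fin 2 →₀ ℕ := Finsupp.equivFunOnFinite.symm ![s 1, s 2]

@[simp] lemma fs_zero (s : Fin 3 →₀ ℕ) : fs s 0 = s 1 := rfl
@[simp] lemma fs_one (s : Fin 3 →₀ ℕ) : fs s 1 = s 2 := rfl

lemma theta_monomial (s : Fin 3 →₀ ℕ) (r : k) :
    theta k (MvPolynomial.monomial s r) =
      Polynomial.monomial (s 0 + s 1 + s 2) (MvPolynomial.monomial (fs s) r) := by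
  rw [theta, MvPolynomial.aeval_monomial, Finsupp.prod_fintype _ _ (fun i => pow_zero _),
    Fin.prod_univ_three]
  simp only [Matrix.cons_val_zero, Matrix.cons_val_one, Matrix.cons_val_two, Matrix.head_cons,
    Matrix.tail_cons]
  rw [MvPolynomial.monomial_eq, Finsupp.prod_fintype _ _ (fun i => pow_zero _), Fin.prod_univ_two,
    fs_zero, fs_one, ← Polynomial.C_mul_X_pow_eq_monomial]
  have : algebraMap k (MvPolynomial (Fin 2) k)[X] r = Polynomial.C (MvPolynomial.C r) := rfl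
  rw [this]
  simp only [map_mul, map_pow]
  ring

lemma coeff_theta (P : MvPolynomial (Fin 3) k) (s : Fin 3 →₀ ℕ) :
    MvPolynomial.coeff (fs s) ((theta k P).coeff (s 0 + s 1 + s 2)) = MvPolynomial.coeff s P := by
  classical
  induction P using MvPolynomial.induction_on' with
  | monomial t r =>
    rw [theta_monomial, Polynomial.coeff_monomial, MvPolynomial.coeff_monomial]
    by_cases h : t = s
    · subst h; simp
    · rw [if_neg h]
      split_ifs with h1
      · rw [MvPolynomial.coeff_monomial, if_neg]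
        intro h2
        apply h
        have e1 : t 1 = s 1 := by simpa using congrArg (fun f => f 0) h2
        have e2 : t 2 = s 2 := by simpa using congrArg (fun f => f 1) h2
        ext i
        fin_cases i
        · change t 0 = s 0
          omega
        · exact e1
        · exact e2
      · simp
  | add p q hp hq =>
    rw [map_add, Polynomial.coeff_add, MvPolynomial.coeff_add, MvPolynomial.coeff_add, hp, hq]

lemma theta_injective : Function.Injective (theta k) := by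
  rw [injective_iff_map_eq_zero]
  intro P hP
  ext s
  rw [← coeff_theta, hP]
  simp

/-- the prime `(x_0, …, x_{j-1})` of `k[x₀,x₁,x₂]` as the kernel of an endomorphism -/
def ev (j : ℕ) : MvPolynomial (Fin 3) k →ₐ[k] MvPolynomial (Fin 3) k :=
  MvPolynomial.aeval fun i : Fin 3 => if i.val < j then 0 else MvPolynomial.X i

/-- the prime ideal -/
def pr (j : ℕ) : Ideal (MvPolynomial (Fin 3) k) := RingHom.ker (ev k j)

instance (j : ℕ) : (pr k j).IsPrime := RingHom.ker_isPrime _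

lemma ev_X (j : ℕ) (i : Fin 3) :
    ev k j (MvPolynomial.X i) = if i.val < j then 0 else MvPolynomial.X i := by
  rw [ev, MvPolynomial.aeval_X]

lemma ev_comp (j : ℕ) : (ev k (j + 1)).comp (ev k j) = ev k (j + 1) := by
  apply MvPolynomial.algHom_ext
  intro i
  rw [AlgHom.comp_apply, ev_X]
  split_ifs with h
  · rw [map_zero, ev_X, if_pos (by omega)]
  · rfl

lemma pr_le (j : ℕ) : pr k j ≤ pr k (j + 1) := by
  intro x hx
  rw [pr, RingHom.mem_ker] at hx ⊢
  rw [← ev_comp, AlgHom.comp_apply, hx, map_zero]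

lemma X_mem_pr (j : ℕ) (i : Fin 3) : MvPolynomial.X i ∈ pr k j ↔ i.val < j := by
  rw [pr, RingHom.mem_ker, ev_X]
  split_ifs with h
  · simp [h]
  · simp [h, MvPolynomial.X_ne_zero]

lemma pr_zero : pr k 0 = ⊥ := by
  rw [pr, eq_bot_iff]
  intro x hx
  have : ev k 0 = AlgHom.id k _ := by
    apply MvPolynomial.algHom_ext
    intro i
    rw [ev_X, if_neg (by omega)]
    rfl
  rw [RingHom.mem_ker] at hx
  rw [this] at hx
  exact hx

lemma pr_ne (j : ℕ) (hj : j < 3) : pr k j ≠ pr k (j + 1) := by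
  intro h
  have h1 : MvPolynomial.X (⟨j, hj⟩ : Fin 3) ∈ pr k (j + 1) := (X_mem_pr k _ _).mpr (by simp)
  rw [← h, X_mem_pr] at h1
  simp at h1

end PackDim

open PackDim

variable {k Q : Type} [Field k] [Field Q] [Algebra k Q]

namespace Fil

variable {𝓕 : Fil k Q} {u v : Q}

/-- `k[x₀,x₁,x₂] → T` -/
def psi (h : FilUV 𝓕 u v) : MvPolynomial (Fin 3) k →ₐ[k] 𝓕.T :=
  MvPolynomial.aeval ![xT h, yT h, zT h]

@[simp] lemma psi_X0 (h : FilUV 𝓕 u v) : psi h (MvPolynomial.X 0) = xT h := by simp [psi]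
@[simp] lemma psi_X1 (h : FilUV 𝓕 u v) : psi h (MvPolynomial.X 1) = yT h := by simp [psi]
@[simp] lemma psi_X2 (h : FilUV 𝓕 u v) : psi h (MvPolynomial.X 2) = zT h := by simp [psi]

lemma coe_psi (h : FilUV 𝓕 u v) (P : MvPolynomial (Fin 3) k) :
    ((psi h P : 𝓕.T) : Q[X]) =
      Polynomial.map (MvPolynomial.aeval ![u, v] : MvPolynomial (Fin 2) k →ₐ[k] Q).toRingHom
        (theta k P) := by
  have : (𝓕.T.val).comp (psi h) =
      (Polynomial.mapAlgHom (MvPolynomial.aeval ![u, v] : MvPolynomial (Fin 2) k →ₐ[k] Q)).comp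
        (theta k) := by
    apply MvPolynomial.algHom_ext
    intro i
    fin_cases i
    · simp [psi, theta, xT, mono, Polynomial.X]
    · simp [psi, theta, yT, mono, Polynomial.C_mul_X_eq_monomial]
    · simp [psi, theta, zT, mono, Polynomial.C_mul_X_eq_monomial]
  exact DFunLike.congr_fun this P

lemma psi_injective (h : FilUV 𝓕 u v) : Function.Injective (psi h) := by
  intro P P' hPP
  have h1 := congrArg (fun t : 𝓕.T => (t : Q[X])) hPP
  simp only [coe_psi] at h1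
  exact theta_injective k (Polynomial.map_injective _ h.indep h1)

lemma range_psi (h : FilUV 𝓕 u v) : (psi h).range = A h := by
  rw [A, psi, ← Algebra.adjoin_range_eq_range_aeval]
  congr 1
  ext t
  simp only [Set.mem_range, Fin.exists_fin_succ, Set.mem_insert_iff, Set.mem_singleton_iff]
  simp [eq_comm]

set_option maxHeartbeats 400000 in
lemma psi_finite (h : FilUV 𝓕 u v) : (psi h).toRingHom.Finite := by
  letI : Algebra (MvPolynomial (Fin 3) k) 𝓕.T := (psi h).toRingHom.toAlgebra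
  change Module.Finite (MvPolynomial (Fin 3) k) 𝓕.T
  obtain ⟨S, hS⟩ := (finite_A h).fg_top
  refine ⟨⟨S, ?_⟩⟩
  rw [eq_top_iff]
  intro t _
  have ht : t ∈ Submodule.span (A h) (S : Set 𝓕.T) := by rw [hS]; trivial
  induction ht using Submodule.span_induction with
  | mem x hx => exact Submodule.subset_span hx
  | zero => exact Submodule.zero_mem _
  | add x y _ _ hx hy => exact Submodule.add_mem _ (hx trivial) (hy trivial)
  | smul a x _ hx =>
    obtain ⟨a, ha⟩ := a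
    rw [← range_psi h] at ha
    obtain ⟨P, hP⟩ := ha
    have : (P • x : 𝓕.T) = a * x := by
      rw [Algebra.smul_def]
      congr 1
    have h2 := Submodule.smul_mem (Submodule.span (MvPolynomial (Fin 3) k) (S : Set 𝓕.T)) P
      (hx trivial)
    rw [this] at h2
    exact h2

lemma mono_mem_of_le (h : FilUV 𝓕 u v) {P : Ideal 𝓕.T} (hx : xT h ∈ P) (hy : yT h ∈ P)
    (hz : zT h ∈ P) : ∃ c : ℕ, ∀ m (q : 𝓕.F m), c ≤ m → 𝓕.mono m q ∈ P := by
  obtain ⟨c, hc⟩ := h.gen
  refine ⟨c + 1, fun m q hm => ?_⟩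
  obtain ⟨n, rfl⟩ : ∃ n, m = n + 1 := ⟨m - 1, by omega⟩
  obtain ⟨a, ha, b, hb, d, hd, hq⟩ := hc n (by omega) q q.2
  have e : 𝓕.mono (n + 1) q = 𝓕.mono n ⟨a, ha⟩ * xT h +
      𝓕.mono n ⟨b, hb⟩ * yT h + 𝓕.mono n ⟨d, hd⟩ * zT h := by
    simp only [xT, yT, zT]
    rw [mono_mul_mono, mono_mul_mono, mono_mul_mono]
    apply Subtype.ext
    simp only [Subalgebra.coe_add, coe_mono, hq]
    rw [← map_add, ← map_add, mul_one, mul_comm u b, mul_comm v d]
  rw [e]
  exact P.add_mem (P.add_mem (P.mul_mem_left _ hx) (P.mul_mem_left _ hy)) (P.mul_mem_left _ hz)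

lemma irr_le_of_prime (h : FilUV 𝓕 u v) {P : Ideal 𝓕.T} [P.IsPrime] (hx : xT h ∈ P)
    (hy : yT h ∈ P) (hz : zT h ∈ P) : 𝓕.irr ≤ P := by
  obtain ⟨c, hc⟩ := mono_mem_of_le h hx hy hz
  intro p hp
  rw [𝓕.sum_mono p]
  refine Ideal.sum_mem _ fun m hm => ?_
  have hm0 : m ≠ 0 := by
    rintro rfl
    rw [Polynomial.mem_support_iff] at hm
    exact hm ((𝓕.mem_irr).mp hp)
  have hpow : ∀ n, ∃ q' : 𝓕.F (n * m), (𝓕.mono m ⟨(p : Q[X]).coeff m, p.2 m⟩) ^ n =
      𝓕.mono (n * m) q' := by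
    intro n
    refine ⟨⟨((p : Q[X]).coeff m) ^ n, 𝓕.pow_mem (p.2 m) n⟩, ?_⟩
    apply Subtype.ext
    rw [SubmonoidClass.coe_pow, coe_mono, coe_mono, Polynomial.monomial_pow, mul_comm]
  obtain ⟨q', hq'⟩ := hpow c
  refine Ideal.IsPrime.mem_of_pow_mem ‹P.IsPrime› c ?_
  rw [hq']
  exact hc _ _ (Nat.le_mul_of_pos_right c (Nat.pos_of_ne_zero hm0))

lemma xT_mem_irr (h : FilUV 𝓕 u v) : xT h ∈ 𝓕.irr := by
  rw [mem_irr]; simp [xT, mono, Polynomial.coeff_monomial]
lemma yT_mem_irr (h : FilUV 𝓕 u v) : yT h ∈ 𝓕.irr := by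
  rw [mem_irr]; simp [yT, mono, Polynomial.coeff_monomial]
lemma zT_mem_irr (h : FilUV 𝓕 u v) : zT h ∈ 𝓕.irr := by
  rw [mem_irr]; simp [zT, mono, Polynomial.coeff_monomial]

theorem three_le_height_irr (h : FilUV 𝓕 u v) : 3 ≤ (𝓕.irr).height := by
  letI : Algebra (MvPolynomial (Fin 3) k) 𝓕.T := (psi h).toRingHom.toAlgebra
  haveI : Module.Finite (MvPolynomial (Fin 3) k) 𝓕.T := psi_finite h
  haveI : Algebra.IsIntegral (MvPolynomial (Fin 3) k) 𝓕.T := inferInstance
  have hmap : ∀ P, algebraMap (MvPolynomial (Fin 3) k) 𝓕.T P = psi h P := fun _ => rfl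
  -- going up
  have step : ∀ (j : ℕ), j < 3 → ∀ I : Ideal 𝓕.T, I.IsPrime →
      I.comap (algebraMap (MvPolynomial (Fin 3) k) 𝓕.T) = pr k j →
      ∃ J : Ideal 𝓕.T, J.IsPrime ∧ I < J ∧
        J.comap (algebraMap (MvPolynomial (Fin 3) k) 𝓕.T) = pr k (j + 1) := by
    intro j hj I hI hc
    obtain ⟨J, hIJ, hJ, hJc⟩ := Ideal.exists_ideal_over_prime_of_isIntegral (pr k (j + 1)) I
      (by rw [hc]; exact pr_le k j)
    refine ⟨J, hJ, lt_of_le_of_ne hIJ ?_, hJc⟩
    rintro rfl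
    exact pr_ne k j hj (hc.symm.trans hJc)
  have h0 : (⊥ : Ideal 𝓕.T).comap (algebraMap (MvPolynomial (Fin 3) k) 𝓕.T) = pr k 0 := by
    rw [pr_zero, ← RingHom.ker_eq_comap_bot]
    exact (RingHom.injective_iff_ker_eq_bot _).mp (psi_injective h)
  obtain ⟨P1, hP1, hl1, hc1⟩ := step 0 (by norm_num) ⊥ Ideal.isPrime_bot h0
  obtain ⟨P2, hP2, hl2, hc2⟩ := step 1 (by norm_num) P1 hP1 hc1
  obtain ⟨P3, hP3, hl3, hc3⟩ := step 2 (by norm_num) P2 hP2 hc2
  have hmem : ∀ i : Fin 3, psi h (MvPolynomial.X i) ∈ P3 := by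
    intro i
    have : MvPolynomial.X i ∈ pr k 3 := (X_mem_pr k 3 i).mpr i.2
    rw [← hc3] at this
    exact this
  have hle : 𝓕.irr ≤ P3 := irr_le_of_prime h (by simpa using hmem 0) (by simpa using hmem 1)
    (by simpa using hmem 2)
  have heq : 𝓕.irr = P3 := (inferInstance : 𝓕.irr.IsMaximal).eq_of_le hP3.ne_top hle
  rw [heq]
  have a1 := Ideal.height_add_one_le_of_lt_of_isPrime (I := (⊥ : Ideal 𝓕.T)) hl1
  have a2 := Ideal.height_add_one_le_of_lt_of_isPrime hl2
  have a3 := Ideal.height_add_one_le_of_lt_of_isPrime hl3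
  rw [Ideal.height_bot] at a1
  calc (3 : ℕ∞) = 0 + 1 + 1 + 1 := by norm_num
    _ ≤ P1.height + 1 + 1 := by gcongr
    _ ≤ P2.height + 1 := by gcongr
    _ ≤ P3.height := a3

theorem ringKrullDim_T_le (h : FilUV 𝓕 u v) : ringKrullDim 𝓕.T ≤ 3 := by
  letI : Algebra (MvPolynomial (Fin 3) k) 𝓕.T := (psi h).toRingHom.toAlgebra
  haveI : Module.Finite (MvPolynomial (Fin 3) k) 𝓕.T := psi_finite h
  haveI : Algebra.IsIntegral (MvPolynomial (Fin 3) k) 𝓕.T := inferInstance
  have h3 : ringKrullDim (MvPolynomial (Fin 3) k) = 3 := by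
    rw [MvPolynomial.ringKrullDim_of_isNoetherianRing, ringKrullDim_eq_zero_of_field]
    simp
  rw [← h3]
  refine Order.krullDim_le_of_strictMono
    (fun P : PrimeSpectrum 𝓕.T => PrimeSpectrum.comap
      (algebraMap (MvPolynomial (Fin 3) k) 𝓕.T) P) ?_
  intro P P' hPP
  haveI := P.2
  exact Ideal.IsIntegral.comap_lt_comap (R := MvPolynomial (Fin 3) k) (I := P.asIdeal)
    (J := P'.asIdeal) hPP

theorem height_irr (h : FilUV 𝓕 u v) : (𝓕.irr).height = 3 := by
  apply le_antisymm _ (three_le_height_irr h)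
  have h1 : (((𝓕.irr).height : ℕ∞) : WithBot ℕ∞) ≤ ((3 : ℕ∞) : WithBot ℕ∞) :=
    Ideal.height_le_ringKrullDim_of_isPrime.trans (ringKrullDim_T_le h)
  exact WithBot.coe_le_coe.mp h1

theorem ringKrullDim_T (h : FilUV 𝓕 u v) : ringKrullDim 𝓕.T = 3 := by
  apply le_antisymm (ringKrullDim_T_le h)
  have h1 : (((𝓕.irr).height : ℕ∞) : WithBot ℕ∞) ≤ ringKrullDim 𝓕.T :=
    Ideal.height_le_ringKrullDim_of_isPrime
  rw [height_irr h] at h1
  exact h1

theorem ringKrullDim_localization (h : FilUV 𝓕 u v) :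
    ringKrullDim (Localization.AtPrime 𝓕.irr) = 3 := by
  rw [IsLocalization.AtPrime.ringKrullDim_eq_height 𝓕.irr (Localization.AtPrime 𝓕.irr),
    height_irr h]
  rfl

end Fil

end Crest.Agent.R169
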