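import Crest.Agent.R169.PackDefs

/-!
# Row 169: basic structure of `T` (grading, irrelevant ideal)
-/

set_option autoImplicit false

noncomputable section

namespace Crest.Agent.R169

open Polynomial DirectSum

variable {k Q : Type} [Field k] [Field Q] [Algebra k Q]

namespace Fil

variable (𝓕 : Fil k Q)

instance : IsDomain 𝓕.T := inferInstance
instance : IsDomain 𝓕.R := inferInstance

lemma coe_algebraMap_T (r : k) : ((algebraMap k 𝓕.T r : 𝓕.T) : Q[X]) = C (algebraMap k Q r) := rfl

/-- The degree `m` part of `p ∈ T`. -/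
def part (m : ℕ) (p : 𝓕.T) : 𝓕.piece m :=
  ⟨𝓕.mono m ⟨(p : Q[X]).coeff m, p.2 m⟩, by
    intro n hn
    simp [Polynomial.coeff_monomial, Ne.symm hn]⟩

@[simp] lemma coe_part (m : ℕ) (p : 𝓕.T) :
    (((𝓕.part m p : 𝓕.piece m) : 𝓕.T) : Q[X]) = monomial m ((p : Q[X]).coeff m) := rfl

lemma part_of_mem {m : ℕ} {p : 𝓕.T} (hp : p ∈ 𝓕.piece m) : ((𝓕.part m p : 𝓕.piece m) : 𝓕.T) = p := by
  apply Subtype.ext
  ext n
  rw [coe_part, Polynomial.coeff_monomial]
  split_ifs with h
  · rw [h]
  · exact (hp n (Ne.symm h)).symm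

lemma part_of_mem_ne {m n : ℕ} (hmn : m ≠ n) {p : 𝓕.T} (hp : p ∈ 𝓕.piece m) :
    𝓕.part n p = 0 := by
  apply Subtype.ext
  apply Subtype.ext
  rw [coe_part, hp n (Ne.symm hmn)]
  simp

/-- The decomposition map. -/
def decompFun (p : 𝓕.T) : ⨁ i, 𝓕.piece i :=
  DirectSum.mk (fun i => 𝓕.piece i) (p : Q[X]).support (fun m => 𝓕.part m p)

lemma decompFun_apply (p : 𝓕.T) (m : ℕ) : 𝓕.decompFun p m = 𝓕.part m p := by
  classical
  unfold decompFun
  by_cases h : m ∈ (p : Q[X]).support
  · rw [DirectSum.mk_apply_of_mem h]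
  · rw [DirectSum.mk_apply_of_notMem h]
    rw [Polynomial.notMem_support_iff] at h
    symm
    apply Subtype.ext
    apply Subtype.ext
    rw [coe_part, h]
    simp

/-- The decomposition map as an additive hom. -/
def decomp : 𝓕.T →+ ⨁ i, 𝓕.piece i where
  toFun := 𝓕.decompFun
  map_zero' := by
    refine DFinsupp.ext fun m => ?_
    rw [decompFun_apply]
    apply Subtype.ext
    apply Subtype.ext
    rw [coe_part]
    simp
  map_add' := by
    intro p q
    refine DFinsupp.ext fun m => ?_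
    rw [DirectSum.add_apply, decompFun_apply, decompFun_apply, decompFun_apply]
    apply Subtype.ext
    apply Subtype.ext
    simp

lemma decomp_apply (p : 𝓕.T) (m : ℕ) : 𝓕.decomp p m = 𝓕.part m p := 𝓕.decompFun_apply p m

instance : GradedAlgebra 𝓕.piece where
  one_mem := by
    intro n hn
    simp [Polynomial.coeff_one, hn]
  mul_mem := by
    intro i j p q hp hq n hn
    rw [show ((p * q : 𝓕.T) : Q[X]) = (p : Q[X]) * (q : Q[X]) from rfl, Polynomial.coeff_mul]
    refine Finset.sum_eq_zero fun x hx => ?_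
    have hx' := Finset.HasAntidiagonal.mem_antidiagonal.mp hx
    by_cases h1 : x.1 = i
    · have h2 : x.2 ≠ j := by
        rintro rfl
        apply hn
        omega
      rw [hq _ h2, mul_zero]
    · rw [hp _ h1, zero_mul]
  decompose' := 𝓕.decomp
  left_inv := by
    classical
    intro p
    apply Subtype.ext
    ext n
    have : (DirectSum.coeAddMonoidHom 𝓕.piece) (𝓕.decomp p) =
        ∑ m ∈ (p : Q[X]).support, ((𝓕.part m p : 𝓕.piece m) : 𝓕.T) := by
      rw [DirectSum.coeAddMonoidHom_eq_dfinsuppSum, DFinsupp.sum]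
      refine Finset.sum_subset_zero_on_sdiff ?_ ?_ ?_
      · intro m hm
        rw [DFinsupp.mem_support_iff] at hm
        by_contra h
        rw [Polynomial.notMem_support_iff] at h
        apply hm
        rw [decomp_apply]
        apply Subtype.ext
        apply Subtype.ext
        rw [coe_part, h]
        simp
      · intro m hm
        rw [Finset.mem_sdiff, DFinsupp.notMem_support_iff] at hm
        rw [decomp_apply] at hm
        rw [hm.2]
        rfl
      · intro m _
        rw [decomp_apply]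
    rw [this]
    rw [AddSubmonoidClass.coe_finsetSum]
    simp only [coe_part, Polynomial.finsetSum_coeff, Polynomial.coeff_monomial]
    rw [Finset.sum_ite_eq']
    split_ifs with h
    · rfl
    · exact (Polynomial.notMem_support_iff.mp h).symm
  right_inv := by
    intro x
    induction x using DirectSum.induction_on with
    | zero => simp
    | of i y =>
      rw [DirectSum.coeAddMonoidHom_of]
      refine DFinsupp.ext fun m => ?_
      change 𝓕.decomp _ m = _
      rw [decomp_apply]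
      by_cases h : i = m
      · subst h
        rw [DirectSum.of_eq_same]
        apply Subtype.ext
        exact 𝓕.part_of_mem y.2
      · rw [DirectSum.of_eq_of_ne _ _ _ (Ne.symm h)]
        exact 𝓕.part_of_mem_ne h y.2
    | add x y hx hy => rw [map_add, map_add, hx, hy]

lemma decompose_apply (p : 𝓕.T) (m : ℕ) : DirectSum.decompose 𝓕.piece p m = 𝓕.part m p :=
  𝓕.decomp_apply p m

/-- The irrelevant ideal `T₊`. -/
abbrev irr : Ideal 𝓕.T := (HomogeneousIdeal.irrelevant 𝓕.piece).toIdeal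

lemma mem_irr {p : 𝓕.T} : p ∈ 𝓕.irr ↔ (p : Q[X]).coeff 0 = 0 := by
  change GradedRing.proj 𝓕.piece 0 p = 0 ↔ _
  rw [GradedRing.proj_apply, decompose_apply]
  constructor
  · intro h
    have h2 : ((((𝓕.part 0 p : 𝓕.piece 0) : 𝓕.T) : Q[X])).coeff 0 = 0 := by rw [h]; simp
    simpa using h2
  · intro h
    apply Subtype.ext
    rw [coe_part, h]
    simp

lemma exists_const (p : 𝓕.T) : ∃ r : k, p - algebraMap k 𝓕.T r ∈ 𝓕.irr := by
  obtain ⟨r, hr⟩ := 𝓕.mem_zero_iff.mp (p.2 0)
  refine ⟨r, 𝓕.mem_irr.mpr ?_⟩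
  rw [show ((p - algebraMap k 𝓕.T r : 𝓕.T) : Q[X]) = (p : Q[X]) - C (algebraMap k Q r) from rfl]
  simp [hr]

lemma algebraMap_notMem_irr {r : k} (hr : r ≠ 0) : algebraMap k 𝓕.T r ∉ 𝓕.irr := by
  rw [mem_irr, coe_algebraMap_T]
  simpa using hr

instance isMaximal_irr : 𝓕.irr.IsMaximal := by
  rw [Ideal.isMaximal_iff]
  refine ⟨?_, ?_⟩
  · rw [mem_irr]
    simp
  · intro J p hle hp hpJ
    obtain ⟨r, hr⟩ := 𝓕.exists_const p
    have hr0 : r ≠ 0 := by
      rintro rfl
      rw [map_zero, sub_zero] at hr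
      exact hp hr
    have h1 : algebraMap k 𝓕.T r ∈ J := by
      have := J.sub_mem hpJ (hle hr)
      simpa using this
    have h2 := J.mul_mem_left (algebraMap k 𝓕.T r⁻¹) h1
    rw [← map_mul, inv_mul_cancel₀ hr0, map_one] at h2
    exact h2

lemma bijective_algebraMap_quot : Function.Bijective (algebraMap k (𝓕.T ⧸ 𝓕.irr)) := by
  refine ⟨(algebraMap k (𝓕.T ⧸ 𝓕.irr)).injective, ?_⟩
  intro x
  obtain ⟨p, rfl⟩ := Ideal.Quotient.mk_surjective x
  obtain ⟨r, hr⟩ := 𝓕.exists_const p
  refine ⟨r, ?_⟩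
  symm
  exact (Ideal.Quotient.mk_eq_mk_iff_sub_mem _ _).mpr hr

end Fil

end Crest.Agent.R169
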