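import Crest.Agent.R169.PlaceBasic
import Crest.Agent.R169.TBasic
import Crest.Agent.R169.D1

/-!
# Row 169, part D: rank one lattices, the two-case step (helper566)
-/

set_option autoImplicit false

namespace Crest.Agent.R169.TwoStep

open Module

section Basic

variable {k Q : Type} [Field k] [Field Q] [Algebra k Q] {D : TData k Q} {ι : Type}

/-! ### minimum of orders on a rank one lattice -/

theorem exists_ne_zero {I : ℤ → Submodule k Q} (hI : IsTLat D I) : ∃ d : ℤ, ∃ c ∈ I d, c ≠ 0 := by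
  by_contra hcon
  push Not at hcon
  have : spanK Q I = ⊥ := by
    unfold spanK
    rw [Submodule.span_eq_bot]
    intro x hx
    obtain ⟨m, hm⟩ := Set.mem_iUnion.1 hx
    exact hcon m x hm
  rw [hI.full] at this
  exact absurd this top_ne_bot

theorem u_ge (S : Places D ι) (P : ι) : (S.pl P).ge (-(S.c P)) D.u := by
  simpa using S.ge_of_mem D.u_mem P

theorem v_ge (S : Places D ι) (P : ι) : (S.pl P).ge (-(S.c P)) D.v := by
  simpa using S.ge_of_mem D.v_mem P

/-- scalars do not lower the order -/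
theorem ge_smul (S : Places D ι) (P : ι) (r : k) {n : ℤ} {f : Q} (h : (S.pl P).ge n f) :
    (S.pl P).ge n (r • f) := by
  rw [Algebra.smul_def]
  simpa using (S.ge_algebraMap P r).mul h

/-- lower bound propagates from degree `m₁` to all degrees. -/
theorem ge_all (S : Places D ι) (P : ι) {I : ℤ → Submodule k Q} (hI : IsTLat D I) {B : ℤ}
    {m₀ m₁ : ℤ} (h0 : ∀ m ≤ m₀, I m = ⊥)
    (h1 : ∀ m ≥ m₁, ∀ e ∈ I (m + 1), ∃ a ∈ I m, ∃ b ∈ I m, ∃ c ∈ I m,
      e = a + D.u • b + D.v • c)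
    (hB : ∀ g ∈ I m₁, (S.pl P).ge B g) :
    ∀ m, ∀ g ∈ I m, (S.pl P).ge (B - S.c P * (m₁ - m₀) - S.c P * (m - m₁)) g := by
  have c0 := S.c_nonneg P
  -- degrees ≥ m₁
  have hup : ∀ j : ℕ, ∀ g ∈ I (m₁ + j), (S.pl P).ge (B - S.c P * j) g := by
    intro j
    induction j with
    | zero => intro g hg; simpa using hB g (by simpa using hg)
    | succ j ih =>
      intro g hg
      have e1 : m₁ + ((j + 1 : ℕ) : ℤ) = m₁ + j + 1 := by push_cast; ring
      rw [e1] at hg
      obtain ⟨a, ha, b, hb, c, hc, rfl⟩ := h1 (m₁ + j) (by omega) g hg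
      have k1 := ih a ha
      have k2 := (u_ge S P).mul (ih b hb)
      have k3 := (v_ge S P).mul (ih c hc)
      have t1 : B - S.c P * ((j + 1 : ℕ) : ℤ) ≤ B - S.c P * j := by push_cast; nlinarith
      have t2 : B - S.c P * ((j + 1 : ℕ) : ℤ) ≤ -S.c P + (B - S.c P * j) := by
        push_cast; nlinarith
      rw [smul_eq_mul, smul_eq_mul]
      exact ((k1.mono t1).add (k2.mono t2)).add (k3.mono t2)
  intro m g hg
  by_cases hm : m₁ ≤ m
  · obtain ⟨j, rfl⟩ := Int.le.dest hm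
    refine (hup j g hg).mono ?_
    have : 0 ≤ S.c P * (m₁ - m₀) ∨ m₁ < m₀ := by
      rcases le_or_gt m₀ m₁ with h | h
      · left; exact mul_nonneg c0 (by omega)
      · right; exact h
    rcases this with h | h
    · have : m₁ + (j : ℤ) - m₁ = j := by ring
      rw [this]; omega
    · -- then everything of degree ≤ m₀ vanishes, so all of `I` vanishes
      exfalso
      have hz : ∀ i : ℕ, I (m₁ + i) = ⊥ := by
        intro i
        induction i with
        | zero => simpa using h0 m₁ h.le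
        | succ i ih =>
          rw [eq_bot_iff]
          intro x hx
          have e1 : m₁ + ((i + 1 : ℕ) : ℤ) = m₁ + i + 1 := by push_cast; ring
          rw [e1] at hx
          obtain ⟨a, ha, b, hb, c, hc, rfl⟩ := h1 (m₁ + i) (by omega) x hx
          rw [ih, Submodule.mem_bot] at ha hb hc
          subst ha; subst hb; subst hc
          simp
      obtain ⟨d, c, hc, c0'⟩ := exists_ne_zero hI
      rcases le_or_gt m₁ d with h2 | h2
      · obtain ⟨i, rfl⟩ := Int.le.dest h2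
        rw [hz i, Submodule.mem_bot] at hc
        exact c0' hc
      · rw [h0 d (by omega), Submodule.mem_bot] at hc
        exact c0' hc
  · by_cases hm0 : m ≤ m₀
    · rw [h0 m hm0, Submodule.mem_bot] at hg
      subst hg
      exact Place.ge_zero _ _
    · have hle : I m ≤ I m₁ := hI.lat.mono_le (by omega)
      refine (hB g (hle hg)).mono ?_
      have : S.c P * (m₁ - m₀) + S.c P * (m - m₁) = S.c P * (m - m₀) := by ring
      have h2 : 0 ≤ S.c P * (m - m₀) := mul_nonneg c0 (by omega)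
      omega

theorem exists_bound_fin (S : Places D ι) (P : ι) (E : Submodule k Q) [hE : Module.Finite k E] :
    ∃ B : ℤ, ∀ g ∈ E, (S.pl P).ge B g := by
  obtain ⟨s, hs⟩ := Module.Finite.iff_fg.1 hE
  obtain ⟨B, hB⟩ := (s.finite_toSet.image (S.pl P).ord).bddBelow
  refine ⟨B, fun g hg => ?_⟩
  rw [← hs] at hg
  induction hg using Submodule.span_induction with
  | mem x hx => exact Or.inr (hB ⟨x, hx, rfl⟩)
  | zero => exact Place.ge_zero _ _
  | add x y _ _ h1 h2 => exact h1.add h2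
  | smul r x _ h => exact ge_smul S P r h

theorem exists_bound (S : Places D ι) (P : ι) {I : ℤ → Submodule k Q} (hI : IsTLat D I) :
    ∃ B : ℤ, ∀ m, ∀ g ∈ I m, (S.pl P).ge (B - S.c P * m) g := by
  obtain ⟨m₀, h0⟩ := hI.lat.bot
  obtain ⟨m₁, h1⟩ := hI.lat.gen
  have := hI.lat.fin m₁
  obtain ⟨B, hB⟩ := exists_bound_fin S P (I m₁)
  refine ⟨B - S.c P * (m₁ - m₀) + S.c P * m₁, fun m g hg => ?_⟩
  have := ge_all S P hI h0 h1 hB m g hg
  convert this using 1
  ring

/-- `ordL` is attained. -/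
theorem ordL_attained (S : Places D ι) (P : ι) {I : ℤ → Submodule k Q} (hI : IsTLat D I) :
    ∃ m : ℤ, ∃ g ∈ I m, g ≠ 0 ∧ (S.pl P).ord g = ordL S P I - S.c P * m := by
  obtain ⟨B, hB⟩ := exists_bound S P hI
  obtain ⟨d, c, hc, c0⟩ := exists_ne_zero hI
  have hbdd : BddBelow (ordSet S P I) := by
    refine ⟨B, ?_⟩
    rintro n ⟨m, g, hg, g0, rfl⟩
    have := (Place.ge_iff g0).1 (hB m g hg)
    omega
  have hne : (ordSet S P I).Nonempty := ⟨_, d, c, hc, c0, rfl⟩
  obtain ⟨m, g, hg, g0, h⟩ := Int.csInf_mem hne hbdd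
  exact ⟨m, g, hg, g0, by unfold ordL; omega⟩

theorem ordL_le (S : Places D ι) (P : ι) {I : ℤ → Submodule k Q} (hI : IsTLat D I) {m : ℤ}
    {g : Q} (hg : g ∈ I m) : (S.pl P).ge (ordL S P I - S.c P * m) g := by
  obtain ⟨B, hB⟩ := exists_bound S P hI
  by_cases g0 : g = 0
  · exact Or.inl g0
  right
  have hbdd : BddBelow (ordSet S P I) := by
    refine ⟨B, ?_⟩
    rintro n ⟨m, g, hg, g0, rfl⟩
    have := (Place.ge_iff g0).1 (hB m g hg)
    omega
  have h : (S.pl P).ord g + S.c P * m ∈ ordSet S P I := ⟨m, g, hg, g0, rfl⟩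
  have := csInf_le hbdd h
  unfold ordL
  omega

/-- characterisation of `ordL` (no lattice hypothesis needed) -/
theorem ordL_eq (S : Places D ι) (P : ι) {I : ℤ → Submodule k Q} {n : ℤ}
    (h1 : ∀ m, ∀ g ∈ I m, (S.pl P).ge (n - S.c P * m) g)
    (h2 : ∃ m : ℤ, ∃ g ∈ I m, g ≠ 0 ∧ (S.pl P).ord g = n - S.c P * m) : ordL S P I = n := by
  obtain ⟨m, g, hg, g0, h⟩ := h2
  have hmem : n ∈ ordSet S P I := ⟨m, g, hg, g0, by omega⟩
  have hlb : ∀ x ∈ ordSet S P I, n ≤ x := by
    rintro x ⟨m', g', hg', g0', rfl⟩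
    have := (Place.ge_iff g0').1 (h1 m' g' hg')
    omega
  unfold ordL
  exact le_antisymm (csInf_le ⟨n, hlb⟩ hmem) (le_csInf ⟨n, hmem⟩ hlb)

/-- all but finitely many places: `c = 0` and `ordL = 0`. -/
theorem ordL_finite (S : Places D ι) {I : ℤ → Submodule k Q} (hI : IsTLat D I) :
    {P | ordL S P I ≠ 0}.Finite := by
  classical
  obtain ⟨m₀, h0⟩ := hI.lat.bot
  obtain ⟨m₁, h1⟩ := hI.lat.gen
  have hfin := hI.lat.fin m₁
  obtain ⟨s, hs⟩ := Module.Finite.iff_fg.1 hfin
  obtain ⟨d, c, hc, c0⟩ := exists_ne_zero hI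
  have hA : ({P | S.c P ≠ 0} ∪ {P | (S.pl P).ord c ≠ 0} ∪
      ⋃ g ∈ (s.filter (· ≠ 0)), {P | (S.pl P).ord g ≠ 0}).Finite := by
    refine (S.cfin.union (S.fin c c0)).union ?_
    refine Set.Finite.biUnion (Finset.finite_toSet _) fun g hg => ?_
    have hg' := Finset.mem_coe.1 hg
    exact S.fin g (Finset.mem_filter.1 hg').2
  refine hA.subset ?_
  intro P hP
  by_contra hcon
  simp only [Set.mem_union, Set.mem_iUnion, not_or, not_exists, Set.mem_ofPred_eq, not_not] at hcon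
  obtain ⟨⟨k1, k2⟩, k3⟩ := hcon
  apply hP
  have hB : ∀ g ∈ I m₁, (S.pl P).ge 0 g := by
    intro g hg
    rw [← hs] at hg
    induction hg using Submodule.span_induction with
    | mem x hx =>
      by_cases hx0 : x = 0
      · exact Or.inl hx0
      · right
        have := k3 x (Finset.mem_filter.2 ⟨hx, hx0⟩)
        omega
    | zero => exact Place.ge_zero _ _
    | add x y _ _ h1 h2 => exact h1.add h2
    | smul r x _ h => exact ge_smul S P r h
  have hall := ge_all S P hI h0 h1 hB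
  apply ordL_eq
  · intro m g hg
    have := hall m g hg
    rw [k1] at this ⊢
    simpa using this
  · exact ⟨d, c, hc, c0, by rw [k1, k2]; ring⟩

/-! ### linear avoidance with prescribed exact orders -/

/-- the elements of `E` of order `> n` at `P`, as a `k`-subspace -/
def deep (S : Places D ι) (P : ι) (n : ℤ) (E : Submodule k Q) : Submodule k E where
  carrier := {g | (S.pl P).ge (n + 1) (g : Q)}
  zero_mem' := Or.inl rfl
  add_mem' := by
    rintro ⟨a, ha'⟩ ⟨b, hb'⟩ ha hb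
    exact Place.ge.add ha hb
  smul_mem' := by
    rintro r ⟨a, ha'⟩ ha
    exact ge_smul S P r ha

theorem mem_deep (S : Places D ι) (P : ι) (n : ℤ) (E : Submodule k Q) (g : E) :
    g ∈ deep S P n E ↔ (S.pl P).ge (n + 1) (g : Q) := Iff.rfl

theorem avoid (S : Places D ι) [Infinite k] (E : Submodule k Q) (n : ι → ℤ)
    (A : Set ι) (hA : A.Finite)
    (hE : ∀ P ∈ A, ∀ g ∈ E, (S.pl P).ge (n P) g)
    (hne : ∃ g ∈ E, g ≠ 0)
    (h : ∀ P ∈ A, ∃ g ∈ E, g ≠ 0 ∧ (S.pl P).ord g = n P) :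
    ∃ g ∈ E, g ≠ 0 ∧ ∀ P ∈ A, (S.pl P).ord g = n P := by
  classical
  have : Finite A := hA
  let p : Option A → Subspace k E := fun o =>
    match o with
    | none => ⊥
    | some P => deep S P.1 (n P.1) E
  have hp : ∀ o, p o ≠ ⊤ := by
    intro o
    cases o with
    | none =>
      obtain ⟨g, hg, h0⟩ := hne
      intro ht
      have : (⟨g, hg⟩ : E) ∈ (p none) := by rw [ht]; exact Submodule.mem_top
      change (⟨g, hg⟩ : E) ∈ (⊥ : Submodule k E) at this
      rw [Submodule.mem_bot] at this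
      exact h0 (congrArg Subtype.val this)
    | some P =>
      obtain ⟨g, hg, h0, h1⟩ := h P.1 P.2
      intro ht
      have : (⟨g, hg⟩ : E) ∈ (p (some P)) := by rw [ht]; exact Submodule.mem_top
      change (⟨g, hg⟩ : E) ∈ deep S P.1 (n P.1) E at this
      rw [mem_deep, Place.ge_iff h0] at this
      omega
  have hu : (⋃ o, (p o : Set E)) ≠ Set.univ := by
    intro hu
    obtain ⟨o, ho⟩ := Subspace.exists_eq_top_of_iUnion_eq_univ hu
    exact hp o ho
  obtain ⟨g, hg⟩ := (Set.ne_univ_iff_exists_notMem _).1 hu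
  rw [Set.mem_iUnion, not_exists] at hg
  have g0 : (g : Q) ≠ 0 := by
    intro h0
    apply hg none
    change g ∈ (⊥ : Submodule k E)
    rw [Submodule.mem_bot]
    exact Subtype.ext h0
  refine ⟨g, g.2, g0, fun P hP => ?_⟩
  have h1 := hg (some ⟨P, hP⟩)
  change ¬ g ∈ deep S P (n P) E at h1
  rw [mem_deep, Place.ge_iff g0] at h1
  have h2 := (Place.ge_iff g0).1 (hE P hP g g.2)
  omega

/-- multiplying by powers of an element of exact order -/
theorem exact_shift (S : Places D ι) {I : ℤ → Submodule k Q} (hI : IsTLat D I) (P : ι)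
    {m n : ℤ} {g : Q} (hg : g ∈ I m) (g0 : g ≠ 0) (h : (S.pl P).ord g = n - S.c P * m) (j : ℕ) :
    ∃ g' ∈ I (m + j), g' ≠ 0 ∧ (S.pl P).ord g' = n - S.c P * (m + j) := by
  induction j with
  | zero => exact ⟨g, by simpa using hg, g0, by simpa using h⟩
  | succ j ih =>
    obtain ⟨g', hg', g0', h'⟩ := ih
    obtain ⟨t, ht, t0, hto⟩ := S.lead P
    refine ⟨t * g', ?_, mul_ne_zero t0 g0', ?_⟩
    · have := hI.act 1 (m + j) t ht g' hg'
      have e : 1 + (m + j) = m + ((j + 1 : ℕ) : ℤ) := by push_cast; ring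
      rw [e] at this
      exact this
    · rw [(S.pl P).ord_mul t g' t0 g0', hto, h']
      push_cast; ring

/-- for finitely many places and all large degrees there is an element of the lattice of exact
order at all these places. -/
theorem exists_exact (S : Places D ι) [Infinite k] {I : ℤ → Submodule k Q} (hI : IsTLat D I)
    (A : Set ι) (hA : A.Finite) :
    ∃ M : ℤ, ∀ m ≥ M, ∃ g ∈ I m, g ≠ 0 ∧ ∀ P ∈ A, (S.pl P).ord g = ordL S P I - S.c P * m := by
  obtain ⟨d, c, hc, c0⟩ := exists_ne_zero hI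
  have hex := fun P => ordL_attained S P hI
  choose mm gg hgg hgg0 hggo using hex
  obtain ⟨M, hM⟩ : ∃ M : ℤ, d ≤ M ∧ ∀ P ∈ A, mm P ≤ M := by
    obtain ⟨M, hM⟩ := (hA.image mm).bddAbove
    exact ⟨max d M, le_max_left _ _, fun P hP => (hM ⟨P, hP, rfl⟩).trans (le_max_right _ _)⟩
  refine ⟨M, fun m hm => ?_⟩
  refine avoid S (I m) (fun P => ordL S P I - S.c P * m) A hA
    (fun P _ g hg => ordL_le S P hI hg) ⟨c, hI.lat.mono_le (hM.1.trans hm) hc, c0⟩ ?_
  intro P hP
  obtain ⟨j, hj⟩ := Int.le.dest ((hM.2 P hP).trans hm)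
  obtain ⟨g', h1, h2, h3⟩ := exact_shift S hI P (hgg P) (hgg0 P) (hggo P) j
  rw [hj] at h1 h3
  exact ⟨g', h1, h2, h3⟩

/-- complementary exact elements in a common degree -/
theorem exists_pair (S : Places D ι) [Infinite k] {I₁ I₂ : ℤ → Submodule k Q}
    (h₁ : IsTLat D I₁) (h₂ : IsTLat D I₂) :
    ∃ a : ℤ, ∃ s₁ ∈ I₁ a, ∃ s₂ ∈ I₂ a, s₁ ≠ 0 ∧ s₂ ≠ 0 ∧ ∀ P,
      (S.pl P).ord s₁ = ordL S P I₁ - S.c P * a ∨ (S.pl P).ord s₂ = ordL S P I₂ - S.c P * a := by
  obtain ⟨d, c, hc, c0⟩ := exists_ne_zero h₁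
  let A : Set ι := {P | S.c P ≠ 0} ∪ {P | (S.pl P).ord c ≠ 0} ∪ {P | ordL S P I₁ ≠ 0}
  have hA : A.Finite := (S.cfin.union (S.fin c c0)).union (ordL_finite S h₁)
  obtain ⟨M, hM⟩ := exists_exact S h₂ A hA
  obtain ⟨g, hg, g0, hgo⟩ := hM (max d M) (le_max_right _ _)
  refine ⟨max d M, c, h₁.lat.mono_le (le_max_left _ _) hc, g, hg, c0, g0, fun P => ?_⟩
  by_cases hP : P ∈ A
  · exact Or.inr (hgo P hP)
  · left
    simp only [A, Set.mem_union, not_or, Set.mem_ofPred_eq, not_not] at hP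
    rw [hP.1.1, hP.1.2, hP.2]; ring

/-! ### lattice constructions -/

/-- `s I₁ + t I₂` -/
def comb (s t : Q) (I₁ I₂ : ℤ → Submodule k Q) : ℤ → Submodule k Q :=
  fun m => (I₁ m).map (LinearMap.mulLeft k s) ⊔ (I₂ m).map (LinearMap.mulLeft k t)

theorem mem_comb {s t : Q} {I₁ I₂ : ℤ → Submodule k Q} {m : ℤ} {x : Q} :
    x ∈ comb s t I₁ I₂ m ↔ ∃ a ∈ I₁ m, ∃ b ∈ I₂ m, s * a + t * b = x := by
  unfold comb
  rw [Submodule.mem_sup]
  constructor
  · rintro ⟨_, ⟨a, ha, rfl⟩, _, ⟨b, hb, rfl⟩, rfl⟩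
    exact ⟨a, ha, b, hb, rfl⟩
  · rintro ⟨a, ha, b, hb, rfl⟩
    exact ⟨_, ⟨a, ha, rfl⟩, _, ⟨b, hb, rfl⟩, rfl⟩

theorem isTLat_comb {s t : Q} (hs : s ≠ 0) {I₁ I₂ : ℤ → Submodule k Q}
    (h₁ : IsTLat D I₁) (h₂ : IsTLat D I₂) : IsTLat D (comb s t I₁ I₂) where
  lat :=
    { mono := by
        intro m x hx
        rw [mem_comb] at hx ⊢
        obtain ⟨a, ha, b, hb, rfl⟩ := hx
        exact ⟨a, h₁.lat.mono m ha, b, h₂.lat.mono m hb, rfl⟩
      umul := by
        intro m x hx
        rw [mem_comb] at hx ⊢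
        obtain ⟨a, ha, b, hb, rfl⟩ := hx
        exact ⟨_, h₁.lat.umul m a ha, _, h₂.lat.umul m b hb, by simp only [smul_eq_mul]; ring⟩
      vmul := by
        intro m x hx
        rw [mem_comb] at hx ⊢
        obtain ⟨a, ha, b, hb, rfl⟩ := hx
        exact ⟨_, h₁.lat.vmul m a ha, _, h₂.lat.vmul m b hb, by simp only [smul_eq_mul]; ring⟩
      fin := by
        intro m
        have := h₁.lat.fin m
        have := h₂.lat.fin m
        unfold comb
        infer_instance
      bot := by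
        obtain ⟨a, ha⟩ := h₁.lat.bot
        obtain ⟨b, hb⟩ := h₂.lat.bot
        refine ⟨min a b, fun m hm => ?_⟩
        unfold comb
        rw [ha m (hm.trans (min_le_left _ _)), hb m (hm.trans (min_le_right _ _))]
        simp
      gen := by
        obtain ⟨a, ha⟩ := h₁.lat.gen
        obtain ⟨b, hb⟩ := h₂.lat.gen
        refine ⟨max a b, fun m hm e he => ?_⟩
        rw [mem_comb] at he
        obtain ⟨x, hx, y, hy, rfl⟩ := he
        obtain ⟨x1, hx1, x2, hx2, x3, hx3, rfl⟩ := ha m ((le_max_left _ _).trans hm) x hx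
        obtain ⟨y1, hy1, y2, hy2, y3, hy3, rfl⟩ := hb m ((le_max_right _ _).trans hm) y hy
        refine ⟨_, mem_comb.2 ⟨x1, hx1, y1, hy1, rfl⟩, _, mem_comb.2 ⟨x2, hx2, y2, hy2, rfl⟩,
          _, mem_comb.2 ⟨x3, hx3, y3, hy3, rfl⟩, ?_⟩
        simp only [smul_eq_mul]; ring }
  act := by
    intro i j f hf x hx
    rw [mem_comb] at hx ⊢
    obtain ⟨a, ha, b, hb, rfl⟩ := hx
    exact ⟨_, h₁.act i j f hf a ha, _, h₂.act i j f hf b hb, by simp only [smul_eq_mul]; ring⟩
  full := by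
    obtain ⟨d, c, hc, c0⟩ := exists_ne_zero h₁
    rw [eq_top_iff]
    intro x _
    have : s * c ∈ spanK Q (comb s t I₁ I₂) := by
      apply Submodule.subset_span
      refine Set.mem_iUnion.2 ⟨d, mem_comb.2 ⟨c, hc, 0, Submodule.zero_mem _, by ring⟩⟩
    have h2 := Submodule.smul_mem (spanK Q (comb s t I₁ I₂)) (x / (s * c)) this
    rwa [smul_eq_mul, div_mul_cancel₀ _ (mul_ne_zero hs c0)] at h2

/-- abstract dimension count: two families with common "ratio" lattice. -/
theorem finrank_comb (S : Places D ι) {A B : Submodule k Q} [Module.Finite k A]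
    [Module.Finite k B] {s t : Q} (hs : s ≠ 0) (ht : t ≠ 0) {m d : ℤ} {o₁ o₂ : ι → ℤ}
    (hA : ∀ P, ∀ g ∈ A, (S.pl P).ge (o₁ P - S.c P * m) g)
    (hB : ∀ P, ∀ g ∈ B, (S.pl P).ge (o₂ P - S.c P * m) g)
    (hex : ∀ P, (S.pl P).ord s = o₁ P - S.c P * d ∨ (S.pl P).ord t = o₂ P - S.c P * d)
    (hsA : ∀ f ∈ D.F (m - d), f * s ∈ A) (htB : ∀ f ∈ D.F (m - d), f * t ∈ B) :
    finrank k A + finrank k B = finrank k (D.F (m - d)) +
      finrank k (A.map (LinearMap.mulLeft k t) ⊔ B.map (LinearMap.mulLeft k s) :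
        Submodule k Q) := by
  have h1 := Submodule.finrank_sup_add_finrank_inf_eq
    (A.map (LinearMap.mulLeft k t)) (B.map (LinearMap.mulLeft k s))
  rw [D1.finrank_map_mulLeft _ ht, D1.finrank_map_mulLeft _ hs] at h1
  rw [← h1, add_comm]
  congr 1
  have h2 : A.map (LinearMap.mulLeft k t) ⊓ B.map (LinearMap.mulLeft k s)
      = (D.F (m - d)).map (LinearMap.mulLeft k (s * t)) := by
    ext x
    constructor
    · rintro ⟨⟨a, ha, rfl⟩, ⟨b, hb, hab⟩⟩
      simp only [LinearMap.mulLeft_apply] at hab ⊢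
      refine ⟨a / s, ?_, ?_⟩
      · apply S.mem_of_ge
        intro P
        by_cases ha0 : a = 0
        · left; rw [ha0, zero_div]
        have hb0 : b ≠ 0 := by
          intro h
          rw [h, mul_zero] at hab
          exact (mul_ne_zero ht ha0) hab.symm
        have e1 : a / s = b / t := by
          field_simp
          linear_combination -hab
        right
        rcases hex P with h | h
        · rw [D1.ord_div _ ha0 hs, h]
          have := (Place.ge_iff ha0).1 (hA P a ha)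
          linarith [mul_sub (S.c P) m d]
        · rw [e1, D1.ord_div _ hb0 ht, h]
          have := (Place.ge_iff hb0).1 (hB P b hb)
          linarith [mul_sub (S.c P) m d]
      · simp only [LinearMap.mulLeft_apply]
        field_simp
    · rintro ⟨f, hf, rfl⟩
      simp only [LinearMap.mulLeft_apply]
      exact ⟨⟨f * s, hsA f hf, by simp only [LinearMap.mulLeft_apply]; ring⟩,
        ⟨f * t, htB f hf, by simp only [LinearMap.mulLeft_apply]; ring⟩⟩
  rw [h2, D1.finrank_map_mulLeft _ (mul_ne_zero hs ht)]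

/-! ### Frobenius pull back of a rank one lattice -/

theorem frob1_le {p : ℕ} {I : ℤ → Submodule k Q} {m : ℤ} (W : Submodule k Q)
    (h : ∀ j : ℤ, ∀ f ∈ D.F (m - p * j), ∀ g ∈ I j, f * g ^ p ∈ W) : frob1 D p I m ≤ W := by
  unfold frob1
  rw [Submodule.span_le]
  rintro _ ⟨j, f, hf, g, hg, rfl⟩
  exact h j f hf g hg

theorem mem_frob1 {p : ℕ} {I : ℤ → Submodule k Q} {m j : ℤ} {f g : Q} (hf : f ∈ D.F (m - p * j))
    (hg : g ∈ I j) : f * g ^ p ∈ frob1 D p I m :=
  Submodule.subset_span ⟨j, f, hf, g, hg, rfl⟩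

theorem ge_pow (P : Place Q) {n : ℤ} {f : Q} {p : ℕ} (hp : 0 < p) (h : P.ge n f) :
    P.ge (p * n) (f ^ p) := by
  rcases h with rfl | h
  · left; exact zero_pow hp.ne'
  · by_cases h0 : f = 0
    · left; rw [h0]; exact zero_pow hp.ne'
    · right
      rw [P.ord_pow _ h0]
      exact mul_le_mul_of_nonneg_left h (by positivity)

theorem frob1_ge (S : Places D ι) {p : ℕ} (hp : 0 < p) {I : ℤ → Submodule k Q}
    (hI : IsTLat D I) {m : ℤ} (P : ι) {w : Q} (hw : w ∈ frob1 D p I m) :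
    (S.pl P).ge (p * ordL S P I - S.c P * m) w := by
  unfold frob1 at hw
  induction hw using Submodule.span_induction with
  | mem x hx =>
    obtain ⟨j, f, hf, g, hg, rfl⟩ := hx
    have h1 := S.ge_of_mem hf P
    have h2 := ge_pow (S.pl P) hp (ordL_le S P hI hg)
    refine (h1.mul h2).mono (le_of_eq ?_)
    ring
  | zero => exact Place.ge_zero _ _
  | add x y _ _ h1 h2 => exact h1.add h2
  | smul r x _ h => exact ge_smul S P r h

/-- a rank one lattice embeds in a shift of `F` after multiplication by an element. -/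
theorem exists_scale {I : ℤ → Submodule k Q} (hI : IsTLat D I) :
    ∃ s : Q, s ≠ 0 ∧ ∃ d : ℤ, ∀ m, ∀ g ∈ I m, s * g ∈ D.F (m + d) := by
  classical
  obtain ⟨m₀, h0⟩ := hI.lat.bot
  obtain ⟨m₁, h1⟩ := hI.lat.gen
  have hfin := hI.lat.fin m₁
  obtain ⟨t, ht⟩ := Module.Finite.iff_fg.1 hfin
  -- common denominator
  have key : ∀ t : Finset Q, ∃ s : Q, s ≠ 0 ∧ ∃ d : ℤ, ∀ g ∈ t, s * g ∈ D.F d := by
    intro t
    induction t using Finset.induction_on with
    | empty => exact ⟨1, one_ne_zero, 0, by simp⟩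
    | insert a t _ ih =>
      obtain ⟨s, s0, d, hs⟩ := ih
      obtain ⟨n, f, hf, g, hg, g0, hfg⟩ := D.frac a
      have hd : ∀ q ∈ t, s * q * g ∈ D.F (d + n) := fun q hq => D.mul_mem d n _ (hs q hq) _ hg
      -- `s` lies in some `F`
      obtain ⟨n', f', hf', g', hg', g0', hfg'⟩ := D.frac s
      refine ⟨s * g * g', mul_ne_zero (mul_ne_zero s0 g0) g0', max (d + n + n') (n' + n), ?_⟩
      intro q hq
      rcases Finset.mem_insert.1 hq with rfl | hq
      · have e : s * g * g' * q = f' * f := by rw [← hfg', ← hfg]; ring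
        rw [e]
        exact D.F_mono (le_max_right _ _) (D.mul_mem n' n _ hf' _ hf)
      · have e : s * g * g' * q = s * q * g * g' := by ring
        rw [e]
        exact D.F_mono (le_max_left _ _) (D.mul_mem (d + n) n' _ (hd q hq) _ hg')
  obtain ⟨s, s0, e, hs⟩ := key t
  have hE : ∀ g ∈ I m₁, s * g ∈ D.F e := by
    intro g hg
    rw [← ht] at hg
    induction hg using Submodule.span_induction with
    | mem x hx => exact hs x hx
    | zero => rw [mul_zero]; exact Submodule.zero_mem _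
    | add x y _ _ h1 h2 => rw [mul_add]; exact Submodule.add_mem _ h1 h2
    | smul r x _ h => rw [mul_smul_comm]; exact Submodule.smul_mem _ _ h
  have hup : ∀ j : ℕ, ∀ g ∈ I (m₁ + j), s * g ∈ D.F (e + j) := by
    intro j
    induction j with
    | zero => intro g hg; simpa using hE g (by simpa using hg)
    | succ j ih =>
      intro g hg
      have e1 : m₁ + ((j + 1 : ℕ) : ℤ) = m₁ + j + 1 := by push_cast; ring
      rw [e1] at hg
      obtain ⟨a, ha, b, hb, c, hc, rfl⟩ := h1 (m₁ + j) (by omega) g hg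
      have e2 : e + ((j + 1 : ℕ) : ℤ) = e + j + 1 := by push_cast; ring
      rw [e2]
      have k1 := D.lat.mono _ (ih a ha)
      have k2 := D.lat.umul _ _ (ih b hb)
      have k3 := D.lat.vmul _ _ (ih c hc)
      have e3 : s * (a + D.u • b + D.v • c) = s * a + D.u • (s * b) + D.v • (s * c) := by
        simp only [smul_eq_mul]; ring
      rw [e3]
      exact Submodule.add_mem _ (Submodule.add_mem _ k1 k2) k3
  refine ⟨s, s0, max (e - m₁) (e - m₀), fun m g hg => ?_⟩
  by_cases hm : m₁ ≤ m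
  · obtain ⟨j, rfl⟩ := Int.le.dest hm
    refine D.F_mono ?_ (hup j g hg)
    have := le_max_left (e - m₁) (e - m₀)
    omega
  · by_cases hm0 : m ≤ m₀
    · rw [h0 m hm0, Submodule.mem_bot] at hg
      subst hg
      rw [mul_zero]; exact Submodule.zero_mem _
    · refine D.F_mono ?_ (hE g (hI.lat.mono_le (by omega) hg))
      have := le_max_right (e - m₁) (e - m₀)
      omega

theorem frob1_fin (p : ℕ) {I : ℤ → Submodule k Q} (hI : IsTLat D I) (m : ℤ) :
    Module.Finite k (frob1 D p I m) := by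
  obtain ⟨s, s0, d, hs⟩ := exists_scale hI
  have hsp : s ^ p ≠ 0 := pow_ne_zero p s0
  have hle : (frob1 D p I m).map (LinearMap.mulLeft k (s ^ p)) ≤ D.F (m + p * d) := by
    rw [Submodule.map_le_iff_le_comap]
    apply frob1_le
    intro j f hf g hg
    rw [Submodule.mem_comap, LinearMap.mulLeft_apply]
    have h1 := D.pow_mem' (hs j g hg) p
    have h2 := D.mul_mem _ _ _ hf _ h1
    have e : m - p * j + p * (j + d) = m + p * d := by ring
    rw [e] at h2
    have e2 : s ^ p * (f * g ^ p) = f * (s * g) ^ p := by ring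
    rwa [e2]
  have := D.fin (m + p * d)
  have h3 : Module.Finite k ((frob1 D p I m).map (LinearMap.mulLeft k (s ^ p))) :=
    Submodule.finiteDimensional_of_le hle
  have hinj : Function.Injective (LinearMap.mulLeft k (s ^ p)) := by
    intro a b h
    simpa [hsp] using h
  exact Module.Finite.equiv (Submodule.equivMapOfInjective _ hinj (frob1 D p I m)).symm

theorem frob1_comb {p : ℕ} [Fact p.Prime] [CharP k p] {s t : Q} {I₁ I₂ : ℤ → Submodule k Q}
    (m : ℤ) : frob1 D p (comb s t I₁ I₂) m =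
      (frob1 D p I₁ m).map (LinearMap.mulLeft k (s ^ p)) ⊔
        (frob1 D p I₂ m).map (LinearMap.mulLeft k (t ^ p)) := by
  have : CharP Q p := charP_of_injective_algebraMap (algebraMap k Q).injective p
  apply le_antisymm
  · apply frob1_le
    intro j f hf g hg
    rw [mem_comb] at hg
    obtain ⟨a, ha, b, hb, rfl⟩ := hg
    have e : f * (s * a + t * b) ^ p = s ^ p * (f * a ^ p) + t ^ p * (f * b ^ p) := by
      rw [add_pow_char, mul_pow, mul_pow]; ring
    rw [e]
    exact Submodule.add_mem_sup ⟨_, mem_frob1 hf ha, rfl⟩ ⟨_, mem_frob1 hf hb, rfl⟩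
  · refine sup_le ?_ ?_
    · rw [Submodule.map_le_iff_le_comap]
      apply frob1_le
      intro j f hf g hg
      rw [Submodule.mem_comap, LinearMap.mulLeft_apply]
      have e : s ^ p * (f * g ^ p) = f * (s * g) ^ p := by ring
      rw [e]
      exact mem_frob1 hf (mem_comb.2 ⟨g, hg, 0, Submodule.zero_mem _, by ring⟩)
    · rw [Submodule.map_le_iff_le_comap]
      apply frob1_le
      intro j f hf g hg
      rw [Submodule.mem_comap, LinearMap.mulLeft_apply]
      have e : t ^ p * (f * g ^ p) = f * (t * g) ^ p := by ring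
      rw [e]
      exact mem_frob1 hf (mem_comb.2 ⟨0, Submodule.zero_mem _, g, hg, by ring⟩)

/-! ### the two-case step -/

theorem two_step [Infinite k] (S : Places D ι) (p : ℕ) [Fact p.Prime] [CharP k p]
    {I₁ I₂ : ℤ → Submodule k Q} (h₁ : IsTLat D I₁) (h₂ : IsTLat D I₂) :
    ∃ (a : ℤ) (I : ℤ → Submodule k Q), IsTLat D I ∧
      (∀ P, ordL S P I = ordL S P I₁ + ordL S P I₂ - S.c P * a) ∧
      (∀ m, finrank k (I₁ m) + finrank k (I₂ m) = finrank k (D.F (m - a)) + finrank k (I m)) ∧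
      (∀ m, finrank k (frob1 D p I₁ m) + finrank k (frob1 D p I₂ m) =
        finrank k (D.F (m - p * a)) + finrank k (frob1 D p I m)) := by
  have hp : 0 < p := (Fact.out : p.Prime).pos
  obtain ⟨a, s₁, hs₁, s₂, hs₂, s₁0, s₂0, hex⟩ := exists_pair S h₁ h₂
  refine ⟨a, comb s₂ s₁ I₁ I₂, isTLat_comb s₂0 h₁ h₂, ?_, ?_, ?_⟩
  · intro P
    have e1 := (Place.ge_iff s₁0).1 (ordL_le S P h₁ hs₁)
    have e2 := (Place.ge_iff s₂0).1 (ordL_le S P h₂ hs₂)
    apply ordL_eq
    · intro m g hg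
      rw [mem_comb] at hg
      obtain ⟨x, hx, y, hy, rfl⟩ := hg
      have k1 := (Place.ge_ord s₂ (P := S.pl P)).mul (ordL_le S P h₁ hx)
      have k2 := (Place.ge_ord s₁ (P := S.pl P)).mul (ordL_le S P h₂ hy)
      exact (k1.mono (by linarith)).add (k2.mono (by linarith))
    · rcases hex P with h | h
      · obtain ⟨m, g, hg, g0, hgo⟩ := ordL_attained S P h₂
        refine ⟨m, s₁ * g, mem_comb.2 ⟨0, Submodule.zero_mem _, g, hg, by ring⟩,
          mul_ne_zero s₁0 g0, ?_⟩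
        rw [(S.pl P).ord_mul _ _ s₁0 g0, h, hgo]; ring
      · obtain ⟨m, g, hg, g0, hgo⟩ := ordL_attained S P h₁
        refine ⟨m, s₂ * g, mem_comb.2 ⟨g, hg, 0, Submodule.zero_mem _, by ring⟩,
          mul_ne_zero s₂0 g0, ?_⟩
        rw [(S.pl P).ord_mul _ _ s₂0 g0, h, hgo]; ring
  · intro m
    have := h₁.lat.fin m
    have := h₂.lat.fin m
    refine finrank_comb S s₁0 s₂0 (m := m) (d := a) (o₁ := fun P => ordL S P I₁)
      (o₂ := fun P => ordL S P I₂) (fun P g hg => ordL_le S P h₁ hg)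
      (fun P g hg => ordL_le S P h₂ hg) hex ?_ ?_
    · intro f hf
      have := h₁.act (m - a) a f hf s₁ hs₁
      rwa [sub_add_cancel] at this
    · intro f hf
      have := h₂.act (m - a) a f hf s₂ hs₂
      rwa [sub_add_cancel] at this
  · intro m
    have := frob1_fin p h₁ m
    have := frob1_fin p h₂ m
    rw [frob1_comb]
    refine finrank_comb S (pow_ne_zero p s₁0) (pow_ne_zero p s₂0) (m := m) (d := p * a)
      (o₁ := fun P => p * ordL S P I₁) (o₂ := fun P => p * ordL S P I₂)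
      (fun P g hg => frob1_ge S hp h₁ P hg) (fun P g hg => frob1_ge S hp h₂ P hg) ?_ ?_ ?_
    · intro P
      rcases hex P with h | h
      · left; rw [(S.pl P).ord_pow _ s₁0, h]; ring
      · right; rw [(S.pl P).ord_pow _ s₂0, h]; ring
    · intro f hf; exact mem_frob1 hf hs₁
    · intro f hf; exact mem_frob1 hf hs₂

theorem multi_step [Infinite k] (S : Places D ι) (p : ℕ) [Fact p.Prime] [CharP k p]
    {κ : Type} (s : Finset κ) (hs : s.Nonempty) (I : κ → ℤ → Submodule k Q)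
    (hI : ∀ i ∈ s, IsTLat D (I i)) :
    ∃ (A : Multiset ℤ) (J : ℤ → Submodule k Q), A.card + 1 = s.card ∧ IsTLat D J ∧
      (∀ P, ordL S P J = ∑ i ∈ s, ordL S P (I i) - S.c P * A.sum) ∧
      (∀ m, ∑ i ∈ s, finrank k (I i m) =
        (A.map fun a => finrank k (D.F (m - a))).sum + finrank k (J m)) ∧
      (∀ m, ∑ i ∈ s, finrank k (frob1 D p (I i) m) =
        (A.map fun a => finrank k (D.F (m - p * a))).sum + finrank k (frob1 D p J m)) := by
  classical
  induction hs using Finset.Nonempty.cons_induction with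
  | singleton i =>
    exact ⟨0, I i, by simp, hI i (Finset.mem_singleton_self i), by simp, by simp, by simp⟩
  | cons i s hi hs ih =>
    obtain ⟨A, J, hA, hJ, ho, hd, hf⟩ := ih fun j hj => hI j (Finset.mem_cons_of_mem hj)
    obtain ⟨a, K, hK, ho', hd', hf'⟩ := two_step S p (hI i (Finset.mem_cons_self i s)) hJ
    refine ⟨a ::ₘ A, K, ?_, hK, ?_, ?_, ?_⟩
    · rw [Multiset.card_cons, Finset.card_cons, hA]
    · intro P
      rw [ho' P, ho P, Finset.sum_cons, Multiset.sum_cons]; ring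
    · intro m
      rw [Finset.sum_cons, hd m, Multiset.map_cons, Multiset.sum_cons]
      have := hd' m
      omega
    · intro m
      rw [Finset.sum_cons, hf m, Multiset.map_cons, Multiset.sum_cons]
      have := hf' m
      omega

/-! ### translates -/

/-- generation over `T` implies generation over `k[X, Xu, Xv]` in large degrees -/
theorem gen_of_Tgen {I : ℤ → Submodule k Q}
    (hact : ∀ i j : ℤ, ∀ f ∈ D.F i, ∀ g ∈ I j, f * g ∈ I (i + j))
    (hgen : ∃ m₁ : ℤ, ∀ m ≥ m₁, I m ≤ Submodule.span k {x | ∃ f ∈ D.F (m - m₁), ∃ g ∈ I m₁,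
      x = f * g}) :
    ∃ m₁ : ℤ, ∀ m ≥ m₁, ∀ e ∈ I (m + 1), ∃ a ∈ I m, ∃ b ∈ I m, ∃ c ∈ I m,
      e = a + D.u • b + D.v • c := by
  obtain ⟨m₁, h1⟩ := hgen
  obtain ⟨c₁, hc⟩ := D.lat.gen
  refine ⟨m₁ + max 0 c₁, fun m hm e he => ?_⟩
  have hm1 : m₁ ≤ m := le_trans (by have := le_max_left 0 c₁; omega) hm
  have hm2 : c₁ ≤ m - m₁ := by have := le_max_right 0 c₁; omega
  have he' := h1 (m + 1) (by omega) he
  clear he
  induction he' using Submodule.span_induction with
  | mem x hx =>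
    obtain ⟨f, hf, g, hg, rfl⟩ := hx
    have e1 : m + 1 - m₁ = m - m₁ + 1 := by ring
    rw [e1] at hf
    obtain ⟨a, ha, b, hb, c, hc', rfl⟩ := hc (m - m₁) hm2 f hf
    have k : ∀ y ∈ D.F (m - m₁), y * g ∈ I m := by
      intro y hy
      have := hact _ _ y hy g hg
      rwa [sub_add_cancel] at this
    exact ⟨_, k a ha, _, k b hb, _, k c hc', by simp only [smul_eq_mul]; ring⟩
  | zero => exact ⟨0, Submodule.zero_mem _, 0, Submodule.zero_mem _, 0, Submodule.zero_mem _,
      by simp⟩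
  | add x y _ _ h1 h2 =>
    obtain ⟨a, ha, b, hb, c, hc, rfl⟩ := h1
    obtain ⟨a', ha', b', hb', c', hc', rfl⟩ := h2
    exact ⟨_, Submodule.add_mem _ ha ha', _, Submodule.add_mem _ hb hb', _,
      Submodule.add_mem _ hc hc', by simp only [smul_eq_mul]; ring⟩
  | smul r x _ h =>
    obtain ⟨a, ha, b, hb, c, hc, rfl⟩ := h
    refine ⟨_, Submodule.smul_mem _ r ha, _, Submodule.smul_mem _ r hb, _,
      Submodule.smul_mem _ r hc, ?_⟩
    simp only [smul_add, smul_eq_mul, mul_smul_comm]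

theorem Tgen_of_lat {I : ℤ → Submodule k Q} (hI : IsTLat D I) :
    ∃ m₁ : ℤ, ∀ m ≥ m₁, I m ≤ Submodule.span k {x | ∃ f ∈ D.F (m - m₁), ∃ g ∈ I m₁,
      x = f * g} := by
  obtain ⟨m₁, h1⟩ := hI.lat.gen
  refine ⟨m₁, fun m hm => ?_⟩
  obtain ⟨j, rfl⟩ := Int.le.dest hm
  clear hm
  induction j with
  | zero =>
    intro x hx
    exact Submodule.subset_span ⟨1, by simpa using D.one_mem_zero, x, by simpa using hx,
      by rw [one_mul]⟩
  | succ j ih =>
    intro x hx
    have e1 : m₁ + ((j + 1 : ℕ) : ℤ) = m₁ + j + 1 := by push_cast; ring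
    rw [e1] at hx
    obtain ⟨a, ha, b, hb, c, hc, rfl⟩ := h1 (m₁ + j) (by omega) x hx
    have key : ∀ q : Q, q ∈ D.F 1 → ∀ y ∈ I (m₁ + j), q * y ∈ Submodule.span k
        {x | ∃ f ∈ D.F (m₁ + ((j + 1 : ℕ) : ℤ) - m₁), ∃ g ∈ I m₁, x = f * g} := by
      intro q hq y hy
      have hy' := ih hy
      clear hy
      induction hy' using Submodule.span_induction with
      | mem x hx =>
        obtain ⟨f, hf, g, hg, rfl⟩ := hx
        refine Submodule.subset_span ⟨q * f, ?_, g, hg, by ring⟩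
        have := D.mul_mem 1 _ q hq f hf
        have e : 1 + (m₁ + (j : ℤ) - m₁) = m₁ + ((j + 1 : ℕ) : ℤ) - m₁ := by push_cast; ring
        rwa [e] at this
      | zero => rw [mul_zero]; exact Submodule.zero_mem _
      | add x y _ _ h1 h2 => rw [mul_add]; exact Submodule.add_mem _ h1 h2
      | smul r x _ h => rw [mul_smul_comm]; exact Submodule.smul_mem _ _ h
    refine Submodule.add_mem _ (Submodule.add_mem _ ?_ ?_) ?_
    · simpa using key 1 D.one_mem a ha
    · exact key D.u D.u_mem b hb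
    · exact key D.v D.v_mem c hc

theorem mem_mapL {σ : Q ≃ₐ[k] Q} {I : ℤ → Submodule k Q} {m : ℤ} {x : Q} :
    x ∈ mapL σ I m ↔ ∃ y ∈ I m, σ y = x := by
  unfold mapL
  rw [Submodule.mem_map]
  rfl

theorem isTLat_mapL {σ : Q ≃ₐ[k] Q} (hσ : ∀ m, ∀ f ∈ D.F m, σ.symm f ∈ D.F m)
    (hσ' : ∀ m, ∀ f ∈ D.F m, σ f ∈ D.F m) {I : ℤ → Submodule k Q} (hI : IsTLat D I) :
    IsTLat D (mapL σ I) := by
  have hact : ∀ i j : ℤ, ∀ f ∈ D.F i, ∀ g ∈ mapL σ I j, f * g ∈ mapL σ I (i + j) := by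
    intro i j f hf g hg
    rw [mem_mapL] at hg ⊢
    obtain ⟨y, hy, rfl⟩ := hg
    refine ⟨σ.symm f * y, hI.act i j _ (hσ i f hf) y hy, by rw [map_mul, AlgEquiv.apply_symm_apply]⟩
  refine ⟨⟨?_, ?_, ?_, ?_, ?_, ?_⟩, ?_, ?_⟩
  · intro m; exact Submodule.map_mono (hI.lat.mono m)
  · intro m e he
    have := hact 1 m D.u D.u_mem e he
    rwa [add_comm] at this
  · intro m e he
    have := hact 1 m D.v D.v_mem e he
    rwa [add_comm] at this
  · intro m
    have := hI.lat.fin m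
    unfold mapL
    infer_instance
  · obtain ⟨m₀, h0⟩ := hI.lat.bot
    exact ⟨m₀, fun m hm => by unfold mapL; rw [h0 m hm, Submodule.map_bot]⟩
  · apply gen_of_Tgen hact
    obtain ⟨m₁, h1⟩ := Tgen_of_lat hI
    refine ⟨m₁, fun m hm x hx => ?_⟩
    rw [mem_mapL] at hx
    obtain ⟨y, hy, rfl⟩ := hx
    have hy' := h1 m hm hy
    clear hy
    induction hy' using Submodule.span_induction with
    | mem x hx =>
      obtain ⟨f, hf, g, hg, rfl⟩ := hx
      exact Submodule.subset_span ⟨σ f, hσ' _ f hf, σ g, mem_mapL.2 ⟨g, hg, rfl⟩, map_mul σ f g⟩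
    | zero => rw [map_zero]; exact Submodule.zero_mem _
    | add x y _ _ h1 h2 => rw [map_add]; exact Submodule.add_mem _ h1 h2
    | smul r x _ h => rw [map_smul]; exact Submodule.smul_mem _ _ h
  · intro i j f hf g hg
    exact hact i j f hf g hg
  · obtain ⟨d, c, hc, c0⟩ := exists_ne_zero hI
    rw [eq_top_iff]
    intro x _
    have : σ c ∈ spanK Q (mapL σ I) := by
      apply Submodule.subset_span
      exact Set.mem_iUnion.2 ⟨d, mem_mapL.2 ⟨c, hc, rfl⟩⟩
    have h2 := Submodule.smul_mem (spanK Q (mapL σ I)) (x / σ c) this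
    rwa [smul_eq_mul, div_mul_cancel₀ _ (by simpa using c0)] at h2

theorem finrank_mapL (σ : Q ≃ₐ[k] Q) (I : ℤ → Submodule k Q) (m : ℤ) :
    finrank k (mapL σ I m) = finrank k (I m) := by
  unfold mapL
  exact (LinearEquiv.finrank_eq (Submodule.equivMapOfInjective σ.toLinearMap σ.injective
    (I m))).symm

theorem frob1_mapL {σ : Q ≃ₐ[k] Q} (hσ : ∀ m, ∀ f ∈ D.F m, σ.symm f ∈ D.F m)
    (hσ' : ∀ m, ∀ f ∈ D.F m, σ f ∈ D.F m) (p : ℕ) (I : ℤ → Submodule k Q) :
    frob1 D p (mapL σ I) = mapL σ (frob1 D p I) := by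
  funext m
  apply le_antisymm
  · apply frob1_le
    intro j f hf g hg
    rw [mem_mapL] at hg ⊢
    obtain ⟨y, hy, rfl⟩ := hg
    exact ⟨σ.symm f * y ^ p, mem_frob1 (hσ _ f hf) hy,
      by rw [map_mul, map_pow, AlgEquiv.apply_symm_apply]⟩
  · unfold mapL
    rw [Submodule.map_le_iff_le_comap]
    apply frob1_le
    intro j f hf g hg
    rw [Submodule.mem_comap]
    change σ (f * g ^ p) ∈ _
    rw [map_mul, map_pow]
    exact mem_frob1 (hσ' _ f hf) (mem_mapL.2 ⟨g, hg, rfl⟩)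

section Symm

variable {S : Places D ι} (Y : Symm D S)

theorem act_symm_F (γ : Y.Γ) (m : ℤ) (f : Q) (hf : f ∈ D.F m) : (Y.act γ).symm f ∈ D.F m := by
  have : (Y.act γ).symm = Y.act γ⁻¹ := by
    rw [map_inv]; rfl
  rw [this]
  exact Y.F_le γ⁻¹ m f hf

theorem isTLat_act (γ : Y.Γ) {I : ℤ → Submodule k Q} (hI : IsTLat D I) :
    IsTLat D (mapL (Y.act γ) I) :=
  isTLat_mapL (act_symm_F Y γ) (Y.F_le γ) hI

theorem finrank_frob1_act (γ : Y.Γ) (p : ℕ) (I : ℤ → Submodule k Q) (m : ℤ) :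
    finrank k (frob1 D p (mapL (Y.act γ) I) m) = finrank k (frob1 D p I m) := by
  rw [frob1_mapL (act_symm_F Y γ) (Y.F_le γ), finrank_mapL]

theorem ordL_act (γ : Y.Γ) (P : ι) (I : ℤ → Submodule k Q) :
    ordL S (Y.perm γ P) (mapL (Y.act γ) I) = ordL S P I := by
  unfold ordL
  congr 1
  ext n
  constructor
  · rintro ⟨m, g, hg, g0, rfl⟩
    obtain ⟨y, hy, rfl⟩ := mem_mapL.1 hg
    have y0 : y ≠ 0 := by rintro rfl; simp at g0
    exact ⟨m, y, hy, y0, by rw [Y.ord_perm γ P y y0, Y.c_perm]⟩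
  · rintro ⟨m, g, hg, g0, rfl⟩
    exact ⟨m, Y.act γ g, mem_mapL.2 ⟨g, hg, rfl⟩, by simpa using g0,
      by rw [Y.ord_perm γ P g g0, Y.c_perm]⟩

end Symm

end Basic

end Crest.Agent.R169.TwoStep
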