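import Crest.Agent.R169.DShape
import Crest.Agent.R169.Flag1
import Crest.Agent.R169.TwoStep
import Crest.Agent.R169.D1
import Crest.Agent.R169.ColenFinal
import Crest.Agent.R169.Hilb
import Crest.Agent.R169.Bridge

/-!
# Row 169, PART D: assembly (owner helper862)
-/

set_option autoImplicit false
set_option maxHeartbeats 400000

namespace Crest.Agent.R169.PartD

open Module DShape

section

variable {k Q ι : Type} [Field k] [Field Q] [Algebra k Q] {D : TData k Q}

theorem exHP [Infinite k] {I : ℤ → Submodule k Q} (hI : IsLat D.u D.v I) :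
    ∃ (n : ℕ) (b c : ℚ), HasHP I n b c := by
  obtain ⟨b, c, h, -, -⟩ := IsLat.exists_hasHP (K := D.K0) (V := Q) D.isRat
    (IsLat.restrict (L := D.K0) (Q := Q) (V := Q) hI)
  exact ⟨_, b, c, h⟩

theorem isFam_frob1 (p : ℕ) (I : ℤ → Submodule k Q) : IsFam D.u D.v (frob1 D p I) := by
  have key : ∀ (m : ℤ) (t : Q), t ∈ D.F 1 → ∀ e ∈ frob1 D p I m, t * e ∈ frob1 D p I (m + 1) := by
    intro m t ht e he
    induction he using Submodule.span_induction with
    | mem w hw =>
      obtain ⟨j, f, hf, g, hg, rfl⟩ := hw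
      apply Submodule.subset_span
      refine ⟨j, t * f, ?_, g, hg, by ring⟩
      have := D.mul_mem _ _ _ ht _ hf
      have e1 : 1 + (m - p * j) = m + 1 - p * j := by ring
      rwa [e1] at this
    | zero => rw [mul_zero]; exact Submodule.zero_mem _
    | add w w' _ _ h1 h2 => rw [mul_add]; exact Submodule.add_mem _ h1 h2
    | smul c w _ h1 => rw [mul_smul_comm]; exact Submodule.smul_mem _ _ h1
  refine ⟨fun m e he => ?_, fun m e he => ?_, fun m e he => ?_⟩
  · have := key m 1 D.one_mem e he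
    rwa [one_mul] at this
  · exact key m D.u D.u_mem e he
  · exact key m D.v D.v_mem e he

theorem finrank_le_of_le {A B : Submodule k Q} [Module.Finite k B] (h : A ≤ B) :
    finrank k A ≤ finrank k B := Submodule.finrank_mono h

theorem eventual {N : ℕ} {bT cT : ℚ} [Infinite k] (hT : HasHP D.F N bT cT)
    {I : ℤ → Submodule k Q} (hI : IsLat D.u D.v I) (hle : ∀ m, I m ≤ D.F m) {C : ℕ}
    (hC : ∃ m₀ : ℤ, ∀ m ≥ m₀, finrank k (D.F m) ≤ finrank k (I m) + C) :
    ∃ (e : ℕ) (m₀ : ℤ), e ≤ C ∧ ∀ m ≥ m₀, finrank k (D.F m) = finrank k (I m) + e := by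
  obtain ⟨n, b, c, m₁, h1⟩ := exHP hI
  obtain ⟨m₂, h2⟩ := hT
  obtain ⟨m₃, h3⟩ := hC
  have hfin : ∀ m, Module.Finite k (D.F m) := D.lat.fin
  obtain ⟨e, he, h⟩ := eventually_const (f := fun m => finrank k (D.F m))
    (g := fun m => finrank k (I m)) (m₀ := max m₁ (max m₂ m₃)) (C := C)
    (fun m hm => h2 m (le_trans (le_trans (le_max_left _ _) (le_max_right _ _)) hm))
    (fun m hm => h1 m (le_trans (le_max_left _ _) hm))
    (fun m _ => by
      have := hfin m
      exact Submodule.finrank_mono (hle m))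
    (fun m hm => h3 m (le_trans (le_trans (le_max_right _ _) (le_max_right _ _)) hm))
  exact ⟨e, _, he, h⟩

/-- rank one lattices with principal order function -/
theorem principal_step [IsAlgClosed k] (S : Places D ι) (p : ℕ) [Fact p.Prime] [CharP k p]
    {N : ℕ} {bT cT : ℚ} (hT : HasHP D.F N bT cT) (hcol : ColengthStatement D p)
    {J : ℤ → Submodule k Q} (hJ : IsTLat D J) {f : Q} (hf : f ≠ 0) {κ : ℤ}
    (hord : ∀ P, ordL S P J = (S.pl P).ord f + S.c P * κ) :
    ∃ (e e' : ℕ) (m₀ : ℤ), e' ≤ p ^ 2 * e ∧ ∀ m ≥ m₀,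
      finrank k (J m) + e = finrank k (D.F (m - κ)) ∧
      finrank k (frob1 D p J m) + e' = finrank k (D.F (m - p * κ)) := by
  have : Infinite k := IsAlgClosed.instInfinite
  have hleast : ∀ P, IsLeast (ordSet S P J) (ordL S P J) := by
    intro P
    constructor
    · obtain ⟨m, g, hg, g0, h⟩ := TwoStep.ordL_attained S P hJ
      exact ⟨m, g, hg, g0, by omega⟩
    · rintro x ⟨m, g, hg, g0, rfl⟩
      have h1 := TwoStep.ordL_le S P hJ hg
      rcases h1 with h1 | h1
      · exact absurd h1 g0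
      · omega
  have h0 : ∀ P, IsLeast (ordSet S P (tw f κ J)) 0 := by
    intro P
    have h1 := isLeast_tw S P hf κ (hleast P)
    rw [hord P] at h1
    have e : (S.pl P).ord f + S.c P * κ - (S.pl P).ord f - S.c P * κ = 0 := by ring
    rwa [e] at h1
  have hI := isTLat_tw (D := D) hf κ hJ
  have hle := le_F_of_isLeast S h0
  obtain ⟨C, hC⟩ := D1.boundedColength S hT (tw f κ J) hI hle (fun P => ordL_eq S (h0 P))
  obtain ⟨e, m₁, -, he⟩ := eventual hT hI.lat hle ⟨0, fun m _ => hC m⟩
  obtain ⟨m₂, h2⟩ := hcol (tw f κ J) e hI hle ⟨m₁, fun m hm => (he m hm).le⟩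
  have hlat2 : IsLat D.u D.v (frob1 D p (tw f κ J)) :=
    IsLat.of_le (K := Q) (V := Q) D.lat (isFam_frob1 p _) (frob1_le hle)
  obtain ⟨e', m₃, he', h3⟩ := eventual hT hlat2 (frob1_le hle) ⟨m₂, h2⟩
  refine ⟨e, e', max (m₁ + κ) (m₃ + p * κ), he', fun m hm => ⟨?_, ?_⟩⟩
  · have h4 := he (m - κ) (by have := le_trans (le_max_left _ _) hm; omega)
    rw [finrank_tw hf] at h4
    have e1 : m - κ + κ = m := by ring
    rw [e1] at h4
    exact h4.symm
  · have h4 := h3 (m - p * κ) (by have := le_trans (le_max_right _ _) hm; omega)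
    rw [frob1_tw p hf, finrank_tw (pow_ne_zero p hf)] at h4
    have e1 : m - p * κ + p * κ = m := by ring
    rw [e1] at h4
    exact h4.symm

theorem shape [IsAlgClosed k] (S : Places D ι) (Y : Symm D S) (p : ℕ) [Fact p.Prime]
    [CharP k p] {N : ℕ} {bT cT : ℚ} (hT : HasHP D.F N bT cT) (hcol : ColengthStatement D p)
    (hprin : PrincipalStatement D S Y) {r : ℕ}
    (G : ℤ → Submodule k (Fin (r + 1) → Q)) (hG : IsTLat D G) :
    DNum.Shape D p G (frobPull D p G) := by
  classical
  have : Infinite k := IsAlgClosed.instInfinite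
  have : CharP Q p := charP_of_injective_algebraMap (algebraMap k Q).injective p
  obtain ⟨a, I, hI, hd1, hd2⟩ := Flag1.flag_dims (p := p) S G hG
  set s : Finset (Y.Γ × Y.Γ) := Finset.univ ×ˢ Y.μ with hs
  have hsne : s.Nonempty := Finset.Nonempty.product ⟨1, Finset.mem_univ _⟩ Y.μ_one
  obtain ⟨A, J, hA, hJ, hordJ, hj1, hj2⟩ := TwoStep.multi_step S p s hsne
    (fun x => mapL (Y.act (x.1 * x.2)) I) (fun x _ => TwoStep.isTLat_act Y (x.1 * x.2) hI)
  obtain ⟨f, κ, hf, hfκ⟩ := hprin I hI
  have hord : ∀ P, ordL S P J = (S.pl P).ord f + S.c P * (κ - A.sum) := by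
    intro P
    rw [hordJ P, hs, Finset.sum_product, hfκ P]
    ring
  obtain ⟨e, e', m₀, he, hm⟩ := principal_step S p hT hcol hJ hf hord
  have hMpos : 0 < s.card := Finset.card_pos.mpr hsne
  refine ⟨s.card, s.card • (Finset.univ.val.map (fun i : Fin r => - a i)) +
    A.map (fun x => -x) + {-(κ - A.sum)}, e, e', m₀, hMpos, ?_, he, fun m hmm => ?_⟩
  · simp only [Multiset.card_add, Multiset.card_nsmul, Multiset.card_map, Finset.card_val,
      Finset.card_univ, Fintype.card_fin, Multiset.card_singleton]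
    rw [mul_add, mul_one]
    omega
  · obtain ⟨h1, h2⟩ := hm m hmm
    constructor
    · have h3 := hj1 m
      have h4 : ∑ x ∈ s, finrank k (mapL (Y.act (x.1 * x.2)) I m) = s.card * finrank k (I m) := by
        rw [Finset.sum_congr rfl (fun x _ => TwoStep.finrank_mapL (Y.act (x.1 * x.2)) I m),
          Finset.sum_const, smul_eq_mul]
      rw [h4] at h3
      simp only [Multiset.map_add, Multiset.sum_add, Multiset.map_nsmul, Multiset.sum_nsmul,
        Multiset.map_singleton, Multiset.sum_singleton, Multiset.map_map, Function.comp_def]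
      have e1 : (Multiset.map (fun x : Fin r => finrank k (D.F (m + -a x))) Finset.univ.val).sum =
          ∑ i, finrank k (D.F (m - a i)) := rfl
      have e2 : (Multiset.map (fun x : ℤ => finrank k (D.F (m + -x))) A).sum =
          (A.map fun a => finrank k (D.F (m - a))).sum := rfl
      have e3 : m + -(κ - A.sum) = m - (κ - A.sum) := rfl
      rw [e1, e2, e3, hd1 m, mul_add, h3, ← h1, smul_eq_mul]
      ring
    · have h3 := hj2 m
      have h4 : ∑ x ∈ s, finrank k (frob1 D p (mapL (Y.act (x.1 * x.2)) I) m) =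
          s.card * finrank k (frob1 D p I m) := by
        rw [Finset.sum_congr rfl (fun x _ => TwoStep.finrank_frob1_act Y (x.1 * x.2) p I m),
          Finset.sum_const, smul_eq_mul]
      rw [h4] at h3
      simp only [Multiset.map_add, Multiset.sum_add, Multiset.map_nsmul, Multiset.sum_nsmul,
        Multiset.map_singleton, Multiset.sum_singleton, Multiset.map_map, Function.comp_def]
      have e1 : (Multiset.map (fun x : Fin r => finrank k (D.F (m + p * -a x)))
          Finset.univ.val).sum = ∑ i, finrank k (D.F (m - p * a i)) := by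
        refine Finset.sum_congr rfl (fun i _ => ?_)
        rw [show m + p * -a i = m - p * a i by ring]
      have e2 : (Multiset.map (fun x : ℤ => finrank k (D.F (m + p * -x))) A).sum =
          (A.map fun a => finrank k (D.F (m - p * a))).sum := by
        congr 1
        refine Multiset.map_congr rfl (fun x _ => ?_)
        rw [show m + p * -x = m - p * x by ring]
      have e3 : m + p * -(κ - A.sum) = m - p * (κ - A.sum) := by ring
      rw [e1, e2, e3, hd2 m, mul_add, h3, ← h2, smul_eq_mul]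
      ring

/-- C3 for the whole lattice together with C7 -/
theorem whole [IsAlgClosed k] (S : Places D ι) (Y : Symm D S) (p : ℕ) [Fact p.Prime]
    [CharP k p] {N : ℕ} {bT cT : ℚ} (hT : HilbT D N bT cT) (hcol : ColengthStatement D p)
    (hprin : PrincipalStatement D S Y) (R : ℕ) (G : ℤ → Submodule k (Fin R → Q))
    (hG : IsTLat D G) :
    ∃ b c b' c' : ℚ, HasHP G (N * R) b c ∧ HasHP (frobPull D p G) (N * R) b' c' ∧
      b' = R * bT + p * (b - R * bT) ∧
      (0 < R → (p : ℚ) ^ 2 * (Jinv (N * R) b c - R * Jinv N bT cT) + R * Jinv N bT cT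
        ≤ Jinv (N * R) b' c') := by
  rcases R with _ | r
  · refine ⟨0, 0, 0, 0, ?_, ?_, by simp, fun h => absurd h (lt_irrefl _)⟩
    · refine ⟨0, fun m _ => ?_⟩
      have : finrank k (G m) = 0 := Module.finrank_zero_of_subsingleton
      rw [this]; simp
    · refine ⟨0, fun m _ => ?_⟩
      have : finrank k (frobPull D p G m) = 0 := Module.finrank_zero_of_subsingleton
      rw [this]; simp
  · obtain ⟨b, c, b', c', h1, h2, h3, h4⟩ :=
      DNum.whole_of_shape hT (Nat.succ_pos r) (shape S Y p hT.hp hcol hprin G hG)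
    exact ⟨b, c, b', c', h1, h2, h3, fun _ => h4⟩

theorem c7 [IsAlgClosed k] (S : Places D ι) (Y : Symm D S) (p : ℕ) [Fact p.Prime]
    [CharP k p] {N : ℕ} {bT cT : ℚ} (hT : HilbT D N bT cT) (hcol : ColengthStatement D p)
    (hprin : PrincipalStatement D S Y) : C7 D p N bT cT := by
  intro R G hR hG b c b' c' h h'
  obtain ⟨b1, c1, b1', c1', h1, h2, -, h4⟩ := whole S Y p hT hcol hprin R G hG
  obtain ⟨-, rfl, rfl⟩ := hasHP_unique h h1
  obtain ⟨-, rfl, rfl⟩ := hasHP_unique h' h2
  exact h4 hR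

end

end Crest.Agent.R169.PartD
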