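import Crest.Agent.R169.PlacesOf

/-!
# Row 169, D0: transport of places along filtered automorphisms
-/

set_option autoImplicit false

noncomputable section

namespace Crest.Agent.R169.PlacesEx

open Polynomial Krull

variable {k Q : Type} [Field k] [Field Q] [Algebra k Q] {D : TData k Q}

/-- automorphisms of `Q` preserving the filtration -/
def Stab (D : TData k Q) (σ : Q ≃ₐ[k] Q) : Prop := ∀ (m : ℤ) (f : Q), σ f ∈ D.F m ↔ f ∈ D.F m

theorem Stab.symm {σ : Q ≃ₐ[k] Q} (h : Stab D σ) : Stab D σ.symm := by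
  intro m f
  rw [← h m (σ.symm f), AlgEquiv.apply_symm_apply]

theorem Stab.mul {σ τ : Q ≃ₐ[k] Q} (h : Stab D σ) (h' : Stab D τ) : Stab D (σ * τ) := by
  intro m f
  rw [AlgEquiv.mul_apply, h, h']

theorem Stab.one : Stab D (1 : Q ≃ₐ[k] Q) := fun _ _ => Iff.rfl

/-- the induced automorphism of `T` -/
def tEquiv (σ : Q ≃ₐ[k] Q) (h : Stab D σ) : D.Ttot ≃+* D.Ttot where
  toFun p := ⟨(p : Q[X]).map (σ : Q →+* Q), fun m => by
    rw [coeff_map]; exact (h m _).mpr (p.2 m)⟩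
  invFun p := ⟨(p : Q[X]).map (σ.symm : Q →+* Q), fun m => by
    rw [coeff_map]; exact (h.symm m _).mpr (p.2 m)⟩
  left_inv p := by
    apply Subtype.ext
    simp only
    rw [Polynomial.map_map]
    convert Polynomial.map_id
    ext x
    simp
  right_inv p := by
    apply Subtype.ext
    simp only
    rw [Polynomial.map_map]
    convert Polynomial.map_id
    ext x
    simp
  map_mul' p q := by
    apply Subtype.ext
    simp [Polynomial.map_mul]
  map_add' p q := by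
    apply Subtype.ext
    simp [Polynomial.map_add]

theorem coe_tEquiv (σ : Q ≃ₐ[k] Q) (h : Stab D σ) (p : D.Ttot) :
    ((tEquiv σ h p : D.Ttot) : Q[X]) = (p : Q[X]).map (σ : Q →+* Q) := rfl

theorem coe_tEquiv_symm (σ : Q ≃ₐ[k] Q) (h : Stab D σ) (p : D.Ttot) :
    (((tEquiv σ h).symm p : D.Ttot) : Q[X]) = (p : Q[X]).map (σ.symm : Q →+* Q) := rfl

theorem tEquiv_mono (σ : Q ≃ₐ[k] Q) (h : Stab D σ) (m : ℕ) (f : Q) (hf : f ∈ D.F m) :
    tEquiv σ h (D.mono m f hf) = D.mono m (σ f) ((h m f).mpr hf) := by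
  apply Subtype.ext
  rw [coe_tEquiv, coe_mono, coe_mono, map_monomial]
  rfl

theorem tEquiv_symm_mono (σ : Q ≃ₐ[k] Q) (h : Stab D σ) (m : ℕ) (f : Q) (hf : σ f ∈ D.F m) :
    (tEquiv σ h).symm (D.mono m (σ f) hf) = D.mono m f ((h m f).mp hf) := by
  rw [RingEquiv.symm_apply_eq, tEquiv_mono]

theorem cf_tEquiv_symm (σ : Q ≃ₐ[k] Q) (h : Stab D σ) (p : D.Ttot) (m : ℕ) :
    (tEquiv σ h).symm (cf D p m) = cf D ((tEquiv σ h).symm p) m := by
  apply Subtype.ext
  rw [coe_tEquiv_symm, coe_cf, coe_cf, coe_tEquiv_symm, map_monomial, coeff_map]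

theorem isHtOne_comap {R S : Type*} [CommRing R] [CommRing S] (e : R ≃+* S) {P : Ideal S}
    (hP : IsHtOne P) : IsHtOne (P.comap (e : R →+* S)) := by
  have hPp := hP.prime
  refine ⟨Ideal.comap_isPrime _ _, ?_, ?_⟩
  · intro h0
    apply hP.ne_bot
    rw [eq_bot_iff]
    intro x hx
    have : e.symm x ∈ P.comap (e : R →+* S) := by
      rw [Ideal.mem_comap]
      simpa using hx
    rw [h0, Ideal.mem_bot] at this
    rw [Ideal.mem_bot]
    have h1 := congrArg e this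
    simpa using h1
  · intro J hJ hJ0 hJP
    have h1 : (J.comap (e.symm : S →+* R)).IsPrime := Ideal.comap_isPrime _ _
    have h2 : J.comap (e.symm : S →+* R) ≠ ⊥ := by
      intro h0
      apply hJ0
      rw [eq_bot_iff]
      intro x hx
      have : e x ∈ J.comap (e.symm : S →+* R) := by
        rw [Ideal.mem_comap]
        simpa using hx
      rw [h0, Ideal.mem_bot] at this
      rw [Ideal.mem_bot]
      exact (map_eq_zero_iff e e.injective).mp this
    have h3 : J.comap (e.symm : S →+* R) ≤ P := by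
      intro x hx
      rw [Ideal.mem_comap] at hx
      have := hJP hx
      rw [Ideal.mem_comap] at this
      simpa using this
    have h4 := hP.min _ h1 h2 h3
    rw [← h4]
    ext x
    rw [Ideal.mem_comap, Ideal.mem_comap]
    simp

/-- transport of a homogeneous height-one prime -/
def HPrime.map (σ : Q ≃ₐ[k] Q) (h : Stab D σ) (P : HPrime D) : HPrime D where
  I := P.I.comap ((tEquiv σ h).symm : D.Ttot →+* D.Ttot)
  ht := isHtOne_comap _ P.ht
  hom := by
    intro p hp m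
    rw [Ideal.mem_comap] at hp ⊢
    change (tEquiv σ h).symm (cf D p m) ∈ P.I
    rw [cf_tEquiv_symm]
    exact P.hom _ hp m

theorem HPrime.mem_map (σ : Q ≃ₐ[k] Q) (h : Stab D σ) (P : HPrime D) (t : D.Ttot) :
    t ∈ (P.map σ h).I ↔ (tEquiv σ h).symm t ∈ P.I := Iff.rfl

theorem HPrime.tEquiv_mem_map (σ : Q ≃ₐ[k] Q) (h : Stab D σ) (P : HPrime D) (t : D.Ttot) :
    tEquiv σ h t ∈ (P.map σ h).I ↔ t ∈ P.I := by
  rw [HPrime.mem_map, RingEquiv.symm_apply_apply]

theorem HPrime.mono_mem_map (σ : Q ≃ₐ[k] Q) (h : Stab D σ) (P : HPrime D) (m : ℕ) (f : Q)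
    (hf : f ∈ D.F m) :
    D.mono m (σ f) ((h m f).mpr hf) ∈ (P.map σ h).I ↔ D.mono m f hf ∈ P.I := by
  rw [← tEquiv_mono σ h, HPrime.tEquiv_mem_map]

theorem HPrime.map_one (P : HPrime D) : P.map 1 Stab.one = P := by
  apply HPrime.ext'
  ext t
  rw [HPrime.mem_map]
  have : (tEquiv (1 : Q ≃ₐ[k] Q) Stab.one).symm t = t := by
    apply Subtype.ext
    rw [coe_tEquiv_symm]
    exact Polynomial.map_id
  rw [this]

theorem HPrime.map_mul (σ τ : Q ≃ₐ[k] Q) (h : Stab D σ) (h' : Stab D τ) (P : HPrime D) :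
    P.map (σ * τ) (h.mul h') = (P.map τ h').map σ h := by
  apply HPrime.ext'
  ext t
  rw [HPrime.mem_map, HPrime.mem_map, HPrime.mem_map]
  have : (tEquiv (σ * τ) (h.mul h')).symm t = (tEquiv τ h').symm ((tEquiv σ h).symm t) := by
    apply Subtype.ext
    rw [coe_tEquiv_symm, coe_tEquiv_symm, coe_tEquiv_symm, Polynomial.map_map]
    rfl
  rw [this]

section ord

variable [IsNoetherianRing D.Ttot] [IsIntegrallyClosed D.Ttot]

/-- induced automorphism of `Q(X)` -/
def kEquiv (σ : Q ≃ₐ[k] Q) (h : Stab D σ) : RatFunc Q ≃+* RatFunc Q :=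
  IsFractionRing.ringEquivOfRingEquiv (tEquiv σ h)

omit [IsNoetherianRing D.Ttot] [IsIntegrallyClosed D.Ttot] in
theorem kEquiv_algebraMap (σ : Q ≃ₐ[k] Q) (h : Stab D σ) (t : D.Ttot) :
    kEquiv σ h (algebraMap D.Ttot (RatFunc Q) t) = algebraMap D.Ttot (RatFunc Q) (tEquiv σ h t) :=
  IsFractionRing.ringEquivOfRingEquiv_algebraMap _ _

omit [IsNoetherianRing D.Ttot] [IsIntegrallyClosed D.Ttot] in
theorem kEquiv_X (σ : Q ≃ₐ[k] Q) (h : Stab D σ) : kEquiv σ h RatFunc.X = RatFunc.X := by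
  rw [← algebraMap_XT (D := D), kEquiv_algebraMap]
  congr 1
  unfold XT
  rw [tEquiv_mono]
  exact mono_congr _ _ (map_one σ)

omit [IsNoetherianRing D.Ttot] [IsIntegrallyClosed D.Ttot] in
theorem kEquiv_C (σ : Q ≃ₐ[k] Q) (h : Stab D σ) (x : Q) :
    kEquiv σ h (RatFunc.C x) = RatFunc.C (σ x) := by
  obtain ⟨m, g, hg, g', hg', hg0', hx⟩ := exists_frac D x
  have h1 : (RatFunc.C x : RatFunc Q) * algebraMap D.Ttot (RatFunc Q) (D.mono m g' hg')
      = algebraMap D.Ttot (RatFunc Q) (D.mono m g hg) := by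
    rw [algebraMap_mono, algebraMap_mono, ← hx, map_mul]
    ring
  have h2 := congrArg (kEquiv σ h) h1
  rw [map_mul, kEquiv_algebraMap, kEquiv_algebraMap, tEquiv_mono, tEquiv_mono, algebraMap_mono,
    algebraMap_mono, ← hx, map_mul, map_mul] at h2
  have h3 : (RatFunc.C (σ g') * RatFunc.X ^ m : RatFunc Q) ≠ 0 :=
    mul_ne_zero (C_ne_zero' (by rwa [Ne, map_eq_zero_iff σ σ.injective]))
      (pow_ne_zero _ RatFunc.X_ne_zero)
  rw [mul_assoc] at h2
  exact mul_right_cancel₀ h3 h2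

theorem HPrime.ordK_map (σ : Q ≃ₐ[k] Q) (h : Stab D σ) (P : HPrime D) (z : RatFunc Q)
    (hz : z ≠ 0) : (P.map σ h).ordK (kEquiv σ h z) = P.ordK z := by
  refine IsOrd.unique P.ordK_spec (w := fun z => (P.map σ h).ordK (kEquiv σ h z)) ?_ ?_ ?_ ?_ z hz
  · intro a b ha hb
    show (P.map σ h).ordK (kEquiv σ h (a * b)) = _
    rw [_root_.map_mul (kEquiv σ h)]
    exact (P.map σ h).ordK_spec.mul _ _ ((map_ne_zero_iff _ (kEquiv σ h).injective).mpr ha)
      ((map_ne_zero_iff _ (kEquiv σ h).injective).mpr hb)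
  · intro r hr
    show (P.map σ h).ordK (kEquiv σ h (algebraMap D.Ttot (RatFunc Q) r)) = 0
    rw [kEquiv_algebraMap]
    exact (P.map σ h).ordK_spec.eq_zero_of_not_mem (fun hh => hr ((P.tEquiv_mem_map σ h r).mp hh))
  · intro r hr hr0
    show 0 < (P.map σ h).ordK (kEquiv σ h (algebraMap D.Ttot (RatFunc Q) r))
    rw [kEquiv_algebraMap]
    exact ((P.map σ h).ordK_spec.mem_iff _
      ((map_ne_zero_iff _ (tEquiv σ h).injective).mpr hr0)).mp ((P.tEquiv_mem_map σ h r).mpr hr)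
  · obtain ⟨π, _, h0, h1⟩ := (P.map σ h).ordK_spec.unif
    refine ⟨(kEquiv σ h).symm (algebraMap D.Ttot (RatFunc Q) π), ?_, ?_⟩
    · exact (map_ne_zero_iff _ (kEquiv σ h).symm.injective).mpr
        ((map_ne_zero_iff _ (IsFractionRing.injective D.Ttot (RatFunc Q))).mpr h0)
    · show (P.map σ h).ordK (kEquiv σ h _) = 1
      rw [RingEquiv.apply_symm_apply]
      exact h1

theorem HPrime.ord_map (σ : Q ≃ₐ[k] Q) (h : Stab D σ) (P : HPrime D) (x : Q) (hx : x ≠ 0) :
    (P.map σ h).ord (σ x) = P.ord x := by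
  unfold HPrime.ord
  rw [← kEquiv_C σ h, HPrime.ordK_map σ h P _ (C_ne_zero' hx)]

theorem HPrime.c_map (σ : Q ≃ₐ[k] Q) (h : Stab D σ) (P : HPrime D) :
    (P.map σ h).c = P.c := by
  unfold HPrime.c
  have := HPrime.ordK_map σ h P RatFunc.X RatFunc.X_ne_zero
  rwa [kEquiv_X] at this

end ord

end Crest.Agent.R169.PlacesEx
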