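import Crest.Agent.R169.PlacesEx

/-!
# Row 169, D0: the structure `Places D (HPrime D)`
-/

set_option autoImplicit false

noncomputable section

namespace Crest.Agent.R169.PlacesEx

open Polynomial Krull

variable {k Q : Type} [Field k] [Field Q] [Algebra k Q] {D : TData k Q}

/-- `T / X T` is reduced, homogeneous form -/
def RedX (D : TData k Q) : Prop :=
  ∀ (m : ℤ) (f : Q) (n : ℕ), 0 < n → f ∈ D.F m → f ^ n ∈ D.F (n * m - 1) → f ∈ D.F (m - 1)

theorem one_mem_one : (1 : Q) ∈ D.F ((1 : ℕ) : ℤ) := by exact_mod_cast D.one_mem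

theorem u_mem_one : D.u ∈ D.F ((1 : ℕ) : ℤ) := by exact_mod_cast D.u_mem

theorem v_mem_one : D.v ∈ D.F ((1 : ℕ) : ℤ) := by exact_mod_cast D.v_mem

variable (D) in
/-- `X` as an element of `T` -/
def XT : D.Ttot := D.mono 1 1 one_mem_one

variable (D) in
/-- `uX` as an element of `T` -/
def uT : D.Ttot := D.mono 1 D.u u_mem_one

variable (D) in
/-- `vX` as an element of `T` -/
def vT : D.Ttot := D.mono 1 D.v v_mem_one

theorem mono_pow {m : ℕ} {f : Q} (hf : f ∈ D.F m) (n : ℕ) :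
    D.mono m f hf ^ n = D.mono (n * m) (f ^ n) (by
      have := D.pow_mem' hf n; exact_mod_cast this) := by
  apply Subtype.ext
  simp [coe_mono, monomial_pow, mul_comm]

/-- generation with a natural bound -/
theorem exists_gen (D : TData k Q) : ∃ m₁ : ℕ, ∀ m : ℕ, m₁ ≤ m → ∀ e ∈ D.F ((m + 1 : ℕ) : ℤ),
    ∃ a ∈ D.F (m : ℤ), ∃ b ∈ D.F (m : ℤ), ∃ c ∈ D.F (m : ℤ), e = a + D.u * b + D.v * c := by
  obtain ⟨m₁, h⟩ := D.lat.gen
  refine ⟨m₁.toNat, fun m hm e he => ?_⟩
  have hm' : m₁ ≤ (m : ℤ) := by omega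
  obtain ⟨a, ha, b, hb, c, hc, h1⟩ := h m hm' e (by exact_mod_cast he)
  exact ⟨a, ha, b, hb, c, hc, by simpa using h1⟩

/-- `T_{m+1} = A_1 T_m` in terms of ideals -/
theorem mono_mem_of_gen {J P : Ideal D.Ttot} (hX : XT D ∈ P) (hu : uT D ∈ P) (hv : vT D ∈ P)
    {m : ℕ} {a b c : Q} (ha : a ∈ D.F (m : ℤ)) (hb : b ∈ D.F (m : ℤ)) (hc : c ∈ D.F (m : ℤ))
    (ha' : D.mono m a ha ∈ J) (hb' : D.mono m b hb ∈ J) (hc' : D.mono m c hc ∈ J)
    (h : a + D.u * b + D.v * c ∈ D.F ((m + 1 : ℕ) : ℤ)) :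
    D.mono (m + 1) (a + D.u * b + D.v * c) h ∈ P * J := by
  have : D.mono (m + 1) (a + D.u * b + D.v * c) h
      = XT D * D.mono m a ha + uT D * D.mono m b hb + vT D * D.mono m c hc := by
    unfold XT uT vT
    apply Subtype.ext
    push_cast
    simp only [coe_mono, monomial_mul_monomial]
    rw [add_comm 1 m, ← map_add, ← map_add, one_mul]
  rw [this]
  exact Ideal.add_mem _ (Ideal.add_mem _ (Ideal.mul_mem_mul hX ha') (Ideal.mul_mem_mul hu hb'))
    (Ideal.mul_mem_mul hv hc')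

theorem transcendental_u (D : TData k Q) : Transcendental k D.u := by
  have := D.indep.transcendental 0
  simpa using this

/-- `F m ≤ F (m-1)` cannot hold for all large `m` -/
theorem not_bounded (D : TData k Q) (M : ℕ) (h : ∀ m : ℕ, M ≤ m → D.F ((m + 1 : ℕ) : ℤ) ≤ D.F (m : ℤ)) :
    False := by
  have hall : ∀ m : ℕ, D.F (m : ℤ) ≤ D.F (M : ℤ) := by
    intro m
    rcases le_total m M with hm | hm
    · exact D.F_mono (by exact_mod_cast hm)
    · induction m, hm using Nat.le_induction with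
      | base => exact le_rfl
      | succ n hn ih => exact (h n hn).trans ih
  have hfin := D.fin (M : ℤ)
  have hmem : ∀ i : ℕ, D.u ^ i ∈ D.F (M : ℤ) := fun i => hall i (D.pow_mem D.u_mem i)
  have hli : LinearIndependent k (fun i : ℕ => D.u ^ i) := by
    have h1 := transcendental_iff_injective.mp (transcendental_u D)
    have h2 : LinearIndependent k (fun i : ℕ => (X ^ i : k[X])) := by
      have := (Polynomial.basisMonomials k).linearIndependent
      simpa [Polynomial.coe_basisMonomials, Polynomial.X_pow_eq_monomial] using this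
    have h3 := h2.map' (Polynomial.aeval D.u : k[X] →ₐ[k] Q).toLinearMap
      (LinearMap.ker_eq_bot.mpr h1)
    have h4 : (Polynomial.aeval D.u : k[X] →ₐ[k] Q).toLinearMap ∘ (fun i : ℕ => (X ^ i : k[X]))
        = fun i : ℕ => D.u ^ i := by
      funext i
      simp
    rwa [h4] at h3
  have hli' : LinearIndependent k (fun i : ℕ => (⟨D.u ^ i, hmem i⟩ : D.F (M : ℤ))) :=
    LinearIndependent.of_comp (D.F (M : ℤ)).subtype hli
  have := hli'.finite_of_isNoetherian
  exact not_finite ℕ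

/-- coefficient of an element of the ideal `(X)` -/
theorem mem_of_mono_mem_span {m : ℕ} {f : Q} {hf : f ∈ D.F ((m + 1 : ℕ) : ℤ)}
    (h : D.mono (m + 1) f hf ∈ Ideal.span {XT D}) : f ∈ D.F (m : ℤ) := by
  obtain ⟨t, ht⟩ := Ideal.mem_span_singleton'.mp h
  have h1 : ((t * XT D : D.Ttot) : Q[X]).coeff (m + 1)
      = ((D.mono (m + 1) f hf : D.Ttot) : Q[X]).coeff (m + 1) := by rw [ht]
  have h2 : ((t * XT D : D.Ttot) : Q[X]) = (t : Q[X]) * X := by
    push_cast
    unfold XT
    rw [coe_mono, monomial_one_one_eq_X]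
  rw [h2, coe_mono, coeff_mul_X, coeff_monomial_same] at h1
  rw [← h1]
  exact t.2 m

/-- conversely -/
theorem mono_mem_span {m : ℕ} {f : Q} (hf : f ∈ D.F (m : ℤ)) (hf' : f ∈ D.F ((m + 1 : ℕ) : ℤ)) :
    D.mono (m + 1) f hf' ∈ Ideal.span {XT D} := by
  rw [Ideal.mem_span_singleton']
  refine ⟨D.mono m f hf, ?_⟩
  apply Subtype.ext
  push_cast
  unfold XT
  rw [coe_mono, coe_mono, coe_mono, monomial_mul_monomial, mul_one]

theorem XT_ne_zero : XT D ≠ 0 := mono_ne_zero _ one_ne_zero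

theorem cf_zero_unit {p : D.Ttot} {P : Ideal D.Ttot} (hP : P ≠ ⊤) (h : cf D p 0 ∈ P) :
    cf D p 0 = 0 := by
  by_contra hne
  have h1 := p.2 0
  rw [Nat.cast_zero, D.mem_zero_iff] at h1
  obtain ⟨c, hc⟩ := h1
  have h2 : cf D p 0 = algebraMap k D.Ttot c := by
    apply Subtype.ext
    rw [coe_cf, hc]
    rfl
  have hc0 : c ≠ 0 := by
    rintro rfl
    rw [map_zero] at h2
    exact hne h2
  apply hP
  rw [h2] at h
  exact Ideal.eq_top_of_isUnit_mem _ h ((isUnit_iff_ne_zero.mpr hc0).map (algebraMap k D.Ttot))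

/-- minimal primes over `(X)` are homogeneous -/
theorem hom_of_minimalPrimes {P : Ideal D.Ttot} (hP : P ∈ (Ideal.span {XT D}).minimalPrimes) :
    Hom P := by
  have hX : XT D ∈ P := hP.1.2 (Ideal.mem_span_singleton_self _)
  have h1 : XT D ∈ core P := mono_mem_core hX
  have h2 : P ≤ core P := hP.2 ⟨core_prime hP.1.1, by
    rwa [Ideal.span_le, Set.singleton_subset_iff]⟩ (core_le P)
  exact fun p hp => h2 hp

theorem not_all_mem [IsNoetherianRing D.Ttot] {P : Ideal D.Ttot} (hP : IsHtOne P)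
    (hX : XT D ∈ P) (hu : uT D ∈ P) (hv : vT D ∈ P) : False := by
  obtain ⟨m₁, hgen⟩ := exists_gen D
  have hPp := hP.prime
  -- step A
  have hA : ∀ m : ℕ, m₁ ≤ m → ∀ f (hf : f ∈ D.F ((m + 1 : ℕ) : ℤ)), D.mono (m + 1) f hf ∈ P := by
    intro m hm f hf
    obtain ⟨a, ha, b, hb, c, hc, rfl⟩ := hgen m hm f hf
    have := mono_mem_of_gen (J := ⊤) hX hu hv ha hb hc Submodule.mem_top Submodule.mem_top
      Submodule.mem_top hf
    have hle : P * ⊤ ≤ P := Ideal.mul_le_left
    exact hle this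
  -- step B
  have hB : ∀ m : ℕ, 1 ≤ m → ∀ f (hf : f ∈ D.F (m : ℤ)), D.mono m f hf ∈ P := by
    intro m hm f hf
    apply hPp.mem_of_pow_mem (m₁ + 1)
    rw [mono_pow]
    have h1 : m₁ ≤ (m₁ + 1) * m - 1 := by
      have : (m₁ + 1) * 1 ≤ (m₁ + 1) * m := Nat.mul_le_mul_left _ hm
      omega
    have h2 : (m₁ + 1) * m = ((m₁ + 1) * m - 1) + 1 := by
      have : (m₁ + 1) * 1 ≤ (m₁ + 1) * m := Nat.mul_le_mul_left _ hm
      omega
    have key : ∀ (n n' : ℕ) (g : Q) (hg : g ∈ D.F (n : ℤ)), n = n' + 1 → m₁ ≤ n' →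
        D.mono n g hg ∈ P := by
      intro n n' g hg hn hn'
      subst hn
      exact hA n' hn' g hg
    exact key _ _ _ _ h2 h1
  -- step C
  have hC : ∀ J ∈ (Ideal.span {XT D}).minimalPrimes, J = P := by
    intro J hJ
    have hJh := hom_of_minimalPrimes hJ
    have hJt : J ≠ ⊤ := hJ.1.1.ne_top
    have hXJ : XT D ∈ J := hJ.1.2 (Ideal.mem_span_singleton_self _)
    have hJ0 : J ≠ ⊥ := by
      rintro rfl
      exact XT_ne_zero (Ideal.mem_bot.mp hXJ)
    refine hP.min J hJ.1.1 hJ0 fun q hq => ?_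
    refine mem_of_cf_mem fun m => ?_
    rcases Nat.eq_zero_or_pos m with rfl | hm
    · rw [cf_zero_unit hJt (hJh q hq 0)]
      exact P.zero_mem
    · exact hB m hm _ _
  have hrad : P ≤ (Ideal.span {XT D}).radical := by
    rw [← Ideal.sInf_minimalPrimes]
    refine le_sInf fun J hJ => (hC J hJ).ge
  obtain ⟨N, hN⟩ := Ideal.exists_pow_le_of_le_radical_of_fg hrad (IsNoetherian.noetherian P)
  -- step E
  have hE : ∀ j m : ℕ, m₁ + j ≤ m → ∀ f (hf : f ∈ D.F (m : ℤ)), D.mono m f hf ∈ P ^ j := by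
    intro j
    induction j with
    | zero => intro m _ f hf; simp
    | succ j ih =>
      intro m hm f hf
      obtain ⟨m', rfl⟩ : ∃ m', m = m' + 1 := ⟨m - 1, by omega⟩
      obtain ⟨a, ha, b, hb, c, hc, rfl⟩ := hgen m' (by omega) f hf
      rw [pow_succ']
      exact mono_mem_of_gen hX hu hv ha hb hc (ih m' (by omega) a ha) (ih m' (by omega) b hb)
        (ih m' (by omega) c hc) hf
  refine not_bounded D (m₁ + N) fun m hm f hf => ?_
  exact mem_of_mono_mem_span (hN (hE N (m + 1) (by omega) f hf))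

section ord

variable [IsNoetherianRing D.Ttot] [IsIntegrallyClosed D.Ttot]

omit [IsNoetherianRing D.Ttot] [IsIntegrallyClosed D.Ttot] in
theorem algebraMap_XT : algebraMap D.Ttot (RatFunc Q) (XT D) = RatFunc.X := by
  unfold XT
  rw [algebraMap_mono, map_one, one_mul, pow_one]

theorem HPrime.ord_one (P : HPrime D) : P.ord 1 = 0 := by
  unfold HPrime.ord
  rw [map_one]
  exact P.ordK_spec.one

theorem HPrime.c_nonneg (P : HPrime D) : 0 ≤ P.c := by
  have := P.nonneg (D := D) (m := 1) one_mem_one one_ne_zero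
  rw [P.ord_one] at this
  omega

theorem HPrime.XT_mem_iff (P : HPrime D) : XT D ∈ P.I ↔ 0 < P.c := by
  unfold XT
  rw [P.mem_iff one_mem_one one_ne_zero, P.ord_one]
  simp

theorem HPrime.exists_lead (P : HPrime D) : ∃ h ∈ D.F 1, h ≠ 0 ∧ P.ord h = - P.c := by
  have key : ∀ (h : Q) (hh : h ∈ D.F ((1 : ℕ) : ℤ)), D.mono 1 h hh ∉ P.I →
      ∃ h ∈ D.F 1, h ≠ 0 ∧ P.ord h = - P.c := by
    intro h hh hn
    have h0 : h ≠ 0 := by
      rintro rfl
      apply hn
      have : D.mono 1 (0 : Q) hh = 0 := by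
        apply Subtype.ext
        simp [coe_mono]
      rw [this]
      exact P.I.zero_mem
    refine ⟨h, by exact_mod_cast hh, h0, ?_⟩
    have h1 := P.nonneg hh h0
    have h2 := (P.mem_iff hh h0).not.mp hn
    push_cast at h1 h2
    omega
  by_cases hX : XT D ∈ P.I
  · by_cases hu : uT D ∈ P.I
    · by_cases hv : vT D ∈ P.I
      · exact (not_all_mem P.ht hX hu hv).elim
      · exact key _ _ hv
    · exact key _ _ hu
  · exact key _ _ hX

/-- (K2) in graded form -/
theorem mem_of_ord (m : ℤ) (f : Q) (hf : f ≠ 0) (h : ∀ P : HPrime D, -P.c * m ≤ P.ord f) :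
    f ∈ D.F m := by
  classical
  obtain ⟨l, g, hg, g', hg', hg0', hfg⟩ := exists_frac D f
  have hg0 : g ≠ 0 := by rw [← hfg]; exact mul_ne_zero hf hg0'
  -- a = g X^(l + m⁺), b = g' X^(l + m⁻)
  obtain ⟨mp, mn, hm⟩ : ∃ mp mn : ℕ, m = (mp : ℤ) - mn := ⟨m.toNat, (-m).toNat, by omega⟩
  have hga : g ∈ D.F ((l + mp : ℕ) : ℤ) := D.F_mono (by push_cast; omega) hg
  have hgb : g' ∈ D.F ((l + mn : ℕ) : ℤ) := D.F_mono (by push_cast; omega) hg'
  set a := D.mono (l + mp) g hga with ha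
  set b := D.mono (l + mn) g' hgb with hb
  have hb0 : b ≠ 0 := mono_ne_zero _ hg0'
  have hdvd : b ∣ a := by
    by_contra hnd
    obtain ⟨I, hI, hIt⟩ := exists_isHtOne_of_not_dvd hb0 hnd
    have hbI : b ∈ I := hIt b (dvd_mul_left b a)
    let P : HPrime D := ⟨I, hI, hom_of_isHtOne hI hbI hg0'⟩
    have h1 := h P
    -- value of a / b
    have h2 : P.ordK (RatFunc.C f * RatFunc.X ^ m) = P.ord f + P.c * m := P.ordK_mul_zpow hf m
    have h3 : 0 ≤ P.ordK (RatFunc.C f * RatFunc.X ^ m) := by rw [h2]; linarith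
    have hne : (RatFunc.C f * RatFunc.X ^ m : RatFunc Q) ≠ 0 :=
      mul_ne_zero (C_ne_zero' hf) (zpow_ne_zero _ RatFunc.X_ne_zero)
    obtain ⟨s, t, ht, hst⟩ := P.ordK_spec.frac _ hne h3
    apply ht
    apply hIt
    refine ⟨s, ?_⟩
    apply IsFractionRing.injective D.Ttot (RatFunc Q)
    rw [map_mul, map_mul, ← hst, ha, hb, algebraMap_mono, algebraMap_mono, ← hfg, hm, map_mul,
      zpow_sub₀ RatFunc.X_ne_zero, zpow_natCast, zpow_natCast, pow_add, pow_add]
    have hX : (RatFunc.X : RatFunc Q) ^ mn ≠ 0 := pow_ne_zero _ RatFunc.X_ne_zero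
    field_simp
  obtain ⟨w, hw⟩ := hdvd
  have h1 : ((a : D.Ttot) : Q[X]) = (b : Q[X]) * (w : Q[X]) := by rw [hw]; rfl
  rw [ha, hb, coe_mono, coe_mono, ← hfg] at h1
  -- compare the coefficients of X^(l+mp)
  have h2 : (monomial (l + mp) (f * g') : Q[X]).coeff (l + mp)
      = (monomial (l + mn) g' * (w : Q[X]) : Q[X]).coeff (l + mp) := by rw [h1]
  rw [coeff_monomial_same, ← C_mul_X_pow_eq_monomial, mul_assoc, coeff_C_mul,
    mul_comm (X ^ (l + mn) : Q[X]), coeff_mul_X_pow'] at h2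
  split_ifs at h2 with hle
  · have h3 : f = (w : Q[X]).coeff (l + mp - (l + mn)) := by
      have : g' * f = g' * (w : Q[X]).coeff (l + mp - (l + mn)) := by rw [← h2]; ring
      exact mul_left_cancel₀ hg0' this
    have h4 := w.2 (l + mp - (l + mn))
    rw [← h3] at h4
    have h5 : ((l + mp - (l + mn) : ℕ) : ℤ) = m := by omega
    rwa [h5] at h4
  · rw [mul_zero] at h2
    exact absurd h2 (mul_ne_zero hf hg0')

omit [IsIntegrallyClosed D.Ttot] in
theorem finite_hprime_mem {t : D.Ttot} (ht : t ≠ 0) : {P : HPrime D | t ∈ P.I}.Finite := by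
  have h1 := finite_isHtOne_mem ht
  refine Set.Finite.of_finite_image (f := HPrime.I) (h1.subset ?_) ?_
  · rintro _ ⟨P, hP, rfl⟩
    exact ⟨P.ht, hP⟩
  · intro P _ P' _ h
    exact HPrime.ext' h

theorem finite_ord_ne (f : Q) (hf : f ≠ 0) : {P : HPrime D | P.ord f ≠ 0}.Finite := by
  obtain ⟨l, g, hg, g', hg', hg0', hfg⟩ := exists_frac D f
  have hg0 : g ≠ 0 := by rw [← hfg]; exact mul_ne_zero hf hg0'
  refine ((finite_hprime_mem (mono_ne_zero hg hg0)).union
    (finite_hprime_mem (mono_ne_zero hg' hg0'))).subset ?_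
  intro P hP
  by_contra hcon
  rw [Set.mem_union, not_or] at hcon
  obtain ⟨h1, h2⟩ := hcon
  rw [Set.mem_ofPred_eq, P.mem_iff hg hg0] at h1
  rw [Set.mem_ofPred_eq, P.mem_iff hg' hg0'] at h2
  have h3 := P.nonneg hg hg0
  have h4 := P.nonneg hg' hg0'
  have h5 := P.ord_mul hf hg0'
  rw [hfg] at h5
  apply hP
  show P.ord f = 0
  omega

theorem finite_c_ne : {P : HPrime D | P.c ≠ 0}.Finite := by
  refine (finite_hprime_mem (XT_ne_zero (D := D))).subset fun P hP => ?_
  rw [Set.mem_ofPred_eq, P.XT_mem_iff]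
  have := P.c_nonneg
  have h : P.c ≠ 0 := hP
  omega

/-- there is a homogeneous element of `P` of order one -/
theorem HPrime.exists_mono_unif (P : HPrime D) : ∃ (m : ℕ) (f : Q), f ∈ D.F (m : ℤ) ∧ f ≠ 0 ∧
    P.ord f + P.c * m = 1 := by
  obtain ⟨π, hπ, hπ0, hπ1⟩ := P.ordK_spec.unif
  by_contra hcon
  push Not at hcon
  have hge : ∀ m ∈ (π : Q[X]).support,
      P.plK.ge 2 (algebraMap D.Ttot (RatFunc Q) (cf D π m)) := by
    intro m hm
    have hne : (π : Q[X]).coeff m ≠ 0 := Polynomial.mem_support_iff.mp hm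
    have h1 : cf D π m ∈ P.I := P.hom π hπ m
    have h2 := (P.mem_iff (π.2 m) hne).mp h1
    have h3 := hcon m _ (π.2 m) hne
    right
    show (2 : ℤ) ≤ P.ordK (algebraMap D.Ttot (RatFunc Q) (cf D π m))
    have h4 := P.ordK_mono (π.2 m) hne
    unfold cf
    rw [h4]
    omega
  have h5 := Place.ge.sum _ hge
  rw [← map_sum, ← sum_cf π] at h5
  rcases h5 with h5 | h5
  · exact hπ0 ((map_eq_zero_iff _ (IsFractionRing.injective D.Ttot (RatFunc Q))).mp h5)
  · have : P.plK.ord (algebraMap D.Ttot (RatFunc Q) π) = 1 := hπ1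
    omega

theorem HPrime.exists_unif (P : HPrime D) : ∃ π : Q, π ≠ 0 ∧ P.ord π = 1 := by
  obtain ⟨m, f, hf, hf0, h1⟩ := P.exists_mono_unif
  obtain ⟨h, hh, hh0, h2⟩ := P.exists_lead
  have h3 : ∀ n : ℕ, ∃ g : Q, g ≠ 0 ∧ P.ord g = P.ord f + P.c * n := by
    intro n
    induction n with
    | zero => exact ⟨f, hf0, by simp⟩
    | succ n ih =>
      obtain ⟨g, hg, hg1⟩ := ih
      refine ⟨g / h, div_ne_zero hg hh0, ?_⟩
      have h4 := P.ord_mul (div_ne_zero hg hh0) hh0
      rw [div_mul_cancel₀ _ hh0] at h4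
      push_cast
      rw [h2] at h4
      linarith
  obtain ⟨g, hg, hg1⟩ := h3 m
  exact ⟨g, hg, by rw [hg1, h1]⟩

omit [IsNoetherianRing D.Ttot] [IsIntegrallyClosed D.Ttot] in
/-- a homogeneous element outside `P` lying in finitely many given homogeneous ideals -/
theorem exists_homog_avoid (P : Ideal D.Ttot) (hP : P.IsPrime) (S : Set (Ideal D.Ttot))
    (hS : S.Finite) (hhom : ∀ J ∈ S, Hom J) (hne : ∀ J ∈ S, ¬ J ≤ P) :
    ∃ (m : ℕ) (f : Q) (hf : f ∈ D.F (m : ℤ)), D.mono m f hf ∉ P ∧ ∀ J ∈ S, D.mono m f hf ∈ J := by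
  induction S, hS using Set.Finite.induction_on with
  | empty =>
    refine ⟨0, 1, D.one_mem_zero, ?_, fun J hJ => absurd hJ (Set.notMem_empty J)⟩
    have : D.mono 0 (1 : Q) D.one_mem_zero = 1 := by
      apply Subtype.ext
      rw [coe_mono]
      exact monomial_zero_one
    rw [this]
    exact fun h => hP.ne_top ((Ideal.eq_top_iff_one _).mpr h)
  | @insert J S _ _ ih =>
    obtain ⟨m, f, hf, h1, h2⟩ := ih (fun J' hJ' => hhom J' (Set.mem_insert_of_mem _ hJ'))
      (fun J' hJ' => hne J' (Set.mem_insert_of_mem _ hJ'))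
    obtain ⟨q, hq, hqP⟩ := Set.not_subset.mp (hne J (Set.mem_insert _ _))
    have h3 : ∃ n, cf D q n ∉ P := by
      by_contra hcon
      push Not at hcon
      exact hqP (mem_of_cf_mem hcon)
    obtain ⟨n, hn⟩ := h3
    have hnJ : cf D q n ∈ J := hhom J (Set.mem_insert _ _) q hq n
    refine ⟨m + n, f * (q : Q[X]).coeff n, ?_, ?_, ?_⟩
    · have := D.mul_mem _ _ _ hf _ (q.2 n)
      exact_mod_cast this
    · rw [← mono_mul hf (q.2 n)]
      intro h4
      rcases hP.mem_or_mem h4 with h | h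
      · exact h1 h
      · exact hn h
    · intro J' hJ'
      rw [← mono_mul hf (q.2 n)]
      rcases Set.mem_insert_iff.mp hJ' with rfl | h
      · exact Ideal.mul_mem_left _ _ hnJ
      · exact Ideal.mul_mem_right _ _ (h2 J' h)

theorem HPrime.c_le_one (hred : RedX D) (P : HPrime D) : P.c ≤ 1 := by
  by_cases hX : XT D ∈ P.I
  swap
  · have := (P.XT_mem_iff).not.mp hX
    omega
  -- the other minimal primes of `(X)`
  let S : Set (Ideal D.Ttot) := (Ideal.span {XT D}).minimalPrimes \ {P.I}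
  have hSfin : S.Finite :=
    (Ideal.finite_minimalPrimes_of_isNoetherianRing D.Ttot (Ideal.span {XT D})).subset
      Set.sdiff_subset
  have hShom : ∀ J ∈ S, Hom J := fun J hJ => hom_of_minimalPrimes hJ.1
  have hSne : ∀ J ∈ S, ¬ J ≤ P.I := by
    intro J hJ hle
    apply hJ.2
    have hXJ : XT D ∈ J := hJ.1.1.2 (Ideal.mem_span_singleton_self _)
    refine P.ht.min J hJ.1.1.1 ?_ hle
    rintro rfl
    exact XT_ne_zero (Ideal.mem_bot.mp hXJ)
  obtain ⟨m, s, hs, hsP, hsJ⟩ := exists_homog_avoid P.I P.ht.prime S hSfin hShom hSne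
  obtain ⟨n, f, hf, hf0, h1⟩ := P.exists_mono_unif
  have hfP : D.mono n f hf ∈ P.I := (P.mem_iff hf hf0).mpr (by omega)
  have hs0 : s ≠ 0 := by
    rintro rfl
    apply hsP
    have : D.mono m (0 : Q) hs = 0 := by
      apply Subtype.ext
      simp [coe_mono]
    rw [this]
    exact P.I.zero_mem
  have hrad : D.mono m s hs * D.mono n f hf ∈ (Ideal.span {XT D}).radical := by
    rw [← Ideal.sInf_minimalPrimes]
    rw [Submodule.mem_sInf]
    intro J hJ
    by_cases h : J = P.I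
    · rw [h]; exact Ideal.mul_mem_left _ _ hfP
    · exact Ideal.mul_mem_right _ _ (hsJ J ⟨hJ, h⟩)
  obtain ⟨N, hN⟩ := hrad
  have hsf : s * f ∈ D.F ((m + n : ℕ) : ℤ) := by
    have := D.mul_mem _ _ _ hs _ hf
    exact_mod_cast this
  -- f s ∈ F (m + n - 1)
  have h2 : s * f ∈ D.F (((m + n : ℕ) : ℤ) - 1) := by
    have hN1 : (D.mono m s hs * D.mono n f hf) ^ (N + 1) ∈ Ideal.span {XT D} := by
      rw [pow_succ]; exact Ideal.mul_mem_right _ _ hN
    refine hred _ _ (N + 1) (Nat.succ_pos _) hsf ?_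
    rw [mono_mul, mono_pow] at hN1
    rcases Nat.eq_zero_or_pos ((N + 1) * (m + n)) with h0 | h0
    · -- degree zero: impossible
      exfalso
      have hmn : m + n = 0 := by
        rcases Nat.mul_eq_zero.mp h0 with h | h
        · omega
        · exact h
      have hm0 : m = 0 := by omega
      have hn0 : n = 0 := by omega
      subst hn0
      -- f is a nonzero constant, a unit
      have hc := cf_zero_unit (p := D.mono 0 f hf) P.ht.prime.ne_top (by
        rw [cf_mono_self]; exact hfP)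
      rw [cf_mono_self] at hc
      exact mono_ne_zero hf hf0 hc
    · obtain ⟨d, hd⟩ : ∃ d, (N + 1) * (m + n) = d + 1 := ⟨(N + 1) * (m + n) - 1, by omega⟩
      have key : ∀ (e : ℕ) (g : Q) (hg : g ∈ D.F (e : ℤ)), e = d + 1 →
          D.mono e g hg ∈ Ideal.span {XT D} → g ∈ D.F (d : ℤ) := by
        intro e g hg he hge
        subst he
        exact mem_of_mono_mem_span hge
      have h3 := key _ _ _ hd hN1
      have h4 : ((N + 1 : ℕ) : ℤ) * ((m + n : ℕ) : ℤ) - 1 = (d : ℤ) := by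
        have : (((N + 1) * (m + n) : ℕ) : ℤ) = ((d + 1 : ℕ) : ℤ) := by rw [hd]
        push_cast at this ⊢
        linarith
      rw [h4]
      exact h3
  -- now compute orders
  have h5 : 0 ≤ P.ord (s * f) + P.c * (((m + n : ℕ) : ℤ) - 1) := by
    rcases Nat.eq_zero_or_pos (m + n) with h0 | h0
    · exfalso
      rw [h0] at h2
      have := D.eq_zero_of_neg (by norm_num) h2
      exact mul_ne_zero hs0 hf0 this
    · obtain ⟨d, hd⟩ : ∃ d, m + n = d + 1 := ⟨m + n - 1, by omega⟩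
      have h6 : (((m + n : ℕ) : ℤ) - 1) = (d : ℤ) := by rw [hd]; push_cast; ring
      rw [h6] at h2 ⊢
      exact P.nonneg h2 (mul_ne_zero hs0 hf0)
  have h6 := (P.mem_iff hs hs0).not.mp hsP
  have h7 := P.nonneg hs hs0
  rw [P.ord_mul hs0 hf0] at h5
  push_cast at h5
  have h8 : P.c * ((m : ℤ) + n - 1) = P.c * m + P.c * n - P.c := by ring
  rw [h8] at h5
  omega

/-- the place attached to a homogeneous height-one prime -/
def HPrime.pl (P : HPrime D) : Place Q where
  ord := P.ord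
  ord_mul := fun _ _ ha hb => P.ord_mul ha hb
  ord_add := fun _ _ ha hb hab => P.ord_add ha hb hab
  unif := P.exists_unif

variable (D) in
/-- END PRODUCT D0: the places of `T` (normal, Noetherian, `T/XT` reduced). -/
def placesOf (hred : RedX D) : Places D (HPrime D) where
  pl := fun P => P.pl
  c := fun P => P.c
  c_eq := fun P => by
    have h1 := P.c_nonneg
    have h2 := P.c_le_one hred
    omega
  memF := by
    intro m f
    constructor
    · intro hf
      by_cases hf0 : f = 0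
      · exact Or.inl hf0
      right
      intro P
      rcases lt_or_ge m 0 with hm | hm
      · exact absurd (D.eq_zero_of_neg hm hf) hf0
      · obtain ⟨n, rfl⟩ := Int.eq_ofNat_of_zero_le hm
        have := P.nonneg hf hf0
        show -P.c * (n : ℤ) ≤ P.ord f
        linarith
    · rintro (rfl | h)
      · exact Submodule.zero_mem _
      · by_cases hf0 : f = 0
        · rw [hf0]; exact Submodule.zero_mem _
        · exact mem_of_ord m f hf0 h
  fin := fun f hf => finite_ord_ne f hf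
  cfin := finite_c_ne
  lead := fun P => P.exists_lead

end ord

end Crest.Agent.R169.PlacesEx
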