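import Mathlib

/-!
# Row 169, part F: the explicit ring  `O n k = k[z_0,…,z_4]/(z_j^n z_{j+1}^n = 1 + z_{j+3}^n)`

Indices are `Fin 5`, cyclic (blueprint `z_{j+1}` is `z j` here).  `n = 1` gives the `A_2` cluster
algebra `O_1`, `n = 7` gives the ring `O` of the blueprint.
-/

set_option autoImplicit false

open MvPolynomial

namespace Crest.R169

section Defs

variable (n : ℕ) (k : Type*) [Field k]

/-- The ideal of relations `z_j^n z_{j+1}^n = 1 + z_{j+3}^n`, `j : Fin 5` cyclic. -/
noncomputable def relIdeal : Ideal (MvPolynomial (Fin 5) k) :=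
  Ideal.span (Set.range fun j : Fin 5 =>
    (X j ^ n * X (j + 1) ^ n - (1 + X (j + 3) ^ n) : MvPolynomial (Fin 5) k))

/-- `O n k = k[z_0,…,z_4]/(z_j^n z_{j+1}^n = 1 + z_{j+3}^n)`. -/
def ORing : Type _ := MvPolynomial (Fin 5) k ⧸ relIdeal n k

noncomputable instance : CommRing (ORing n k) :=
  inferInstanceAs (CommRing (MvPolynomial (Fin 5) k ⧸ relIdeal n k))

noncomputable instance : Algebra k (ORing n k) :=
  inferInstanceAs (Algebra k (MvPolynomial (Fin 5) k ⧸ relIdeal n k))

/-- The quotient map. -/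
noncomputable def toO : MvPolynomial (Fin 5) k →ₐ[k] ORing n k :=
  Ideal.Quotient.mkₐ k (relIdeal n k)

theorem toO_surjective : Function.Surjective (toO n k) :=
  Ideal.Quotient.mkₐ_surjective k (relIdeal n k)

/-- The generators `z_j`. -/
noncomputable def z (j : Fin 5) : ORing n k := toO n k (X j)

/-- The monomials `z^β`. -/
noncomputable def zm (β : Fin 5 → ℕ) : ORing n k := ∏ j, z n k j ^ β j

theorem toO_eq_zero_iff (p : MvPolynomial (Fin 5) k) : toO n k p = 0 ↔ p ∈ relIdeal n k :=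
  Ideal.Quotient.eq_zero_iff_mem

theorem z_rel (j : Fin 5) :
    z n k j ^ n * z n k (j + 1) ^ n = 1 + z n k (j + 3) ^ n := by
  have h : toO n k (X j ^ n * X (j + 1) ^ n - (1 + X (j + 3) ^ n)) = 0 := by
    rw [toO_eq_zero_iff]
    exact Ideal.subset_span ⟨j, rfl⟩
  rw [map_sub, sub_eq_zero] at h
  simpa [z] using h

variable {n k}

/-- Universal property of `ORing`. -/
noncomputable def ORing.lift {A : Type*} [CommRing A] [Algebra k A] (a : Fin 5 → A)
    (h : ∀ j, a j ^ n * a (j + 1) ^ n = 1 + a (j + 3) ^ n) : ORing n k →ₐ[k] A :=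
  Ideal.Quotient.liftₐ (relIdeal n k) (MvPolynomial.aeval a) (by
    intro p hp
    have hle : relIdeal n k ≤ RingHom.ker (MvPolynomial.aeval a : MvPolynomial (Fin 5) k →ₐ[k] A) := by
      rw [relIdeal, Ideal.span_le]
      rintro _ ⟨j, rfl⟩
      simp only [SetLike.mem_coe, RingHom.mem_ker, map_sub, map_mul, map_pow,
        MvPolynomial.aeval_X, map_add, map_one]
      rw [h j, sub_self]
    exact hle hp)

@[simp] theorem ORing.lift_z {A : Type*} [CommRing A] [Algebra k A] (a : Fin 5 → A)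
    (h : ∀ j, a j ^ n * a (j + 1) ^ n = 1 + a (j + 3) ^ n) (j : Fin 5) :
    ORing.lift (k := k) a h (z n k j) = a j := by
  have : ORing.lift (k := k) a h (z n k j) = MvPolynomial.aeval a (X j : MvPolynomial (Fin 5) k) :=
    rfl
  rw [this, MvPolynomial.aeval_X]

@[simp] theorem ORing.lift_toO {A : Type*} [CommRing A] [Algebra k A] (a : Fin 5 → A)
    (h : ∀ j, a j ^ n * a (j + 1) ^ n = 1 + a (j + 3) ^ n) (p : MvPolynomial (Fin 5) k) :
    ORing.lift (k := k) a h (toO n k p) = MvPolynomial.aeval a p := rfl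

theorem ORing.algHom_ext {A : Type*} [Semiring A] [Algebra k A] {f g : ORing n k →ₐ[k] A}
    (h : ∀ j, f (z n k j) = g (z n k j)) : f = g := by
  have h2 : f.comp (toO n k) = g.comp (toO n k) := MvPolynomial.algHom_ext h
  ext x
  obtain ⟨p, rfl⟩ := toO_surjective n k x
  exact DFunLike.congr_fun h2 p

theorem ORing.adjoin_range_z : Algebra.adjoin k (Set.range (z n k)) = ⊤ := by
  rw [eq_top_iff]
  rintro x -
  obtain ⟨p, rfl⟩ := toO_surjective n k x
  have h1 : (toO n k) p = MvPolynomial.aeval (z n k) p := by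
    have : toO n k = MvPolynomial.aeval (z n k) := by
      apply MvPolynomial.algHom_ext
      intro i
      rw [MvPolynomial.aeval_X]
      rfl
    rw [this]
  rw [h1]
  exact Algebra.adjoin_range_eq_range_aeval k (z n k) ▸ ⟨p, rfl⟩

/-- The weights `w_i(β) = β_{i-1} + β_{i+1} - β_i` (minus the five boundary valuations). -/
def w (i : Fin 5) (β : Fin 5 → ℕ) : ℤ := (β (i + 4) : ℤ) + β (i + 1) - β i

variable (n) in
/-- `β` is a basis exponent: no two cyclically adjacent entries are both `≥ n`. -/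
def Good (β : Fin 5 → ℕ) : Prop := ∀ j, β j < n ∨ β (j + 1) < n

instance (β : Fin 5 → ℕ) : Decidable (Good n β) := by unfold Good; infer_instance

theorem w_add (i : Fin 5) (β γ : Fin 5 → ℕ) : w i (β + γ) = w i β + w i γ := by
  simp only [w, Pi.add_apply, Nat.cast_add]; ring

theorem w_zero (i : Fin 5) : w i 0 = 0 := by simp [w]

/-- the five weights sum up to the total degree -/
theorem sum_w (β : Fin 5 → ℕ) : ∑ i, w i β = ∑ i, (β i : ℤ) := by
  simp only [w, Fin.sum_univ_five]
  simp only [show (0 : Fin 5) + 4 = 4 from rfl, show (1 : Fin 5) + 4 = 0 from rfl,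
    show (2 : Fin 5) + 4 = 1 from rfl, show (3 : Fin 5) + 4 = 2 from rfl,
    show (4 : Fin 5) + 4 = 3 from rfl, show (0 : Fin 5) + 1 = 1 from rfl,
    show (1 : Fin 5) + 1 = 2 from rfl, show (2 : Fin 5) + 1 = 3 from rfl,
    show (3 : Fin 5) + 1 = 4 from rfl, show (4 : Fin 5) + 1 = 0 from rfl]
  ring

theorem zm_zero : zm n k 0 = 1 := by simp [zm]

theorem zm_add (β γ : Fin 5 → ℕ) : zm n k (β + γ) = zm n k β * zm n k γ := by
  simp [zm, pow_add, Finset.prod_mul_distrib]

theorem zm_single (j : Fin 5) (a : ℕ) : zm n k (Pi.single j a) = z n k j ^ a := by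
  unfold zm
  rw [Finset.prod_eq_single j]
  · simp
  · intro b _ hb
    simp [Pi.single_eq_of_ne hb]
  · simp

variable (n k) in
/-- `F_m = span {z^γ : w_i(γ) ≤ m for all i}` inside `O n k` (all `m : ℤ`). -/
noncomputable def Fil (m : ℤ) : Submodule k (ORing n k) :=
  Submodule.span k (zm n k '' {γ | ∀ i, w i γ ≤ m})

theorem zm_mem_Fil {m : ℤ} {γ : Fin 5 → ℕ} (h : ∀ i, w i γ ≤ m) : zm n k γ ∈ Fil n k m :=
  Submodule.subset_span ⟨γ, h, rfl⟩

theorem Fil_mono {a b : ℤ} (h : a ≤ b) : Fil n k a ≤ Fil n k b :=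
  Submodule.span_mono (Set.image_mono fun _ hγ i => (hγ i).trans h)

theorem Fil_mul_mem {a b : ℤ} {x y : ORing n k} (hx : x ∈ Fil n k a) (hy : y ∈ Fil n k b) :
    x * y ∈ Fil n k (a + b) := by
  induction hx using Submodule.span_induction with
  | mem x hx =>
    obtain ⟨β, hβ, rfl⟩ := hx
    induction hy using Submodule.span_induction with
    | mem y hy =>
      obtain ⟨γ, hγ, rfl⟩ := hy
      rw [← zm_add]
      exact zm_mem_Fil fun i => by rw [w_add]; exact add_le_add (hβ i) (hγ i)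
    | zero => rw [mul_zero]; exact Submodule.zero_mem _
    | add y y' _ _ h1 h2 => rw [mul_add]; exact Submodule.add_mem _ h1 h2
    | smul c y _ h => rw [mul_smul_comm]; exact Submodule.smul_mem _ _ h
  | zero => rw [zero_mul]; exact Submodule.zero_mem _
  | add x x' _ _ h1 h2 => rw [add_mul]; exact Submodule.add_mem _ h1 h2
  | smul c x _ h => rw [smul_mul_assoc]; exact Submodule.smul_mem _ _ h

theorem one_mem_Fil_zero : (1 : ORing n k) ∈ Fil n k 0 := by
  rw [← zm_zero]
  exact zm_mem_Fil fun i => (w_zero i).le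

theorem z_mem_Fil_one (j : Fin 5) : z n k j ∈ Fil n k 1 := by
  rw [← pow_one (z n k j), ← zm_single]
  refine zm_mem_Fil fun i => ?_
  revert i j
  decide

variable (n k) in
/-- `u = z_1 + z_4 + z_5` of the blueprint. -/
noncomputable def uO : ORing n k := z n k 0 + z n k 3 + z n k 4

variable (n k) in
/-- `v = z_2 + z_3 + z_4` of the blueprint. -/
noncomputable def vO : ORing n k := z n k 1 + z n k 2 + z n k 3

theorem uO_mem : uO n k ∈ Fil n k 1 :=
  Submodule.add_mem _ (Submodule.add_mem _ (z_mem_Fil_one _) (z_mem_Fil_one _)) (z_mem_Fil_one _)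

theorem vO_mem : vO n k ∈ Fil n k 1 :=
  Submodule.add_mem _ (Submodule.add_mem _ (z_mem_Fil_one _) (z_mem_Fil_one _)) (z_mem_Fil_one _)

end Defs

end Crest.R169
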