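import Crest.Agent.R169.Colen
import Crest.Agent.R169.PtDefs
import Crest.Agent.R169.Places
import Crest.Agent.R169.Noeth

/-!
# Row 169: bridge F5 (`AllPtRegular`, helper785) → D5 (`colen_frob`, helper858) →
`ColengthStatement` (helper862).  helper169.
-/

set_option autoImplicit false

namespace Crest.Agent.R169.PtBridge

open Module

variable {k Q : Type} [Field k] [Field Q] [Algebra k Q] {D : TData k Q}

theorem one_not_mem {P : ℤ → Submodule k Q} {w : Q} (hP : IsPoint D P w) : (1 : Q) ∉ P 0 := by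
  intro h
  have := hP.mul 1 0 w hP.w_mem 1 h
  exact hP.w_not (by simpa using this)

theorem w_pow_mem {P : ℤ → Submodule k Q} {w : Q} (hP : IsPoint D P w) (n : ℕ) :
    w ^ n ∈ D.F n ∧ w ^ n ∉ P n := by
  induction n with
  | zero => exact ⟨by simpa using D.one0, by simpa using one_not_mem hP⟩
  | succ n ih =>
    have e : ((n + 1 : ℕ) : ℤ) = n + 1 := by push_cast; ring
    rw [pow_succ, e]
    refine ⟨D.mul_mem _ _ _ ih.1 _ hP.w_mem, fun h => ?_⟩
    rcases hP.prime _ _ _ ih.1 _ hP.w_mem h with h | h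
    · exact ih.2 h
    · exact hP.w_not h

theorem isPt {P : ℤ → Submodule k Q} {w : Q} (hP : IsPoint D P w) : IsPt D P where
  le := hP.le
  mul := hP.mul
  prime := hP.prime
  hilb := by
    refine ⟨0, fun m hm => ?_⟩
    obtain ⟨n, rfl⟩ := Int.eq_ofNat_of_zero_le hm
    exact ⟨w ^ n, (w_pow_mem hP n).1, (w_pow_mem hP n).2, hP.one_dim n⟩

theorem regAt (h : AllPtRegular D) {P : ℤ → Submodule k Q} {w : Q} (hP : IsPoint D P w) :
    RegAt D P := by
  obtain ⟨d, e, l, a, b, s, ha, hb, hs, hs', hgen⟩ := h P (isPt hP)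
  have hs0 : s ≠ 0 := by rintro rfl; exact hs' (Submodule.zero_mem _)
  obtain ⟨σ, rfl⟩ := Int.eq_ofNat_of_zero_le (D.nonneg_of_mem hs hs0)
  -- normalise the degree of a possibly zero element
  have key : ∀ (d : ℤ) (a : Q), a ∈ P d → ∃ α : ℕ, a ∈ P α ∧ (∀ (j : ℤ) (g : Q), g ∈ D.F (j - d) →
      ∃ g' ∈ D.F (j - α), a * g = a * g') := by
    intro d a ha
    by_cases ha0 : a = 0
    · subst ha0
      exact ⟨0, Submodule.zero_mem _, fun j g _ => ⟨0, Submodule.zero_mem _, by simp⟩⟩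
    · obtain ⟨α, rfl⟩ := Int.eq_ofNat_of_zero_le (D.nonneg_of_mem (hP.le d ha) ha0)
      exact ⟨α, ha, fun j g hg => ⟨g, hg, rfl⟩⟩
  obtain ⟨α, hα, hα'⟩ := key d a ha
  obtain ⟨β, hβ, hβ'⟩ := key e b hb
  refine ⟨σ, α, β, s, a, b, hs, hs', hα, hβ, fun m f hf => ?_⟩
  obtain ⟨g, hg, h', hh', heq⟩ := hgen m f hf
  obtain ⟨g₁, hg₁, e1⟩ := hα' _ _ hg
  obtain ⟨h₁, hh₁, e2⟩ := hβ' _ _ hh'
  exact ⟨g₁, hg₁, h₁, hh₁, by rw [heq, e1, e2]⟩

theorem isLat_of_isIdl {I : ℤ → Submodule k Q} (hI : IsIdl D I) : IsLat D.u D.v I := by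
  refine P1.isLat_of_le D.lat ⟨fun m f hf => ?_, fun m f hf => ?_, fun m f hf => ?_⟩ hI.le
  · have := hI.mul 1 m 1 D.one_mem f hf
    rw [one_mul, add_comm] at this
    exact this
  · have := hI.mul 1 m D.u D.u_mem f hf
    rw [add_comm] at this
    exact this
  · have := hI.mul 1 m D.v D.v_mem f hf
    rw [add_comm] at this
    exact this

theorem wf : WellFoundedGT {I : ℤ → Submodule k Q // IsIdl D I} :=
  wf_idl fun _ hI => isLat_of_isIdl hI

theorem frob1_eq (p : ℕ) (I : ℤ → Submodule k Q) : frob1 D p I = frobI D p I := rfl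

/-- D5 in the frozen form of `Places.lean`. -/
theorem colengthStatement (p : ℕ) [Fact p.Prime] [CharP k p] [IsAlgClosed k]
    (h : AllPtRegular D) : ColengthStatement D p := by
  have : CharP Q p := charP_of_injective_algebraMap (algebraMap k Q).injective p
  intro I e hI hle he
  exact colen_frob (D := D) p wf (fun P w hP => regAt h hP) I
    ⟨hle, fun i j f hf g hg => hI.act i j f hf g hg⟩ e he

end Crest.Agent.R169.PtBridge
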