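import Crest.Agent.R169.RingDefs

/-!
# Row 169, F5: the ring `O n k` is regular at its points (elementary form)
-/

set_option autoImplicit false

open Crest.R169

namespace Crest.Agent.R169.RegO

section

variable {n : ℕ} {k : Type*} [Field k]

/-- the cofactor `(x^n - c^n)/(x - c)` -/
noncomputable def gg (n : ℕ) {B : Type*} [CommRing B] (x c : B) : B :=
  ∑ i ∈ Finset.range n, x ^ i * c ^ (n - 1 - i)

theorem gg_mul {B : Type*} [CommRing B] (x c : B) : gg n x c * (x - c) = x ^ n - c ^ n :=
  geom_sum₂_mul x c n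

theorem cover : ∀ i l : Fin 5, l = i ∨ l = i + 1 ∨ l = i + 2 ∨ l = i + 3 ∨ l = i + 4 := by
  decide

/-- the zero coordinates of a point are contained in an adjacent pair -/
theorem exists_pair (hn : n ≠ 0) (c : Fin 5 → k)
    (h : ∀ j, c j ^ n * c (j + 1) ^ n = 1 + c (j + 3) ^ n) :
    ∃ i, c (i + 2) ≠ 0 ∧ c (i + 3) ≠ 0 ∧ c (i + 4) ≠ 0 := by
  by_cases hall : ∀ j, c j ≠ 0
  · exact ⟨0, hall _, hall _, hall _⟩
  · push Not at hall
    obtain ⟨j, hj⟩ := hall
    have e1 := h j
    have e2 := h (j + 4)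
    have e3 := h (j + 1)
    have i1 : j + 4 + 1 = j := by
      rw [add_assoc]; exact add_zero j
    have i2 : j + 4 + 3 = j + 2 := by
      rw [add_assoc]; rfl
    have i3 : j + 1 + 1 = j + 2 := by
      rw [add_assoc]; rfl
    have i4 : j + 1 + 3 = j + 4 := by
      rw [add_assoc]; rfl
    rw [i1, i2] at e2
    rw [i3, i4] at e3
    rw [hj, zero_pow hn] at e1 e2
    have h3 : c (j + 3) ≠ 0 := by
      intro h0
      rw [h0, zero_pow hn] at e1
      simp at e1
    have h2 : c (j + 2) ≠ 0 := by
      intro h0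
      rw [h0, zero_pow hn] at e2
      simp at e2
    by_cases h4 : c (j + 4) = 0
    · refine ⟨j + 4, ?_, ?_, ?_⟩
      · have : j + 4 + 2 = j + 1 := by rw [add_assoc]; rfl
        rw [this]
        intro h1
        rw [h1, h4, zero_pow hn] at e3
        simp at e3
      · rw [i2]; exact h2
      · have : j + 4 + 4 = j + 3 := by rw [add_assoc]; rfl
        rw [this]; exact h3
    · exact ⟨j, h2, h3, h4⟩

theorem map_gg (f : ORing n k →ₐ[k] k) (x : ORing n k) :
    f (gg n x (algebraMap k _ (f x))) = n * (f x) ^ (n - 1) := by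
  unfold gg
  rw [map_sum]
  have : ∀ i ∈ Finset.range n, f (x ^ i * algebraMap k (ORing n k) (f x) ^ (n - 1 - i))
      = (f x) ^ (n - 1) := by
    intro i hi
    rw [map_mul, map_pow, map_pow, AlgHom.commutes, Algebra.algebraMap_self, RingHom.id_apply,
      ← pow_add]
    congr 1
    have := Finset.mem_range.mp hi
    omega
  rw [Finset.sum_congr rfl this, Finset.sum_const, Finset.card_range, nsmul_eq_mul]

/-- The two local parameters at a point. -/
noncomputable def parI (f : ORing n k →ₐ[k] k) (i : Fin 5) : Ideal (ORing n k) :=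
  Ideal.span {z n k i - algebraMap k _ (f (z n k i)),
    z n k (i + 1) - algebraMap k _ (f (z n k (i + 1)))}

theorem regO (hn : (n : k) ≠ 0) (f : ORing n k →ₐ[k] k) :
    ∃ (i : Fin 5) (s : ORing n k), f s ≠ 0 ∧ ∀ x, f x = 0 → s * x ∈ parI f i := by
  have hn0 : n ≠ 0 := by
    rintro rfl
    exact hn (by simp)
  have hc : ∀ j, f (z n k j) ^ n * f (z n k (j + 1)) ^ n = 1 + f (z n k (j + 3)) ^ n := by
    intro j
    have := congrArg f (z_rel n k j)
    simpa using this
  obtain ⟨i, h2, h3, h4⟩ := exists_pair hn0 (fun j => f (z n k j)) hc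
  -- abbreviations
  set al := algebraMap k (ORing n k) with hal
  set c : Fin 5 → ORing n k := fun j => al (f (z n k j)) with hcdef
  set Z : Fin 5 → ORing n k := fun j => z n k j ^ n with hZ
  set C : Fin 5 → ORing n k := fun j => c j ^ n with hC
  have rZ : ∀ j, Z j * Z (j + 1) = 1 + Z (j + 3) := z_rel n k
  have rC : ∀ j, C j * C (j + 1) = 1 + C (j + 3) := by
    intro j
    have := congrArg al (hc j)
    simpa [hC, hcdef] using this
  have hI0 : z n k i - c i ∈ parI f i := Ideal.subset_span (Or.inl rfl)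
  have hI1 : z n k (i + 1) - c (i + 1) ∈ parI f i := Ideal.subset_span (Or.inr rfl)
  have hgm : ∀ j, gg n (z n k j) (c j) * (z n k j - c j) = Z j - C j := fun j => gg_mul _ _
  have hZ0 : Z i - C i ∈ parI f i := by
    rw [← hgm]; exact Ideal.mul_mem_left _ _ hI0
  have hZ1 : Z (i + 1) - C (i + 1) ∈ parI f i := by
    rw [← hgm]; exact Ideal.mul_mem_left _ _ hI1
  have hZ3 : Z (i + 3) - C (i + 3) ∈ parI f i := by
    have e : Z (i + 3) - C (i + 3) = (Z i - C i) * Z (i + 1) + C i * (Z (i + 1) - C (i + 1)) := by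
      linear_combination (rC i) - (rZ i)
    rw [e]
    exact Ideal.add_mem _ (Ideal.mul_mem_right _ _ hZ0) (Ideal.mul_mem_left _ _ hZ1)
  have hZ2 : Z (i + 3) * (Z (i + 2) - C (i + 2)) ∈ parI f i := by
    have i1 : i + 2 + 1 = i + 3 := by rw [add_assoc]; rfl
    have i2 : i + 2 + 3 = i := by rw [add_assoc]; exact add_zero i
    have a := rZ (i + 2)
    have b := rC (i + 2)
    rw [i1, i2] at a b
    have e : Z (i + 3) * (Z (i + 2) - C (i + 2)) = (Z i - C i) -
        C (i + 2) * (Z (i + 3) - C (i + 3)) := by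
      linear_combination a - b
    rw [e]
    exact Ideal.sub_mem _ hZ0 (Ideal.mul_mem_left _ _ hZ3)
  have hZ4 : Z (i + 3) * (Z (i + 4) - C (i + 4)) ∈ parI f i := by
    have i1 : i + 3 + 1 = i + 4 := by rw [add_assoc]; rfl
    have i2 : i + 3 + 3 = i + 1 := by rw [add_assoc]; rfl
    have a := rZ (i + 3)
    have b := rC (i + 3)
    rw [i1, i2] at a b
    have e : Z (i + 3) * (Z (i + 4) - C (i + 4)) = (Z (i + 1) - C (i + 1)) -
        C (i + 4) * (Z (i + 3) - C (i + 3)) := by
      linear_combination a - b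
    rw [e]
    exact Ideal.sub_mem _ hZ1 (Ideal.mul_mem_left _ _ hZ3)
  -- the multiplier
  set s : ORing n k := Z (i + 3) * gg n (z n k (i + 2)) (c (i + 2)) *
    gg n (z n k (i + 3)) (c (i + 3)) * gg n (z n k (i + 4)) (c (i + 4)) with hs
  have hcov : ∀ l : Fin 5, l = i ∨ l = i + 1 ∨ l = i + 2 ∨ l = i + 3 ∨ l = i + 4 := cover i
  have hgen : ∀ l, s * (z n k l - c l) ∈ parI f i := by
    intro l
    rcases hcov l with rfl | rfl | rfl | rfl | rfl
    · exact Ideal.mul_mem_left _ _ hI0
    · exact Ideal.mul_mem_left _ _ hI1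
    · have e : s * (z n k (i + 2) - c (i + 2)) = (gg n (z n k (i + 3)) (c (i + 3)) *
        gg n (z n k (i + 4)) (c (i + 4))) * (Z (i + 3) * (Z (i + 2) - C (i + 2))) := by
        rw [← hgm (i + 2), hs]; ring
      rw [e]
      exact Ideal.mul_mem_left _ _ hZ2
    · have e : s * (z n k (i + 3) - c (i + 3)) = (Z (i + 3) * gg n (z n k (i + 2)) (c (i + 2)) *
        gg n (z n k (i + 4)) (c (i + 4))) * (Z (i + 3) - C (i + 3)) := by
        rw [← hgm (i + 3), hs]; ring
      rw [e]
      exact Ideal.mul_mem_left _ _ hZ3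
    · have e : s * (z n k (i + 4) - c (i + 4)) = (gg n (z n k (i + 2)) (c (i + 2)) *
        gg n (z n k (i + 3)) (c (i + 3))) * (Z (i + 3) * (Z (i + 4) - C (i + 4))) := by
        rw [← hgm (i + 4), hs]; ring
      rw [e]
      exact Ideal.mul_mem_left _ _ hZ4
  refine ⟨i, s, ?_, ?_⟩
  · rw [hs, map_mul, map_mul, map_mul]
    have hg : ∀ j, f (z n k j) ≠ 0 → f (gg n (z n k j) (c j)) ≠ 0 := by
      intro j hj
      rw [hcdef]
      simp only
      rw [map_gg]
      exact mul_ne_zero hn (pow_ne_zero _ hj)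
    refine mul_ne_zero (mul_ne_zero (mul_ne_zero ?_ (hg _ h2)) (hg _ h3)) (hg _ h4)
    rw [hZ]
    simp only [map_pow]
    exact pow_ne_zero _ h3
  · -- every element of the kernel is in the ideal generated by `z_l - c_l`
    have key : ∀ x : ORing n k, s * (x - al (f x)) ∈ parI f i := by
      intro x
      have hx : x ∈ Algebra.adjoin k (Set.range (z n k)) := by
        rw [ORing.adjoin_range_z]
        trivial
      induction hx using Algebra.adjoin_induction with
      | mem x hx => obtain ⟨j, rfl⟩ := hx; exact hgen j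
      | algebraMap r =>
        rw [AlgHom.commutes, Algebra.algebraMap_self, RingHom.id_apply, sub_self, mul_zero]
        exact Ideal.zero_mem _
      | add x y _ _ hx hy =>
        have e : s * (x + y - al (f (x + y))) = s * (x - al (f x)) + s * (y - al (f y)) := by
          rw [map_add, map_add]; ring
        rw [e]; exact Ideal.add_mem _ hx hy
      | mul x y _ _ hx hy =>
        have e : s * (x * y - al (f (x * y))) =
            y * (s * (x - al (f x))) + al (f x) * (s * (y - al (f y))) := by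
          rw [map_mul, map_mul]; ring
        rw [e]
        exact Ideal.add_mem _ (Ideal.mul_mem_left _ _ hx) (Ideal.mul_mem_left _ _ hy)
    intro x hx
    have := key x
    rwa [hx, map_zero, sub_zero] at this

end

end Crest.Agent.R169.RegO
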