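import Mathlib

/-! # Row 169, part F: Kummer independence (helper877) -/

set_option autoImplicit false

namespace Crest.R169

section Kummer

/-- Kummer independence: elements whose `n`-th powers lie in `K`, pairwise with quotient not in
`K`, are linearly independent over `K` (`K` contains the `n`-th roots of unity). -/
theorem rk_kummer_li {K L : Type*} [Field K] [Field L] [Algebra K L] [IsGalois K L]
    (n : ℕ) [NeZero n] (ζ : K) (hζ : IsPrimitiveRoot ζ n) {ι : Type*} (s : ι → L)
    (hs0 : ∀ i, s i ≠ 0) (hs : ∀ i, ∃ c : K, algebraMap K L c = s i ^ n)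
    (hne : ∀ i j, i ≠ j → ∀ c : K, s i ≠ algebraMap K L c * s j) : LinearIndependent K s := by
  have hζL : IsPrimitiveRoot (algebraMap K L ζ) n :=
    hζ.map_of_injective (algebraMap K L).injective
  -- the ratio lies in `K`
  have hrat : ∀ (σ : L ≃ₐ[K] L) (i : ι), ∃ c : K, algebraMap K L c = σ (s i) / s i := by
    intro σ i
    have h1 : (σ (s i) / s i) ^ n = 1 := by
      obtain ⟨c, hc⟩ := hs i
      rw [div_pow, ← map_pow, ← hc, AlgEquiv.commutes, hc, div_self (pow_ne_zero _ (hs0 i))]
    obtain ⟨a, -, ha⟩ := hζL.eq_pow_of_pow_eq_one h1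
    exact ⟨ζ ^ a, by rw [map_pow, ha]⟩
  let χ : ι → ((L ≃ₐ[K] L) →* L) := fun i =>
    { toFun := fun σ => σ (s i) / s i
      map_one' := by simp [hs0 i]
      map_mul' := by
        intro σ τ
        obtain ⟨c, hc⟩ := hrat τ i
        have h1 : τ (s i) = algebraMap K L c * s i := by
          rw [hc, div_mul_cancel₀ _ (hs0 i)]
        have h2 : (σ * τ) (s i) = algebraMap K L c * σ (s i) := by
          rw [AlgEquiv.mul_apply, h1, map_mul, AlgEquiv.commutes]
        rw [h2, ← hc, mul_div_assoc, mul_comm] }
  have hχ : Function.Injective χ := by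
    intro i j hij
    by_contra hne'
    have hfix : ∀ σ : L ≃ₐ[K] L, σ (s i / s j) = s i / s j := by
      intro σ
      have h1 : σ (s i) / s i = σ (s j) / s j := by
        have := congrArg (fun f : (L ≃ₐ[K] L) →* L => f σ) hij
        exact this
      rw [map_div₀, div_eq_div_iff]
      · rw [div_eq_div_iff (hs0 i) (hs0 j)] at h1
        rw [h1]; ring
      · intro h
        exact hs0 j (by simpa using h)
      · exact hs0 j
    have h2 := (InfiniteGalois.mem_range_algebraMap_iff_fixed (k := K) (s i / s j)).2 hfix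
    obtain ⟨c, hc⟩ := h2
    apply hne i j hne' c
    rw [hc, div_mul_cancel₀ _ (hs0 j)]
  have hli := (linearIndependent_monoidHom (L ≃ₐ[K] L) L).comp χ hχ
  rw [linearIndependent_iff'] at hli ⊢
  intro S g hg i hi
  have h1 := hli S (fun i => algebraMap K L (g i) * s i) ?_ i hi
  · have h2 := (mul_eq_zero.1 h1).resolve_right (hs0 i)
    simpa using h2
  · funext σ
    have h3 := congrArg σ hg
    rw [map_sum, map_zero] at h3
    simp only [Finset.sum_apply, Pi.smul_apply, Function.comp, smul_eq_mul, Pi.zero_apply]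
    rw [← h3]
    refine Finset.sum_congr rfl fun j _ => ?_
    show algebraMap K L (g j) * s j * (σ (s j) / s j) = _
    rw [Algebra.smul_def, map_mul, AlgEquiv.commutes]
    field_simp [hs0 j]

/-- valuations of a Kummer relation in a factorial domain -/
theorem rk_val {R : Type*} [CommRing R] [IsDomain R] [WfDvdMonoid R] (p : Fin 5 → R)
    (hp : ∀ i, Prime (p i)) (hpp : ∀ i j, i ≠ j → ¬ p i ∣ p j) (n : ℕ) (N D : R) (hN : N ≠ 0)
    (hD : D ≠ 0) (x y : Fin 5 → ℕ) (h : D ^ n * ∏ i, p i ^ x i = N ^ n * ∏ i, p i ^ y i)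
    (i : Fin 5) : n * multiplicity (p i) D + x i = n * multiplicity (p i) N + y i := by
  have hfin : ∀ a : R, a ≠ 0 → FiniteMultiplicity (p i) a := fun a ha =>
    FiniteMultiplicity.of_prime_left (hp i) ha
  have hprod : ∀ x : Fin 5 → ℕ, emultiplicity (p i) (∏ j, p j ^ x j) = x i := by
    intro x
    rw [Finset.emultiplicity_prod (hp i), Finset.sum_eq_single i]
    · exact emultiplicity_pow_self_of_prime (hp i) _
    · intro j _ hj
      rw [emultiplicity_pow (hp i), emultiplicity_eq_zero.2 (hpp i j (Ne.symm hj)), mul_zero]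
    · simp
  have h1 := congrArg (emultiplicity (p i)) h
  rw [emultiplicity_mul (hp i), emultiplicity_mul (hp i), emultiplicity_pow (hp i),
    emultiplicity_pow (hp i), hprod, hprod, (hfin D hD).emultiplicity_eq_multiplicity,
    (hfin N hN).emultiplicity_eq_multiplicity] at h1
  exact_mod_cast h1

end Kummer

end Crest.R169
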