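import Crest.Agent.R169.RingSpan
import Crest.Agent.R169.RingKummer

/-! # Row 169, part F: the good monomials are a basis, `O n k` is a domain (helper877) -/

set_option autoImplicit false

open Polynomial

namespace Crest.R169

section Model

variable (k : Type*) [Field k]

/-- The five primes `a, 1+a+b, b, 1+a, 1+b` of `k[a][b]`. -/
noncomputable def rkP : Fin 5 → k[X][X] :=
  ![C X, 1 + C X + X, X, 1 + C X, 1 + X]

theorem rkP_prime (i : Fin 5) : Prime (rkP k i) := by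
  fin_cases i
  · exact Polynomial.prime_C_iff.2 Polynomial.prime_X
  · have h : (1 + C X + X : k[X][X]) = X - C (-(1 + X)) := by
      simp only [C_neg, C_add, C_1]; ring
    show Prime (1 + C X + X : k[X][X])
    rw [h]; exact Polynomial.prime_X_sub_C _
  · exact Polynomial.prime_X
  · have h : (1 + C X : k[X][X]) = C (X - C (-1)) := by
      simp only [C_neg, C_sub, C_1]; ring
    show Prime (1 + C X : k[X][X])
    rw [h]; exact Polynomial.prime_C_iff.2 (Polynomial.prime_X_sub_C _)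
  · have h : (1 + X : k[X][X]) = X - C (-1) := by
      simp only [C_neg, C_1]; ring
    show Prime (1 + X : k[X][X])
    rw [h]; exact Polynomial.prime_X_sub_C _

theorem rkP_not_dvd (i j : Fin 5) (hij : i ≠ j) : ¬ rkP k i ∣ rkP k j := by
  have key : ∀ a b : k, evalEval a b (rkP k i) = 0 → evalEval a b (rkP k j) ≠ 0 →
      ¬ rkP k i ∣ rkP k j := by
    intro a b h0 h1 hd
    obtain ⟨c, hc⟩ := hd
    apply h1
    rw [hc]
    have : evalEval a b (rkP k i * c) = evalEval a b (rkP k i) * evalEval a b c :=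
      map_mul (evalEvalRingHom a b) _ _
    rw [this, h0, zero_mul]
  fin_cases i <;> fin_cases j <;> first
    | exact absurd rfl hij
    | (apply key 0 0 <;> simp [rkP, evalEval]; done)
    | (apply key 0 1 <;> simp [rkP, evalEval]; done)
    | (apply key 1 0 <;> simp [rkP, evalEval]; done)
    | (apply key (-1) 0 <;> simp [rkP, evalEval]; done)
    | (apply key 0 (-1) <;> simp [rkP, evalEval]; done)
    | (apply key (-1) 1 <;> simp [rkP, evalEval]; done)
    | (apply key 1 (-1) <;> simp [rkP, evalEval]; done)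

/-- The field `K = k(a,b)`. -/
abbrev rkK : Type _ := FractionRing k[X][X]

/-- the five elements `a, (1+a+b)/(ab), b, (1+a)/b, (1+b)/a` of `k(a,b)` -/
noncomputable def rkZ : Fin 5 → rkK k :=
  let P := fun i => algebraMap k[X][X] (rkK k) (rkP k i)
  ![P 0, P 1 / (P 0 * P 2), P 2, P 3 / P 2, P 4 / P 0]

theorem rkP_map_ne (i : Fin 5) : algebraMap k[X][X] (rkK k) (rkP k i) ≠ 0 := by
  intro h
  exact (rkP_prime k i).ne_zero (IsFractionRing.injective k[X][X] (rkK k) (by rw [h, map_zero]))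

theorem rkZ_rel (j : Fin 5) : rkZ k j * rkZ k (j + 1) = 1 + rkZ k (j + 3) := by
  have h0 := rkP_map_ne k 0
  have h2 := rkP_map_ne k 2
  have e1 : algebraMap k[X][X] (rkK k) (rkP k 1) = 1 + algebraMap k[X][X] (rkK k) (rkP k 0)
      + algebraMap k[X][X] (rkK k) (rkP k 2) := by simp [rkP]
  have e3 : algebraMap k[X][X] (rkK k) (rkP k 3) =
      1 + algebraMap k[X][X] (rkK k) (rkP k 0) := by simp [rkP]
  have e4 : algebraMap k[X][X] (rkK k) (rkP k 4) =
      1 + algebraMap k[X][X] (rkK k) (rkP k 2) := by simp [rkP]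
  generalize ha : algebraMap k[X][X] (rkK k) (rkP k 0) = a at *
  generalize hb : algebraMap k[X][X] (rkK k) (rkP k 2) = b at *
  have z0 : rkZ k 0 = a := by simp [rkZ, ha]
  have z1 : rkZ k 1 = (1 + a + b) / (a * b) := by simp [rkZ, ha, hb, e1]
  have z2 : rkZ k 2 = b := by simp [rkZ, hb]
  have z3 : rkZ k 3 = (1 + a) / b := by simp [rkZ, hb, e3]
  have z4 : rkZ k 4 = (1 + b) / a := by simp [rkZ, ha, e4]
  fin_cases j
  · show rkZ k 0 * rkZ k 1 = 1 + rkZ k 3
    rw [z0, z1, z3]; field_simp; ring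
  · show rkZ k 1 * rkZ k 2 = 1 + rkZ k 4
    rw [z1, z2, z4]; field_simp; ring
  · show rkZ k 2 * rkZ k 3 = 1 + rkZ k 0
    rw [z2, z3, z0]; field_simp
  · show rkZ k 3 * rkZ k 4 = 1 + rkZ k 1
    rw [z3, z4, z1]; field_simp; ring
  · show rkZ k 4 * rkZ k 0 = 1 + rkZ k 2
    rw [z4, z0, z2]; field_simp

theorem rkZ_ne (j : Fin 5) : rkZ k j ≠ 0 := by
  have h : ∀ i, rkP k i ≠ 0 := fun i => (rkP_prime k i).ne_zero
  fin_cases j <;> simp [rkZ, h]

/-- product formula -/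
theorem rkZ_prod (q : Fin 5 → ℕ) :
    (∏ j, rkZ k j ^ q j) * algebraMap k[X][X] (rkK k) (rkP k 0 ^ (q 1 + q 4) * rkP k 2 ^ (q 1 + q 3))
      = algebraMap k[X][X] (rkK k) (∏ j, rkP k j ^ q j) := by
  have h0 := rkP_map_ne k 0
  have h2 := rkP_map_ne k 2
  simp only [Fin.prod_univ_five, map_mul, map_pow]
  have z0 : rkZ k 0 = algebraMap k[X][X] (rkK k) (rkP k 0) := by simp [rkZ]
  have z1 : rkZ k 1 = algebraMap k[X][X] (rkK k) (rkP k 1) /
    (algebraMap k[X][X] (rkK k) (rkP k 0) * algebraMap k[X][X] (rkK k) (rkP k 2)) := by simp [rkZ]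
  have z2 : rkZ k 2 = algebraMap k[X][X] (rkK k) (rkP k 2) := by simp [rkZ]
  have z3 : rkZ k 3 = algebraMap k[X][X] (rkK k) (rkP k 3) /
    (algebraMap k[X][X] (rkK k) (rkP k 2)) := by simp [rkZ]
  have z4 : rkZ k 4 = algebraMap k[X][X] (rkK k) (rkP k 4) /
    (algebraMap k[X][X] (rkK k) (rkP k 0)) := by simp [rkZ]
  rw [z0, z1, z2, z3, z4]
  generalize algebraMap k[X][X] (rkK k) (rkP k 0) = a at *
  generalize algebraMap k[X][X] (rkK k) (rkP k 1) = c at *
  generalize algebraMap k[X][X] (rkK k) (rkP k 2) = b at *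
  generalize algebraMap k[X][X] (rkK k) (rkP k 3) = d at *
  generalize algebraMap k[X][X] (rkK k) (rkP k 4) = e at *
  simp only [div_pow, mul_pow, pow_add]
  field_simp

theorem rk_coeff (s t i j : ℕ) (U : k[X][X]) :
    (((C X : k[X][X]) ^ s * X ^ t * U).coeff j).coeff i =
      if t ≤ j then (if s ≤ i then (U.coeff (j - t)).coeff (i - s) else 0) else 0 := by
  rw [mul_assoc, ← C_pow, coeff_C_mul, coeff_X_pow_mul' (p := U) (n := t) (d := j),
    coeff_X_pow_mul']
  split_ifs with h1 h2 <;> simp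

/-- the `g`-vector map is injective on good exponents (`n = 1`) -/
theorem rk_g_inj (q q' : Fin 5 → ℕ) (h : Good 1 q) (h' : Good 1 q')
    (h1 : (q 0 : ℤ) - q 1 - q 4 = q' 0 - q' 1 - q' 4)
    (h2 : (q 2 : ℤ) - q 1 - q 3 = q' 2 - q' 1 - q' 3) : q = q' := by
  have a0 := h 0
  have a1 := h 1
  have a2 := h 2
  have a3 := h 3
  have a4 := h 4
  have b0 := h' 0
  have b1 := h' 1
  have b2 := h' 2
  have b3 := h' 3
  have b4 := h' 4
  simp only [show (0 : Fin 5) + 1 = 1 from rfl, show (1 : Fin 5) + 1 = 2 from rfl,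
    show (2 : Fin 5) + 1 = 3 from rfl, show (3 : Fin 5) + 1 = 4 from rfl,
    show (4 : Fin 5) + 1 = 0 from rfl] at *
  have : q 0 = q' 0 ∧ q 1 = q' 1 ∧ q 2 = q' 2 ∧ q 3 = q' 3 ∧ q 4 = q' 4 := by
    generalize q 0 = x0 at *
    generalize q 1 = x1 at *
    generalize q 2 = x2 at *
    generalize q 3 = x3 at *
    generalize q 4 = x4 at *
    generalize q' 0 = y0 at *
    generalize q' 1 = y1 at *
    generalize q' 2 = y2 at *
    generalize q' 3 = y3 at *
    generalize q' 4 = y4 at *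
    omega
  funext i
  fin_cases i
  · exact this.1
  · exact this.2.1
  · exact this.2.2.1
  · exact this.2.2.2.1
  · exact this.2.2.2.2

theorem rk_ring_aux {R : Type*} [CommRing R] (a b c d e : R) (M q0 q1 q2 q3 q4 s t : ℕ)
    (hs : s + (q1 + q4) = M + q0) (ht : t + (q1 + q3) = M + q2) :
    a ^ s * b ^ t * (c ^ q1 * d ^ q3 * e ^ q4) * (a ^ (q1 + q4) * b ^ (q1 + q3)) =
      (a * b) ^ M * (a ^ q0 * c ^ q1 * b ^ q2 * d ^ q3 * e ^ q4) := by
  calc _ = a ^ (s + (q1 + q4)) * b ^ (t + (q1 + q3)) * (c ^ q1 * d ^ q3 * e ^ q4) := by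
            rw [pow_add, pow_add]; ring
    _ = _ := by rw [hs, ht, pow_add, pow_add, mul_pow]; ring

/-- the part of `Z^q` with non-zero constant term -/
noncomputable def rkU (q : Fin 5 → ℕ) : k[X][X] :=
  rkP k 1 ^ q 1 * rkP k 3 ^ q 3 * rkP k 4 ^ q 4

theorem rkU_coeff (q : Fin 5 → ℕ) : ((rkU k q).coeff 0).coeff 0 = 1 := by
  have h1 : ((rkU k q).coeff 0).coeff 0 = evalEval 0 0 (rkU k q) := by
    rw [evalEval, ← coeff_zero_eq_eval_zero, C_0, ← coeff_zero_eq_eval_zero]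
  have h2 : evalEval 0 0 (rkU k q) = (evalEvalRingHom 0 0) (rkP k 1) ^ q 1 *
      (evalEvalRingHom 0 0) (rkP k 3) ^ q 3 * (evalEvalRingHom 0 0) (rkP k 4) ^ q 4 := by
    have : evalEval 0 0 (rkU k q) = evalEvalRingHom 0 0 (rkU k q) := rfl
    rw [this, rkU]
    simp only [map_mul, map_pow]
  rw [h1, h2]
  simp [rkP]

/-- the term in the polynomial ring -/
noncomputable def rkT (M : ℕ) (q : Fin 5 → ℕ) : k[X][X] :=
  (C X) ^ (M + q 0 - q 1 - q 4) * X ^ (M + q 2 - q 1 - q 3) * rkU k q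

theorem rkT_eq (M : ℕ) (q : Fin 5 → ℕ) (hle : q 1 + q 3 + q 4 ≤ M) :
    algebraMap k[X][X] (rkK k) (rkT k M q) =
      algebraMap k[X][X] (rkK k) ((C X * X) ^ M) * ∏ j, rkZ k j ^ q j := by
  have hprod := rkZ_prod k q
  have hne : algebraMap k[X][X] (rkK k) (rkP k 0 ^ (q 1 + q 4) * rkP k 2 ^ (q 1 + q 3)) ≠ 0 := by
    rw [map_mul, map_pow, map_pow]
    exact mul_ne_zero (pow_ne_zero _ (rkP_map_ne k 0)) (pow_ne_zero _ (rkP_map_ne k 2))
  have key : rkT k M q * (rkP k 0 ^ (q 1 + q 4) * rkP k 2 ^ (q 1 + q 3)) =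
      (C X * X) ^ M * ∏ j, rkP k j ^ q j := by
    rw [Fin.prod_univ_five]
    exact rk_ring_aux (C X) X (rkP k 1) (rkP k 3) (rkP k 4) M (q 0) (q 1) (q 2) (q 3) (q 4) _ _
      (by omega) (by omega)
  apply mul_right_cancel₀ hne
  rw [mul_assoc, hprod, ← map_mul, ← map_mul, key]

/-- linear independence of cluster monomials -/
theorem rk_li1 : LinearIndependent k
    (fun q : {q : Fin 5 → ℕ // Good 1 q} => ∏ j, rkZ k j ^ q.1 j) := by
  classical
  rw [linearIndependent_iff']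
  intro S g hg
  by_contra hcon
  push Not at hcon
  obtain ⟨i0, hi0, hgi0⟩ := hcon
  -- lexicographically minimal index
  obtain ⟨q0, hq0S, hq0⟩ := Finset.exists_min_image (S.filter fun q => g q ≠ 0)
    (fun q => toLex (((q.1 2 : ℤ) - q.1 1 - q.1 3, (q.1 0 : ℤ) - q.1 1 - q.1 4) : ℤ × ℤ))
    ⟨i0, Finset.mem_filter.2 ⟨hi0, hgi0⟩⟩
  rw [Finset.mem_filter] at hq0S
  obtain ⟨M, hMle⟩ : ∃ M : ℕ, ∀ q ∈ S, q.1 1 + q.1 3 + q.1 4 ≤ M :=
    ⟨∑ q ∈ S, (q.1 1 + q.1 3 + q.1 4), fun q hq =>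
    Finset.single_le_sum (f := fun q : {q : Fin 5 → ℕ // Good 1 q} => q.1 1 + q.1 3 + q.1 4)
      (fun _ _ => Nat.zero_le _) hq⟩
  have hsum : ∑ q ∈ S, C (C (g q)) * rkT k M q.1 = 0 := by
    apply IsFractionRing.injective k[X][X] (rkK k)
    rw [map_zero, map_sum]
    have h1 : algebraMap k[X][X] (rkK k) ((C X * X) ^ M) *
        ∑ q ∈ S, g q • ∏ j, rkZ k j ^ q.1 j = 0 := by rw [hg, mul_zero]
    rw [Finset.mul_sum] at h1
    rw [← h1]
    refine Finset.sum_congr rfl fun q hq => ?_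
    rw [map_mul, rkT_eq k M q.1 (hMle q hq), Algebra.smul_def]
    have : algebraMap k (rkK k) (g q) = algebraMap k[X][X] (rkK k) (C (C (g q))) := by
      rw [IsScalarTower.algebraMap_apply k k[X][X] (rkK k)]
      rfl
    rw [this, mul_left_comm]
  -- take the coefficient at the exponent of q0
  have hc := congrArg (fun f : k[X][X] => (f.coeff (M + q0.1 2 - q0.1 1 - q0.1 3)).coeff
    (M + q0.1 0 - q0.1 1 - q0.1 4)) hsum
  simp only [finsetSum_coeff, coeff_C_mul, coeff_zero] at hc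
  rw [Finset.sum_eq_single q0] at hc
  · rw [rkT, rk_coeff, if_pos le_rfl, if_pos le_rfl, Nat.sub_self, Nat.sub_self, rkU_coeff,
      mul_one] at hc
    exact hq0S.2 hc
  · intro q hq hne
    by_cases hgq : g q = 0
    · rw [hgq, zero_mul]
    · have hmin := hq0 q (Finset.mem_filter.2 ⟨hq, hgq⟩)
      rw [Prod.Lex.toLex_le_toLex] at hmin
      have hle := hMle q hq
      have hle0 := hMle q0 hq0S.1
      rw [rkT, rk_coeff]
      have hninj : ¬ ((q.1 0 : ℤ) - q.1 1 - q.1 4 = q0.1 0 - q0.1 1 - q0.1 4 ∧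
          (q.1 2 : ℤ) - q.1 1 - q.1 3 = q0.1 2 - q0.1 1 - q0.1 3) := by
        rintro ⟨h1, h2⟩
        exact hne (Subtype.ext (rk_g_inj q.1 q0.1 q.2 q0.2 h1 h2))
      split_ifs with h1 h2
      · exfalso
        simp only at hmin
        apply hninj
        rcases hmin with h3 | ⟨h3, h4⟩ <;> omega
      · rw [mul_zero]
      · rw [mul_zero]
  · intro h
    exact absurd hq0S.1 h

end Model

end Crest.R169
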