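import Mathlib

/-!
# Row 169, part D3/K4: commutative algebra for the symmetry instance (helper239)

Going down for invariants of finite groups, contraction of "height one" primes.
"Height one" is used in the elementary form `MinNZ P`.
-/

set_option autoImplicit false

namespace Crest.Agent.R169.SymmAlg

open Ideal
open scoped Pointwise

section GoingDown

variable {A B : Type*} [CommRing A] [CommRing B] [Algebra A B]

/-- going down for invariants of a finite group -/
theorem hasGoingDown_of_isInvariant (G : Type*) [Group G] [Finite G] [MulSemiringAction G B]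
    [SMulCommClass G A B] [Algebra.IsInvariant A B G]
    (hinj : Function.Injective (algebraMap A B)) : Algebra.HasGoingDown A B where
  exists_ideal_le_liesOver_of_lt := by
    intro p hp Q hQ hlt
    have := Algebra.IsInvariant.isIntegral A B G
    obtain ⟨P0, -, hP0, hP0p⟩ := Ideal.exists_ideal_over_prime_of_isIntegral p (⊥ : Ideal B) (by
      intro x hx
      rw [Ideal.mem_comap, Ideal.mem_bot] at hx
      have : x = 0 := hinj (by rw [hx, map_zero])
      rw [this]
      exact p.zero_mem)
    obtain ⟨Q0, hle, hQ0, hQ0q⟩ := Ideal.exists_ideal_over_prime_of_isIntegral_of_isPrime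
      (Q.under A) P0 (by rw [hP0p]; exact hlt.le)
    obtain ⟨g, hg⟩ := Algebra.IsInvariant.exists_smul_of_under_eq A B G Q0 Q hQ0q
    refine ⟨g • P0, ?_, hP0.smul g, ⟨?_⟩⟩
    · rw [hg]
      exact Ideal.pointwise_smul_le_pointwise_smul_iff.mpr hle
    · rw [Ideal.under_smul]
      exact hP0p.symm

/-- `P` is a prime minimal among the nonzero primes (height one in a domain). -/
structure MinNZ {B : Type*} [CommRing B] (P : Ideal B) : Prop where
  prime : P.IsPrime
  ne_bot : P ≠ ⊥
  min : ∀ P' : Ideal B, P'.IsPrime → P' ≤ P → P' ≠ ⊥ → P' = P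

theorem MinNZ.of_height_one [IsDomain B] {P : Ideal B} [hP : P.IsPrime] (h : P.height = 1) :
    MinNZ P := by
  refine ⟨hP, Ideal.ne_bot_of_height_eq_one h, ?_⟩
  intro P' hP' hle hne
  by_contra hne2
  have hlt : P' < P := lt_of_le_of_ne hle hne2
  have hfin : P.FiniteHeight := ⟨Or.inr (by rw [h]; exact ENat.one_ne_top)⟩
  have h1 := Ideal.height_strict_mono_of_isPrime_of_isPrime hlt
  rw [h] at h1
  have h2 : P'.height = 0 := by
    exact Order.lt_one_iff.mp h1
  exact hne (Ideal.height_eq_zero_iff_eq_bot.mp h2)

/-- contraction of a height one prime contains no smaller nonzero prime -/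
theorem MinNZ.under_eq [Algebra.HasGoingDown A B] {P : Ideal B}
    (hinj : Function.Injective (algebraMap A B)) (hP : MinNZ P) {p : Ideal A} (hp : p.IsPrime)
    (hne : p ≠ ⊥) (hle : p ≤ P.under A) : p = P.under A := by
  have := hP.prime
  by_contra hne2
  have hlt : p < P.under A := lt_of_le_of_ne hle hne2
  obtain ⟨P', hP'le, hP', hlo⟩ := Algebra.HasGoingDown.exists_ideal_le_liesOver_of_lt P hlt
  have hP'ne : P' ≠ ⊥ := by
    rintro rfl
    apply hne
    rw [hlo.over]
    rw [eq_bot_iff]
    intro x hx
    rw [Ideal.under_def, Ideal.mem_comap, Ideal.mem_bot] at hx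
    exact hinj (by rw [hx, map_zero])
  have := hP.min P' hP' hP'le hP'ne
  apply hne2
  rw [hlo.over, this]

/-- in a UFD `A`, two relatively prime elements do not both lie in a height one prime of an
extension with going down -/
theorem MinNZ.not_both_mem [IsDomain A] [UniqueFactorizationMonoid A]
    [Algebra.HasGoingDown A B] {P : Ideal B}
    (hinj : Function.Injective (algebraMap A B)) (hP : MinNZ P) {a b : A} (hab : IsRelPrime a b)
    (ha : algebraMap A B a ∈ P) (hb : algebraMap A B b ∈ P) : False := by
  have := hP.prime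
  have hprime : (P.under A).IsPrime := inferInstance
  have hne : P.under A ≠ ⊥ := by
    intro h0
    have ha0 : a = 0 := by
      have : a ∈ P.under A := ha
      rwa [h0, Ideal.mem_bot] at this
    have hb0 : b = 0 := by
      have : b ∈ P.under A := hb
      rwa [h0, Ideal.mem_bot] at this
    rw [ha0, hb0] at hab
    exact not_isUnit_zero (hab (dvd_refl 0) (dvd_refl 0))
  obtain ⟨π, hπ, hprimeπ⟩ := hprime.exists_mem_prime_of_ne_bot hne
  have hspan : (Ideal.span {π}).IsPrime := (Ideal.span_singleton_prime hprimeπ.ne_zero).mpr hprimeπ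
  have heq : Ideal.span {π} = P.under A := hP.under_eq hinj hspan
    (by rw [Ne, Ideal.span_singleton_eq_bot]; exact hprimeπ.ne_zero)
    (by rw [Ideal.span_singleton_le_iff_mem]; exact hπ)
  have h1 : π ∣ a := by
    rw [← Ideal.mem_span_singleton, heq]; exact ha
  have h2 : π ∣ b := by
    rw [← Ideal.mem_span_singleton, heq]; exact hb
  exact hprimeπ.not_isUnit (hab h1 h2)

end GoingDown

end Crest.Agent.R169.SymmAlg
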