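import Crest.Agent.R169.PlaceBasic
import Crest.Agent.R169.SymmAlg

/-!
# Row 169, field `gcd` of `Symm` (helper239), abstract part

* `gcd_abs` : norms from `O` to a UFD `A` have gcd's at all places centred at height one primes.
* `affine_prime` : a homogeneous height one prime of `T` not containing `X` gives a height one
  prime of `O = ⋃ F m`.
-/

set_option autoImplicit false

namespace Crest.Agent.R169.SymGcd

open Crest.Agent.R169.SymmAlg

section Abs

variable {A O Q : Type} [CommRing A] [IsDomain A] [UniqueFactorizationMonoid A] [CommRing O]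
  [IsDomain O] [Field Q] [Algebra A O] [Algebra O Q] [Algebra A Q] [IsScalarTower A O Q]
  [IsFractionRing O Q] [Algebra.HasGoingDown A O]

/-- `P` is centred at a height one prime of `O`. -/
def Centred (P : Place Q) (O : Type) [CommRing O] [Algebra O Q] : Prop :=
  ∃ 𝔭 : Ideal O, MinNZ 𝔭 ∧ ∀ a : O, a ≠ 0 →
    0 ≤ P.ord (algebraMap O Q a) ∧ (a ∈ 𝔭 ↔ 0 < P.ord (algebraMap O Q a))

theorem gcd_abs (hinj : Function.Injective (algebraMap A O)) (N : Q →* Q)
    (hN0 : ∀ x : Q, x ≠ 0 → N x ≠ 0)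
    (hN : ∀ a : O, a ≠ 0 → ∃ α : A, algebraMap A Q α = N (algebraMap O Q a))
    (x y : Q) (hx : x ≠ 0) (hy : y ≠ 0) :
    ∃ g : Q, g ≠ 0 ∧ ∀ P : Place Q, Centred P O →
      P.ord g = min (P.ord (N x)) (P.ord (N y)) := by
  obtain ⟨a, c, hc, hxa⟩ := IsFractionRing.div_surjective (A := O) x
  obtain ⟨b, d, hd, hyb⟩ := IsFractionRing.div_surjective (A := O) y
  have hc0 : c ≠ 0 := nonZeroDivisors.ne_zero hc
  have hd0 : d ≠ 0 := nonZeroDivisors.ne_zero hd
  have hinjO : Function.Injective (algebraMap O Q) := IsFractionRing.injective O Q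
  have hcQ : algebraMap O Q c ≠ 0 := by rwa [Ne, map_eq_zero_iff _ hinjO]
  have hdQ : algebraMap O Q d ≠ 0 := by rwa [Ne, map_eq_zero_iff _ hinjO]
  have haQ : algebraMap O Q a ≠ 0 := by
    intro h; rw [h, zero_div] at hxa; exact hx hxa.symm
  have hbQ : algebraMap O Q b ≠ 0 := by
    intro h; rw [h, zero_div] at hyb; exact hy hyb.symm
  have ha0 : a ≠ 0 := by rintro rfl; exact haQ (map_zero _)
  have hb0 : b ≠ 0 := by rintro rfl; exact hbQ (map_zero _)
  obtain ⟨α, hα⟩ := hN (a * d) (mul_ne_zero ha0 hd0)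
  obtain ⟨β, hβ⟩ := hN (b * c) (mul_ne_zero hb0 hc0)
  obtain ⟨γ, hγ⟩ := hN (c * d) (mul_ne_zero hc0 hd0)
  have hinjA : Function.Injective (algebraMap A Q) := by
    rw [IsScalarTower.algebraMap_eq A O Q]
    exact hinjO.comp hinj
  have hαQ : algebraMap A Q α ≠ 0 := by
    rw [hα, map_mul]; exact hN0 _ (mul_ne_zero haQ hdQ)
  have hβQ : algebraMap A Q β ≠ 0 := by
    rw [hβ, map_mul]; exact hN0 _ (mul_ne_zero hbQ hcQ)
  have hγQ : algebraMap A Q γ ≠ 0 := by
    rw [hγ, map_mul]; exact hN0 _ (mul_ne_zero hcQ hdQ)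
  have hα0 : α ≠ 0 := by rintro rfl; exact hαQ (map_zero _)
  have hβ0 : β ≠ 0 := by rintro rfl; exact hβQ (map_zero _)
  have hNx : N x * algebraMap A Q γ = algebraMap A Q α := by
    rw [hα, hγ, ← map_mul]
    congr 1
    rw [← hxa, map_mul, map_mul]
    field_simp
  have hNy : N y * algebraMap A Q γ = algebraMap A Q β := by
    rw [hβ, hγ, ← map_mul]
    congr 1
    rw [← hyb, map_mul, map_mul]
    field_simp
  obtain ⟨α', β', δ, hrel, h1, h2⟩ := UniqueFactorizationMonoid.exists_reduced_factors α hα0 β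
  have hδ0 : δ ≠ 0 := by rintro rfl; rw [zero_mul] at h1; exact hα0 h1.symm
  have hα'0 : α' ≠ 0 := by rintro rfl; rw [mul_zero] at h1; exact hα0 h1.symm
  have hβ'0 : β' ≠ 0 := by rintro rfl; rw [mul_zero] at h2; exact hβ0 h2.symm
  have hδQ : algebraMap A Q δ ≠ 0 := by rwa [Ne, map_eq_zero_iff _ hinjA]
  have hα'Q : algebraMap A Q α' ≠ 0 := by rwa [Ne, map_eq_zero_iff _ hinjA]
  have hβ'Q : algebraMap A Q β' ≠ 0 := by rwa [Ne, map_eq_zero_iff _ hinjA]
  refine ⟨algebraMap A Q δ / algebraMap A Q γ, div_ne_zero hδQ hγQ, ?_⟩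
  intro P hP
  obtain ⟨𝔭, h𝔭, hord⟩ := hP
  have e1 : P.ord (N x) + P.ord (algebraMap A Q γ)
      = P.ord (algebraMap A Q δ) + P.ord (algebraMap A Q α') := by
    rw [← P.ord_mul _ _ (hN0 x hx) hγQ, hNx, ← P.ord_mul _ _ hδQ hα'Q, ← map_mul, h1]
  have e2 : P.ord (N y) + P.ord (algebraMap A Q γ)
      = P.ord (algebraMap A Q δ) + P.ord (algebraMap A Q β') := by
    rw [← P.ord_mul _ _ (hN0 y hy) hγQ, hNy, ← P.ord_mul _ _ hδQ hβ'Q, ← map_mul, h2]
  have e3 : P.ord (algebraMap A Q δ / algebraMap A Q γ) + P.ord (algebraMap A Q γ)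
      = P.ord (algebraMap A Q δ) := by
    rw [← P.ord_mul _ _ (div_ne_zero hδQ hγQ) hγQ, div_mul_cancel₀ _ hγQ]
  have hinjAO : ∀ t : A, t ≠ 0 → algebraMap A O t ≠ 0 := by
    intro t ht; rwa [Ne, map_eq_zero_iff _ hinj]
  have p1 := hord (algebraMap A O α') (hinjAO _ hα'0)
  have p2 := hord (algebraMap A O β') (hinjAO _ hβ'0)
  rw [← IsScalarTower.algebraMap_apply A O Q] at p1 p2
  have hnot : ¬ (0 < P.ord (algebraMap A Q α') ∧ 0 < P.ord (algebraMap A Q β')) := by
    rintro ⟨q1, q2⟩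
    exact h𝔭.not_both_mem hinj hrel (p1.2.mpr q1) (p2.2.mpr q2)
  have n1 := p1.1
  have n2 := p2.1
  by_cases hc1 : 0 < P.ord (algebraMap A Q α')
  · have : P.ord (algebraMap A Q β') = 0 := by
      by_contra hne
      exact hnot ⟨hc1, by omega⟩
    rw [min_eq_right (by omega)]
    omega
  · have : P.ord (algebraMap A Q α') = 0 := by omega
    rw [min_eq_left (by omega)]
    omega

end Abs

section Affine

open Polynomial

variable {k Q O : Type} [Field k] [Field Q] [Algebra k Q] (D : TData k Q) [CommRing O]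
  [Algebra O Q]

theorem exists_lift (hO : ∀ (m : ℕ), ∀ f ∈ D.F m, ∃ a : O, algebraMap O Q a = f) (t : D.Ttot) :
    ∃ p : O[X], p.map (algebraMap O Q) = (t : Q[X]) := by
  have h : (t : Q[X]) ∈ (Polynomial.mapRingHom (algebraMap O Q)).range := by
    rw [Polynomial.mem_map_range]
    intro n
    obtain ⟨a, ha⟩ := hO n _ (t.2 n)
    exact ⟨a, ha⟩
  obtain ⟨p, hp⟩ := h
  exact ⟨p, hp⟩

/-- `T → O[X]` -/
noncomputable def toPoly (hinj : Function.Injective (algebraMap O Q))
    (hO : ∀ (m : ℕ), ∀ f ∈ D.F m, ∃ a : O, algebraMap O Q a = f) : D.Ttot →+* O[X] where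
  toFun t := Classical.choose (exists_lift D hO t)
  map_one' := by
    apply Polynomial.map_injective _ hinj
    rw [Classical.choose_spec (exists_lift D hO 1), Polynomial.map_one]
    rfl
  map_mul' a b := by
    apply Polynomial.map_injective _ hinj
    rw [Classical.choose_spec (exists_lift D hO (a * b)), Polynomial.map_mul,
      Classical.choose_spec (exists_lift D hO a), Classical.choose_spec (exists_lift D hO b)]
    rfl
  map_zero' := by
    apply Polynomial.map_injective _ hinj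
    rw [Classical.choose_spec (exists_lift D hO 0), Polynomial.map_zero]
    rfl
  map_add' a b := by
    apply Polynomial.map_injective _ hinj
    rw [Classical.choose_spec (exists_lift D hO (a + b)), Polynomial.map_add,
      Classical.choose_spec (exists_lift D hO a), Classical.choose_spec (exists_lift D hO b)]
    rfl

theorem coeff_toPoly (hinj : Function.Injective (algebraMap O Q))
    (hO : ∀ (m : ℕ), ∀ f ∈ D.F m, ∃ a : O, algebraMap O Q a = f) (t : D.Ttot) (n : ℕ) :
    algebraMap O Q ((toPoly D hinj hO t).coeff n) = (t : Q[X]).coeff n := by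
  rw [← Polynomial.coeff_map]
  congr 1
  exact Classical.choose_spec (exists_lift D hO t)

theorem coe_mono (m : ℕ) (f : Q) (hf : f ∈ D.F m) :
    ((D.mono m f hf : D.Ttot) : Q[X]) = Polynomial.monomial m f := rfl

theorem sum_mono (t : D.Ttot) :
    t = ∑ m ∈ (t : Q[X]).support, D.mono m ((t : Q[X]).coeff m) (t.2 m) := by
  apply Subtype.ext
  rw [AddSubmonoidClass.coe_finsetSum]
  simp only [coe_mono]
  exact Polynomial.as_sum_support (t : Q[X])

/-- a homogeneous height one prime of `T` gives a height one prime of `O`, provided that the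
valuation is `≥ 0` on `O`. -/
theorem affine_prime (hinj : Function.Injective (algebraMap O Q))
    (hO1 : ∀ a : O, ∃ m : ℕ, algebraMap O Q a ∈ D.F m)
    (hO2 : ∀ (m : ℕ), ∀ f ∈ D.F m, ∃ a : O, algebraMap O Q a = f)
    (P : Place Q) (hpos : ∀ (m : ℕ), ∀ f ∈ D.F m, f ≠ 0 → 0 ≤ P.ord f)
    (𝔓 : Ideal D.Ttot) (h𝔓 : MinNZ 𝔓)
    (hhom : ∀ t ∈ 𝔓, ∀ m : ℕ, D.mono m ((t : Q[X]).coeff m) (t.2 m) ∈ 𝔓)
    (hP : ∀ (m : ℕ) (f : Q) (hf : f ∈ D.F m), f ≠ 0 → (D.mono m f hf ∈ 𝔓 ↔ 0 < P.ord f)) :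
    Centred P O := by
  have hne : ∀ a : O, a ≠ 0 → algebraMap O Q a ≠ 0 := fun a ha => by
    rwa [Ne, map_eq_zero_iff _ hinj]
  have hposO : ∀ a : O, a ≠ 0 → 0 ≤ P.ord (algebraMap O Q a) := by
    intro a ha
    obtain ⟨m, hm⟩ := hO1 a
    exact hpos m _ hm (hne a ha)
  have hge0 : ∀ a : O, P.ge 0 (algebraMap O Q a) := by
    intro a
    by_cases ha : a = 0
    · rw [ha, map_zero]; exact P.ge_zero _
    · exact Or.inr (hposO a ha)
  let 𝔭 : Ideal O :=
    { carrier := {a | P.ge 1 (algebraMap O Q a)}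
      add_mem' := by
        intro a b ha hb
        simp only [Set.mem_ofPred_eq, map_add] at *
        exact ha.add hb
      zero_mem' := by
        simp only [Set.mem_ofPred_eq, map_zero]
        exact P.ge_zero _
      smul_mem' := by
        intro c a ha
        simp only [Set.mem_ofPred_eq, smul_eq_mul, map_mul] at *
        have := (hge0 c).mul ha
        rwa [zero_add] at this }
  have hmem : ∀ a : O, a ∈ 𝔭 ↔ P.ge 1 (algebraMap O Q a) := fun a => Iff.rfl
  have hmem2 : ∀ a : O, a ≠ 0 → (a ∈ 𝔭 ↔ 0 < P.ord (algebraMap O Q a)) := by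
    intro a ha
    rw [hmem, Place.ge_iff (hne a ha)]
    omega
  have hmono : ∀ (m : ℕ) (a : O) (hf : algebraMap O Q a ∈ D.F m),
      a ∈ 𝔭 ↔ D.mono m _ hf ∈ 𝔓 := by
    intro m a hf
    by_cases ha : a = 0
    · subst ha
      refine iff_of_true 𝔭.zero_mem ?_
      have : D.mono m _ hf = 0 := by
        apply Subtype.ext
        rw [coe_mono, map_zero, map_zero]
        rfl
      rw [this]; exact 𝔓.zero_mem
    · rw [hmem2 a ha, hP m _ hf (hne a ha)]
  refine ⟨𝔭, ⟨⟨?_, ?_⟩, ?_, ?_⟩, fun a ha => ⟨hposO a ha, hmem2 a ha⟩⟩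
  · rw [Ideal.ne_top_iff_one, hmem, map_one]
    rintro (h | h)
    · exact one_ne_zero h
    · rw [P.ord_one] at h; omega
  · intro a b hab
    by_cases ha : a = 0
    · left; rw [ha]; exact 𝔭.zero_mem
    by_cases hb : b = 0
    · right; rw [hb]; exact 𝔭.zero_mem
    rw [hmem2 a ha, hmem2 b hb]
    rw [hmem, map_mul] at hab
    rcases hab with h | h
    · exact absurd h (mul_ne_zero (hne a ha) (hne b hb))
    · rw [P.ord_mul _ _ (hne a ha) (hne b hb)] at h
      have h1 := hposO a ha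
      have h2 := hposO b hb
      omega
  · intro hbot
    apply h𝔓.ne_bot
    rw [eq_bot_iff]
    intro t ht
    rw [Ideal.mem_bot]
    apply Subtype.ext
    ext m
    obtain ⟨a, ha⟩ := hO2 m _ (t.2 m)
    have h1 := hhom t ht m
    have h2 : a ∈ 𝔭 := by
      rw [hmono m a (by rw [ha]; exact t.2 m)]
      convert h1 using 2
    rw [hbot, Ideal.mem_bot] at h2
    rw [← ha, h2, map_zero]
    simp
  · intro 𝔭' h𝔭' hle hne'
    let φ := toPoly D hinj hO2
    have hφ : ∀ (t : D.Ttot) n, algebraMap O Q ((φ t).coeff n) = (t : Q[X]).coeff n :=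
      coeff_toPoly D hinj hO2
    have hpc : (𝔭'.map (C : O →+* O[X])).IsPrime := Ideal.isPrime_map_C_of_isPrime
    let 𝔓' : Ideal D.Ttot := (𝔭'.map (C : O →+* O[X])).comap φ
    have hprime : 𝔓'.IsPrime := Ideal.comap_isPrime φ _
    have hm' : ∀ t : D.Ttot, t ∈ 𝔓' ↔ ∀ n, (φ t).coeff n ∈ 𝔭' := by
      intro t
      rw [Ideal.mem_comap, Ideal.mem_map_C_iff]
    have hmm : ∀ (m : ℕ) (a : O) (hf : algebraMap O Q a ∈ D.F m),
        D.mono m _ hf ∈ 𝔓' ↔ a ∈ 𝔭' := by
      intro m a hf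
      rw [hm']
      have hco : ∀ n, (φ (D.mono m _ hf)).coeff n = if m = n then a else 0 := by
        intro n
        apply hinj
        rw [hφ, coe_mono, Polynomial.coeff_monomial]
        split_ifs <;> simp
      constructor
      · intro h
        have := h m
        rwa [hco, if_pos rfl] at this
      · intro h n
        rw [hco]
        split_ifs
        · exact h
        · exact 𝔭'.zero_mem
    have hle' : 𝔓' ≤ 𝔓 := by
      intro t ht
      rw [hm'] at ht
      rw [sum_mono D t]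
      refine Ideal.sum_mem _ fun m _ => ?_
      have h1 := hle (ht m)
      rw [hmono m _ (by rw [hφ]; exact t.2 m)] at h1
      convert h1 using 2
      exact (hφ t m).symm
    have hne2 : 𝔓' ≠ ⊥ := by
      intro hbot
      apply hne'
      rw [eq_bot_iff]
      intro a ha
      obtain ⟨m, hm⟩ := hO1 a
      have h1 := (hmm m a hm).mpr ha
      rw [hbot, Ideal.mem_bot] at h1
      have h2 := congrArg (fun t : D.Ttot => (t : Q[X]).coeff m) h1
      simp only [coe_mono, Polynomial.coeff_monomial, if_pos] at h2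
      rw [Ideal.mem_bot]
      apply hinj
      rw [h2, map_zero]
      simp
    have heq := h𝔓.min 𝔓' hprime hle' hne2
    refine le_antisymm hle ?_
    intro a ha
    obtain ⟨m, hm⟩ := hO1 a
    rw [hmono m a hm, ← heq, hmm] at ha
    exact ha

end Affine

end Crest.Agent.R169.SymGcd
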