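import Crest.Agent.R169.Defs
import Crest.Agent.R169.KStar

/-!
# Row 169, Part E2: ultralimits of vectors and subspaces
-/

set_option autoImplicit false

namespace Crest.Agent.R169

open Filter

/-! ### Ultraproduct of a family of fields -/

section UProd

variable (Q : PP → Type) [∀ p, Field (Q p)]

/-- sequences vanishing almost everywhere -/
def nullQ : Ideal (∀ p : PP, Q p) where
  carrier := {f | AE (fun p => f p = 0)}
  add_mem' := by
    intro a b ha hb
    exact (AE.and ha hb).mono (by rintro p ⟨h1, h2⟩; simp [h1, h2])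
  zero_mem' := AE.of_forall (fun p => rfl)
  smul_mem' := by
    intro c x hx
    exact AE.mono hx (by intro p h; simp [h])

instance nullQ_isMaximal : (nullQ Q).IsMaximal := by
  rw [Ideal.isMaximal_iff]
  constructor
  · intro h
    have h1 : AE (fun p => (1 : ∀ p : PP, Q p) p = 0) := h
    obtain ⟨p, hp⟩ := h1.exists
    exact one_ne_zero hp
  · intro J x hJ hx hxJ
    have h1 : AE (fun p => x p ≠ 0) := AE.not_iff.2 hx
    have h2 : x * (fun p => (x p)⁻¹) - 1 ∈ nullQ Q := by
      change AE (fun p => (x * (fun p => (x p)⁻¹) - 1) p = 0)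
      refine h1.mono ?_
      intro p hp
      simp [hp]
    have h3 : x * (fun p => (x p)⁻¹) ∈ J := Ideal.mul_mem_right _ _ hxJ
    have h4 := J.sub_mem h3 (hJ h2)
    simpa using h4

/-- the ultraproduct field of the family -/
def UProd : Type := (∀ p : PP, Q p) ⧸ nullQ Q

noncomputable instance : Field (UProd Q) := Ideal.Quotient.field (nullQ Q)

variable {Q}

/-- the class of a sequence -/
noncomputable def ucls : (∀ p : PP, Q p) →+* UProd Q := Ideal.Quotient.mk (nullQ Q)

theorem ucls_surjective : Function.Surjective (ucls (Q := Q)) := Ideal.Quotient.mk_surjective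

theorem ucls_eq_zero {f : ∀ p : PP, Q p} : ucls f = 0 ↔ AE (fun p => f p = 0) :=
  Ideal.Quotient.eq_zero_iff_mem

theorem ucls_eq_iff {f g : ∀ p : PP, Q p} : ucls f = ucls g ↔ AE (fun p => f p = g p) := by
  rw [← sub_eq_zero, ← map_sub, ucls_eq_zero]
  constructor
  · intro h; exact h.mono (fun p hp => by simpa [sub_eq_zero] using hp)
  · intro h; exact h.mono (fun p hp => by simpa [sub_eq_zero] using hp)

end UProd

/-! ### Choosing almost everywhere -/

/-- if almost every `p` admits a witness, choose a global witness -/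
theorem AE.choose {α : PP → Type} [∀ p, Nonempty (α p)] {P : ∀ p, α p → Prop}
    (h : AE (fun p => ∃ x, P p x)) : ∃ x : ∀ p, α p, AE (fun p => P p (x p)) := by
  classical
  refine ⟨fun p => if hp : ∃ x, P p x then hp.choose else Classical.arbitrary _, h.mono ?_⟩
  intro p hp
  simp only [hp, dif_pos]
  exact hp.choose_spec

/-- a function into a finite type is constant almost everywhere -/
theorem AE.exists_const {ι : Type} [Finite ι] (f : PP → ι) : ∃ i, AE (fun p => f p = i) := by
  by_contra h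
  push Not at h
  have h1 : AE (fun p => ∀ i, ¬ f p = i) := AE.all_finite (fun i => AE.not_iff.2 (h i))
  obtain ⟨p, hp⟩ := h1.exists
  exact hp (f p) rfl

theorem AE.exists_finite {ι : Type} [Finite ι] {P : ι → PP → Prop}
    (h : AE (fun p => ∃ i, P i p)) : ∃ i, AE (P i) := by
  by_contra hc
  push Not at hc
  have h1 : AE (fun p => ∀ i, ¬ P i p) := AE.all_finite (fun i => AE.not_iff.2 (hc i))
  obtain ⟨p, hp1, hp2⟩ := (h.and h1).exists
  obtain ⟨i, hi⟩ := hp1
  exact hp2 i hi

/-- a bounded `ℤ`-valued function is constant almost everywhere -/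
theorem AE.exists_const_int (f : PP → ℤ) (a b : ℤ) (h : AE (fun p => a ≤ f p ∧ f p ≤ b)) :
    ∃ i, AE (fun p => f p = i) := by
  have h1 : AE (fun p => ∃ i : Set.Icc a b, f p = i) :=
    h.mono (fun p hp => ⟨⟨f p, hp⟩, rfl⟩)
  obtain ⟨i, hi⟩ := AE.exists_finite h1
  exact ⟨i, hi⟩

theorem AE.exists_const_nat (f : PP → ℕ) (b : ℕ) (h : AE (fun p => f p ≤ b)) :
    ∃ i, AE (fun p => f p = i) := by
  have h1 : AE (fun p => ∃ i : Set.Icc 0 b, f p = i) :=
    h.mono (fun p hp => ⟨⟨f p, ⟨Nat.zero_le _, hp⟩⟩, rfl⟩)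
  obtain ⟨i, hi⟩ := AE.exists_finite h1
  exact ⟨i, hi⟩

/-! ### Uniform families of `T`-data -/

variable {Q : PP → Type} [∀ p, Field (Q p)] [∀ p, Algebra (Kp p) (Q p)]
  {Qs : Type} [Field Qs] [Algebra KStar Qs]

/-- `Ds` is the ultralimit of the `T`-data `D p`. -/
structure UFam (D : ∀ p, TData (Kp p) (Q p)) (Ds : TData KStar Qs) where
  ι : Qs →+* UProd Q
  ι_alg : ∀ c : ∀ p, Kp p,
    ι (algebraMap KStar Qs (cls c)) = ucls (fun p => algebraMap (Kp p) (Q p) (c p))
  ι_u : ι Ds.u = ucls (fun p => (D p).u)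
  ι_v : ι Ds.v = ucls (fun p => (D p).v)
  lim_ex : ∀ (m : ℤ) (x : ∀ p, Q p), AE (fun p => x p ∈ (D p).F m) →
    ∃ y ∈ Ds.F m, ι y = ucls x
  rep_ex : ∀ (m : ℤ), ∀ y ∈ Ds.F m, ∃ x : ∀ p, Q p, (∀ p, x p ∈ (D p).F m) ∧ ι y = ucls x

variable {D : ∀ p, TData (Kp p) (Q p)} {Ds : TData KStar Qs}

namespace UFam

variable (X : UFam D Ds) {R : ℕ}

include X in
theorem ι_injective : Function.Injective X.ι := X.ι.injective

/-- the vector `y` is the ultralimit of the vectors `x p` -/
def Lim (x : ∀ p, Fin R → Q p) (y : Fin R → Qs) : Prop :=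
  ∀ i, X.ι (y i) = ucls (fun p => x p i)

variable {X}

theorem Lim.add {x x' : ∀ p, Fin R → Q p} {y y' : Fin R → Qs} (h : X.Lim x y)
    (h' : X.Lim x' y') : X.Lim (fun p => x p + x' p) (y + y') := by
  intro i
  have : (fun p => (x p + x' p) i) = (fun p => x p i) + (fun p => x' p i) := rfl
  rw [this, map_add, ← h i, ← h' i, Pi.add_apply, map_add]

theorem Lim.neg {x : ∀ p, Fin R → Q p} {y : Fin R → Qs} (h : X.Lim x y) :
    X.Lim (fun p => - x p) (-y) := by
  intro i
  have : (fun p => (- x p) i) = - (fun p => x p i) := rfl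
  rw [this, map_neg, ← h i, Pi.neg_apply, map_neg]

theorem Lim.zero : X.Lim (fun p => (0 : Fin R → Q p)) 0 := by
  intro i
  have : (fun p => (0 : Fin R → Q p) i) = 0 := rfl
  rw [this, map_zero, Pi.zero_apply, map_zero]

theorem Lim.qsmul {x : ∀ p, Fin R → Q p} {y : Fin R → Qs} (h : X.Lim x y)
    {f : ∀ p, Q p} {g : Qs} (hg : X.ι g = ucls f) : X.Lim (fun p => f p • x p) (g • y) := by
  intro i
  have : (fun p => (f p • x p) i) = f * (fun p => x p i) := rfl
  rw [this, map_mul, ← h i, ← hg, Pi.smul_apply, smul_eq_mul, map_mul]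

theorem Lim.smul {x : ∀ p, Fin R → Q p} {y : Fin R → Qs} (h : X.Lim x y)
    (c : ∀ p, Kp p) : X.Lim (fun p => c p • x p) (cls c • y) := by
  have := h.qsmul (X.ι_alg c)
  intro i
  have h1 := this i
  simp only [Pi.smul_apply, smul_eq_mul] at h1 ⊢
  rw [Algebra.smul_def, h1]
  congr 1
  funext p
  rw [Algebra.smul_def]

theorem Lim.congr {x x' : ∀ p, Fin R → Q p} {y : Fin R → Qs} (h : X.Lim x y)
    (h' : AE (fun p => x p = x' p)) : X.Lim x' y := by
  intro i
  rw [h i, ucls_eq_iff]
  exact h'.mono (fun p hp => by rw [hp])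

theorem Lim.unique {x : ∀ p, Fin R → Q p} {y y' : Fin R → Qs} (h : X.Lim x y)
    (h' : X.Lim x y') : y = y' := by
  funext i
  apply X.ι.injective
  rw [h i, h' i]

theorem Lim.unique_left {x x' : ∀ p, Fin R → Q p} {y : Fin R → Qs} (h : X.Lim x y)
    (h' : X.Lim x' y) : AE (fun p => x p = x' p) := by
  have h1 : ∀ i, AE (fun p => x p i = x' p i) := by
    intro i
    rw [← ucls_eq_iff, ← h i, ← h' i]
  exact (AE.all_finite h1).mono (fun p hp => funext hp)

theorem Lim.sum {d : ℕ} {x : Fin d → ∀ p, Fin R → Q p} {y : Fin d → Fin R → Qs}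
    (h : ∀ j, X.Lim (x j) (y j)) : X.Lim (fun p => ∑ j, x j p) (∑ j, y j) := by
  intro i
  have e : (fun p => (∑ j, x j p) i) = ∑ j, (fun p => x j p i) := by
    funext p
    simp [Finset.sum_apply]
  rw [e, map_sum, Finset.sum_apply, map_sum]
  exact Finset.sum_congr rfl (fun j _ => h j i)

/-- linear independence over the constants transfers -/
theorem Lim.linInd_iff {d : ℕ} {x : Fin d → ∀ p, Fin R → Q p} {y : Fin d → Fin R → Qs}
    (h : ∀ j, X.Lim (x j) (y j)) :
    LinearIndependent KStar y ↔ AE (fun p => LinearIndependent (Kp p) (fun j => x j p)) := by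
  constructor
  · intro hy
    by_contra hc
    rw [← AE.not_iff] at hc
    -- choose a relation with a coefficient equal to one
    have h1 : AE (fun p => ∃ i : Fin d, ∃ c : Fin d → Kp p,
        c i = 1 ∧ ∑ j, c j • x j p = 0) := by
      refine hc.mono ?_
      intro p hp
      rw [Fintype.not_linearIndependent_iff] at hp
      obtain ⟨g, hg, i, hi⟩ := hp
      refine ⟨i, fun j => (g i)⁻¹ * g j, inv_mul_cancel₀ hi, ?_⟩
      have : ∑ j, ((g i)⁻¹ * g j) • x j p = (g i)⁻¹ • ∑ j, g j • x j p := by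
        rw [Finset.smul_sum]
        exact Finset.sum_congr rfl (fun j _ => by rw [mul_smul])
      rw [this, hg, smul_zero]
    obtain ⟨i, hi⟩ := AE.exists_finite h1
    obtain ⟨c, hc⟩ := AE.choose (α := fun p => Fin d → Kp p) hi
    have h2 : ∀ j, X.Lim (fun p => c p j • x j p) (cls (fun p => c p j) • y j) :=
      fun j => (h j).smul (fun p => c p j)
    have h3 := Lim.sum h2
    have h4 : ∑ j, cls (fun p => c p j) • y j = 0 := by
      refine h3.unique (Lim.congr Lim.zero ?_)
      exact hc.mono (fun p hp => hp.2.symm)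
    rw [Fintype.linearIndependent_iff] at hy
    have h5 := hy _ h4 i
    rw [cls_eq_zero] at h5
    obtain ⟨p, hp1, hp2⟩ := (hc.and h5).exists
    rw [hp1.1] at hp2
    exact one_ne_zero hp2
  · intro hx
    rw [Fintype.linearIndependent_iff]
    intro g hg i
    have h2 : ∀ j, X.Lim (fun p => rep (g j) p • x j p) (cls (rep (g j)) • y j) :=
      fun j => (h j).smul (rep (g j))
    have h3 := Lim.sum h2
    simp only [cls_rep, hg] at h3
    have h4 := h3.unique_left Lim.zero
    rw [← cls_rep (g i), cls_eq_zero]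
    refine (hx.and h4).mono ?_
    rintro p ⟨hp1, hp2⟩
    rw [Fintype.linearIndependent_iff] at hp1
    exact hp1 (fun j => rep (g j) p) hp2 i

/-- linear independence over the function field transfers (one direction) -/
theorem Lim.linInd_Q {d : ℕ} {x : Fin d → ∀ p, Fin R → Q p} {y : Fin d → Fin R → Qs}
    (h : ∀ j, X.Lim (x j) (y j)) (hy : LinearIndependent Qs y) :
    AE (fun p => LinearIndependent (Q p) (fun j => x j p)) := by
  classical
  -- a left inverse
  have hinj : LinearMap.ker (Fintype.linearCombination Qs y) = ⊥ := by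
    rw [LinearMap.ker_eq_bot']
    intro c hc
    rw [Fintype.linearCombination_apply] at hc
    funext j
    exact Fintype.linearIndependent_iff.1 hy c hc j
  obtain ⟨g, hg⟩ := LinearMap.exists_leftInverse_of_injective _ hinj
  -- its matrix
  let Z : Fin d → Fin R → Qs := fun l i => g (Pi.single i 1) l
  have hZ : ∀ l j, ∑ i, Z l i * y j i = if l = j then 1 else 0 := by
    intro l j
    have h1 := congrArg (fun f => f (Pi.single j 1)) hg
    simp only [LinearMap.comp_apply, LinearMap.id_apply] at h1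
    rw [Fintype.linearCombination_apply_single, one_smul] at h1
    have h2 : y j = ∑ i, (y j i) • (Pi.single i (1 : Qs) : Fin R → Qs) := by
      funext i
      simp [Finset.sum_apply, Pi.single_apply]
    rw [h2, map_sum] at h1
    simp only [map_smul] at h1
    have h3 := congrFun h1 l
    simp only [Finset.sum_apply, Pi.smul_apply, smul_eq_mul] at h3
    rw [Pi.single_apply] at h3
    rw [← h3]
    exact Finset.sum_congr rfl (fun i _ => by simp only [Z]; ring)
  -- representatives
  choose z hz using fun (l : Fin d) (i : Fin R) => ucls_surjective (Q := Q) (X.ι (Z l i))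
  have key : ∀ l j, AE (fun p => ∑ i, z l i p * x j p i = if l = j then 1 else 0) := by
    intro l j
    have h1 : ucls (fun p => ∑ i, z l i p * x j p i) = ucls (fun p => if l = j then 1 else 0) := by
      have e1 : (fun p => ∑ i, z l i p * x j p i) = ∑ i, (z l i) * (fun p => x j p i) := by
        funext p
        simp [Finset.sum_apply]
      rw [e1, map_sum]
      have e2 : ∀ i, ucls (z l i * fun p => x j p i) = X.ι (Z l i * y j i) := by
        intro i
        rw [map_mul, map_mul, hz, h j i]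
      simp only [e2]
      rw [← map_sum, hZ]
      split_ifs
      · rw [map_one]
        exact (map_one ucls).symm
      · rw [map_zero]
        exact (map_zero ucls).symm
    exact ucls_eq_iff.1 h1
  refine (AE.all_finite (fun l => AE.all_finite (key l))).mono ?_
  intro p hp
  rw [Fintype.linearIndependent_iff]
  intro c hc l
  have h1 : ∑ i, z l i p * (∑ j, c j • x j p) i = c l := by
    simp only [Finset.sum_apply, Pi.smul_apply, smul_eq_mul, Finset.mul_sum]
    rw [Finset.sum_comm]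
    have : ∀ j, ∑ i, z l i p * (c j * x j p i) = c j * (if l = j then 1 else 0) := by
      intro j
      rw [← hp l j, Finset.mul_sum]
      exact Finset.sum_congr rfl (fun i _ => by ring)
    simp only [this]
    simp
  rw [hc] at h1
  simpa using h1.symm

end UFam

/-! ### Boxes -/

/-- vectors with all coordinates in `F m` -/
def TData.box {k Q : Type} [Field k] [Field Q] [Algebra k Q] (D : TData k Q) (R : ℕ) (m : ℤ) :
    Submodule k (Fin R → Q) := Submodule.pi Set.univ (fun _ => D.F m)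

theorem TData.mem_box {k Q : Type} [Field k] [Field Q] [Algebra k Q] {D : TData k Q} {R : ℕ}
    {m : ℤ} {x : Fin R → Q} : x ∈ D.box R m ↔ ∀ i, x i ∈ D.F m := by
  simp [TData.box, Submodule.mem_pi]

theorem TData.box_finite {k Q : Type} [Field k] [Field Q] [Algebra k Q] (D : TData k Q) (R : ℕ)
    (m : ℤ) : Module.Finite k (D.box R m) := by
  have := D.lat.fin m
  let f : D.box R m →ₗ[k] (Fin R → D.F m) :=
    { toFun := fun x i => ⟨x.1 i, TData.mem_box.1 x.2 i⟩
      map_add' := fun x y => rfl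
      map_smul' := fun c x => rfl }
  have hf : Function.Injective f := by
    intro x y hxy
    apply Subtype.ext
    funext i
    exact congrArg Subtype.val (congrFun hxy i)
  exact Module.Finite.of_injective f hf

theorem TData.finite_of_le_box {k Q : Type} [Field k] [Field Q] [Algebra k Q] (D : TData k Q)
    {R : ℕ} {m : ℤ} {E : Submodule k (Fin R → Q)} (h : E ≤ D.box R m) : Module.Finite k E := by
  have := D.box_finite R m
  exact Submodule.finiteDimensional_of_le h

namespace UFam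

variable (X : UFam D Ds) {R : ℕ}

theorem exists_lim {m : ℤ} {x : ∀ p, Fin R → Q p} (h : AE (fun p => x p ∈ (D p).box R m)) :
    ∃ y ∈ Ds.box R m, X.Lim x y := by
  have h1 : ∀ i, ∃ y ∈ Ds.F m, X.ι y = ucls (fun p => x p i) := by
    intro i
    exact X.lim_ex m _ (h.mono (fun p hp => TData.mem_box.1 hp i))
  choose y hy hy' using h1
  exact ⟨y, TData.mem_box.2 hy, hy'⟩

theorem exists_rep {m : ℤ} {y : Fin R → Qs} (h : y ∈ Ds.box R m) :
    ∃ x : ∀ p, Fin R → Q p, (∀ p, x p ∈ (D p).box R m) ∧ X.Lim x y := by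
  have h1 := fun i => X.rep_ex m (y i) (TData.mem_box.1 h i)
  choose x hx hx' using h1
  exact ⟨fun p i => x i p, fun p => TData.mem_box.2 (fun i => hx i p), fun i => hx' i⟩

variable {X} in
theorem Lim.mem_box {m : ℤ} {x : ∀ p, Fin R → Q p} {y : Fin R → Qs} (hxy : X.Lim x y)
    (h : AE (fun p => x p ∈ (D p).box R m)) : y ∈ Ds.box R m := by
  obtain ⟨y', hy', hl⟩ := X.exists_lim h
  rw [hxy.unique hl]
  exact hy'

variable {X} in
theorem Lim.ae_mem_box {m : ℤ} {x : ∀ p, Fin R → Q p} {y : Fin R → Qs} (hxy : X.Lim x y)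
    (h : y ∈ Ds.box R m) : AE (fun p => x p ∈ (D p).box R m) := by
  obtain ⟨x', hx', hl⟩ := X.exists_rep h
  refine (hxy.unique_left hl).mono ?_
  intro p hp
  rw [hp]
  exact hx' p

/-- the ultralimit of a family of subspaces -/
def ulim (E : ∀ p, Submodule (Kp p) (Fin R → Q p)) : Submodule KStar (Fin R → Qs) where
  carrier := {y | ∃ x : ∀ p, Fin R → Q p, AE (fun p => x p ∈ E p) ∧ X.Lim x y}
  add_mem' := by
    rintro y y' ⟨x, hx, hl⟩ ⟨x', hx', hl'⟩
    exact ⟨_, (hx.and hx').mono (fun p hp => (E p).add_mem hp.1 hp.2), hl.add hl'⟩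
  zero_mem' := ⟨_, AE.of_forall (fun p => (E p).zero_mem), Lim.zero⟩
  smul_mem' := by
    rintro c y ⟨x, hx, hl⟩
    refine ⟨_, hx.mono (fun p hp => (E p).smul_mem (rep c p) hp), ?_⟩
    have := hl.smul (rep c)
    rwa [cls_rep] at this

variable {X}

theorem mem_ulim {E : ∀ p, Submodule (Kp p) (Fin R → Q p)} {y : Fin R → Qs} :
    y ∈ X.ulim E ↔ ∃ x : ∀ p, Fin R → Q p, AE (fun p => x p ∈ E p) ∧ X.Lim x y := Iff.rfl

theorem Lim.mem_ulim {E : ∀ p, Submodule (Kp p) (Fin R → Q p)} {x : ∀ p, Fin R → Q p}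
    {y : Fin R → Qs} (hl : X.Lim x y) (hx : AE (fun p => x p ∈ E p)) : y ∈ X.ulim E :=
  ⟨x, hx, hl⟩

theorem Lim.ae_mem {E : ∀ p, Submodule (Kp p) (Fin R → Q p)} {x : ∀ p, Fin R → Q p}
    {y : Fin R → Qs} (hl : X.Lim x y) (hy : y ∈ X.ulim E) : AE (fun p => x p ∈ E p) := by
  obtain ⟨x', hx', hl'⟩ := hy
  refine (hx'.and (hl.unique_left hl')).mono ?_
  rintro p ⟨h1, h2⟩
  rw [h2]
  exact h1

theorem Lim.mem_iff {E : ∀ p, Submodule (Kp p) (Fin R → Q p)} {x : ∀ p, Fin R → Q p}
    {y : Fin R → Qs} (hl : X.Lim x y) : y ∈ X.ulim E ↔ AE (fun p => x p ∈ E p) :=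
  ⟨hl.ae_mem, hl.mem_ulim⟩

theorem ulim_mono {E E' : ∀ p, Submodule (Kp p) (Fin R → Q p)} (h : AE (fun p => E p ≤ E' p)) :
    X.ulim E ≤ X.ulim E' := by
  rintro y ⟨x, hx, hl⟩
  exact ⟨x, (h.and hx).mono (fun p hp => hp.1 hp.2), hl⟩

theorem ulim_congr {E E' : ∀ p, Submodule (Kp p) (Fin R → Q p)} (h : AE (fun p => E p = E' p)) :
    X.ulim E = X.ulim E' :=
  le_antisymm (ulim_mono (h.mono (fun _ hp => hp.le))) (ulim_mono (h.mono (fun _ hp => hp.ge)))

theorem ulim_le_box {m : ℤ} {E : ∀ p, Submodule (Kp p) (Fin R → Q p)}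
    (h : AE (fun p => E p ≤ (D p).box R m)) : X.ulim E ≤ Ds.box R m := by
  rintro y ⟨x, hx, hl⟩
  exact hl.mem_box ((h.and hx).mono (fun p hp => hp.1 hp.2))

theorem ulim_box (m : ℤ) : X.ulim (fun p => (D p).box R m) = Ds.box R m := by
  apply le_antisymm
  · exact ulim_le_box (AE.of_forall (fun p => le_rfl))
  · intro y hy
    obtain ⟨x, hx, hl⟩ := X.exists_rep hy
    exact hl.mem_ulim (AE.of_forall hx)

theorem ae_le_of_ulim_le {m : ℤ} {E E' : ∀ p, Submodule (Kp p) (Fin R → Q p)}
    (hb : AE (fun p => E p ≤ (D p).box R m)) (h : X.ulim E ≤ X.ulim E') :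
    AE (fun p => E p ≤ E' p) := by
  by_contra hc
  rw [← AE.not_iff] at hc
  have h1 : AE (fun p => ∃ x, x ∈ E p ∧ x ∉ E' p) := hc.mono (fun p hp => Set.not_subset.1 hp)
  obtain ⟨x, hx⟩ := AE.choose (α := fun p => Fin R → Q p) h1
  obtain ⟨y, hy, hl⟩ := X.exists_lim (m := m) (x := x)
    ((hb.and hx).mono (fun p hp => hp.1 hp.2.1))
  have h2 := hl.ae_mem (h (hl.mem_ulim (hx.mono (fun p hp => hp.1))))
  obtain ⟨p, hp1, hp2⟩ := (hx.and h2).exists
  exact hp1.2 hp2

theorem ae_eq_of_ulim_eq {m : ℤ} {E E' : ∀ p, Submodule (Kp p) (Fin R → Q p)}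
    (hb : AE (fun p => E p ≤ (D p).box R m)) (hb' : AE (fun p => E' p ≤ (D p).box R m))
    (h : X.ulim E = X.ulim E') : AE (fun p => E p = E' p) :=
  ((ae_le_of_ulim_le hb h.le).and (ae_le_of_ulim_le hb' h.ge)).mono
    (fun _ hp => le_antisymm hp.1 hp.2)

theorem ulim_bot : X.ulim (fun p => (⊥ : Submodule (Kp p) (Fin R → Q p))) = ⊥ := by
  rw [eq_bot_iff]
  rintro y ⟨x, hx, hl⟩
  rw [Submodule.mem_bot]
  exact hl.unique (Lim.congr Lim.zero (hx.mono (fun p hp => ((Submodule.mem_bot _).1 hp).symm)))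

theorem ulim_inf (E E' : ∀ p, Submodule (Kp p) (Fin R → Q p)) :
    X.ulim (fun p => E p ⊓ E' p) = X.ulim E ⊓ X.ulim E' := by
  apply le_antisymm
  · exact le_inf (ulim_mono (AE.of_forall (fun _ => inf_le_left)))
      (ulim_mono (AE.of_forall (fun _ => inf_le_right)))
  · rintro y ⟨⟨x, hx, hl⟩, hy'⟩
    exact ⟨x, (hx.and (hl.ae_mem hy')).mono (fun p hp => hp), hl⟩

theorem ulim_sup {m : ℤ} {E E' : ∀ p, Submodule (Kp p) (Fin R → Q p)}
    (hb : AE (fun p => E p ≤ (D p).box R m)) :
    X.ulim (fun p => E p ⊔ E' p) = X.ulim E ⊔ X.ulim E' := by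
  apply le_antisymm
  · rintro y ⟨x, hx, hl⟩
    have h1 : AE (fun p => ∃ a, a ∈ E p ∧ x p - a ∈ E' p) := by
      refine hx.mono ?_
      intro p hp
      obtain ⟨a, ha, b, hb, hab⟩ := Submodule.mem_sup.1 hp
      exact ⟨a, ha, by rw [← hab]; simpa using hb⟩
    obtain ⟨a, ha⟩ := AE.choose (α := fun p => Fin R → Q p) h1
    obtain ⟨z, hz, hlz⟩ := X.exists_lim (m := m) (x := a)
      ((hb.and ha).mono (fun p hp => hp.1 hp.2.1))
    have h2 : X.Lim (fun p => x p - a p) (y - z) := by
      have := hl.add hlz.neg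
      simpa [sub_eq_add_neg] using this
    have h3 : y = z + (y - z) := by abel
    rw [h3]
    exact Submodule.add_mem_sup (hlz.mem_ulim (ha.mono (fun p hp => hp.1)))
      (h2.mem_ulim (ha.mono (fun p hp => hp.2)))
  · exact sup_le (ulim_mono (AE.of_forall (fun p => le_sup_left)))
      (ulim_mono (AE.of_forall (fun p => le_sup_right)))

/-- the ultralimit of spans is the span of the limits -/
theorem ulim_span {d : ℕ} {x : Fin d → ∀ p, Fin R → Q p} {y : Fin d → Fin R → Qs}
    (h : ∀ j, X.Lim (x j) (y j)) :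
    X.ulim (fun p => Submodule.span (Kp p) (Set.range (fun j => x j p))) =
      Submodule.span KStar (Set.range y) := by
  apply le_antisymm
  · rintro z ⟨w, hw, hl⟩
    have h1 : AE (fun p => ∃ c : Fin d → Kp p, ∑ j, c j • x j p = w p) := by
      refine hw.mono ?_
      intro p hp
      obtain ⟨c, hc⟩ := (Submodule.mem_span_range_iff_exists_fun (Kp p)).1 hp
      exact ⟨c, hc⟩
    obtain ⟨c, hc⟩ := AE.choose (α := fun p => Fin d → Kp p) h1
    have h3 := Lim.sum (fun j => (h j).smul (fun p => c p j))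
    have h4 := (h3.congr hc).unique hl
    rw [← h4]
    refine Submodule.sum_mem _ (fun j _ => Submodule.smul_mem _ _ (Submodule.subset_span ⟨j, rfl⟩))
  · rw [Submodule.span_le]
    rintro _ ⟨j, rfl⟩
    exact (h j).mem_ulim (AE.of_forall (fun p => Submodule.subset_span ⟨j, rfl⟩))

/-- the dimension of an ultralimit -/
theorem finrank_ulim {m : ℤ} {E : ∀ p, Submodule (Kp p) (Fin R → Q p)}
    (hb : AE (fun p => E p ≤ (D p).box R m)) {d : ℕ}
    (hd : AE (fun p => Module.finrank (Kp p) (E p) = d)) :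
    Module.finrank KStar (X.ulim E) = d := by
  have h1 : AE (fun p => ∃ b : Fin d → Fin R → Q p, LinearIndependent (Kp p) b ∧
      Submodule.span (Kp p) (Set.range b) = E p) := by
    refine (hb.and hd).mono ?_
    rintro p ⟨hp1, hp2⟩
    have := (D p).finite_of_le_box hp1
    let b := Module.finBasisOfFinrankEq (Kp p) (E p) hp2
    refine ⟨fun j => (b j : Fin R → Q p), ?_, ?_⟩
    · exact b.linearIndependent.map' (E p).subtype (Submodule.ker_subtype _)
    · have : (Set.range fun j => (b j : Fin R → Q p)) = (E p).subtype '' (Set.range b) := by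
        rw [← Set.range_comp]; rfl
      rw [this, Submodule.span_image, b.span_eq, Submodule.map_top, Submodule.range_subtype]
  obtain ⟨b, hbb⟩ := AE.choose (α := fun p => Fin d → Fin R → Q p) h1
  have h2 : ∀ j, ∃ y ∈ Ds.box R m, X.Lim (fun p => b p j) y := by
    intro j
    refine X.exists_lim ((hb.and hbb).mono ?_)
    rintro p ⟨hp1, hp2, hp3⟩
    apply hp1
    rw [← hp3]
    exact Submodule.subset_span ⟨j, rfl⟩
  choose y hy hl using h2
  have h3 : LinearIndependent KStar y := (Lim.linInd_iff hl).2 (hbb.mono (fun p hp => hp.1))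
  have h4 : X.ulim E = Submodule.span KStar (Set.range y) := by
    rw [← ulim_span hl]
    exact ulim_congr (hbb.mono (fun p hp => hp.2.symm))
  rw [h4, finrank_span_eq_card h3, Fintype.card_fin]

variable (X) in
include X in
theorem ae_finrank_le {m : ℤ} {E : ∀ p, Submodule (Kp p) (Fin R → Q p)}
    (hb : AE (fun p => E p ≤ (D p).box R m)) :
    AE (fun p => Module.finrank (Kp p) (E p) ≤ Module.finrank KStar (Ds.box R m)) := by
  by_contra hc
  rw [← AE.not_iff] at hc
  set N := Module.finrank KStar (Ds.box R m) with hN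
  have h1 : AE (fun p => ∃ b : Fin (N + 1) → Fin R → Q p, LinearIndependent (Kp p) b ∧
      ∀ j, b j ∈ (D p).box R m) := by
    refine (hb.and hc).mono ?_
    rintro p ⟨hp1, hp2⟩
    have := (D p).finite_of_le_box hp1
    push Not at hp2
    obtain ⟨f, hf⟩ := exists_linearIndependent_of_le_finrank (R := Kp p) (M := E p) (n := N + 1)
      hp2
    refine ⟨fun j => (f j : Fin R → Q p), ?_, fun j => hp1 (f j).2⟩
    exact hf.map' (E p).subtype (Submodule.ker_subtype _)
  obtain ⟨b, hbb⟩ := AE.choose (α := fun p => Fin (N + 1) → Fin R → Q p) h1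
  have h2 : ∀ j, ∃ y ∈ Ds.box R m, X.Lim (fun p => b p j) y :=
    fun j => X.exists_lim (hbb.mono (fun p hp => hp.2 j))
  choose y hy hl using h2
  have h3 : LinearIndependent KStar y := (Lim.linInd_iff hl).2 (hbb.mono (fun p hp => hp.1))
  have h4 : LinearIndependent KStar (fun j => (⟨y j, hy j⟩ : Ds.box R m)) :=
    LinearIndependent.of_comp (Ds.box R m).subtype h3
  have := Ds.box_finite R m
  have h5 := h4.fintype_card_le_finrank
  rw [Fintype.card_fin, ← hN] at h5
  omega

theorem ae_finrank_eq {m : ℤ} {E : ∀ p, Submodule (Kp p) (Fin R → Q p)}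
    (hb : AE (fun p => E p ≤ (D p).box R m)) :
    AE (fun p => Module.finrank (Kp p) (E p) = Module.finrank KStar (X.ulim E)) := by
  obtain ⟨d, hd⟩ := AE.exists_const_nat _ _ (X.ae_finrank_le hb)
  rw [finrank_ulim hb hd]
  exact hd

/-- every subspace of a box is an ultralimit -/
theorem exists_ulim_eq {m : ℤ} (S : Submodule KStar (Fin R → Qs)) (hS : S ≤ Ds.box R m) :
    ∃ E : ∀ p, Submodule (Kp p) (Fin R → Q p), (∀ p, E p ≤ (D p).box R m) ∧ X.ulim E = S := by
  have := Ds.finite_of_le_box hS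
  let b := Module.finBasis KStar S
  have h1 : ∀ j, ∃ x : ∀ p, Fin R → Q p, (∀ p, x p ∈ (D p).box R m) ∧
      X.Lim x (b j : Fin R → Qs) := fun j => X.exists_rep (hS (b j).2)
  choose x hx hl using h1
  refine ⟨fun p => Submodule.span (Kp p) (Set.range (fun j => x j p)), ?_, ?_⟩
  · intro p
    rw [Submodule.span_le]
    rintro _ ⟨j, rfl⟩
    exact hx j p
  · rw [ulim_span hl]
    have : (Set.range fun j => (b j : Fin R → Qs)) = S.subtype '' (Set.range b) := by
      rw [← Set.range_comp]; rfl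
    rw [this, Submodule.span_image, b.span_eq, Submodule.map_top, Submodule.range_subtype]

/-- `T`-action on ultralimits -/
theorem qsmul_mem_ulim {i : ℤ} {E E' : ∀ p, Submodule (Kp p) (Fin R → Q p)}
    (h : AE (fun p => ∀ f ∈ (D p).F i, ∀ e ∈ E p, f • e ∈ E' p)) :
    ∀ f ∈ Ds.F i, ∀ y ∈ X.ulim E, f • y ∈ X.ulim E' := by
  rintro f hf y ⟨x, hx, hl⟩
  obtain ⟨g, hg, hg'⟩ := X.rep_ex i f hf
  exact (hl.qsmul hg').mem_ulim ((h.and hx).mono (fun p hp => hp.1 _ (hg p) _ hp.2))

theorem ae_qsmul_mem {i m : ℤ} {E E' : ∀ p, Submodule (Kp p) (Fin R → Q p)}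
    (hb : AE (fun p => E p ≤ (D p).box R m))
    (h : ∀ f ∈ Ds.F i, ∀ y ∈ X.ulim E, f • y ∈ X.ulim E') :
    AE (fun p => ∀ f ∈ (D p).F i, ∀ e ∈ E p, f • e ∈ E' p) := by
  by_contra hc
  rw [← AE.not_iff] at hc
  have h1 : AE (fun p => ∃ fe : Q p × (Fin R → Q p), fe.1 ∈ (D p).F i ∧ fe.2 ∈ E p ∧
      fe.1 • fe.2 ∉ E' p) := by
    refine hc.mono ?_
    intro p hp
    push Not at hp
    obtain ⟨f, hf, e, he, hfe⟩ := hp
    exact ⟨(f, e), hf, he, hfe⟩
  obtain ⟨fe, hfe⟩ := AE.choose (α := fun p => Q p × (Fin R → Q p)) h1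
  obtain ⟨f, hf, hf'⟩ := X.lim_ex i (fun p => (fe p).1) (hfe.mono (fun p hp => hp.1))
  obtain ⟨y, hy, hl⟩ := X.exists_lim (m := m) (x := fun p => (fe p).2)
    ((hb.and hfe).mono (fun p hp => hp.1 hp.2.2.1))
  have h2 := (hl.qsmul hf').ae_mem (h f hf y (hl.mem_ulim (hfe.mono (fun p hp => hp.2.1))))
  obtain ⟨p, hp1, hp2⟩ := (hfe.and h2).exists
  exact hp1.2.2 hp2

end UFam

end Crest.Agent.R169
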